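import Vale.Agent.P161.Smoothing
import Mathlib.MeasureTheory.Integral.IntervalIntegral.Basic
import Mathlib.Analysis.MeanInequalitiesPow
import Mathlib.Analysis.SpecialFunctions.Exp
import Mathlib.Analysis.Real.Sqrt
import Mathlib.Topology.Algebra.Order.Floor

/-!
# P161, critical point: elementary analytic lemmas
-/

open MeasureTheory Finset Filter
open scoped Topology

namespace Vale.Agent.P161.Crit

/-- Grönwall's inequality for bounded measurable functions. -/
lemma gronwall_le {a b k e M : ℝ} (hk : 0 ≤ k) (he : 0 ≤ e) {D : ℝ → ℝ} (hD : Measurable D)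
    (h0 : ∀ t, 0 ≤ D t) (hM : ∀ t, D t ≤ M)
    (h : ∀ t ∈ Set.Icc a b, D t ≤ e + k * ∫ r in Set.Ico a t, D r) :
    ∀ t ∈ Set.Icc a b, D t ≤ e * Real.exp (k * (t - a)) := by
  set I : ℕ → ℝ → ℝ := fun j t => (k * (t - a)) ^ j / (j.factorial : ℝ) with hI
  have hpow : ∀ (j : ℕ) (t : ℝ), a ≤ t →
      k * ∫ r in Set.Ico a t, I j r = I (j + 1) t := by
    intro j t hat
    have e : ∫ r in Set.Ico a t, (r - a) ^ j = (t - a) ^ (j + 1) / ((j : ℝ) + 1) := by
      rw [integral_Ico_eq_integral_Ioo, ← integral_Ioc_eq_integral_Ioo,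
        ← intervalIntegral.integral_of_le hat,
        intervalIntegral.integral_comp_sub_right (fun x => x ^ j), integral_pow]
      simp
    simp only [hI, mul_pow, Nat.factorial_succ, Nat.cast_mul, Nat.cast_add, Nat.cast_one]
    rw [integral_div, integral_const_mul, e]
    have : (j.factorial : ℝ) ≠ 0 := by exact_mod_cast j.factorial_ne_zero
    field_simp
    ring
  have main : ∀ n : ℕ, ∀ t ∈ Set.Icc a b, D t ≤ e * (∑ j ∈ Finset.range n, I j t) + M * I n t := by
    intro n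
    induction n with
    | zero => intro t _; simpa [hI] using hM t
    | succ n ih =>
      intro t ht
      haveI : IsFiniteMeasure (volume.restrict (Set.Ico a t)) :=
        isFiniteMeasure_restrict.2 measure_Ico_lt_top.ne
      have hii : ∀ j, Integrable (I j) (volume.restrict (Set.Ico a t)) := fun j =>
        ((by fun_prop : Continuous (I j)).integrableOn_Icc (a := a) (b := t)).mono_set
          Set.Ico_subset_Icc_self
      have h1 : ∫ r in Set.Ico a t, D r ≤
          ∫ r in Set.Ico a t, (e * (∑ j ∈ Finset.range n, I j r) + M * I n r) := by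
        refine setIntegral_mono_on (integrable_of_abs_le hD (C := M) fun r => by
          rw [abs_of_nonneg (h0 r)]; exact hM r)
          (((integrable_finsetSum _ fun j _ => hii j).const_mul e).add ((hii n).const_mul M))
          measurableSet_Ico fun r hr => ih r ⟨hr.1, hr.2.le.trans ht.2⟩
      rw [integral_add ((integrable_finsetSum _ fun j _ => hii j).const_mul e) ((hii n).const_mul M),
        integral_const_mul, integral_const_mul, integral_finsetSum _ fun j _ => hii j] at h1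
      refine (h t ht).trans ((add_le_add le_rfl (mul_le_mul_of_nonneg_left h1 hk)).trans (le_of_eq ?_))
      rw [mul_add, mul_left_comm k e, mul_left_comm k M, Finset.mul_sum _ _ k,
        Finset.sum_congr rfl fun j _ => hpow j t ht.1, hpow n t ht.1, Finset.sum_range_succ']
      have : I 0 t = 1 := by simp [hI]
      rw [this]
      ring
  intro t ht
  have hlim : Tendsto (fun n : ℕ => e * Real.exp (k * (t - a)) + M * I n t) atTop
      (𝓝 (e * Real.exp (k * (t - a)))) := by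
    have := ((FloorSemiring.tendsto_pow_div_factorial_atTop (k * (t - a))).const_mul M).const_add
      (e * Real.exp (k * (t - a)))
    simpa [hI] using this
  refine ge_of_tendsto' hlim fun n => (main n t ht).trans (add_le_add ?_ le_rfl)
  exact mul_le_mul_of_nonneg_left
    (Real.sum_le_exp_of_nonneg (mul_nonneg hk (sub_nonneg.2 ht.1)) n) he

variable {Ω : Type*} [MeasurableSpace Ω] {m : Measure Ω} [IsProbabilityMeasure m]

/-- Hölder and Young combined: a product with a variable in `[0, 1]`. -/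
lemma integral_mul_le_moment {Y Z : Ω → ℝ} (hY : Measurable Y) (hZ : Measurable Z) {C : ℝ}
    (hYC : ∀ w, Y w ≤ C) (hY0 : ∀ w, 0 ≤ Y w) (hZ0 : ∀ w, 0 ≤ Z w) (hZ1 : ∀ w, Z w ≤ 1)
    {g : ℝ} (hg : 0 < g) {p : ℕ} (hp : 1 ≤ p) (hmom : ∫ w, Y w ^ p ∂m ≤ g ^ p) :
    ∫ w, Y w * Z w ∂m ≤ g * (8 * (∫ w, Z w ∂m) + 8 * (1 / 8) ^ p) := by
  have hpt : ∀ w, Y w * Z w ≤ g * (8 * Z w + 8 * (1 / 8) ^ p * (Y w / g) ^ p) := by
    intro w
    set y := Y w / g with hy
    have hy0 : 0 ≤ y := div_nonneg (hY0 w) hg.le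
    have e : Y w = g * y := by rw [hy]; field_simp
    clear_value y
    rw [e, mul_assoc]
    refine mul_le_mul_of_nonneg_left ?_ hg.le
    have h8 : 0 ≤ 8 * (1 / 8 : ℝ) ^ p * y ^ p := by positivity
    rcases le_total y 8 with h | h
    · nlinarith [hZ0 w]
    · obtain ⟨q, rfl⟩ := Nat.exists_eq_add_of_le hp
      have e2 : 8 * (1 / 8 : ℝ) ^ (1 + q) * y ^ (1 + q) = y * (y / 8) ^ q := by
        rw [pow_add, pow_add, pow_one, pow_one, div_pow, div_pow, one_pow]; ring
      have h3 : 1 ≤ (y / 8) ^ q := one_le_pow₀ (by linarith)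
      rw [e2]
      nlinarith [mul_le_mul_of_nonneg_left (hZ1 w) hy0, hZ0 w]
  have iY : ∀ n : ℕ, Integrable (fun w => Y w ^ n) m := fun n =>
    integrable_of_abs_le (hY.pow_const n) (C := C ^ n) fun w => by
      rw [abs_pow, abs_of_nonneg (hY0 w)]; exact pow_le_pow_left₀ (hY0 w) (hYC w) n
  have iZ : Integrable Z m := integrable_of_abs_le hZ (C := 1) fun w => by
    rw [abs_of_nonneg (hZ0 w)]; exact hZ1 w
  have iYZ : Integrable (fun w => Y w * Z w) m := by
    refine integrable_of_abs_le (hY.mul hZ) (C := C) fun w => ?_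
    rw [abs_of_nonneg (mul_nonneg (hY0 w) (hZ0 w))]
    exact (mul_le_of_le_one_right (hY0 w) (hZ1 w)).trans (hYC w)
  have iP : Integrable (fun w => 8 * (1 / 8) ^ p * (Y w / g) ^ p) m := by
    simp only [div_pow (Y _)]
    exact ((iY p).div_const _).const_mul _
  refine (integral_mono iYZ (((iZ.const_mul 8).add iP).const_mul g) hpt).trans ?_
  simp only [Pi.add_apply]
  rw [integral_const_mul, integral_add (iZ.const_mul 8) iP, integral_const_mul, integral_const_mul]
  refine mul_le_mul_of_nonneg_left (add_le_add le_rfl ?_) hg.le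
  simp only [div_pow (Y _)]
  rw [integral_div]
  exact mul_le_of_le_one_right (by positivity) ((div_le_one (pow_pos hg p)).2 hmom)

/-- Minkowski's inequality for moments of nonnegative variables. -/
lemma moment_sum_le {κ : Type*} (K : Finset κ) {X : κ → Ω → ℝ} {g : κ → ℝ} {C : ℝ}
    (hX : ∀ i ∈ K, Measurable (X i)) (hXC : ∀ i ∈ K, ∀ w, X i w ≤ C) (hX0 : ∀ i ∈ K, ∀ w, 0 ≤ X i w)
    (hg : ∀ i ∈ K, 0 ≤ g i) {p : ℕ} (hp : 1 ≤ p)
    (hmom : ∀ i ∈ K, ∫ w, X i w ^ p ∂m ≤ g i ^ p) :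
    ∫ w, (∑ i ∈ K, X i w) ^ p ∂m ≤ (∑ i ∈ K, g i) ^ p := by
  have main : ∀ δ : ℝ, 0 < δ → ∫ w, (∑ i ∈ K, X i w) ^ p ∂m ≤ (∑ i ∈ K, (g i + δ)) ^ p := by
    intro δ hδ
    rcases K.eq_empty_or_nonempty with rfl | hK
    · simp [zero_pow (show p ≠ 0 by omega)]
    set h : κ → ℝ := fun i => g i + δ with hh
    have hh0 : ∀ i ∈ K, 0 < h i := fun i hi => add_pos_of_nonneg_of_pos (hg i hi) hδ
    set s : ℝ := ∑ i ∈ K, h i with hs
    have hs0 : 0 < s := Finset.sum_pos hh0 hK
    have hpt : ∀ w, (∑ i ∈ K, X i w) ^ p ≤ ∑ i ∈ K, h i / s * ((s / h i) ^ p * X i w ^ p) := by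
      intro w
      have := Real.pow_arith_mean_le_arith_mean_pow K (fun i => h i / s) (fun i => s / h i * X i w)
        (fun i hi => div_nonneg (hh0 i hi).le hs0.le) (by rw [← Finset.sum_div, div_self hs0.ne'])
        (fun i hi => mul_nonneg (div_nonneg hs0.le (hh0 i hi).le) (hX0 i hi w)) p
      refine le_trans (le_of_eq ?_) (this.trans_eq ?_)
      · congr 1
        refine Finset.sum_congr rfl fun i hi => ?_
        have := (hh0 i hi).ne'
        field_simp
      · exact Finset.sum_congr rfl fun i _ => by rw [mul_pow]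
    have iX : ∀ i ∈ K, Integrable (fun w => X i w ^ p) m := fun i hi =>
      integrable_of_abs_le ((hX i hi).pow_const p) (C := C ^ p) fun w => by
        rw [abs_pow, abs_of_nonneg (hX0 i hi w)]; exact pow_le_pow_left₀ (hX0 i hi w) (hXC i hi w) p
    have iL : Integrable (fun w => (∑ i ∈ K, X i w) ^ p) m :=
      integrable_of_abs_le ((Finset.measurable_sum K hX).pow_const p) (C := (∑ _i ∈ K, C) ^ p)
        fun w => by
          rw [abs_pow, abs_of_nonneg (Finset.sum_nonneg fun i hi => hX0 i hi w)]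
          exact pow_le_pow_left₀ (Finset.sum_nonneg fun i hi => hX0 i hi w)
            (Finset.sum_le_sum fun i hi => hXC i hi w) p
    refine (integral_mono iL (integrable_finsetSum K fun i hi =>
      ((iX i hi).const_mul _).const_mul _) hpt).trans ?_
    rw [integral_finsetSum K fun i hi => ((iX i hi).const_mul _).const_mul _]
    refine (Finset.sum_le_sum fun i hi => show _ ≤ h i / s * s ^ p from ?_).trans_eq ?_
    · rw [integral_const_mul, integral_const_mul]
      refine mul_le_mul_of_nonneg_left ?_ (div_nonneg (hh0 i hi).le hs0.le)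
      rw [div_pow, div_mul_eq_mul_div, div_le_iff₀ (pow_pos (hh0 i hi) p)]
      refine mul_le_mul_of_nonneg_left ((hmom i hi).trans ?_) (by positivity)
      exact pow_le_pow_left₀ (hg i hi) (by simp only [hh]; linarith) p
    · rw [← Finset.sum_mul, ← Finset.sum_div, div_self hs0.ne', one_mul]
  have hc : Continuous fun δ : ℝ => (∑ i ∈ K, (g i + δ)) ^ p := by fun_prop
  have hlim := (hc.tendsto 0).mono_left (nhdsWithin_le_nhds (s := Set.Ioi (0 : ℝ)))
  simp only [add_zero] at hlim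
  exact ge_of_tendsto hlim (eventually_nhdsWithin_of_forall fun δ hδ => main δ hδ)

/-- The moments of a variable in `[0, 1]` from a bound on its exponential moment. -/
lemma moment_le_exp {X : Ω → ℝ} (hX : Measurable X) (hX0 : ∀ w, 0 ≤ X w) (hX1 : ∀ w, X w ≤ 1)
    {μ : ℝ} (hμ : 0 < μ) (p : ℕ) :
    ∫ w, X w ^ p ∂m ≤ ((p : ℝ) / μ) ^ p * ∫ w, Real.exp (μ * X w) ∂m := by
  have hpt : ∀ w, X w ^ p ≤ ((p : ℝ) / μ) ^ p * Real.exp (μ * X w) := by
    intro w
    rcases Nat.eq_zero_or_pos p with rfl | hp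
    · simpa using Real.one_le_exp (mul_nonneg hμ.le (hX0 w))
    have hp' : (0 : ℝ) < p := by exact_mod_cast hp
    have e : Real.exp (μ * X w) = Real.exp (μ * X w / p) ^ p := by
      rw [← Real.exp_nat_mul]; congr 1; field_simp
    rw [e, ← mul_pow]
    refine pow_le_pow_left₀ (hX0 w) ?_ p
    have h1 : μ * X w / p ≤ Real.exp (μ * X w / p) := by
      have := Real.add_one_le_exp (μ * X w / p); linarith
    refine le_trans (le_of_eq ?_) (mul_le_mul_of_nonneg_left h1 (div_nonneg hp'.le hμ.le))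
    field_simp
  rw [← integral_const_mul]
  refine integral_mono (integrable_of_abs_le (hX.pow_const p) (C := 1) fun w => ?_)
    ((integrable_of_abs_le (hX.const_mul μ).exp (C := Real.exp μ) fun w => ?_).const_mul _) hpt
  · rw [abs_pow, abs_of_nonneg (hX0 w)]; exact pow_le_one₀ (hX0 w) (hX1 w)
  · rw [Real.abs_exp]; exact Real.exp_le_exp.2 (mul_le_of_le_one_right hμ.le (hX1 w))

/-- Jensen for a fourth root of the moments. -/
lemma moment_sqrt_sqrt {X : Ω → ℝ} (hX : Measurable X) (hX0 : ∀ w, 0 ≤ X w) {g : ℝ} (hg : 0 ≤ g)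
    {q : ℕ} (hmom : ∫ w, X w ^ q ∂m ≤ g ^ q) :
    ∫ w, Real.sqrt (Real.sqrt (X w)) ^ (4 * q) ∂m ≤ Real.sqrt (Real.sqrt g) ^ (4 * q) := by
  have e : ∀ x : ℝ, 0 ≤ x → Real.sqrt (Real.sqrt x) ^ (4 * q) = x ^ q := fun x hx => by
    rw [pow_mul, show (4 : ℕ) = 2 * 2 from rfl, pow_mul, Real.sq_sqrt (Real.sqrt_nonneg x),
      Real.sq_sqrt hx]
  have : Measurable X := hX
  rw [e g hg, integral_congr_ae (ae_of_all _ fun w => e (X w) (hX0 w))]
  exact hmom

/-- Polynomial times geometric series, uniformly in the ratio. -/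
lemma sum_sq_geom_le : ∃ C : ℝ, ∀ (γ : ℝ), 0 < γ → γ ≤ 1 → ∀ N M : ℕ,
    ∑ n ∈ Ico N M, ((n : ℝ) + 1) ^ 2 * (1 - γ) ^ n ≤ C / γ ^ 3 * Real.exp (-(γ * N / 2)) := by
  refine ⟨(2 / (1 / 4 : ℝ) ^ 2) * Real.exp 1 * 5, fun γ hγ hγ1 N M => ?_⟩
  set r : ℝ := Real.exp (-(γ / 4)) with hr
  have hr0 : 0 < r := Real.exp_pos _
  have hr1 : r < 1 := Real.exp_lt_one_iff.2 (by linarith)
  have hr5 : 1 / (1 - r) ≤ 5 / γ := by
    have h1 : r * (γ / 4 + 1) ≤ 1 := by
      have h2 := mul_le_mul_of_nonneg_left (Real.add_one_le_exp (γ / 4)) hr0.le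
      rwa [hr, ← Real.exp_add, neg_add_cancel, Real.exp_zero] at h2
    rw [div_le_div_iff₀ (by linarith) hγ]
    nlinarith
  have hterm : ∀ n ∈ Ico N M, ((n : ℝ) + 1) ^ 2 * (1 - γ) ^ n ≤
      (2 / (1 / 4 : ℝ) ^ 2) * Real.exp 1 / γ ^ 2 * Real.exp (-(γ * N / 2)) * r ^ n := by
    intro n hn
    have hNn : (N : ℝ) ≤ n := by exact_mod_cast (Finset.mem_Ico.1 hn).1
    have h1 : (1 - γ) ^ n ≤ Real.exp (-(γ * n)) := by
      rw [show -(γ * n) = (n : ℝ) * (-γ) by ring, Real.exp_nat_mul]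
      exact pow_le_pow_left₀ (by linarith) (by linarith [Real.add_one_le_exp (-γ)]) n
    set y : ℝ := γ * ((n : ℝ) + 1) with hy
    have h2 : y ^ 2 ≤ (2 / (1 / 4 : ℝ) ^ 2) * Real.exp (y / 4) := by
      have h := Real.pow_div_factorial_le_exp (y / 4) (by positivity) 2
      simp only [Nat.factorial] at h
      norm_num at h ⊢
      linarith
    have h3 : Real.exp (-(γ * n)) ≤ Real.exp (-(γ * N / 2)) * r ^ n * Real.exp (-(γ * n / 4)) := by
      rw [hr, ← Real.exp_nat_mul, ← Real.exp_add, ← Real.exp_add, Real.exp_le_exp]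
      nlinarith
    have h4 : Real.exp (y / 4) * Real.exp (-(γ * n / 4)) ≤ Real.exp 1 := by
      rw [← Real.exp_add, Real.exp_le_exp, hy]
      linarith
    have h5 : ((n : ℝ) + 1) ^ 2 * Real.exp (-(γ * n / 4)) ≤
        (2 / (1 / 4 : ℝ) ^ 2) * Real.exp 1 / γ ^ 2 := by
      rw [le_div_iff₀ (by positivity)]
      calc ((n : ℝ) + 1) ^ 2 * Real.exp (-(γ * n / 4)) * γ ^ 2
          = y ^ 2 * Real.exp (-(γ * n / 4)) := by rw [hy]; ring
        _ ≤ (2 / (1 / 4 : ℝ) ^ 2) * Real.exp (y / 4) * Real.exp (-(γ * n / 4)) :=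
          mul_le_mul_of_nonneg_right h2 (Real.exp_pos _).le
        _ ≤ _ := by
          rw [mul_assoc]
          exact mul_le_mul_of_nonneg_left h4 (by positivity)
    calc ((n : ℝ) + 1) ^ 2 * (1 - γ) ^ n
        ≤ ((n : ℝ) + 1) ^ 2 * (Real.exp (-(γ * N / 2)) * r ^ n * Real.exp (-(γ * n / 4))) :=
          mul_le_mul_of_nonneg_left (h1.trans h3) (by positivity)
      _ = ((n : ℝ) + 1) ^ 2 * Real.exp (-(γ * n / 4)) * (Real.exp (-(γ * N / 2)) * r ^ n) := by ring
      _ ≤ (2 / (1 / 4 : ℝ) ^ 2) * Real.exp 1 / γ ^ 2 * (Real.exp (-(γ * N / 2)) * r ^ n) :=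
          mul_le_mul_of_nonneg_right h5 (by positivity)
      _ = _ := by ring
  refine (Finset.sum_le_sum hterm).trans ?_
  rw [← Finset.mul_sum]
  have hgeo : ∑ n ∈ Ico N M, r ^ n ≤ 5 / γ := by
    refine le_trans ?_ hr5
    rw [one_div, ← tsum_geometric_of_lt_one hr0.le hr1]
    exact (summable_geometric_of_lt_one hr0.le hr1).sum_le_tsum _ fun _ _ => pow_nonneg hr0.le _
  refine (mul_le_mul_of_nonneg_left hgeo (by positivity)).trans_eq ?_
  field_simp

/-- A power is beaten by an exponential. -/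
lemma pow_mul_exp_neg_le (k : ℕ) {c : ℝ} (hc : 0 < c) :
    ∃ C : ℝ, ∀ x : ℝ, 0 ≤ x → x ^ k * Real.exp (-(c * x)) ≤ C := by
  refine ⟨(k.factorial : ℝ) / c ^ k, fun x hx => ?_⟩
  have h := Real.pow_div_factorial_le_exp (c * x) (mul_nonneg hc.le hx) k
  have hk : (0 : ℝ) < k.factorial := by exact_mod_cast k.factorial_pos
  rw [div_le_iff₀ hk, mul_pow] at h
  rw [Real.exp_neg, ← div_eq_mul_inv, div_le_iff₀ (Real.exp_pos _), div_mul_eq_mul_div,
    le_div_iff₀ (pow_pos hc k)]
  linarith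

end Vale.Agent.P161.Crit
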