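import Vale.Agent.P161.Crit.Jump
import Vale.Agent.P161.Crit.Analysis
import Mathlib.Algebra.Order.Chebyshev

/-!
# P161, critical point: independence of the volume for a subcritical run
-/

open MeasureTheory SimpleGraph Finset

namespace Vale.Agent.P161.Crit

variable {V : Type*} {G : SimpleGraph V} {d : ℕ}

lemma card_sphere_le (hR : Reg G d) (o : V) (l : ℕ) :
    ((sphere G o l).card : ℝ) ≤ 2 * ((d : ℝ) - 1) ^ l := by
  have hb := hR.two_le
  rcases Nat.eq_zero_or_pos l with rfl | hl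
  · have h : (sphere G o 0).card ≤ 1 := card_le_one.2 fun x hx y hy => by
      rw [mem_sphere hR, hR.tree.connected.dist_eq_zero_iff] at hx hy
      rw [← hx, ← hy]
    have h' : ((sphere G o 0).card : ℝ) ≤ 1 := by exact_mod_cast h
    simp only [pow_zero, mul_one]
    linarith
  · obtain ⟨k, rfl⟩ : ∃ k, l = k + 1 := ⟨l - 1, by omega⟩
    rw [card_sphere hR, Nat.cast_mul, Nat.cast_pow, Nat.cast_sub (by have := hR.three; omega),
      Nat.cast_one, pow_succ, show 2 * (((d : ℝ) - 1) ^ k * ((d : ℝ) - 1)) =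
        (2 * ((d : ℝ) - 1)) * ((d : ℝ) - 1) ^ k by ring]
    exact mul_le_mul_of_nonneg_right (by linarith) (pow_nonneg (by linarith) _)

/-- Sums of a radial weight over a finite set, by spheres. -/
lemma sum_radial_le (hR : Reg G d) (v : V) (S : Finset V) {q : ℝ} (hq : 0 ≤ q) {T : ℝ}
    (hT : ∀ M : ℕ, ∑ l ∈ range M, ((l : ℝ) + 1) ^ 2 * (q * ((d : ℝ) - 1)) ^ l ≤ T) :
    ∑ b ∈ S, ((G.dist v b : ℝ) + 1) ^ 2 * q ^ G.dist v b ≤ 2 * T := by
  classical
  have hb := hR.two_le
  rw [← sum_fiberwise_of_maps_to (g := fun b => G.dist v b) (t := range (S.sup (G.dist v) + 1))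
    (fun b hb => Finset.mem_range.2 (Nat.lt_succ_of_le (le_sup (f := G.dist v) hb)))]
  refine le_trans (sum_le_sum fun l _ => ?_) ((mul_sum _ _ 2).symm.trans_le
    (mul_le_mul_of_nonneg_left (hT (S.sup (G.dist v) + 1)) zero_le_two))
  rw [sum_congr rfl fun b hb => by rw [(mem_filter.1 hb).2], sum_const, nsmul_eq_mul]
  refine le_trans (mul_le_mul_of_nonneg_right (le_trans ?_ (card_sphere_le hR v l)) (by positivity))
    (le_of_eq (by rw [mul_pow]; ring))
  exact_mod_cast card_le_card fun b hb => (mem_sphere hR).2 (mem_filter.1 hb).2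

/-- The covariances of two volumes compared through the magnetisations along the geodesic. -/
lemma abs_cov_sub {θ : ℝ} (hθ0 : 0 < θ) (hθ : θ < 1) (hT : G.IsTree) {B B' : Finset V}
    (hB : (G.induce (B : Set V)).Connected) (hB' : (G.induce (B' : Set V)).Connected) (hBB : B ⊆ B')
    {W W' : V → Bool → ℝ} (hW : ∀ v r, 0 < W v r) (hW' : ∀ v r, 0 < W' v r) {v b : V}
    (hv : v ∈ B) (hb : b ∈ B) :
    |cov G θ B W b v - cov G θ B' W' b v| ≤
      (2 + 4 / ((1 - θ ^ 2) ^ 2 * (1 - θ) ^ 3)) * (θ ^ G.dist v b *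
        ∑ k ∈ range (G.dist v b + 1),
          |mag G θ B W (geo G v b k) - mag G θ B' W' (geo G v b k)|) := by
  have ha : |θ| < 1 := abs_lt.2 ⟨by linarith, hθ⟩
  rw [cov_symm hT ha hθ0.ne' hW hB hv hb, cov_symm hT ha hθ0.ne' hW' hB' (hBB hv) (hBB hb), cov, cov]
  set l := G.dist v b with hl
  set w := geo G v b with hw
  have hgeo : IsGeo G w l := isGeo_geo hT v b
  have hw0 : w 0 = v := geo_zero hT v b
  have hmem : ∀ i ≤ l, w i ∈ B := fun i hi =>
    hgeo.mem hT hB (by rw [hw0]; exact hv) (by rw [hw, geo_end]; exact hb) hi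
  set δ : ℕ → ℝ := fun k => |mag G θ B W (w k) - mag G θ B' W' (w k)| with hδ
  have hs : ∀ k, 0 ≤ δ k := fun k => abs_nonneg _
  have hmv : |mag G θ B W v| ≤ 1 := (abs_mag ha.le hW v).le
  have hmv' : |mag G θ B' W' v| ≤ 1 := (abs_mag ha.le hW' v).le
  obtain ⟨p0, p1⟩ := pthW_mem_unit (G := G) (B := B) ha hW w l
  have h0 : 0 < 1 - θ ^ 2 := sub_pos.2 ((sq_lt_one_iff_abs_lt_one θ).2 ha)
  have h1 : 0 < (1 - θ) ^ 3 := pow_pos (by linarith) 3
  set c := 2 / ((1 - θ ^ 2) ^ 2 * (1 - θ) ^ 3) with hc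
  have hc0 : 0 ≤ c := by positivity
  have hdamp : ∀ i < l,
      |damp θ (cav G θ B W (w i) (w (i + 1))) - damp θ (cav G θ B' W' (w i) (w (i + 1)))| ≤
        c * (δ i + δ (i + 1)) := fun i hi => by
    have hadj : G.Adj (w (i + 1)) (w i) := (hgeo.1 i hi).symm
    set x := cav G θ B W (w i) (w (i + 1))
    set y := cav G θ B' W' (w i) (w (i + 1))
    have hx : |x| < 1 := abs_cav ha.le hW _ _
    have hy : |y| < 1 := abs_cav ha.le hW' _ _
    have hside := abs_side_sub (m' := mag G θ B' W' (w i)) hθ0.le hθ hx.le hy.le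
      (abs_mag (G := G) (B := B) ha.le hW (w i)).le
    rw [← mag_affine hT ha hW (hmem (i + 1) hi) (hmem i hi.le) hadj,
      ← mag_affine hT ha hW' (hBB (hmem (i + 1) hi)) (hBB (hmem i hi.le)) hadj] at hside
    have hxy : |x - y| ≤ (δ i + δ (i + 1)) / (1 - θ) ^ 3 := by
      rw [le_div_iff₀ h1]
      have := mul_le_of_le_one_left (abs_nonneg (mag G θ B W (w i) - mag G θ B' W' (w i))) hθ.le
      simp only [hδ]
      linarith
    refine (abs_damp_sub ha (max_lt hx hy) (le_max_left _ _) (le_max_right _ _)).trans ?_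
    have hsq : |x ^ 2 - y ^ 2| ≤ 2 * |x - y| := by
      rw [sq_sub_sq, abs_mul]
      exact mul_le_mul_of_nonneg_right ((abs_add_le _ _).trans (by linarith)) (abs_nonneg _)
    refine (mul_le_mul_of_nonneg_left (hsq.trans (mul_le_mul_of_nonneg_left hxy zero_le_two))
      (by positivity)).trans (le_of_eq ?_)
    rw [hc]
    field_simp
  have hprod : |pthW G θ B W w l - pthW G θ B' W' w l| ≤
      ∑ i ∈ range l, c * (δ i + δ (i + 1)) := by
    have key : ∀ n ≤ l, |pthW G θ B W w n - pthW G θ B' W' w n| ≤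
        ∑ i ∈ range n, c * (δ i + δ (i + 1)) := by
      intro n
      induction n with
      | zero => intro _; simp [pthW]
      | succ n ih =>
        intro hn
        obtain ⟨a0, a1⟩ := pthW_mem_unit (G := G) (B := B) ha hW w n
        have d0 := damp_nonneg ha (abs_cav (G := G) (B := B') ha.le hW' (w n) (w (n + 1))).le
        have d1 := damp_le_one ha (abs_cav (G := G) (B := B') ha.le hW' (w n) (w (n + 1))).le
        rw [pthW, pthW, prod_range_succ, prod_range_succ, sum_range_succ, ← pthW, ← pthW]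
        set a := pthW G θ B W w n
        set a' := pthW G θ B' W' w n
        set e := damp θ (cav G θ B W (w n) (w (n + 1)))
        set e' := damp θ (cav G θ B' W' (w n) (w (n + 1)))
        rw [show a * e - a' * e' = a * (e - e') + (a - a') * e' by ring]
        refine (abs_add_le _ _).trans ?_
        rw [abs_mul, abs_mul, abs_of_nonneg a0, abs_of_nonneg d0, add_comm]
        exact add_le_add ((mul_le_of_le_one_right (abs_nonneg _) d1).trans (ih (by omega)))
          ((mul_le_of_le_one_left (abs_nonneg _) a1).trans (hdamp n (by omega)))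
    exact key l le_rfl
  have hsum : ∑ i ∈ range l, c * (δ i + δ (i + 1)) ≤ 2 * c * ∑ k ∈ range (l + 1), δ k := by
    rw [← mul_sum, sum_add_distrib, mul_comm 2 c, mul_assoc]
    refine mul_le_mul_of_nonneg_left ?_ hc0
    have e1 := sum_range_succ δ l
    have e2 := sum_range_succ' δ l
    have := hs l
    have := hs 0
    linarith
  have hδv : |mag G θ B W v - mag G θ B' W' v| ≤ ∑ k ∈ range (l + 1), δ k := by
    have := single_le_sum (f := δ) (fun k _ => hs k) (Finset.mem_range.2 (Nat.succ_pos l))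
    simpa only [hδ, hw0] using this
  have hv2 : |1 - mag G θ B W v ^ 2 - (1 - mag G θ B' W' v ^ 2)| ≤
      2 * |mag G θ B W v - mag G θ B' W' v| := by
    rw [sub_sub_sub_cancel_left, abs_sub_comm, sq_sub_sq, abs_mul]
    exact mul_le_mul_of_nonneg_right ((abs_add_le _ _).trans (by linarith)) (abs_nonneg _)
  have hu : |1 - mag G θ B' W' v ^ 2| ≤ 1 := by
    have e : mag G θ B' W' v ^ 2 ≤ 1 := (sq_le_one_iff_abs_le_one _).2 hmv'
    rw [abs_of_nonneg (by linarith)]
    nlinarith [sq_nonneg (mag G θ B' W' v)]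
  set u := 1 - mag G θ B W v ^ 2
  set u' := 1 - mag G θ B' W' v ^ 2
  set p := pthW G θ B W w l
  set p' := pthW G θ B' W' w l
  rw [show u * (θ ^ l * p) - u' * (θ ^ l * p') = θ ^ l * ((u - u') * p + u' * (p - p')) by ring,
    abs_mul, abs_of_pos (pow_pos hθ0 l), mul_left_comm (2 + _) (θ ^ l)]
  refine mul_le_mul_of_nonneg_left ((abs_add_le _ _).trans ?_) (pow_nonneg hθ0.le _)
  rw [abs_mul, abs_mul, abs_of_nonneg p0]
  have h2 := mul_le_of_le_one_right (abs_nonneg (u - u')) p1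
  have h3 := mul_le_of_le_one_left (abs_nonneg (p - p')) hu
  rw [add_mul, show 4 / ((1 - θ ^ 2) ^ 2 * (1 - θ) ^ 3) = 2 * c by rw [hc]; ring]
  linarith

/-- The mean squared difference of the magnetisations of two runs. -/
noncomputable def mdist (G : SimpleGraph V) (P P' : Run V) (v : V) (t : ℝ) : ℝ :=
  ∫ ω, (P.m G ω t v - P'.m G ω t v) ^ 2 ∂iidU (V × (ℤ × Bool))

variable {P P' : Run V}

lemma sq_m_sub_le (h : P.Ok G) (h' : P'.Ok G) (ω : V × (ℤ × Bool) → ℝ) (t : ℝ) (v : V) :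
    |(P.m G ω t v - P'.m G ω t v) ^ 2| ≤ 4 := by
  have e := abs_sub (P.m G ω t v) (P'.m G ω t v)
  have e1 := Run.abs_m h ω t v
  have e2 := Run.abs_m h' ω t v
  rw [abs_pow]
  nlinarith [abs_nonneg (P.m G ω t v - P'.m G ω t v)]

lemma measurable_sq_m_sub (h : P.Ok G) (h' : P'.Ok G) (v : V) (t : ℝ) :
    Measurable fun ω => (P.m G ω t v - P'.m G ω t v) ^ 2 :=
  ((measurable_m_comp h v measurable_const).sub (measurable_m_comp h' v measurable_const)).pow_const 2

lemma mdist_mem (h : P.Ok G) (h' : P'.Ok G) (v : V) (t : ℝ) :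
    0 ≤ mdist G P P' v t ∧ mdist G P P' v t ≤ 4 :=
  ⟨integral_nonneg fun _ => sq_nonneg _,
    (le_abs_self _).trans (abs_integral_le_of_bound fun ω => sq_m_sub_le h h' ω t v)⟩

lemma measurable_mdist (h : P.Ok G) (h' : P'.Ok G) (v : V) : Measurable (mdist G P P' v) := by
  have hm : ∀ {Q : Run V}, Q.Ok G →
      Measurable fun p : ℝ × (V × (ℤ × Bool) → ℝ) => Q.m G p.2 p.1 v := fun {Q} hQ =>
    Measurable.comp (g := fun p : (V × (ℤ × Bool) → ℝ) × ℝ => Q.m G p.1 p.2 v)
      (f := fun p : ℝ × (V × (ℤ × Bool) → ℝ) => (p.2, p.1)) (Run.measurable_m hQ v)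
      (measurable_snd.prodMk measurable_fst)
  exact StronglyMeasurable.measurable (StronglyMeasurable.integral_prod_right'
    (f := fun p : ℝ × (V × (ℤ × Bool) → ℝ) => (P.m G p.2 p.1 v - P'.m G p.2 p.1 v) ^ 2)
    (((hm h).sub (hm h')).pow_const 2).stronglyMeasurable)

/-- The run on a ball against a run on a larger one, at the centre. -/
lemma crude_centre (hR : Reg G d) {n : ℕ} (hn : 1 ≤ n) (J : ℕ) {κ T : ℝ} (hκ0 : 0 < κ) (hκ1 : κ ≤ 1)
    (hκ : κ ^ 2 = thN d n ^ 2 * ((d : ℝ) - 1))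
    (hT : ∀ M : ℕ, ∑ l ∈ range M, ((l : ℝ) + 1) ^ 2 * κ ^ l ≤ T)
    {a o : V} {r R : ℕ} (h : G.dist o a + r ≤ R) {t : ℝ} (ht : t ∈ Set.Icc 0 ((1 : ℝ) + J)) :
    mdist G (runN G d n J a r) (runN G d n J o R) a t ≤
      2 * T * (1 + J) * Real.exp
        ((2 * (2 + 4 / ((1 - thN d n ^ 2) ^ 2 * (1 - thN d n) ^ 3)) ^ 2 + 8) * (2 * T) * (1 + J)) *
        κ ^ r := by
  classical
  obtain ⟨-, hθ0, hθ1, -, -, -⟩ := thN_spec hR hn
  set θ := thN d n with hθ
  set C₁ := 2 + 4 / ((1 - θ ^ 2) ^ 2 * (1 - θ) ^ 3) with hC₁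
  set P := runN G d n J a r with hP
  set P' := runN G d n J o R with hP'
  have h₁ : P.Ok G := runN_ok hR hn J a r
  have h₂ : P'.Ok G := runN_ok hR hn J o R
  set B := ball G a r with hB
  set B' := ball G o R with hB'
  have hBB : B ⊆ B' := ball_subset hR h
  have hT0 : 0 ≤ T := le_trans (by simp) (hT 0)
  set q := θ ^ 2 / κ with hq
  have hq0 : 0 ≤ q := by positivity
  have hqb : q * ((d : ℝ) - 1) = κ := by
    rw [hq, div_mul_eq_mul_div, ← hκ, sq, mul_div_assoc, div_self hκ0.ne', mul_one]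
  have hθl : ∀ l : ℕ, θ ^ (2 * l) = q ^ l * κ ^ l := fun l => by
    rw [pow_mul, ← mul_pow, hq, div_mul_cancel₀ _ hκ0.ne']
  set ψ : V → ℝ := fun u => κ ^ (r - G.dist a u) with hψ
  have hψ0 : ∀ u, 0 < ψ u := fun u => pow_pos hκ0 _
  have hBne : B.Nonempty := ⟨a, self_mem_ball hR a r⟩
  set Ψ : ℝ → ℝ := fun s => B.sup' hBne fun u => mdist G P P' u s / ψ u with hΨ
  have hΨle : ∀ s, ∀ u ∈ B, mdist G P P' u s ≤ ψ u * Ψ s := fun s u hu => by
    rw [← div_le_iff₀' (hψ0 u)]
    exact le_sup' (fun u => mdist G P P' u s / ψ u) hu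
  have hΨ0 : ∀ s, 0 ≤ Ψ s := fun s => le_trans
    (div_nonneg (mdist_mem h₁ h₂ a s).1 (hψ0 a).le)
    (le_sup' (fun u => mdist G P P' u s / ψ u) (self_mem_ball hR a r))
  have hΨM : ∀ s, Ψ s ≤ 4 / κ ^ r := fun s => sup'_le hBne _ fun u _ => by
    refine div_le_div₀ (by norm_num) (mdist_mem h₁ h₂ u s).2 (pow_pos hκ0 r) ?_
    exact pow_le_pow_of_le_one hκ0.le hκ1 (Nat.sub_le _ _)
  have hΨm : Measurable Ψ := by
    have h0 := Finset.measurable_sup' (f := fun u => fun s => mdist G P P' u s / ψ u) hBne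
      fun u _ => (measurable_mdist h₁ h₂ u).div_const _
    have e : (B.sup' hBne fun u => fun s => mdist G P P' u s / ψ u) = Ψ := by
      funext s
      exact Finset.sup'_apply hBne _ s
    rwa [e] at h0
  -- the shift of the weight along a geodesic
  have hshift : ∀ {v b : V}, b ∈ B → ∀ k ≤ G.dist v b,
      κ ^ G.dist v b * ψ (geo G v b k) ≤ ψ v := fun {v b} _ k hk => by
    rw [hψ, ← pow_add]
    refine pow_le_pow_of_le_one hκ0.le hκ1 ?_
    have e := (isGeo_geo hR.tree v b).2 k hk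
    rw [geo_zero hR.tree] at e
    have := hR.tree.connected.dist_triangle (u := a) (v := v) (w := geo G v b k)
    omega
  set C₂ := (2 * C₁ ^ 2 + 8) * (2 * T) with hC₂
  have main : ∀ s ∈ Set.Icc 0 ((1 : ℝ) + J), Ψ s ≤ 2 * T * (1 + J) + C₂ * ∫ x in Set.Ico 0 s, Ψ x := by
    intro s hs
    haveI : IsFiniteMeasure (volume.restrict (Set.Ico 0 s)) :=
      isFiniteMeasure_restrict.2 measure_Ico_lt_top.ne
    refine sup'_le hBne _ fun v hv => ?_
    rw [div_le_iff₀ (hψ0 v)]
    have hlo : ∀ (Q : Finset V) (x : V × ℤ),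
        x ∈ Q ×ˢ Finset.Ico (-(n : ℤ)) (J : ℤ) → (0 : ℝ) ≤ lo x.2 := fun _ x _ => (lo_pos _).le
    have htw := two_run_le h₁ h₂ (a := v) hv (hBB hv) (t₀ := 0) hs.1
    have hzero : ∫ ω, (P.m G ω 0 v - P'.m G ω 0 v) ^ 2 ∂iidU (V × (ℤ × Bool)) = 0 :=
      integral_eq_zero_of_ae (ae_of_all _ fun ω => by
        simp [Run.m_eq_zero h₁ ω 0 hv (hlo _), Run.m_eq_zero h₂ ω 0 (hBB hv) (hlo _)])
    rw [hzero, zero_add] at htw
    refine htw.trans ?_
    have hrate : ∀ x, (∑ s' ∈ P.A ∪ P'.A, if lo s'.2 ≤ x ∧ x < lo s'.2 + wid s'.2 then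
        1 / wid s'.2 * ∫ ω, ∫ y, (P.inc G (P.st G ω x) v s' y -
          P'.inc G (P'.st G ω x) v s' y) ^ 2 ∂unifR ∂iidU (V × (ℤ × Bool)) else 0) ≤
        C₂ * ψ v * Ψ x + 2 * T * ψ v := by
      intro x
      let F : V → ℝ := fun b => q ^ G.dist v b * ((G.dist v b : ℝ) + 1) ^ 2 * ψ v *
        ((2 * C₁ ^ 2 + 8) * Ψ x + 1)
      have hF : ∀ b, 0 ≤ F b := fun b => mul_nonneg (mul_nonneg (mul_nonneg (pow_nonneg hq0 _)
        (sq_nonneg _)) (hψ0 v).le) (add_nonneg (mul_nonneg (by positivity) (hΨ0 x)) zero_le_one)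
      have hbound : ∀ s' ∈ P.A ∪ P'.A, 1 / wid s'.2 * ∫ ω, ∫ y, (P.inc G (P.st G ω x) v s' y -
          P'.inc G (P'.st G ω x) v s' y) ^ 2 ∂unifR ∂iidU (V × (ℤ × Bool)) ≤ F s'.1 := by
        intro s' hs'
        have hw := wid_pos s'.2
        have he : eps s'.2 ^ 2 = wid s'.2 / 4 := (eps_mem s'.2).2.2
        have hA' : s' ∈ P'.A := by
          rcases mem_union.1 hs' with h' | h'
          · exact mem_product.2 ⟨hBB (mem_product.1 h').1, (mem_product.1 h').2⟩
          · exact h'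
        rw [one_div, ← div_eq_inv_mul, div_le_iff₀ hw]
        have mint : ∀ u, Integrable (fun ω => (P.m G ω x u - P'.m G ω x u) ^ 2)
            (iidU (V × (ℤ × Bool))) := fun u =>
          integrable_of_abs_le (measurable_sq_m_sub h₁ h₂ u x) fun ω => sq_m_sub_le h₁ h₂ ω x u
        set l := G.dist v s'.1 with hl
        by_cases hA : s' ∈ P.A
        · have hb : s'.1 ∈ B := (mem_product.1 hA).1
          let Y : (V × (ℤ × Bool) → ℝ) → ℝ := fun ω => eps s'.2 ^ 2 * θ ^ (2 * l) *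
            (8 * C₁ ^ 2 * ((l : ℝ) + 1) * ∑ k ∈ range (l + 1),
                (P.m G ω x (geo G v s'.1 k) - P'.m G ω x (geo G v s'.1 k)) ^ 2 +
              32 * (P.m G ω x s'.1 - P'.m G ω x s'.1) ^ 2)
          have hY : ∀ ω, (∫ y, (P.inc G (P.st G ω x) v s' y -
              P'.inc G (P'.st G ω x) v s' y) ^ 2 ∂unifR) ≤ Y ω := fun ω => by
            refine (integral_inc_sub_le h₁ h₂ (P.st_pos (G := G) ω x) (P'.st_pos (G := G) ω x)
              hv (hBB hv) hA hA').trans ?_
            show _ ≤ eps s'.2 ^ 2 * θ ^ (2 * l) * _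
            rw [mul_assoc (eps s'.2 ^ 2) (θ ^ (2 * l))]
            refine mul_le_mul_of_nonneg_left ?_ (sq_nonneg _)
            have e1 := abs_cov_sub hθ0 hθ1 hR.tree h₁.conn h₂.conn hBB
              (P.st_pos (G := G) ω x) (P'.st_pos (G := G) ω x) hv hb
            rw [← hl] at e1
            obtain ⟨c0, c1⟩ := cov_mem_unit (G := G) (B := B') hθ0.le hθ1
              (P'.st_pos (G := G) ω x) s'.1 v
            rw [SimpleGraph.dist_comm, ← hl] at c1
            have e2 := pow_le_pow_left₀ (abs_nonneg _) e1 2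
            rw [sq_abs, mul_pow, mul_pow, ← pow_mul, mul_comm l 2] at e2
            have e3 := sq_sum_le_card_mul_sum_sq (s := range (l + 1)) (f := fun k =>
              |mag G θ B (P.st G ω x) (geo G v s'.1 k) - mag G θ B' (P'.st G ω x) (geo G v s'.1 k)|)
            simp only [sq_abs, card_range, Nat.cast_add, Nat.cast_one] at e3
            have e4 := pow_le_pow_left₀ c0 c1 2
            rw [← pow_mul, mul_comm l 2] at e4
            have e5 := mul_le_mul_of_nonneg_right e4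
              (sq_nonneg (P.m G ω x s'.1 - P'.m G ω x s'.1))
            have e6 := mul_le_mul_of_nonneg_left e3
              (by positivity : 0 ≤ C₁ ^ 2 * θ ^ (2 * l))
            rw [← mul_assoc] at e2
            simp only [Run.m] at e5 ⊢
            simp only [hC₁] at e6
            show 8 * (cov G θ B (P.st G ω x) s'.1 v - cov G θ B' (P'.st G ω x) s'.1 v) ^ 2 +
              32 * cov G θ B' (P'.st G ω x) s'.1 v ^ 2 *
                (mag G θ B (P.st G ω x) s'.1 - mag G θ B' (P'.st G ω x) s'.1) ^ 2 ≤ _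
            change cov G θ B' (P'.st G ω x) s'.1 v ^ 2 *
              (mag G θ B (P.st G ω x) s'.1 - mag G θ B' (P'.st G ω x) s'.1) ^ 2 ≤ _ at e5
            simp only [hC₁]
            have := e2.trans e6
            linarith!
          have isum : Integrable (fun ω => ∑ k ∈ range (l + 1),
              (P.m G ω x (geo G v s'.1 k) - P'.m G ω x (geo G v s'.1 k)) ^ 2)
              (iidU (V × (ℤ × Bool))) := integrable_finsetSum _ fun k _ => mint _
          have i8 : Integrable (fun ω => 8 * C₁ ^ 2 * ((l : ℝ) + 1) * ∑ k ∈ range (l + 1),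
              (P.m G ω x (geo G v s'.1 k) - P'.m G ω x (geo G v s'.1 k)) ^ 2)
              (iidU (V × (ℤ × Bool))) := isum.const_mul _
          have iY : Integrable Y (iidU (V × (ℤ × Bool))) :=
            (i8.add ((mint s'.1).const_mul 32)).const_mul _
          refine (integral_mono_of_nonneg (ae_of_all _ fun ω => integral_nonneg fun _ => sq_nonneg _)
            iY (ae_of_all _ hY)).trans ?_
          show ∫ ω, eps s'.2 ^ 2 * θ ^ (2 * l) * _ ∂_ ≤ _
          rw [integral_const_mul, integral_add i8 ((mint s'.1).const_mul 32), integral_const_mul,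
            integral_const_mul, integral_finsetSum _ fun k _ => mint _, he]
          have hk : ∀ k ∈ range (l + 1), κ ^ l * ∫ ω, (P.m G ω x (geo G v s'.1 k) -
              P'.m G ω x (geo G v s'.1 k)) ^ 2 ∂iidU (V × (ℤ × Bool)) ≤ ψ v * Ψ x := fun k hk => by
            have hk' : k ≤ l := Nat.le_of_lt_succ (Finset.mem_range.1 hk)
            have hu : geo G v s'.1 k ∈ B := (isGeo_geo hR.tree v s'.1).mem hR.tree h₁.conn
              (by rw [geo_zero hR.tree]; exact hv) (by rw [geo_end]; exact hb) hk'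
            refine (mul_le_mul_of_nonneg_left (hΨle x _ hu) (pow_nonneg hκ0.le _)).trans ?_
            rw [← mul_assoc]
            exact mul_le_mul_of_nonneg_right (hshift hb k hk') (hΨ0 x)
          have e7 := sum_le_sum hk
          rw [← mul_sum, sum_const, card_range, nsmul_eq_mul, Nat.cast_add, Nat.cast_one] at e7
          have e8 := hk l (Finset.mem_range.2 (Nat.lt_succ_self l))
          rw [show geo G v s'.1 l = s'.1 from geo_end v s'.1] at e8
          set S := ∑ k ∈ range (l + 1), ∫ ω, (P.m G ω x (geo G v s'.1 k) -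
            P'.m G ω x (geo G v s'.1 k)) ^ 2 ∂iidU (V × (ℤ × Bool))
          set D := ∫ ω, (P.m G ω x s'.1 - P'.m G ω x s'.1) ^ 2 ∂iidU (V × (ℤ × Bool))
          show _ ≤ q ^ l * ((l : ℝ) + 1) ^ 2 * ψ v * ((2 * C₁ ^ 2 + 8) * Ψ x + 1) * wid s'.2
          rw [hθl]
          have hl1 : (1 : ℝ) ≤ ((l : ℝ) + 1) ^ 2 :=
            one_le_pow₀ (le_add_of_nonneg_left (Nat.cast_nonneg l))
          have hψΨ : 0 ≤ ψ v * Ψ x := mul_nonneg (hψ0 v).le (hΨ0 x)
          have e9 : 2 * C₁ ^ 2 * ((l : ℝ) + 1) * (κ ^ l * S) + 8 * (κ ^ l * D) ≤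
              ((l : ℝ) + 1) ^ 2 * ψ v * ((2 * C₁ ^ 2 + 8) * Ψ x + 1) := by
            have f1 := mul_le_mul_of_nonneg_left e7
              (by positivity : 0 ≤ 2 * C₁ ^ 2 * ((l : ℝ) + 1))
            have f2 := mul_le_mul_of_nonneg_left hl1 (mul_nonneg (by norm_num : (0 : ℝ) ≤ 8) hψΨ)
            have f3 : 0 ≤ ((l : ℝ) + 1) ^ 2 * ψ v := mul_nonneg (sq_nonneg _) (hψ0 v).le
            linarith
          have := mul_le_mul_of_nonneg_left e9 (by positivity : 0 ≤ q ^ l * wid s'.2)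
          linarith
        · have hnb : s'.1 ∉ B := fun hb => hA (mem_product.2 ⟨hb, (mem_product.1 hA').2⟩)
          have hpt : ∀ ω, |∫ y, (P.inc G (P.st G ω x) v s' y -
              P'.inc G (P'.st G ω x) v s' y) ^ 2 ∂unifR| ≤ eps s'.2 ^ 2 * (4 * θ ^ (2 * l)) := by
            intro ω
            rw [abs_of_nonneg (integral_nonneg fun _ => sq_nonneg _)]
            refine (integral_inc_sub_le' h₂ (P'.st_pos (G := G) ω x) (hBB hv) hA hA').trans ?_
            obtain ⟨c0, c1⟩ := cov_mem_unit (G := G) (B := B') hθ0.le hθ1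
              (P'.st_pos (G := G) ω x) s'.1 v
            rw [SimpleGraph.dist_comm, ← hl] at c1
            refine mul_le_mul_of_nonneg_left (mul_le_mul_of_nonneg_left ?_ (by norm_num)) (sq_nonneg _)
            rw [mul_comm 2 l, pow_mul]
            exact pow_le_pow_left₀ c0 c1 2
          refine ((le_abs_self _).trans (abs_integral_le_of_bound hpt)).trans ?_
          have hκl : κ ^ l ≤ ψ v := pow_le_pow_of_le_one hκ0.le hκ1 (by
            have h1 : ¬ G.dist a s'.1 ≤ r := fun hh => hnb ((mem_ball hR).2 hh)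
            have := hR.tree.connected.dist_triangle (u := a) (v := v) (w := s'.1)
            omega)
          show _ ≤ q ^ l * ((l : ℝ) + 1) ^ 2 * ψ v * ((2 * C₁ ^ 2 + 8) * Ψ x + 1) * wid s'.2
          rw [he, hθl]
          have hl1 : (1 : ℝ) ≤ ((l : ℝ) + 1) ^ 2 :=
            one_le_pow₀ (le_add_of_nonneg_left (Nat.cast_nonneg l))
          have f0 : 0 ≤ (2 * C₁ ^ 2 + 8) * Ψ x := mul_nonneg (by positivity) (hΨ0 x)
          have e9 : κ ^ l ≤ ((l : ℝ) + 1) ^ 2 * ψ v * ((2 * C₁ ^ 2 + 8) * Ψ x + 1) := by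
            have f1 := mul_le_mul_of_nonneg_right hl1 (hψ0 v).le
            have f2 := le_mul_of_one_le_right (mul_nonneg (sq_nonneg ((l : ℝ) + 1)) (hψ0 v).le)
              (by linarith : (1 : ℝ) ≤ (2 * C₁ ^ 2 + 8) * Ψ x + 1)
            linarith
          have := mul_le_mul_of_nonneg_left e9 (by positivity : 0 ≤ q ^ l * wid s'.2)
          linarith
      refine (sum_le_sum fun s' hs' => ?_).trans ((sum_window_le (A := P.A ∪ P'.A) (B := B')
        (fun s' hs' => (mem_union.1 hs').elim (fun h' => hBB (mem_product.1 h').1)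
          fun h' => (mem_product.1 h').1) hF x).trans ?_)
      · split_ifs with hc
        · exact hbound s' hs'
        · exact le_rfl
      · have hsum := sum_radial_le hR v B' hq0 (T := T) (by rw [hqb]; exact hT)
        have e : ∀ b, F b = ((G.dist v b : ℝ) + 1) ^ 2 * q ^ G.dist v b *
            (ψ v * ((2 * C₁ ^ 2 + 8) * Ψ x + 1)) := fun b => by simp only [F]; ring
        simp only [e]
        rw [← sum_mul]
        refine (mul_le_mul_of_nonneg_right hsum (mul_nonneg (hψ0 v).le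
          (add_nonneg (mul_nonneg (by positivity) (hΨ0 x)) zero_le_one))).trans (le_of_eq ?_)
        rw [hC₂]
        ring
    have iΨ : Integrable Ψ (volume.restrict (Set.Ico 0 s)) := integrable_of_abs_le hΨm fun y => by
      rw [abs_of_nonneg (hΨ0 y)]; exact hΨM y
    refine (integral_mono_of_nonneg (ae_of_all _ fun y => ?_)
      ((iΨ.const_mul _).add (integrable_const _)) (ae_of_all _ hrate)).trans ?_
    · refine sum_nonneg fun s' _ => ?_
      split_ifs
      · exact mul_nonneg (one_div_nonneg.2 (wid_pos s'.2).le)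
          (integral_nonneg fun ω => integral_nonneg fun _ => sq_nonneg _)
      · exact le_rfl
    · simp only [Pi.add_apply]
      rw [integral_add (iΨ.const_mul _) (integrable_const _), integral_const_mul, integral_const,
        measureReal_restrict_apply_univ, Real.volume_real_Ico_of_le hs.1, smul_eq_mul, sub_zero]
      have := mul_le_mul_of_nonneg_right hs.2 (mul_nonneg (by positivity : 0 ≤ 2 * T) (hψ0 v).le)
      linarith
  have hg := gronwall_le (by positivity : 0 ≤ C₂) (by positivity : 0 ≤ 2 * T * (1 + (J : ℝ)))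
    hΨm hΨ0 hΨM main t ht
  refine (hΨle t a (self_mem_ball hR a r)).trans ?_
  rw [show ψ a = κ ^ r by simp [hψ], mul_comm (κ ^ r)]
  refine mul_le_mul_of_nonneg_right (hg.trans ?_) (pow_nonneg hκ0.le _)
  refine mul_le_mul_of_nonneg_left (Real.exp_le_exp.2 ?_) (by positivity)
  rw [sub_zero]
  exact mul_le_mul_of_nonneg_left ht.2 (by positivity)

theorem crude (d n J : ℕ) (hn : 1 ≤ n) : ∃ K κ : ℝ, 0 ≤ K ∧ 0 ≤ κ ∧ κ < 1 ∧
    ∀ {V : Type*} {G : SimpleGraph V}, Reg G d → ∀ (a o o' : V) (R R' r : ℕ),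
      G.dist o a + r ≤ R → G.dist o' a + r ≤ R' → ∀ t : ℝ, t ≤ 1 + J →
        ∫ ω, ((runN G d n J o R).m G ω t a - (runN G d n J o' R').m G ω t a) ^ 2
            ∂iidU (V × (ℤ × Bool)) ≤ K * κ ^ r := by
  by_cases hd : d < 3
  · refine ⟨0, 0, le_rfl, le_rfl, one_pos, fun {V} {G} hR => ?_⟩
    exact absurd hR.three (not_le.2 hd)
  have hb : (2 : ℝ) ≤ (d : ℝ) - 1 := by
    have : (3 : ℝ) ≤ d := by exact_mod_cast not_lt.1 hd
    linarith
  set κ : ℝ := 1 - (1 / 2 : ℝ) ^ n with hκd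
  have hh : ((1 : ℝ) / 2) ^ n ≤ 1 / 2 := pow_le_of_le_one (by norm_num) (by norm_num) (by omega)
  have hh0 : 0 < ((1 : ℝ) / 2) ^ n := by positivity
  have hκ0 : 0 < κ := by linarith
  have hκ1 : κ < 1 := by linarith
  have hκ : κ ^ 2 = thN d n ^ 2 * ((d : ℝ) - 1) := by
    have hs : Real.sqrt ((d : ℝ) - 1) ^ 2 = (d : ℝ) - 1 := Real.sq_sqrt (by linarith)
    rw [thN, ← hκd, mul_pow, div_pow, one_pow, hs, mul_right_comm, one_div_mul_cancel (by linarith),
      one_mul]
  obtain ⟨C, hC⟩ := sum_sq_geom_le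
  set T := C / (1 - κ) ^ 3 with hTd
  have hT : ∀ M : ℕ, ∑ l ∈ range M, ((l : ℝ) + 1) ^ 2 * κ ^ l ≤ T := fun M => by
    have := hC (1 - κ) (by linarith) (by linarith) 0 M
    rw [hTd, Finset.range_eq_Ico]
    simp only [Nat.cast_zero, sub_sub_cancel, mul_zero, zero_div, neg_zero, Real.exp_zero, mul_one] at this
    exact this
  have hT0 : 0 ≤ T := le_trans (by simp) (hT 0)
  set K₀ := 2 * T * (1 + (J : ℝ)) * Real.exp
    ((2 * (2 + 4 / ((1 - thN d n ^ 2) ^ 2 * (1 - thN d n) ^ 3)) ^ 2 + 8) * (2 * T) * (1 + J))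
    with hK
  have hK0 : 0 ≤ K₀ := by positivity
  refine ⟨4 * K₀, κ, by positivity, hκ0.le, hκ1, fun {V} {G} hR a o o' R R' r h h' t ht => ?_⟩
  have hm : ∀ (o : V) (R : ℕ), G.dist o a + r ≤ R → a ∈ ball G o R := fun o R h =>
    (mem_ball hR).2 (by omega)
  rcases le_total t 0 with ht0 | ht0
  · rw [integral_eq_zero_of_ae (ae_of_all _ fun ω => ?_)]
    · positivity
    · simp [Run.m_eq_zero (runN_ok hR hn J o R) ω t (hm o R h) fun s _ => ht0.trans (lo_pos _).le,
        Run.m_eq_zero (runN_ok hR hn J o' R') ω t (hm o' R' h') fun s _ => ht0.trans (lo_pos _).le]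
  · have e1 := crude_centre hR hn J hκ0 hκ1.le hκ hT h ⟨ht0, ht⟩
    have e2 := crude_centre hR hn J hκ0 hκ1.le hκ hT h' ⟨ht0, ht⟩
    rw [mdist, ← hK] at e1 e2
    have h₀ := runN_ok hR hn J a r
    have h₁ := runN_ok hR hn J o R
    have h₂ := runN_ok hR hn J o' R'
    have iS : ∀ {P P' : Run V}, P.Ok G → P'.Ok G →
        Integrable (fun ω => 2 * (P.m G ω t a - P'.m G ω t a) ^ 2) (iidU (V × (ℤ × Bool))) :=
      fun hP hP' => (integrable_of_abs_le (measurable_sq_m_sub hP hP' a t)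
        fun ω => sq_m_sub_le hP hP' ω t a).const_mul 2
    refine (integral_mono_of_nonneg (ae_of_all _ fun ω => sq_nonneg _)
      ((iS h₀ h₁).add (iS h₀ h₂)) (ae_of_all _ fun ω => ?_)).trans ?_
    · simp only [Pi.add_apply]
      nlinarith [sq_nonneg ((runN G d n J a r).m G ω t a * 2 - (runN G d n J o R).m G ω t a -
        (runN G d n J o' R').m G ω t a)]
    · simp only [Pi.add_apply]
      rw [integral_add (iS h₀ h₁) (iS h₀ h₂), integral_const_mul, integral_const_mul]
      linarith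

end Vale.Agent.P161.Crit
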