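import Vale.Agent.P161.Smoothing

/-!
# P161: orthogonal decomposition of functions of IID uniforms
-/

open MeasureTheory Finset

namespace Vale.Agent.P161.Crit

variable {ι : Type*} [DecidableEq ι]

/-- Inclusion-exclusion transform of a function of finite sets. -/
def mob (F : Finset ι → ℝ) (S : Finset ι) : ℝ :=
  ∑ T ∈ S.powerset, (-1 : ℝ) ^ (S.card + T.card) * F T

lemma mob_insert (F : Finset ι → ℝ) {x : ι} {S : Finset ι} (hx : x ∉ S) :
    mob F (insert x S) = mob (fun T => F (insert x T)) S - mob F S := by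
  simp only [mob]
  rw [Finset.sum_powerset_insert hx, sub_eq_add_neg, add_comm, ← Finset.sum_neg_distrib]
  congr 1
  · refine Finset.sum_congr rfl fun T hT => ?_
    have hxT : x ∉ T := fun h => hx (mem_powerset.1 hT h)
    rw [card_insert_of_notMem hx, card_insert_of_notMem hxT,
      show S.card + 1 + (T.card + 1) = S.card + T.card + 2 by omega, pow_add]
    norm_num
  · refine Finset.sum_congr rfl fun T _ => ?_
    rw [card_insert_of_notMem hx, show S.card + 1 + T.card = S.card + T.card + 1 by omega, pow_succ]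
    ring

lemma sum_mob (F : Finset ι → ℝ) (D : Finset ι) : ∑ S ∈ D.powerset, mob F S = F D := by
  induction D using Finset.induction_on generalizing F with
  | empty => simp [mob]
  | insert x D hx ih =>
    rw [Finset.sum_powerset_insert hx,
      Finset.sum_congr rfl fun S hS => mob_insert F fun h => hx (mem_powerset.1 hS h),
      Finset.sum_sub_distrib, ih, ih]
    ring

lemma mob_eq_zero (F : Finset ι → ℝ) {x : ι} {S : Finset ι} (hx : x ∈ S)
    (h : ∀ T, F (insert x T) = F T) : mob F S = 0 := by
  rw [← insert_erase hx, mob_insert F (notMem_erase x S)]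
  simp [h]

variable {f h : (ι → ℝ) → ℝ} {C : ℝ}

lemma avgOut_dependsOn (f : (ι → ℝ) → ℝ) (T : Finset ι) : DependsOn (avgOut f T) (T : Set ι) := by
  intro z z' hz
  refine integral_congr_ae (ae_of_all _ fun u => ?_)
  simp only
  congr 1
  funext i
  simp only [merge]
  split_ifs with hi
  · exact hz i hi
  · rfl

lemma avgOut_avgOut (hf : Measurable f) (hC : ∀ u, |f u| ≤ C) (T U : Finset ι) :
    avgOut (avgOut f U) T = avgOut f (T ∩ U) := by
  funext z
  simp only [avgOut]
  have hm : Measurable fun p : (ι → ℝ) × (ι → ℝ) => merge U (merge T (z, p.1), p.2) :=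
    (measurable_merge U).comp (((measurable_merge_right T z).comp measurable_fst).prodMk measurable_snd)
  rw [integral_integral (f := fun a b => f (merge U (merge T (z, a), b)))
    (integrable_of_abs_le (hf.comp hm) fun _ => hC _)]
  have e : ∀ p : (ι → ℝ) × (ι → ℝ),
      merge U (merge T (z, p.1), p.2) = merge (T ∩ U) (z, merge U p) := fun p => by
    funext i
    simp only [merge, mem_inter]
    split_ifs <;> simp_all
  simp only [e]
  conv_rhs => rw [← map_merge U]
  rw [integral_map (f := fun u => f (merge (T ∩ U) (z, u))) (measurable_merge U).aemeasurable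
    (hf.comp (measurable_merge_right (T ∩ U) z)).aestronglyMeasurable]

lemma avgOut_congr {D : Finset ι} (hd : DependsOn f (D : Set ι)) {T T' : Finset ι}
    (h : T ∩ D = T' ∩ D) : avgOut f T = avgOut f T' := by
  funext z
  refine integral_congr_ae (ae_of_all _ fun u => hd fun i hi => ?_)
  have : i ∈ T ↔ i ∈ T' := by
    have := congrArg (fun W => i ∈ W) h
    simpa [show i ∈ D from hi] using this
  simp [merge, this]

lemma avgOut_self {D : Finset ι} (hd : DependsOn f (D : Set ι)) : avgOut f D = f := by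
  funext z
  have : ∀ u, f (merge D (z, u)) = f z := fun u => hd fun i hi => by simp [merge, show i ∈ D from hi]
  simp [avgOut, this]

lemma avgOut_empty (f : (ι → ℝ) → ℝ) (z : ι → ℝ) : avgOut f ∅ z = ∫ u, f u ∂iidU ι := by
  have : ∀ u, merge (∅ : Finset ι) (z, u) = u := fun u => by funext i; simp [merge]
  simp [avgOut, this]

lemma integral_mul_avgOut (hf : Measurable f) (hC : ∀ u, |f u| ≤ C) (hh : Measurable h)
    (hC' : ∀ u, |h u| ≤ C) (T : Finset ι) :
    ∫ u, h u * avgOut f T u ∂iidU ι = ∫ u, avgOut h T u * avgOut f T u ∂iidU ι := by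
  have hb : ∀ u, |h u * avgOut f T u| ≤ C * C := fun u => by
    rw [abs_mul]
    exact mul_le_mul (hC' u) (abs_avgOut_le hC T u) (abs_nonneg _) ((abs_nonneg _).trans (hC u))
  conv_lhs => rw [← map_merge T]
  rw [integral_map (f := fun u => h u * avgOut f T u) (measurable_merge T).aemeasurable
      (hh.mul (measurable_avgOut hf T)).aestronglyMeasurable,
    integral_prod (f := fun p : (ι → ℝ) × (ι → ℝ) => h (merge T p) * avgOut f T (merge T p))
      (integrable_of_abs_le ((hh.mul (measurable_avgOut hf T)).comp (measurable_merge T)) fun _ => hb _)]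
  refine integral_congr_ae (ae_of_all _ fun z => ?_)
  have e : ∀ u, avgOut f T (merge T (z, u)) = avgOut f T z := fun u =>
    avgOut_dependsOn f T fun i hi => by simp [merge, show i ∈ T from hi]
  simp only [e]
  rw [integral_mul_const]
  rfl

lemma integral_avgOut_mul (hf : Measurable f) (hC : ∀ u, |f u| ≤ C) (hh : Measurable h)
    (hC' : ∀ u, |h u| ≤ C) (T U : Finset ι) :
    ∫ u, avgOut f T u * avgOut h U u ∂iidU ι =
      ∫ u, avgOut f (T ∩ U) u * avgOut h (T ∩ U) u ∂iidU ι := by
  have hfT := measurable_avgOut hf T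
  have hbT := abs_avgOut_le hC T
  have hhU := measurable_avgOut hh U
  have hbU := abs_avgOut_le hC' U
  have hhW := measurable_avgOut hh (T ∩ U)
  have hbW := abs_avgOut_le hC' (T ∩ U)
  have h1 := integral_mul_avgOut hf hC hhU hbU T
  rw [avgOut_avgOut hh hC'] at h1
  have h2 := integral_mul_avgOut hh hC' hfT hbT (T ∩ U)
  rw [avgOut_avgOut hf hC, show T ∩ U ∩ T = T ∩ U by ext i; simp; tauto] at h2
  calc ∫ u, avgOut f T u * avgOut h U u ∂iidU ι
      = ∫ u, avgOut h U u * avgOut f T u ∂iidU ι := by simp only [mul_comm]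
    _ = ∫ u, avgOut f T u * avgOut h (T ∩ U) u ∂iidU ι := by rw [h1]; simp only [mul_comm]
    _ = _ := h2

/-- The component of `f` at the coordinate set `S`. -/
noncomputable def hoef (f : (ι → ℝ) → ℝ) (S : Finset ι) (z : ι → ℝ) : ℝ :=
  mob (fun T => avgOut f T z) S

lemma measurable_hoef (hf : Measurable f) (S : Finset ι) : Measurable (hoef f S) := by
  unfold hoef mob
  exact Finset.measurable_sum _ fun T _ => measurable_const.mul (measurable_avgOut hf T)

lemma abs_hoef_le (hC : ∀ u, |f u| ≤ C) (S : Finset ι) (z : ι → ℝ) :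
    |hoef f S z| ≤ S.powerset.card * C := by
  refine (Finset.abs_sum_le_sum_abs _ _).trans ?_
  refine (Finset.sum_le_card_nsmul _ _ C fun T _ => ?_).trans_eq (by rw [nsmul_eq_mul])
  rw [abs_mul, abs_pow, abs_neg, abs_one, one_pow, one_mul]
  exact abs_avgOut_le hC T z

lemma hoef_eq_zero {D S : Finset ι} (hd : DependsOn f (D : Set ι)) (hS : ¬ S ⊆ D) (z : ι → ℝ) :
    hoef f S z = 0 := by
  obtain ⟨x, hxS, hxD⟩ := Finset.not_subset.1 hS
  refine mob_eq_zero _ hxS fun T => ?_
  rw [avgOut_congr hd (T := insert x T) (T' := T) (by rw [insert_inter_of_notMem hxD])]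

lemma integral_hoef_mul (hf : Measurable f) (hC : ∀ u, |f u| ≤ C) (hh : Measurable h)
    (hC' : ∀ u, |h u| ≤ C) {S U : Finset ι} (hne : S ≠ U) :
    ∫ u, hoef f S u * hoef h U u ∂iidU ι = 0 := by
  wlog hx : ¬ S ⊆ U generalizing f h S U
  · have := this hh hC' hf hC hne.symm fun hle => hne (Subset.antisymm (not_not.1 hx) hle)
    rw [← this]
    simp only [mul_comm]
  obtain ⟨x, hxS, hxU⟩ := Finset.not_subset.1 hx
  simp only [hoef, mob, Finset.sum_mul_sum]
  have hi : ∀ T W : Finset ι, Integrable
      (fun u => (-1 : ℝ) ^ (S.card + T.card) * avgOut f T u *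
        ((-1) ^ (U.card + W.card) * avgOut h W u)) (iidU ι) := fun T W => by
    refine integrable_of_abs_le ((measurable_const.mul (measurable_avgOut hf T)).mul
      (measurable_const.mul (measurable_avgOut hh W))) (C := C * C) fun u => ?_
    simp only [abs_mul, abs_pow, abs_neg, abs_one, one_pow, one_mul]
    exact mul_le_mul (abs_avgOut_le hC T u) (abs_avgOut_le hC' W u) (abs_nonneg _)
      ((abs_nonneg _).trans (hC u))
  rw [integral_finsetSum _ fun T _ => integrable_finsetSum _ fun W _ => hi T W]
  rw [Finset.sum_congr rfl fun T _ => integral_finsetSum _ fun W _ => hi T W]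
  rw [Finset.sum_comm]
  refine Finset.sum_eq_zero fun W hW => ?_
  have e : ∀ T : Finset ι, ∫ u, (-1 : ℝ) ^ (S.card + T.card) * avgOut f T u *
      ((-1) ^ (U.card + W.card) * avgOut h W u) ∂iidU ι =
      (-1 : ℝ) ^ (U.card + W.card) * ((-1) ^ (S.card + T.card) *
        ∫ u, avgOut f (T ∩ W) u * avgOut h (T ∩ W) u ∂iidU ι) := fun T => by
    rw [← integral_avgOut_mul hf hC hh hC' T W, ← integral_const_mul, ← integral_const_mul]
    exact integral_congr_ae (ae_of_all _ fun u => by ring)
  rw [Finset.sum_congr rfl fun T _ => e T, ← Finset.mul_sum]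
  have := mob_eq_zero (fun T => ∫ u, avgOut f (T ∩ W) u * avgOut h (T ∩ W) u ∂iidU ι) hxS
    fun T => by rw [insert_inter_of_notMem fun hxW => hxU (mem_powerset.1 hW hxW)]
  rw [mob] at this
  rw [this, mul_zero]

/-- The covariance is the sum over nonempty coordinate sets of the products of the components. -/
theorem cov_eq (hf : Measurable f) (hC : ∀ u, |f u| ≤ C) (hh : Measurable h)
    (hC' : ∀ u, |h u| ≤ C) {D : Finset ι} (hdf : DependsOn f (D : Set ι))
    (hdh : DependsOn h (D : Set ι)) :
    (∫ u, f u * h u ∂iidU ι) - (∫ u, f u ∂iidU ι) * ∫ u, h u ∂iidU ι =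
      ∑ S ∈ D.powerset.erase ∅, ∫ u, hoef f S u * hoef h S u ∂iidU ι := by
  have hi : ∀ S U, Integrable (fun u => hoef f S u * hoef h U u) (iidU ι) := fun S U =>
    integrable_of_abs_le ((measurable_hoef hf S).mul (measurable_hoef hh U))
      (C := (S.powerset.card * C) * (U.powerset.card * C)) fun u => by
        rw [abs_mul]
        exact mul_le_mul (abs_hoef_le hC S u) (abs_hoef_le hC' U u) (abs_nonneg _)
          (mul_nonneg (Nat.cast_nonneg _) ((abs_nonneg _).trans (hC u)))
  have e : ∀ {g : (ι → ℝ) → ℝ}, DependsOn g (D : Set ι) → ∀ u,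
      g u = ∑ S ∈ D.powerset, hoef g S u := fun {g} hg u => by
    unfold hoef
    rw [sum_mob, avgOut_self hg]
  have h1 : ∫ u, f u * h u ∂iidU ι = ∑ S ∈ D.powerset, ∫ u, hoef f S u * hoef h S u ∂iidU ι := by
    conv_lhs => arg 2; ext u; rw [e hdf u, e hdh u, Finset.sum_mul_sum]
    rw [integral_finsetSum _ fun S _ => integrable_finsetSum _ fun U _ => hi S U]
    refine Finset.sum_congr rfl fun S hS => ?_
    rw [integral_finsetSum _ fun U _ => hi S U, Finset.sum_eq_single S]
    · exact fun U _ hne => integral_hoef_mul hf hC hh hC' hne.symm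
    · exact fun hnot => absurd hS hnot
  rw [h1, ← Finset.add_sum_erase _ _ (empty_mem_powerset D)]
  simp [hoef, mob, avgOut_empty]

end Vale.Agent.P161.Crit
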