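import Vale.Agent.P161.Crit.MsgProp

/-!
# P161, critical point: spheres and sums over geodesics
-/

open SimpleGraph Finset

namespace Vale.Agent.P161.Crit

variable {V : Type*}

open scoped Classical in
/-- The closed ball, as a finite set when it is finite. -/
noncomputable def ball (G : SimpleGraph V) (o : V) (R : ℕ) : Finset V :=
  if h : {x | G.dist o x ≤ R}.Finite then h.toFinset else ∅

open scoped Classical in
/-- The sphere of radius `n`. -/
noncomputable def sphere (G : SimpleGraph V) (o : V) (n : ℕ) : Finset V :=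
  (ball G o n).filter fun x => G.dist o x = n

open scoped Classical in
/-- The vertices `h` steps beyond the directed edge from `p` to `c`. -/
noncomputable def fwd (G : SimpleGraph V) (h : ℕ) (p c : V) : Finset V :=
  (ball G c h).filter fun x => G.dist c x = h ∧ G.dist p x = h + 1

variable {G : SimpleGraph V} {d : ℕ}

/-- The standing hypotheses: `G` is the `d`-regular tree, `d ≥ 3`. -/
structure Reg (G : SimpleGraph V) (d : ℕ) : Prop where
  tree : G.IsTree
  deg : ∀ v, (G.neighborSet v).ncard = d
  three : 3 ≤ d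

variable (hR : Reg G d)
include hR

lemma Reg.finite (v : V) : (G.neighborSet v).Finite :=
  Set.finite_of_ncard_pos (by rw [hR.deg]; have := hR.three; omega)

lemma Reg.two_le : (2 : ℝ) ≤ (d : ℝ) - 1 := by
  have : (3 : ℝ) ≤ d := by exact_mod_cast hR.three
  linarith

lemma mem_ball {o x : V} {R : ℕ} : x ∈ ball G o R ↔ G.dist o x ≤ R := by
  rw [ball, dif_pos (finite_dist_le hR.tree hR.finite o R), Set.Finite.mem_toFinset]
  rfl

lemma self_mem_ball (o : V) (R : ℕ) : o ∈ ball G o R := by simp [mem_ball hR]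

lemma mem_sphere {o x : V} {n : ℕ} : x ∈ sphere G o n ↔ G.dist o x = n := by
  classical
  simp only [sphere, mem_filter, mem_ball hR]
  omega

lemma mem_fwd {h : ℕ} {p c x : V} :
    x ∈ fwd G h p c ↔ G.dist c x = h ∧ G.dist p x = h + 1 := by
  classical
  simp only [fwd, mem_filter, mem_ball hR]
  omega

lemma connected_ball (o : V) (R : ℕ) : (G.induce (ball G o R : Set V)).Connected := by
  refine connected_of_closer (u := o) (self_mem_ball hR o R) fun x hx hne => ?_
  obtain ⟨y, hy, hd⟩ := exists_closer hR.tree hne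
  refine ⟨y, (mem_ball hR).2 ?_, hy, hd⟩
  have := (mem_ball hR).1 hx
  omega

lemma ball_subset {o v : V} {R r : ℕ} (h : G.dist o v + r ≤ R) : ball G v r ⊆ ball G o R :=
  fun x hx => (mem_ball hR).2 ((hR.tree.connected.dist_triangle (v := v)).trans (by
    have := (mem_ball hR).1 hx; omega))

lemma ball_map (g : G ≃g G) (o : V) (R : ℕ) :
    (ball G o R).map g.toEquiv.toEmbedding = ball G (g o) R := by
  ext x
  obtain ⟨y, rfl⟩ := g.toEquiv.surjective x
  refine ((mem_map' g.toEquiv.toEmbedding).trans (mem_ball hR)).trans (Iff.trans ?_ (mem_ball hR).symm)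
  exact Iff.of_eq (congrArg (· ≤ R) (dist_map hR.tree.connected g o y).symm)

lemma kid_ball_card {o p c : V} {R : ℕ} (h : G.Adj p c) (hc : G.dist o c + 1 ≤ R) :
    (kid G (ball G o R) p c).card = d - 1 := by
  classical
  have e : kid G (ball G o R) p c = (hR.finite c).toFinset.erase p := by
    ext g
    simp only [mem_kid, mem_ball hR, mem_erase, Set.Finite.mem_toFinset, mem_neighborSet]
    constructor
    · exact fun h => ⟨h.2.2, h.2.1⟩
    · intro h'
      refine ⟨?_, h'.2, h'.1⟩
      have := (hR.tree.connected.dist_triangle (u := o) (v := c) (w := g))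
      have : G.dist c g = 1 := dist_eq_one_iff_adj.2 h'.2
      omega
  rw [e, card_erase_of_mem ((hR.finite c).mem_toFinset.2 h.symm),
    ← Set.ncard_eq_toFinset_card _ (hR.finite c), hR.deg]

lemma kid_ball_root_card {o c : V} {R : ℕ} (hc : G.dist o c + 1 ≤ R) :
    (kid G (ball G o R) c c).card = d := by
  have e : kid G (ball G o R) c c = (hR.finite c).toFinset := by
    ext g
    simp only [mem_kid, mem_ball hR, Set.Finite.mem_toFinset, mem_neighborSet]
    refine ⟨fun h => h.2.1, fun h' => ⟨?_, h', h'.ne'⟩⟩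
    have := (hR.tree.connected.dist_triangle (u := o) (v := c) (w := g))
    have : G.dist c g = 1 := dist_eq_one_iff_adj.2 h'
    omega
  rw [e, ← Set.ncard_eq_toFinset_card _ (hR.finite c), hR.deg]

lemma fwd_zero {p c : V} (h : G.Adj p c) : fwd G 0 p c = {c} := by
  ext x
  rw [mem_fwd hR, mem_singleton, hR.tree.connected.dist_eq_zero_iff]
  refine ⟨fun h => h.1.symm, ?_⟩
  rintro rfl
  exact ⟨rfl, dist_eq_one_iff_adj.2 h⟩

open scoped Classical in
lemma fwd_succ {h : ℕ} {p c : V} (hpc : G.Adj p c) :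
    fwd G (h + 1) p c = ((hR.finite c).toFinset.erase p).biUnion (fwd G h c) := by
  ext x
  simp only [mem_fwd hR, mem_biUnion, mem_erase, Set.Finite.mem_toFinset, mem_neighborSet]
  constructor
  · rintro ⟨hc, hp⟩
    have hne : c ≠ x := fun e => by rw [e, SimpleGraph.dist_self] at hc; omega
    obtain ⟨g, hg, hgd⟩ := exists_closer hR.tree (u := x) (x := c) hne
    rw [SimpleGraph.dist_comm (v := c), SimpleGraph.dist_comm (v := g)] at hgd
    refine ⟨g, ⟨?_, hg⟩, by omega, by omega⟩
    rintro rfl
    omega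
  · rintro ⟨g, ⟨hgp, hg⟩, hgx, hcx⟩
    refine ⟨hcx, ?_⟩
    rcases hR.tree.dist_eq_dist_add_one_of_adj x hpc with e | e
    · rw [SimpleGraph.dist_comm (v := p), SimpleGraph.dist_comm (v := c)] at e
      omega
    · exfalso
      refine hgp (closer_unique hR.tree (u := x) hg hpc.symm ?_ e)
      rw [SimpleGraph.dist_comm (u := x), SimpleGraph.dist_comm (u := x), hgx, hcx]

lemma fwd_disjoint {h : ℕ} (c : V) (S : Set V) (hS : ∀ g ∈ S, G.Adj c g) :
    S.PairwiseDisjoint (fwd G h c) := by
  intro g hg g' hg' hne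
  rw [Function.onFun, Finset.disjoint_left]
  intro x hx hx'
  have a := (mem_fwd hR).1 hx
  have a' := (mem_fwd hR).1 hx'
  refine hne (closer_unique hR.tree (u := x) (hS g hg) (hS g' hg') ?_ ?_) <;>
    rw [SimpleGraph.dist_comm (u := x), SimpleGraph.dist_comm (u := x)] <;> omega

lemma card_fwd : ∀ (h : ℕ) (p c : V), G.Adj p c → (fwd G h p c).card = (d - 1) ^ h := by
  classical
  intro h
  induction h with
  | zero => intro p c hpc; rw [fwd_zero hR hpc]; rfl
  | succ h ih =>
    intro p c hpc
    rw [fwd_succ hR hpc, card_biUnion ((fwd_disjoint hR c _ fun g hg => by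
      simp only [coe_erase, Set.Finite.coe_toFinset, Set.mem_sdiff, mem_neighborSet] at hg
      exact hg.1)), sum_congr rfl fun g hg => ih c g ?_, sum_const,
      card_erase_of_mem ((hR.finite c).mem_toFinset.2 hpc.symm),
      ← Set.ncard_eq_toFinset_card _ (hR.finite c),
      hR.deg, smul_eq_mul, pow_succ]
    · ring
    · exact (hR.finite c).mem_toFinset.1 (mem_erase.1 hg).2

open scoped Classical in
lemma sphere_succ (o : V) (n : ℕ) :
    sphere G o (n + 1) = (hR.finite o).toFinset.biUnion (fwd G n o) := by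
  ext x
  simp only [mem_sphere hR, mem_biUnion, mem_fwd hR, Set.Finite.mem_toFinset, mem_neighborSet]
  constructor
  · intro hx
    have hne : o ≠ x := fun e => by rw [e, SimpleGraph.dist_self] at hx; omega
    obtain ⟨g, hg, hgd⟩ := exists_closer hR.tree (u := x) (x := o) hne
    rw [SimpleGraph.dist_comm (v := o), SimpleGraph.dist_comm (v := g)] at hgd
    exact ⟨g, hg, by omega, hx⟩
  · rintro ⟨g, -, -, h⟩
    exact h

lemma card_sphere (o : V) (n : ℕ) : (sphere G o (n + 1)).card = d * (d - 1) ^ n := by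
  classical
  rw [sphere_succ hR, card_biUnion (fwd_disjoint hR o _ fun g hg => (hR.finite o).mem_toFinset.1 hg),
    sum_congr rfl fun g hg => card_fwd hR n o g ((hR.finite o).mem_toFinset.1 hg), sum_const,
    ← Set.ncard_eq_toFinset_card _ (hR.finite o), hR.deg, smul_eq_mul]

lemma card_ball_le (o : V) : ∀ R : ℕ, (ball G o R).card ≤ (d + 1) ^ R := by
  classical
  intro R
  induction R with
  | zero =>
    rw [pow_zero]
    refine card_le_one.2 fun x hx y hy => ?_
    have hx := hR.tree.connected.dist_eq_zero_iff.1 (Nat.le_zero.1 ((mem_ball hR).1 hx))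
    have hy := hR.tree.connected.dist_eq_zero_iff.1 (Nat.le_zero.1 ((mem_ball hR).1 hy))
    rw [← hx, ← hy]
  | succ R ih =>
    have e : ball G o (R + 1) ⊆ ball G o R ∪ (ball G o R).biUnion fun y => (hR.finite y).toFinset := by
      intro x hx
      have hx := (mem_ball hR).1 hx
      by_cases h : G.dist o x ≤ R
      · exact mem_union_left _ ((mem_ball hR).2 h)
      · have hne : x ≠ o := fun e => by rw [e, SimpleGraph.dist_self] at h; omega
        obtain ⟨y, hy, hd⟩ := exists_closer hR.tree hne
        exact mem_union_right _ (mem_biUnion.2 ⟨y, (mem_ball hR).2 (by omega),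
          (hR.finite y).mem_toFinset.2 hy.symm⟩)
    refine (card_le_card e).trans ((card_union_le _ _).trans ?_)
    refine (Nat.add_le_add_left card_biUnion_le _).trans ?_
    rw [sum_congr rfl fun y _ => (Set.ncard_eq_toFinset_card _ (hR.finite y)).symm.trans (hR.deg y),
      sum_const, smul_eq_mul]
    rw [pow_succ, mul_comm ((d + 1) ^ R) (d + 1)]
    nlinarith

omit hR

/-- Adding a step that does not turn back extends a geodesic. -/
lemma IsGeo.snoc (hT : G.IsTree) {w : ℕ → V} {n : ℕ} (hw : IsGeo G w n) {x : V}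
    (hx : G.Adj (w n) x) (hne : n = 0 ∨ x ≠ w (n - 1)) :
    G.dist (w 0) x = n + 1 := by
  rcases hT.dist_eq_dist_add_one_of_adj (w 0) hx with e | e
  · rcases hne with rfl | hne
    · rw [SimpleGraph.dist_self] at e; omega
    · exfalso
      have hn : n ≠ 0 := by rintro rfl; rw [SimpleGraph.dist_self] at e; omega
      have hadj := (hw.1 (n - 1) (by omega)).symm
      rw [show n - 1 + 1 = n by omega] at hadj
      refine hne (closer_unique hT hx hadj e ?_)
      rw [hw.2 _ le_rfl, hw.2 _ (by omega)]
      omega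
  · rw [e, hw.2 n le_rfl]

include hR

/-- Two vertices beyond the two ends of an edge. -/
lemma dist_fwd_fwd : ∀ (h i : ℕ) (p c a x : V), G.Adj p c → a ∈ fwd G i c p → x ∈ fwd G h p c →
    G.dist a x = i + 1 + h ∧ geo G a x i = p ∧ geo G a x (i + 1) = c := by
  intro h
  induction h with
  | zero =>
    intro i p c a x hpc ha hx
    rw [fwd_zero hR hpc, mem_singleton] at hx
    subst hx
    have hd : G.dist a x = i + 1 := by
      rw [SimpleGraph.dist_comm]; exact ((mem_fwd hR).1 ha).2
    refine ⟨hd, ?_, ?_⟩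
    · have e1 : par G a x = p := by
        refine par_eq hR.tree hpc.symm ?_
        rw [hd, SimpleGraph.dist_comm, ((mem_fwd hR).1 ha).1]
      simp [geo, hd, e1]
    · simp [geo, hd]
  | succ h ih =>
    intro i p c a x hpc ha hx
    classical
    obtain ⟨hcx, hpx⟩ := (mem_fwd hR).1 hx
    have hne : x ≠ c := fun e => by rw [e, SimpleGraph.dist_self] at hcx; omega
    obtain ⟨hadj, hd⟩ := par_spec hR.tree hne
    have hy : par G c x ∈ fwd G h p c := by
      refine (mem_fwd hR).2 ⟨by omega, ?_⟩
      have h1 := hR.tree.connected.dist_triangle (u := p) (v := par G c x) (w := x)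
      rw [dist_eq_one_iff_adj.2 hadj.symm, hpx] at h1
      have h2 := hR.tree.connected.dist_triangle (u := p) (v := c) (w := par G c x)
      rw [dist_eq_one_iff_adj.2 hpc] at h2
      omega
    obtain ⟨e, e1, e2⟩ := ih i p c a _ hpc ha hy
    have hg := isGeo_geo hR.tree a (par G c x)
    rw [e] at hg
    have h0 := geo_zero hR.tree a (par G c x)
    have hend : geo G a (par G c x) (i + 1 + h) = par G c x := by simp [geo, e]
    have hdist : G.dist a x = i + 1 + (h + 1) := by
      have := hg.snoc hR.tree (x := x) (by rw [hend]; exact hadj.symm) (Or.inr fun hx' => ?_)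
      · rw [h0] at this; omega
      · rcases Nat.eq_zero_or_pos h with rfl | hh
        · rw [show i + 1 + 0 - 1 = i by omega, e1] at hx'
          rw [hx', SimpleGraph.dist_self] at hpx
          omega
        · have hgd := hg.dist_eq hR.tree (i := i + 1) (j := i + 1 + h - 1) (by omega) (by omega)
          rw [e2, ← hx', hcx] at hgd
          omega
    have hpar : par G a x = par G c x :=
      par_eq hR.tree hadj (by rw [hdist, e]; omega)
    refine ⟨hdist, ?_, ?_⟩
    · rw [← e1, geo, geo, e, hdist, show i + 1 + (h + 1) - i = (i + 1 + h - i) + 1 by omega,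
        Function.iterate_succ_apply, hpar]
    · rw [← e2, geo, geo, e, hdist, show i + 1 + (h + 1) - (i + 1) = (i + 1 + h - (i + 1)) + 1 by omega,
        Function.iterate_succ_apply, hpar]

omit hR

/-- The mean damping over the geodesics of length `h + 1` starting with the edge from `p` to `c`. -/
noncomputable def Rw (G : SimpleGraph V) (d : ℕ) (θ : ℝ) (B : Finset V) (W : V → Bool → ℝ) :
    ℕ → V → V → ℝ
  | 0, p, c => damp θ (cav G θ B W p c)
  | h + 1, p, c => damp θ (cav G θ B W p c) *
      ((1 / ((d : ℝ) - 1)) * ∑ g ∈ kid G B p c, Rw G d θ B W h c g)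

variable {θ : ℝ} {B : Finset V} {W : V → Bool → ℝ}

include hR

lemma Rw_nonneg (hθ : |θ| < 1) (hW : ∀ v s, 0 < W v s) :
    ∀ h p c, 0 ≤ Rw G d θ B W h p c := by
  have := hR.two_le
  intro h
  induction h with
  | zero => exact fun p c => damp_nonneg hθ (abs_cav hθ.le hW _ _).le
  | succ h ih =>
    exact fun p c => mul_nonneg (damp_nonneg hθ (abs_cav hθ.le hW _ _).le)
      (mul_nonneg (by positivity) (sum_nonneg fun g _ => ih _ _))

lemma Rw_anti (hθ : |θ| < 1) (hW : ∀ v s, 0 < W v s) :
    ∀ h p c, G.Adj p c → Rw G d θ B W (h + 1) p c ≤ Rw G d θ B W h p c := by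
  have hb := hR.two_le
  have key : ∀ (p c : V), G.Adj p c → ∀ f : V → ℝ, (∀ g ∈ kid G B p c, f g ≤ 1) →
      1 / ((d : ℝ) - 1) * ∑ g ∈ kid G B p c, f g ≤ 1 := by
    intro p c hpc f hf
    have h1 : ((kid G B p c).card : ℝ) + 1 ≤ d := by
      exact_mod_cast kid_card_le_of_adj (by have := hR.three; omega) hR.deg hpc
    rw [one_div_mul_eq_div, div_le_one (by linarith)]
    calc ∑ g ∈ kid G B p c, f g ≤ ∑ _g ∈ kid G B p c, (1 : ℝ) := sum_le_sum hf
      _ ≤ _ := by rw [sum_const, nsmul_eq_mul, mul_one]; linarith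
  intro h
  induction h with
  | zero =>
    intro p c hpc
    exact mul_le_of_le_one_right (damp_nonneg hθ (abs_cav hθ.le hW _ _).le)
      (key p c hpc _ fun g _ => damp_le_one hθ (abs_cav hθ.le hW _ _).le)
  | succ h ih =>
    intro p c hpc
    refine mul_le_mul_of_nonneg_left (mul_le_mul_of_nonneg_left ?_ (by positivity))
      (damp_nonneg hθ (abs_cav hθ.le hW _ _).le)
    exact sum_le_sum fun g hg => ih c g (mem_kid.1 hg).2.1

lemma Rw_le_one (hθ : |θ| < 1) (hW : ∀ v s, 0 < W v s) {p c : V} (hpc : G.Adj p c) :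
    ∀ h, Rw G d θ B W h p c ≤ 1 := by
  intro h
  induction h with
  | zero => exact damp_le_one hθ (abs_cav hθ.le hW _ _).le
  | succ h ih => exact (Rw_anti hR hθ hW h p c hpc).trans ih

open scoped Classical in
lemma sum_fwd_pthW (hB : (G.induce (B : Set V)).Connected) :
    ∀ (h : ℕ) (p c : V), G.Adj p c → p ∈ B → c ∈ B →
      ∑ x ∈ (fwd G h p c).filter (· ∈ B), pthW G θ B W (geo G p x) (h + 1) =
        ((d : ℝ) - 1) ^ h * Rw G d θ B W h p c := by
  have hb := hR.two_le
  intro h
  induction h with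
  | zero =>
    intro p c hpc hp hc
    have e : par G p c = p := by
      refine par_eq hR.tree hpc.symm ?_
      rw [SimpleGraph.dist_self, dist_eq_one_iff_adj.2 hpc]
    rw [fwd_zero hR hpc, filter_singleton, if_pos hc, sum_singleton, pow_zero, one_mul, pthW,
      prod_range_one, geo, geo, dist_eq_one_iff_adj.2 hpc]
    simp [Rw, e]
  | succ h ih =>
    intro p c hpc hp hc
    have hset : (fwd G (h + 1) p c).filter (· ∈ B) =
        (kid G B p c).biUnion fun g => (fwd G h c g).filter (· ∈ B) := by
      rw [fwd_succ hR hpc]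
      ext x
      simp only [mem_filter, mem_biUnion, mem_erase, Set.Finite.mem_toFinset, mem_neighborSet, mem_kid]
      constructor
      · rintro ⟨⟨g, ⟨hgp, hg⟩, hx⟩, hxB⟩
        refine ⟨g, ⟨?_, hg, hgp⟩, hx, hxB⟩
        refine closer_mem hR.tree hB (u := x) hxB hc hg ?_
        rw [SimpleGraph.dist_comm, SimpleGraph.dist_comm (u := x), ((mem_fwd hR).1 hx).1,
          ((mem_fwd hR).1 hx).2]
      · rintro ⟨g, ⟨-, hg, hgp⟩, hx, hxB⟩
        exact ⟨⟨g, ⟨hgp, hg⟩, hx⟩, hxB⟩
    have hdisj : (kid G B p c : Set V).PairwiseDisjoint fun g => (fwd G h c g).filter (· ∈ B) := by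
      intro g hg g' hg' hne
      refine Disjoint.mono (filter_subset _ _) (filter_subset _ _) ?_
      exact fwd_disjoint hR c (kid G B p c : Set V) (fun g hg => (mem_kid.1 hg).2.1) hg hg' hne
    rw [hset, sum_biUnion hdisj, Rw]
    have hterm : ∀ g ∈ kid G B p c, ∀ x ∈ (fwd G h c g).filter (· ∈ B),
        pthW G θ B W (geo G p x) (h + 1 + 1) =
          damp θ (cav G θ B W p c) * pthW G θ B W (geo G c x) (h + 1) := by
      intro g hg x hx
      obtain ⟨hgB, hcg, hgp⟩ := mem_kid.1 hg
      have hxf : x ∈ fwd G (h + 1) p c := by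
        rw [fwd_succ hR hpc]
        exact mem_biUnion.2 ⟨g, mem_erase.2 ⟨hgp, (hR.finite c).mem_toFinset.2 hcg⟩, (mem_filter.1 hx).1⟩
      obtain ⟨e, e1, e2⟩ := dist_fwd_fwd hR (h + 1) 0 p c p x hpc
        (by rw [fwd_zero hR hpc.symm]; exact mem_singleton_self p) hxf
      have hw := isGeo_geo hR.tree p x
      rw [show G.dist p x = h + 1 + 1 by omega] at hw
      have hshift := hw.shift hR.tree (k := 1) (by omega)
      rw [pthW, prod_range_succ', mul_comm, e1, e2, pthW]
      congr 1
      refine prod_congr rfl fun i hi => ?_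
      have hh : ∀ j ≤ h + 1, geo G p x (j + 1) = geo G c x j := fun j hj => by
        have := hshift.eq_geo hR.tree (i := j) (by omega)
        simp only [show (1 : ℕ) + 0 = 1 from rfl] at this
        rw [e2] at this
        simp only [show 1 + (h + 1 + 1 - 1) = h + 1 + 1 by omega] at this
        rw [show geo G p x (h + 1 + 1) = x by simp [geo, show G.dist p x = h + 1 + 1 by omega]] at this
        rw [add_comm j 1]
        exact this
      rw [hh i (mem_range.1 hi).le, hh (i + 1) (mem_range.1 hi)]
    rw [sum_congr rfl fun g hg => sum_congr rfl (hterm g hg), sum_congr rfl fun g hg => (mul_sum _ _ _).symm,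
      ← mul_sum, sum_congr rfl fun g hg => ih c g (mem_kid.1 hg).2.1 hc (mem_kid.1 hg).1, ← mul_sum,
      pow_succ]
    field_simp

open scoped Classical in
lemma sum_sphere_pthW (hB : (G.induce (B : Set V)).Connected) {o : V} (ho : o ∈ B) (n : ℕ) :
    ∑ x ∈ (sphere G o (n + 1)).filter (· ∈ B), pthW G θ B W (geo G o x) (n + 1) =
      ((d : ℝ) - 1) ^ n * ∑ g ∈ kid G B o o, Rw G d θ B W n o g := by
  have hset : (sphere G o (n + 1)).filter (· ∈ B) =
      (kid G B o o).biUnion fun g => (fwd G n o g).filter (· ∈ B) := by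
    rw [sphere_succ hR]
    ext x
    simp only [mem_filter, mem_biUnion, Set.Finite.mem_toFinset, mem_neighborSet, mem_kid]
    constructor
    · rintro ⟨⟨g, hg, hx⟩, hxB⟩
      refine ⟨g, ⟨?_, hg, hg.ne'⟩, hx, hxB⟩
      refine closer_mem hR.tree hB (u := x) hxB ho hg ?_
      rw [SimpleGraph.dist_comm, SimpleGraph.dist_comm (u := x), ((mem_fwd hR).1 hx).1,
        ((mem_fwd hR).1 hx).2]
    · rintro ⟨g, ⟨-, hg, -⟩, hx, hxB⟩
      exact ⟨⟨g, hg, hx⟩, hxB⟩
  have hdisj : (kid G B o o : Set V).PairwiseDisjoint fun g => (fwd G n o g).filter (· ∈ B) := by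
    intro g hg g' hg' hne
    refine Disjoint.mono (filter_subset _ _) (filter_subset _ _) ?_
    exact fwd_disjoint hR o (kid G B o o : Set V) (fun g hg => (mem_kid.1 hg).2.1) hg hg' hne
  rw [hset, sum_biUnion hdisj, mul_sum]
  exact sum_congr rfl fun g hg => sum_fwd_pthW hR hB n o g (mem_kid.1 hg).2.1 ho (mem_kid.1 hg).1

end Vale.Agent.P161.Crit
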