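import Vale.Agent.P161.Crit.Static
import Vale.Agent.P161.Crit.Sphere

/-!
# P161, critical point: bounds on the information at a fixed time
-/

open MeasureTheory SimpleGraph Finset

namespace Vale.Agent.P161.Crit

variable {V : Type*} {G : SimpleGraph V} {d : ℕ}

/-- The square root of the dyadic time `2 ^ (-j)`. -/
noncomputable def rt (j : ℕ) : ℝ := Real.sqrt ((1 / 2) ^ j)

/-- The depth `2 ^ ⌈j / 2⌉` over which information at time `2 ^ (-j)` is collected. -/
def depth (j : ℕ) : ℕ := 2 ^ ((j + 1) / 2)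

/-- Couplings near the critical one for the scale `j`. -/
structure NearCrit (d : ℕ) (θ : ℝ) (j : ℕ) : Prop where
  low : 1 / (2 * Real.sqrt ((d : ℝ) - 1)) ≤ θ
  high : θ ^ 2 * ((d : ℝ) - 1) ≤ 1
  close : (1 - θ ^ 2 * ((d : ℝ) - 1)) * depth j ≤ 1 / 2

/-- The slots which the bounds at scale `j` need within distance `r` of `c`. -/
def Covers (P : Run V) (G : SimpleGraph V) (j : ℕ) (c : V) (r : ℕ) : Prop :=
  ∀ v, G.dist c v ≤ r → v ∈ P.B ∧ (v, -(j : ℤ) - 1) ∈ P.A

section Pieces

variable {ι κ : Type*} {fl : (ι → ℝ) → ι → ℝ} {f : Bool → (ι → ℝ) → ℝ} {D : Finset ι}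

/-- The first two moments of a sum of statistics of independent pieces, given the spin `+`. -/
lemma sum_moments {fk : κ → Bool → (ι → ℝ) → ℝ} {Dk : κ → Finset ι} {K : Finset κ}
    (hf : ∀ k ∈ K, IsPiece fl (Dk k) (fk k)) (hd : (K : Set κ).PairwiseDisjoint Dk)
    {η : κ → (ι → ℝ) → ℝ} (hm : ∀ k ∈ K, Measurable (η k)) {C : ℝ}
    (hC : ∀ k ∈ K, ∀ ω, |η k ω| ≤ C) (hdep : ∀ k ∈ K, DependsOn (η k) (Dk k : Set ι)) :
    (∫ ω, pprod K fk true ω * ∑ k ∈ K, η k ω ∂iidU ι =
        ∑ k ∈ K, ∫ ω, fk k true ω * η k ω ∂iidU ι) ∧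
      ∫ ω, pprod K fk true ω * (∑ k ∈ K, η k ω) ^ 2 ∂iidU ι ≤
        (∑ k ∈ K, ∫ ω, fk k true ω * η k ω ^ 2 ∂iidU ι) +
          (∑ k ∈ K, ∫ ω, fk k true ω * η k ω ∂iidU ι) ^ 2 := by
  classical
  have hpm : Measurable (pprod K fk true) :=
    Finset.measurable_fun_prod _ fun k hk => (hf k hk).meas true
  have key : ∀ φ : κ → (ι → ℝ) → ℝ, (∀ k ∈ K, Measurable (φ k)) →
      (∀ k ∈ K, DependsOn (φ k) (Dk k : Set ι)) →
      ∫ ω, pprod K fk true ω * ∏ k ∈ K, φ k ω ∂iidU ι =
        ∏ k ∈ K, ∫ ω, fk k true ω * φ k ω ∂iidU ι := fun φ h1 h2 => by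
    simp only [pprod, ← prod_mul_distrib]
    refine integral_prod_of_disjoint (F := fun k ω => fk k true ω * φ k ω)
      (fun k hk => ((hf k hk).meas true).mul (h1 k hk)) (fun k hk x y h => ?_) hd
    simp only [(hf k hk).dep true h, h2 k hk h]
  have hdep1 : ∀ k ∈ K, DependsOn (fun _ : ι → ℝ => (1 : ℝ)) (Dk k : Set ι) :=
    fun _ _ _ _ _ => rfl
  have one : ∀ k ∈ K,
      ∫ ω, pprod K fk true ω * η k ω ∂iidU ι = ∫ ω, fk k true ω * η k ω ∂iidU ι := by
    intro k hk
    have := key (fun l ω => if l = k then η k ω else 1)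
      (fun l _ => by by_cases e : l = k <;> simp [e, hm k hk])
      (fun l hl x y h => by
        by_cases e : l = k
        · subst e; simp [hdep l hk h]
        · simp [e])
    rw [prod_eq_single k] at this
    · simpa [prod_ite_eq' K k, hk] using this
    · intro l hl hlk
      simpa [hlk] using (hf l hl).norm true
    · exact fun h => absurd hk h
  have two : ∀ k ∈ K, ∀ l ∈ K, ∫ ω, pprod K fk true ω * (η k ω * η l ω) ∂iidU ι =
      if k = l then ∫ ω, fk k true ω * η k ω ^ 2 ∂iidU ι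
      else (∫ ω, fk k true ω * η k ω ∂iidU ι) * ∫ ω, fk l true ω * η l ω ∂iidU ι := by
    intro k hk l hl
    have := key (fun i ω => (if i = k then η k ω else 1) * if i = l then η l ω else 1)
      (fun i _ => Measurable.mul (by by_cases e : i = k <;> simp [e, hm k hk])
        (by by_cases e : i = l <;> simp [e, hm l hl]))
      (fun i hi x y h => by
        by_cases e : i = k <;> by_cases e' : i = l
        · subst e; subst e'; simp [hdep i hi h]
        · subst e; simp [e', hdep i hi h]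
        · subst e'; simp [e, hdep i hi h]
        · simp [e, e'])
    simp only [prod_mul_distrib, prod_ite_eq', hk, hl, if_true] at this
    rw [this]
    split_ifs with e
    · subst e
      rw [prod_eq_single k]
      · simp [sq]
      · intro i hi hik
        simpa [hik] using (hf i hi).norm true
      · exact fun h => absurd hk h
    · rw [← prod_pair (f := fun i => ∫ ω, fk i true ω * η i ω ∂iidU ι) e]
      symm
      refine (prod_congr rfl fun i hi => ?_).trans
        (prod_subset (show {k, l} ⊆ K by simp [insert_subset_iff, hk, hl]) fun i hi hni => ?_)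
      · rcases mem_insert.1 hi with rfl | hi
        · simp [e]
        · rw [mem_singleton] at hi; subst hi; simp [Ne.symm e]
      · simp only [mem_insert, mem_singleton, not_or] at hni
        simpa [hni.1, hni.2] using (hf i hi).norm true
  have hb : ∀ k ∈ K, ∃ M, ∀ ω, |fk k true ω| ≤ M := fun k hk => by
    obtain ⟨M, hM⟩ := (hf k hk).bdd
    exact ⟨M, fun ω => by rw [abs_of_pos ((hf k hk).pos true ω)]; exact hM true ω⟩
  choose! M hM using hb
  have hP : ∀ ω, |pprod K fk true ω| ≤ ∏ k ∈ K, M k := fun ω => by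
    rw [pprod, abs_prod]; exact prod_le_prod (fun k _ => abs_nonneg _) fun k hk => hM k hk ω
  have hi1 : ∀ k ∈ K, Integrable (fun ω => pprod K fk true ω * η k ω) (iidU ι) := fun k hk =>
    integrable_of_abs_le (hpm.mul (hm k hk)) (C := (∏ k ∈ K, M k) * C) fun ω => by
      rw [abs_mul]
      exact mul_le_mul (hP ω) (hC k hk ω) (abs_nonneg _) ((abs_nonneg _).trans (hP ω))
  have hi2 : ∀ k ∈ K, ∀ l ∈ K,
      Integrable (fun ω => pprod K fk true ω * (η k ω * η l ω)) (iidU ι) := fun k hk l hl =>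
    integrable_of_abs_le (hpm.mul ((hm k hk).mul (hm l hl))) (C := (∏ k ∈ K, M k) * (C * C))
      fun ω => by
        rw [abs_mul, abs_mul]
        exact mul_le_mul (hP ω) (mul_le_mul (hC k hk ω) (hC l hl ω) (abs_nonneg _)
          ((abs_nonneg _).trans (hC k hk ω))) (by positivity) ((abs_nonneg _).trans (hP ω))
  constructor
  · simp only [mul_sum]
    rw [integral_finsetSum _ hi1]
    exact sum_congr rfl one
  · simp only [sq (∑ k ∈ K, η k _), sum_mul_sum]
    simp only [mul_sum]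
    rw [integral_finsetSum _ fun k hk => integrable_finsetSum _ fun l hl => hi2 k hk l hl,
      sum_congr rfl fun k hk => integral_finsetSum _ fun l hl => hi2 k hk l hl,
      sum_congr rfl fun k hk => sum_congr rfl fun l hl => two k hk l hl]
    set a := fun k => ∫ ω, fk k true ω * η k ω ∂iidU ι with ha
    set m := fun k => ∫ ω, fk k true ω * η k ω ^ 2 ∂iidU ι with hm'
    calc ∑ k ∈ K, ∑ l ∈ K, (if k = l then m k else a k * a l)
        ≤ ∑ k ∈ K, ∑ l ∈ K, (a k * a l + if k = l then m k else 0) := by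
          refine sum_le_sum fun k _ => sum_le_sum fun l _ => ?_
          split_ifs with e
          · subst e; nlinarith [mul_self_nonneg (a k)]
          · simp
      _ = _ := by
          simp only [sum_add_distrib, sum_ite_eq]
          rw [sum_congr rfl fun k hk => if_pos hk, sq, sum_mul_sum, add_comm]

end Pieces

lemma lo_succ (i : ℤ) : lo (i + 1) = lo i + wid i := by
  simp only [lo, wid]
  rcases lt_trichotomy i (-1) with h | h | h
  · rw [if_pos (by omega), if_pos (by omega), if_pos (by omega), zpow_add_one₀ two_ne_zero]; ring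
  · subst h; norm_num
  · rw [if_neg (by omega), if_neg (by omega), if_neg (by omega)]; push_cast; ring

lemma lo_pos_level (i : ℤ) : 0 < lo i := by
  simp only [lo]
  split_ifs with h
  · positivity
  · have : (0 : ℝ) ≤ (i : ℝ) := by exact_mod_cast not_lt.1 h
    linarith

lemma wid_le_lo (i : ℤ) : wid i ≤ lo i := by
  simp only [lo, wid]
  split_ifs with h
  · exact le_rfl
  · have : (0 : ℝ) ≤ (i : ℝ) := by exact_mod_cast not_lt.1 h
    linarith

/-- Telescoping over a set of levels. -/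
lemma sum_levels_le {g w : ℤ → ℝ} (hw : ∀ i, 0 ≤ w i) (h : ∀ i, w i ≤ g (i + 1) - g i)
    (hg : ∀ i, 0 ≤ g i) (S : Finset ℤ) (n : ℤ) (hS : ∀ i ∈ S, i < n) : ∑ i ∈ S, w i ≤ g n := by
  suffices key : ∀ k : ℕ, ∀ S : Finset ℤ, (∀ i ∈ S, n - k ≤ i ∧ i < n) →
      ∑ i ∈ S, w i ≤ g n - g (n - k) by
    obtain ⟨k, hk⟩ : ∃ k : ℕ, ∀ i ∈ S, n - k ≤ i := ⟨S.sup fun i => (n - i).toNat, fun i hi => by
      have := le_sup (f := fun i => (n - i).toNat) hi
      omega⟩
    have := key k S fun i hi => ⟨hk i hi, hS i hi⟩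
    have := hg (n - k)
    linarith
  intro k
  induction k with
  | zero =>
    intro S hS
    have : S = ∅ := eq_empty_of_forall_notMem fun i hi => by have := hS i hi; omega
    simp [this]
  | succ k ih =>
    intro S hS
    have h1 := ih (S.erase (n - (k + 1 : ℕ))) fun i hi => by
      obtain ⟨hne, hi⟩ := mem_erase.1 hi
      have := hS i hi
      omega
    have h2 := h (n - (k + 1 : ℕ))
    rw [show n - ((k + 1 : ℕ) : ℤ) + 1 = n - k by omega] at h2
    by_cases hm : n - ((k + 1 : ℕ) : ℤ) ∈ S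
    · rw [← add_sum_erase S w hm]; linarith
    · rw [erase_eq_of_notMem hm] at h1
      linarith [hw (n - (k + 1 : ℕ))]

lemma sum_wid_le {t : ℝ} (ht : 0 ≤ t) (S : Finset ℤ) (hS : ∀ i ∈ S, lo i < t) :
    ∑ i ∈ S, wid i ≤ 2 * t := by
  rcases S.eq_empty_or_nonempty with rfl | hne
  · simpa using ht
  have h := sum_levels_le (fun i => (wid_pos i).le) (fun i => by linarith [lo_succ i])
    (fun i => (lo_pos_level i).le) S (S.max' hne + 1) fun i hi => by have := S.le_max' i hi; omega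
  refine h.trans ?_
  rw [lo_succ]
  linarith [wid_le_lo (S.max' hne), hS _ (S.max'_mem hne)]

lemma sum_sqrt_wid_le (J : ℕ) (S : Finset ℤ) (hS : ∀ i ∈ S, i < (J : ℤ)) :
    ∑ i ∈ S, Real.sqrt (wid i) ≤ 3 + J := by
  have hs : 4 / 3 ≤ Real.sqrt 2 := Real.le_sqrt_of_sq_le (by norm_num)
  have h := sum_levels_le (g := fun i => if i < 0 then 3 * Real.sqrt (lo i) else 3 + (i : ℝ))
    (w := fun i => Real.sqrt (wid i)) (fun i => Real.sqrt_nonneg _) ?_ ?_ S J hS
  · simpa [show ¬ ((J : ℤ) < 0) by omega] using h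
  · intro i
    rcases lt_trichotomy i (-1) with h | h | h
    · rw [if_pos (by omega), if_pos (by omega)]
      simp only [lo, wid]
      rw [if_pos (by omega), if_pos (by omega), if_pos (by omega), zpow_add_one₀ two_ne_zero,
        Real.sqrt_mul (by positivity)]
      nlinarith [mul_le_mul_of_nonneg_left hs (Real.sqrt_nonneg ((2 : ℝ) ^ i))]
    · subst h
      norm_num [lo, wid]
      have : (Real.sqrt 2)⁻¹ ≤ (4 / 3 : ℝ)⁻¹ := inv_anti₀ (by norm_num) hs
      norm_num at this
      linarith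
    · rw [if_neg (by omega), if_neg (by omega)]
      simp [wid, show ¬ i < 0 by omega]
  · intro i
    split_ifs with h
    · positivity
    · have : (0 : ℝ) ≤ (i : ℝ) := by exact_mod_cast not_lt.1 h
      linarith

lemma one_sub_sum_le_prod {κ : Type*} (K : Finset κ) (v : κ → ℝ) (h0 : ∀ k ∈ K, 0 ≤ v k)
    (h1 : ∀ k ∈ K, v k ≤ 1) : 1 - ∑ k ∈ K, v k ≤ ∏ k ∈ K, (1 - v k) := by
  classical
  induction K using Finset.induction_on with
  | empty => simp
  | insert a K ha ih =>
    rw [sum_insert ha, prod_insert ha]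
    have h := ih (fun k hk => h0 k (mem_insert_of_mem hk)) fun k hk => h1 k (mem_insert_of_mem hk)
    nlinarith [mul_le_mul_of_nonneg_left h (sub_nonneg.2 (h1 a (mem_insert_self _ _))),
      sum_nonneg fun k hk => h0 k (mem_insert_of_mem hk), h0 a (mem_insert_self _ _),
      mul_nonneg (h0 a (mem_insert_self _ _)) (sum_nonneg fun k hk => h0 k (mem_insert_of_mem hk))]

lemma one_sub_pow_bound {a : ℝ} (h0 : 0 ≤ a) (h1 : a ≤ 1) :
    ∀ n : ℕ, 1 - (1 - a) ^ n ≤ n * a - ((n : ℝ) - 1) * a ^ 2 := by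
  intro n
  induction n with
  | zero => simp; positivity
  | succ n ih =>
    have h := mul_le_mul_of_nonneg_left ih (sub_nonneg.2 h1)
    rcases Nat.eq_zero_or_pos n with rfl | hn
    · simp
    have hn1 : (0 : ℝ) ≤ (n : ℝ) - 1 := by
      have : (1 : ℝ) ≤ n := by exact_mod_cast hn
      linarith
    push_cast
    rw [pow_succ]
    nlinarith [mul_nonneg (mul_nonneg hn1 (sq_nonneg a)) (sub_nonneg.2 h1)]

lemma theta_le {V : Type*} {G : SimpleGraph V} {d : ℕ} (hR : Reg G d) {θ : ℝ}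
    (hθ : θ ^ 2 * ((d : ℝ) - 1) ≤ 1) : θ ≤ 3 / 4 := by
  nlinarith [hR.two_le, sq_nonneg θ, sq_nonneg (θ - 3 / 4)]

/-- The linear statistic collected over `h` steps beyond the edge from `p` to `c`. -/
noncomputable def est (P : Run V) (G : SimpleGraph V) (j : ℕ) (t : ℝ) :
    ℕ → V → V → (V × (ℤ × Bool) → ℝ) → ℝ
  | 0, _, _, _ => 0
  | h + 1, p, c, ω => ∑ k ∈ P.parts G p c, Sum.elim
      (fun s => if s.2 = -(j : ℤ) - 1 then pmag (slotPiece t s) ω else 0)
      (fun g => P.θ * est P G j t h c g ω) k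

lemma pmag_slotPiece_flip (t : ℝ) (s : V × ℤ) (ω : V × (ℤ × Bool) → ℝ) :
    pmag (slotPiece t s) (flipZ ω) = -pmag (slotPiece t s) ω := by
  simp only [pmag, magOf, slotPiece_flip, Bool.not_true, Bool.not_false]
  rw [← neg_div, neg_sub, add_comm]

lemma abs_pmag_slotPiece (t : ℝ) (s : V × ℤ) (ω : V × (ℤ × Bool) → ℝ) :
    |pmag (slotPiece t s) ω| ≤ 1 :=
  (abs_magOf fun σ => (isPiece_slotPiece t s).pos σ ω).le

lemma measurable_pmag_slotPiece (t : ℝ) (s : V × ℤ) :
    Measurable (pmag (slotPiece (V := V) t s)) := by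
  unfold pmag magOf
  exact ((measurable_slotPiece t s true).sub (measurable_slotPiece t s false)).div
    ((measurable_slotPiece t s true).add (measurable_slotPiece t s false))

lemma est_props {V : Type*} {G : SimpleGraph V} {P : Run V} (hP : P.Ok G) (j : ℕ) (t : ℝ) :
    ∀ h : ℕ, ∀ p c : V, c ∈ P.B → (p = c ∨ G.Adj p c) →
      Measurable (est P G j t h p c) ∧ (∃ C : ℝ, ∀ ω, |est P G j t h p c ω| ≤ C) ∧
      (∀ ω, est P G j t h p c (flipZ ω) = -est P G j t h p c ω) ∧
      DependsOn (est P G j t h p c) (P.supp G p c : Set (V × (ℤ × Bool))) := by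
  classical
  intro h
  induction h with
  | zero =>
    intro p c _ _
    exact ⟨measurable_const, ⟨0, fun ω => by simp [est]⟩, fun ω => by simp [est], fun _ _ _ => rfl⟩
  | succ h ih =>
    intro p c hc hcp
    have hg : ∀ {g}, g ∈ kid G P.B p c → g ∈ P.B ∧ G.Adj c g := fun hg =>
      ⟨(mem_kid.1 hg).1, (mem_kid.1 hg).2.1⟩
    refine ⟨?_, ?_, ?_, ?_⟩
    · refine Finset.measurable_fun_sum _ fun k hk => ?_
      obtain ⟨s, hs, rfl⟩ | ⟨g, hg', rfl⟩ := mem_disjSum.1 hk
      · simp only [Sum.elim_inl]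
        by_cases e : s.2 = -(j : ℤ) - 1 <;> simp [e, measurable_pmag_slotPiece t s]
      · simp only [Sum.elim_inr]
        exact (ih c g (hg hg').1 (Or.inr (hg hg').2)).1.const_mul _
    · have hb : ∀ k ∈ P.parts G p c, ∃ C : ℝ, ∀ ω, |Sum.elim
          (fun s => if s.2 = -(j : ℤ) - 1 then pmag (slotPiece t s) ω else 0)
          (fun g => P.θ * est P G j t h c g ω) k| ≤ C := by
        intro k hk
        obtain ⟨s, hs, rfl⟩ | ⟨g, hg', rfl⟩ := mem_disjSum.1 hk
        · refine ⟨1, fun ω => ?_⟩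
          simp only [Sum.elim_inl]
          split_ifs
          · exact abs_pmag_slotPiece t s ω
          · simp
        · obtain ⟨C, hC⟩ := (ih c g (hg hg').1 (Or.inr (hg hg').2)).2.1
          exact ⟨|P.θ| * C, fun ω => by
            simp only [Sum.elim_inr, abs_mul]
            exact mul_le_mul_of_nonneg_left (hC ω) (abs_nonneg _)⟩
      choose! C hC using hb
      exact ⟨∑ k ∈ P.parts G p c, C k, fun ω =>
        (abs_sum_le_sum_abs _ _).trans (sum_le_sum fun k hk => hC k hk ω)⟩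
    · intro ω
      simp only [est, ← sum_neg_distrib]
      refine sum_congr rfl fun k hk => ?_
      obtain ⟨s, hs, rfl⟩ | ⟨g, hg', rfl⟩ := mem_disjSum.1 hk
      · simp only [Sum.elim_inl]
        split_ifs
        · exact pmag_slotPiece_flip t s ω
        · simp
      · simp only [Sum.elim_inr, (ih c g (hg hg').1 (Or.inr (hg hg').2)).2.2.1 ω, mul_neg]
    · intro x y hxy
      simp only [est]
      refine sum_congr rfl fun k hk => ?_
      have hsub : ∀ i ∈ P.partD G c k, x i = y i := fun i hi =>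
        hxy i (Finset.mem_coe.2 (hP.partD_subset hc hcp k hk hi))
      obtain ⟨s, hs, rfl⟩ | ⟨g, hg', rfl⟩ := mem_disjSum.1 hk
      · simp only [Run.partD, Sum.elim_inl] at hsub ⊢
        have e : ∀ σ, slotPiece t s σ x = slotPiece t s σ y := fun σ =>
          dependsOn_slotPiece t s σ fun i hi => hsub i (Finset.mem_coe.1 hi)
        simp [pmag, e]
      · simp only [Run.partD, Sum.elim_inr] at hsub ⊢
        rw [(ih c g (hg hg').1 (Or.inr (hg hg').2)).2.2.2 fun i hi => hsub i (Finset.mem_coe.1 hi)]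

lemma rt_pos (j : ℕ) : 0 < rt j := by
  exact Real.sqrt_pos.2 (by positivity)

lemma rt_le_one (j : ℕ) : rt j ≤ 1 := by
  exact Real.sqrt_le_one.2 (pow_le_one₀ (by norm_num) (by norm_num))

lemma rt_mul_depth (j : ℕ) : 1 ≤ rt j * depth j ∧ rt j * depth j ≤ 2 := by
  have hr : 0 ≤ rt j * depth j := mul_nonneg (rt_pos j).le (Nat.cast_nonneg _)
  have hsq : (rt j * depth j) ^ 2 = (1 / 2 : ℝ) ^ j * (2 : ℝ) ^ (2 * ((j + 1) / 2)) := by
    rw [mul_pow, rt, Real.sq_sqrt (by positivity), depth]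
    push_cast
    rw [← pow_mul, mul_comm ((j + 1) / 2) 2]
  have hcases : 2 * ((j + 1) / 2) = j ∨ 2 * ((j + 1) / 2) = j + 1 := by omega
  have h12 : (rt j * depth j) ^ 2 = 1 ∨ (rt j * depth j) ^ 2 = 2 := by
    rcases hcases with e | e
    · left; rw [hsq, e, ← mul_pow]; norm_num
    · right; rw [hsq, e, pow_succ, ← mul_assoc, ← mul_pow]; norm_num
  rcases h12 with e | e <;> constructor <;> nlinarith

theorem info_pm_le (d : ℕ) : ∃ K : ℝ, 0 ≤ K ∧ ∀ {V : Type*} {G : SimpleGraph V}, Reg G d →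
    ∀ P : Run V, P.Ok G → P.θ ^ 2 * ((d : ℝ) - 1) ≤ 1 → ∀ t : ℝ, 0 ≤ t → ∀ p c : V, c ∈ P.B →
      (p = c ∨ G.Adj p c) → info (P.pm G t p c) ≤ K * Real.sqrt t := by
  refine ⟨3 * d, by positivity, ?_⟩
  intro V G hR P hP hθ t ht p c hc hcp
  classical
  have hb := hR.two_le
  set b : ℝ := (d : ℝ) - 1 with hbdef
  set X : ℝ := (d : ℝ) * Real.sqrt t with hX
  have hX0 : 0 ≤ X := mul_nonneg (Nat.cast_nonneg d) (Real.sqrt_nonneg t)
  have hgoal : 3 * (d : ℝ) * Real.sqrt t = 3 * X := by rw [hX]; ring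
  rw [hgoal]
  rcases le_total 1 X with h1 | h1
  · exact (info_le_one (hP.isPiece_pm t hc hcp)).trans (by linarith)
  set a : ℝ := P.θ ^ 2 * X with ha
  have ha0 : 0 ≤ a := mul_nonneg (sq_nonneg _) hX0
  have hab : b * a ≤ X := by
    rw [ha, ← mul_assoc, mul_comm b]
    exact mul_le_of_le_one_left hX0 hθ
  have hab2 : 2 * a ≤ X := by nlinarith
  have ha1 : a ≤ 1 := by linarith
  have htX : t * (d : ℝ) ^ 2 = X ^ 2 := by rw [hX, mul_pow, Real.sq_sqrt ht]; ring
  -- one step
  have step : ∀ p c : V, c ∈ P.B → (p = c ∨ G.Adj p c) →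
      (∀ g ∈ kid G P.B p c, info (P.pm G t c g) ≤ X) → ∀ N : ℕ, (kid G P.B p c).card ≤ N →
        info (P.pm G t p c) ≤ t / 12 + (1 - (1 - a) ^ N) := by
    intro p c hc hcp hg N hN
    have h := prod_one_sub_info_le measurePreserving_flipZ (hP.isPiece_part t (p := p) (c := c))
      hP.partD_disjoint
    rw [← hP.pm_eq t hc hcp] at h
    simp only [Run.parts, prod_disjSum, Run.part, Sum.elim_inl, Sum.elim_inr] at h
    set T := P.A.filter (fun s => s.1 = c) with hTdef
    have hV : ∑ s ∈ T, info (slotPiece (V := V) t s) ≤ t / 12 := by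
      refine (sum_le_sum fun s _ => info_slotPiece_le t s).trans ?_
      rw [← sum_filter]
      have hinj : Set.InjOn (Prod.snd : V × ℤ → ℤ) (T.filter fun s => lo s.2 < t : Finset _) := by
        intro x hx y hy e
        simp only [coe_filter, Set.mem_ofPred_eq, hTdef, mem_filter] at hx hy
        exact Prod.ext (hx.1.2.trans hy.1.2.symm) e
      rw [← sum_image (g := Prod.snd) (f := fun i => wid i / 24) hinj, ← sum_div]
      have := sum_wid_le ht ((T.filter fun s => lo s.2 < t).image Prod.snd) fun i hi => by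
        obtain ⟨s, hs, rfl⟩ := mem_image.1 hi
        exact (mem_filter.1 hs).2
      linarith
    have hV0 : 0 ≤ ∑ s ∈ T, info (slotPiece (V := V) t s) :=
      sum_nonneg fun s _ => info_nonneg (isPiece_slotPiece t s)
    have hV1 := one_sub_sum_le_prod T (fun s => info (slotPiece (V := V) t s))
      (fun s _ => info_nonneg (isPiece_slotPiece t s)) fun s _ => info_le_one (isPiece_slotPiece t s)
    have hW : (1 - a) ^ N ≤ ∏ g ∈ kid G P.B p c, (1 - info (ppull P.θ (P.pm G t c g))) := by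
      refine (pow_le_pow_of_le_one (sub_nonneg.2 ha1) (by linarith) hN).trans ?_
      rw [← prod_const]
      refine prod_le_prod (fun g _ => sub_nonneg.2 ha1) fun g hg' => ?_
      rw [info_ppull hP.abs_lt (hP.isPiece_pm t (mem_kid.1 hg').1 (Or.inr (mem_kid.1 hg').2.1))]
      have := mul_le_mul_of_nonneg_left (hg g hg') (sq_nonneg P.θ)
      linarith
    have hY0 : 0 ≤ (1 - a) ^ N := pow_nonneg (sub_nonneg.2 ha1) N
    have hY1 : (1 - a) ^ N ≤ 1 := pow_le_one₀ (sub_nonneg.2 ha1) (by linarith)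
    have hP0 : 0 ≤ ∏ s ∈ T, (1 - info (slotPiece (V := V) t s)) :=
      prod_nonneg fun s _ => sub_nonneg.2 (info_le_one (isPiece_slotPiece t s))
    have h2 := (mul_le_mul_of_nonneg_right hV1 hY0).trans (mul_le_mul_of_nonneg_left hW hP0)
    have h3 := mul_le_mul_of_nonneg_left hY1 hV0
    linarith
  have adjcase : ∀ n, ∀ p c : V, c ∈ P.B → G.Adj p c → (far G P.B p c).card ≤ n →
      info (P.pm G t p c) ≤ X := by
    intro n
    induction n with
    | zero =>
      intro p c hc hpc hcard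
      have : c ∈ far G P.B p c := mem_far.2 ⟨hc, by
        rw [SimpleGraph.dist_self]; exact hP.tree.connected.pos_dist_of_ne hpc.ne'⟩
      have := card_pos.2 ⟨c, this⟩
      omega
    | succ n ih =>
      intro p c hc hpc hcard
      have hd1 : ((d - 1 : ℕ) : ℝ) = b := by
        rw [Nat.cast_sub (by have := hR.three; omega), Nat.cast_one]
      have hN := kid_card_le_of_adj (B := P.B) (by have := hR.three; omega) hR.deg hpc
      refine (step p c hc (Or.inr hpc) (fun g hg => ih c g (mem_kid.1 hg).1 (mem_kid.1 hg).2.1 ?_)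
        (d - 1) (by omega)).trans ?_
      · have := card_lt_card ((far_subset hP.tree hg (Or.inr hpc) hc).2 hpc.ne)
        omega
      · have hy0 : 0 ≤ X / b := div_nonneg hX0 (by linarith)
        have hy1 : X / b ≤ 1 := (div_le_one (by linarith)).2 (by linarith)
        have hay : a ≤ X / b := by rw [le_div_iff₀ (by linarith)]; linarith
        have hmono := pow_le_pow_left₀ (sub_nonneg.2 hy1) (show 1 - X / b ≤ 1 - a by linarith) (d - 1)
        have hbd := one_sub_pow_bound hy0 hy1 (d - 1)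
        rw [hd1] at hbd
        have key : t / 12 ≤ (b - 1) * (X / b) ^ 2 := by
          rw [div_pow, ← htX, mul_div_assoc', le_div_iff₀ (by positivity)]
          have e2 : b ^ 2 ≤ (d : ℝ) ^ 2 := pow_le_pow_left₀ (by linarith) (by rw [hbdef]; linarith) 2
          nlinarith [mul_le_mul_of_nonneg_left e2 ht, mul_nonneg ht (sq_nonneg (d : ℝ))]
        have e3 : b * (X / b) = X := by field_simp
        linarith
  rcases hcp with rfl | hpc
  · refine (step p p hc (Or.inl rfl) (fun g hg => adjcase _ p g (mem_kid.1 hg).1 (mem_kid.1 hg).2.1 le_rfl)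
      d (kid_card_le (by have := hR.three; omega) hR.deg p p)).trans ?_
    have hbd := one_sub_pow_bound ha0 ha1 d
    have e : (d : ℝ) = b + 1 := by rw [hbdef]; ring
    have hsq : X ^ 2 ≤ X := by nlinarith
    have hd2 : 1 ≤ (d : ℝ) ^ 2 := by nlinarith
    have htle : t ≤ X := by nlinarith
    rw [e] at hbd
    nlinarith [sq_nonneg a]
  · linarith [adjcase _ p c hc hpc le_rfl]

/-- The recursion for the first two moments of the linear statistic. -/
lemma est_step {V : Type*} {G : SimpleGraph V} {P : Run V} (hP : P.Ok G) (j : ℕ) (t : ℝ) (h : ℕ)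
    {p c : V} (hcB : c ∈ P.B) (hcA : (c, -(j : ℤ) - 1) ∈ P.A) (hcp : p = c ∨ G.Adj p c) {v : ℝ}
    (hslot : ∀ u : V, info (slotPiece (V := V) t (u, -(j : ℤ) - 1)) = v) :
    (∫ ω, P.pm G t p c true ω * est P G j t (h + 1) p c ω ∂iidU (V × (ℤ × Bool)) =
        v + P.θ ^ 2 * ∑ g ∈ kid G P.B p c,
          ∫ ω, P.pm G t c g true ω * est P G j t h c g ω ∂iidU (V × (ℤ × Bool))) ∧
      ∫ ω, P.pm G t p c true ω * est P G j t (h + 1) p c ω ^ 2 ∂iidU (V × (ℤ × Bool)) ≤
        (v + P.θ ^ 2 * ∑ g ∈ kid G P.B p c,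
          ∫ ω, P.pm G t c g true ω * est P G j t h c g ω ^ 2 ∂iidU (V × (ℤ × Bool))) +
        (v + P.θ ^ 2 * ∑ g ∈ kid G P.B p c,
          ∫ ω, P.pm G t c g true ω * est P G j t h c g ω ∂iidU (V × (ℤ × Bool))) ^ 2 := by
  classical
  set i₀ : ℤ := -(j : ℤ) - 1 with hi₀
  have hkid : ∀ g ∈ kid G P.B p c, G.Adj c g ∧ g ∈ P.B := fun g hg =>
    ⟨(mem_kid.1 hg).2.1, (mem_kid.1 hg).1⟩
  let η : (V × ℤ) ⊕ V → (V × (ℤ × Bool) → ℝ) → ℝ := fun k ω => Sum.elim
    (fun s => if s.2 = -(j : ℤ) - 1 then pmag (slotPiece t s) ω else 0)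
    (fun g => P.θ * est P G j t h c g ω) k
  have hest : est P G j t (h + 1) p c = fun ω => ∑ k ∈ P.parts G p c, η k ω := rfl
  have hm : ∀ k ∈ P.parts G p c, Measurable (η k) := by
    intro k hk
    obtain ⟨s, hs, rfl⟩ | ⟨g, hg, rfl⟩ := mem_disjSum.1 hk
    · simp only [η, Sum.elim_inl]
      by_cases e : s.2 = -(j : ℤ) - 1 <;> simp [e, measurable_pmag_slotPiece t s]
    · exact (est_props hP j t h c g (hkid g hg).2 (Or.inr (hkid g hg).1)).1.const_mul _
  have hbd : ∀ k ∈ P.parts G p c, ∃ C : ℝ, ∀ ω, |η k ω| ≤ C := by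
    intro k hk
    obtain ⟨s, hs, rfl⟩ | ⟨g, hg, rfl⟩ := mem_disjSum.1 hk
    · refine ⟨1, fun ω => ?_⟩
      simp only [η, Sum.elim_inl]
      split_ifs
      · exact abs_pmag_slotPiece t s ω
      · simp
    · obtain ⟨C, hC⟩ := (est_props hP j t h c g (hkid g hg).2 (Or.inr (hkid g hg).1)).2.1
      exact ⟨|P.θ| * C, fun ω => by
        simp only [η, Sum.elim_inr, abs_mul]
        exact mul_le_mul_of_nonneg_left (hC ω) (abs_nonneg _)⟩
  choose! C hC using hbd
  have hdep : ∀ k ∈ P.parts G p c, DependsOn (η k) (P.partD G c k : Set (V × (ℤ × Bool))) := by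
    intro k hk x y hxy
    obtain ⟨s, hs, rfl⟩ | ⟨g, hg, rfl⟩ := mem_disjSum.1 hk
    · have e : ∀ σ, slotPiece t s σ x = slotPiece t s σ y := fun σ =>
        dependsOn_slotPiece t s σ hxy
      simp [η, pmag, e]
    · simp only [η, Sum.elim_inr]
      rw [(est_props hP j t h c g (hkid g hg).2 (Or.inr (hkid g hg).1)).2.2.2 hxy]
  obtain ⟨h1, h2⟩ := sum_moments (hP.isPiece_part t (p := p) (c := c)) hP.partD_disjoint hm
    (C := ∑ k ∈ P.parts G p c, |C k|)
    (fun k hk ω => ((hC k hk ω).trans (le_abs_self _)).trans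
      (single_le_sum (f := fun k => |C k|) (fun _ _ => abs_nonneg _) hk)) hdep
  rw [← hP.pm_eq t hcB hcp] at h1 h2
  -- the pieces
  have hinl1 : ∀ u : V, ∫ ω, slotPiece t (u, i₀) true ω * pmag (slotPiece t (u, i₀)) ω
      ∂iidU (V × (ℤ × Bool)) = v := by
    intro u
    have hp := isPiece_slotPiece (V := V) t (u, i₀)
    have hpm := measurable_pmag_slotPiece t (u, i₀)
    have hpb := abs_pmag_slotPiece t (u, i₀)
    have hfl := integral_piece_flip measurePreserving_flipZ hp hpm (-1)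
      (fun ω => by rw [pmag_slotPiece_flip]; ring) false
    rw [Bool.not_false] at hfl
    rw [← hslot u, info]
    have e : ∀ ω, bar (slotPiece t (u, i₀)) ω * pmag (slotPiece t (u, i₀)) ω ^ 2 =
        (slotPiece t (u, i₀) true ω * pmag (slotPiece t (u, i₀)) ω -
          slotPiece t (u, i₀) false ω * pmag (slotPiece t (u, i₀)) ω) / 2 := fun ω => by
      have h1 := hp.pos true ω
      have h2 := hp.pos false ω
      rw [bar, pmag, magOf]
      field_simp
    simp only [e]
    rw [integral_div, integral_sub (integrable_piece_mul hp hpm hpb true)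
      (integrable_piece_mul hp hpm hpb false), hfl]
    ring
  have hinl2 : ∀ u : V, ∫ ω, slotPiece t (u, i₀) true ω * pmag (slotPiece t (u, i₀)) ω ^ 2
      ∂iidU (V × (ℤ × Bool)) = v := by
    intro u
    rw [← hslot u, info, integral_bar_eq measurePreserving_flipZ (isPiece_slotPiece t (u, i₀))
      ((measurable_pmag_slotPiece t (u, i₀)).pow_const 2) (C := 1)]
    · intro ω
      rw [abs_pow]
      exact pow_le_one₀ (abs_nonneg _) (abs_pmag_slotPiece t _ ω)
    · intro ω; simp [pmag_slotPiece_flip]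
  have hslots : ∀ (F : (V × ℤ) → ℝ), (∀ s, s.2 ≠ i₀ → F s = 0) →
      ∑ s ∈ P.A.filter (fun s => s.1 = c), F s = F (c, i₀) := by
    intro F hF
    rw [sum_eq_single (c, i₀)]
    · intro s hs hne
      exact hF s fun e => hne (Prod.ext (mem_filter.1 hs).2 e)
    · exact fun hn => absurd (show (c, i₀) ∈ P.A.filter (fun s => s.1 = c) from mem_filter.2 ⟨hcA, rfl⟩) hn
  have hkid1 : ∀ g ∈ kid G P.B p c, ∫ ω, ppull P.θ (P.pm G t c g) true ω *
      (P.θ * est P G j t h c g ω) ∂iidU (V × (ℤ × Bool)) =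
      P.θ ^ 2 * ∫ ω, P.pm G t c g true ω * est P G j t h c g ω ∂iidU (V × (ℤ × Bool)) := by
    intro g hg
    obtain ⟨hadj, hgB⟩ := hkid g hg
    obtain ⟨hem, ⟨Ce, hCe⟩, hodd, -⟩ := est_props hP j t h c g hgB (Or.inr hadj)
    have hp := hP.isPiece_pm t hgB (Or.inr hadj)
    have hfl := integral_piece_flip measurePreserving_flipZ hp hem (-1)
      (fun ω => by rw [hodd]; ring) false
    rw [Bool.not_false] at hfl
    have e : ∀ ω, ppull P.θ (P.pm G t c g) true ω * (P.θ * est P G j t h c g ω) =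
        P.θ * (1 + P.θ) / 2 * (P.pm G t c g true ω * est P G j t h c g ω) +
          P.θ * (1 - P.θ) / 2 * (P.pm G t c g false ω * est P G j t h c g ω) := fun ω => by
      simp only [ppull, pull, sgn, if_true]; ring
    simp only [e]
    rw [integral_add ((integrable_piece_mul hp hem hCe true).const_mul _)
      ((integrable_piece_mul hp hem hCe false).const_mul _), integral_const_mul,
      integral_const_mul, hfl]
    ring
  have hkid2 : ∀ g ∈ kid G P.B p c, ∫ ω, ppull P.θ (P.pm G t c g) true ω *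
      (P.θ * est P G j t h c g ω) ^ 2 ∂iidU (V × (ℤ × Bool)) =
      P.θ ^ 2 * ∫ ω, P.pm G t c g true ω * est P G j t h c g ω ^ 2 ∂iidU (V × (ℤ × Bool)) := by
    intro g hg
    obtain ⟨hadj, hgB⟩ := hkid g hg
    obtain ⟨hem, ⟨Ce, hCe⟩, hodd, -⟩ := est_props hP j t h c g hgB (Or.inr hadj)
    have hp := hP.isPiece_pm t hgB (Or.inr hadj)
    have hev : ∀ ω, (P.θ * est P G j t h c g (flipZ ω)) ^ 2 = (P.θ * est P G j t h c g ω) ^ 2 :=
      fun ω => by rw [hodd]; ring
    rw [← integral_bar_eq measurePreserving_flipZ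
      (isPiece_ppull hP.abs_lt measurePreserving_flipZ hp) ((hem.const_mul _).pow_const 2)
      (C := (|P.θ| * Ce) ^ 2) (fun ω => by
        rw [abs_pow, abs_mul]
        exact pow_le_pow_left₀ (by positivity)
          (mul_le_mul_of_nonneg_left (hCe ω) (abs_nonneg _)) 2) hev]
    rw [← integral_bar_eq measurePreserving_flipZ hp (hem.pow_const 2) (C := Ce ^ 2)
      (fun ω => by rw [abs_pow]; exact pow_le_pow_left₀ (abs_nonneg _) (hCe ω) 2)
      (fun ω => by rw [hodd, neg_sq]), ← integral_const_mul]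
    refine integral_congr_ae (ae_of_all _ fun ω => ?_)
    simp only [bar_ppull]
    ring
  have hA : ∑ k ∈ P.parts G p c, ∫ ω, P.part G t c k true ω * η k ω ∂iidU (V × (ℤ × Bool)) =
      v + P.θ ^ 2 * ∑ g ∈ kid G P.B p c,
        ∫ ω, P.pm G t c g true ω * est P G j t h c g ω ∂iidU (V × (ℤ × Bool)) := by
    simp only [Run.parts, sum_disjSum, η, Run.part, Sum.elim_inl, Sum.elim_inr]
    rw [hslots _ fun s hs => by simp [show ¬ s.2 = -(j : ℤ) - 1 from hs], sum_congr rfl hkid1, mul_sum]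
    congr 1
    simp only [hi₀, if_true]
    exact hinl1 c
  have hQ : ∑ k ∈ P.parts G p c, ∫ ω, P.part G t c k true ω * η k ω ^ 2 ∂iidU (V × (ℤ × Bool)) =
      v + P.θ ^ 2 * ∑ g ∈ kid G P.B p c,
        ∫ ω, P.pm G t c g true ω * est P G j t h c g ω ^ 2 ∂iidU (V × (ℤ × Bool)) := by
    simp only [Run.parts, sum_disjSum, η, Run.part, Sum.elim_inl, Sum.elim_inr]
    rw [hslots _ fun s hs => by simp [show ¬ s.2 = -(j : ℤ) - 1 from hs], sum_congr rfl hkid2, mul_sum]
    congr 1
    simp only [hi₀, if_true]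
    exact hinl2 c
  rw [← hA, ← hQ]
  simp only [hest]
  exact ⟨h1, h2⟩

theorem info_pm_ge (d : ℕ) : ∃ K : ℝ, 0 < K ∧ ∀ {V : Type*} {G : SimpleGraph V}, Reg G d →
    ∀ P : Run V, P.Ok G → ∀ j : ℕ, NearCrit d P.θ j → ∀ t : ℝ, (1 / 2) ^ j ≤ t → ∀ p c : V,
      G.Adj p c → Covers P G j c (depth j) → K * rt j ≤ info (P.pm G t p c) := by
  refine ⟨1 / 384, by norm_num, ?_⟩
  intro V G hR P hP j hN t ht p c hpc hcov
  classical
  set H : ℕ := depth j with hH
  set v : ℝ := (1 / 2) ^ j / 48 with hv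
  set i₀ : ℤ := -(j : ℤ) - 1 with hi₀
  have hv0 : 0 < v := by positivity
  have hwid : wid i₀ = (1 / 2) ^ j / 2 := by
    rw [wid, if_pos (by omega), hi₀, zpow_sub_one₀ two_ne_zero, zpow_neg, zpow_natCast, one_div, inv_pow]
    ring
  have hslot : ∀ u : V, info (slotPiece (V := V) t (u, i₀)) = v := by
    intro u
    rw [info_slotPiece_full (s := (u, i₀)), hwid]
    · rw [hv]; ring
    · show lo i₀ + wid i₀ ≤ t
      have : lo i₀ = wid i₀ := by rw [lo, wid, if_pos (by omega), if_pos (by omega)]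
      rw [this, hwid]
      linarith
  set β : ℝ := P.θ ^ 2 * ((d : ℝ) - 1) with hβ
  have hβ0 : 0 ≤ β := mul_nonneg (sq_nonneg _) (by linarith [hR.two_le])
  have hH0 : (0 : ℝ) < H := by rw [hH, depth]; positivity
  set ε : ℝ := 1 / (2 * (H : ℝ)) with hε
  have hβ1 : β ≤ 1 := hN.high
  have hβ2 : 1 - ε ≤ β := by
    have : (1 - β) * H ≤ 1 / 2 := hN.close
    have e : ε * (H : ℝ) = 1 / 2 := by rw [hε]; field_simp
    nlinarith
  have hvH2 : v * (H : ℝ) ^ 2 ≤ 1 := by
    have h2 := (rt_mul_depth j).2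
    have e : rt j ^ 2 = (1 / 2) ^ j := Real.sq_sqrt (by positivity)
    have : rt j ^ 2 * (H : ℝ) ^ 2 ≤ 4 := by
      rw [← mul_pow]
      nlinarith [(rt_mul_depth j).1]
    rw [hv, ← e]
    nlinarith
  have main : ∀ h : ℕ, h ≤ H → ∀ p c : V, G.Adj p c → Covers P G j c h →
      ((h : ℝ) * v * (1 - h * ε) ≤ ∫ ω, P.pm G t p c true ω * est P G j t h p c ω ∂iidU (V × (ℤ × Bool)) ∧
      (∫ ω, P.pm G t p c true ω * est P G j t h p c ω ∂iidU (V × (ℤ × Bool))) ≤ h * v) ∧
      (∫ ω, P.pm G t p c true ω * est P G j t h p c ω ^ 2 ∂iidU (V × (ℤ × Bool))) ≤ 2 * h * v := by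
    intro h
    induction h with
    | zero => intro _ p c _ _; simp [est]
    | succ h ih =>
      intro hh p c hpc hcv
      obtain ⟨hcB, hcA⟩ := hcv c (by simp)
      have hkid : ∀ g ∈ kid G P.B p c, G.Adj c g ∧ g ∈ P.B ∧ Covers P G j g h := fun g hg => by
        refine ⟨(mem_kid.1 hg).2.1, (mem_kid.1 hg).1, fun x hx => hcv x ?_⟩
        have := hP.tree.connected.dist_triangle (u := c) (v := g) (w := x)
        rw [dist_eq_one_iff_adj.2 (mem_kid.1 hg).2.1] at this
        omega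
      have hcard : ((kid G P.B p c).card : ℝ) = (d : ℝ) - 1 := by
        have e : kid G P.B p c = (hR.finite c).toFinset.erase p := by
          ext g
          simp only [mem_kid, mem_erase, Set.Finite.mem_toFinset, SimpleGraph.mem_neighborSet]
          refine ⟨fun hg => ⟨hg.2.2, hg.2.1⟩, fun hg => ⟨(hcv g ?_).1, hg.2, hg.1⟩⟩
          rw [dist_eq_one_iff_adj.2 hg.2]
          omega
        rw [e, card_erase_of_mem ((hR.finite c).mem_toFinset.2 hpc.symm),
          ← Set.ncard_eq_toFinset_card _ (hR.finite c), hR.deg,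
          Nat.cast_sub (by have := hR.three; omega), Nat.cast_one]
      obtain ⟨hA, h2⟩ := est_step hP j t h hcB hcA (Or.inr hpc) hslot
      rw [hA]
      have ihg := fun g hg => ih (by omega) c g (hkid g hg).1 (hkid g hg).2.2
      have s1 := sum_le_sum fun g hg => (ihg g hg).1.1
      have s2 := sum_le_sum fun g hg => (ihg g hg).1.2
      have s3 := sum_le_sum fun g hg => (ihg g hg).2
      simp only [sum_const, nsmul_eq_mul, hcard] at s1 s2 s3
      have t1 := mul_le_mul_of_nonneg_left s1 (sq_nonneg P.θ)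
      have t2 := mul_le_mul_of_nonneg_left s2 (sq_nonneg P.θ)
      have t3 := mul_le_mul_of_nonneg_left s3 (sq_nonneg P.θ)
      rw [← mul_assoc, ← hβ] at t1 t2 t3
      have hhR : (h : ℝ) + 1 ≤ H := by exact_mod_cast hh
      have hε0 : 0 ≤ ε := by positivity
      have hεH : (h : ℝ) * ε ≤ 1 := by
        rw [hε, mul_one_div, div_le_one (by positivity)]
        linarith
      have h0h : 0 ≤ (h : ℝ) * v := by positivity
      have hlow : (1 - ε) * ((h : ℝ) * v * (1 - h * ε)) ≤ β * ((h : ℝ) * v * (1 - h * ε)) :=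
        mul_le_mul_of_nonneg_right hβ2 (mul_nonneg h0h (sub_nonneg.2 hεH))
      have hup : β * ((h : ℝ) * v) ≤ (h : ℝ) * v := mul_le_of_le_one_left h0h hβ1
      have hup2 : β * (2 * (h : ℝ) * v) ≤ 2 * (h : ℝ) * v := mul_le_of_le_one_left (by positivity) hβ1
      push_cast
      refine ⟨⟨?_, by linarith⟩, ?_⟩
      · nlinarith [mul_nonneg hv0.le hε0, mul_nonneg (mul_nonneg h0h hε0) hε0, Nat.cast_nonneg (α := ℝ) h]
      · refine h2.trans ?_
        set A1 := v + P.θ ^ 2 * ∑ g ∈ kid G P.B p c,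
            ∫ ω, P.pm G t c g true ω * est P G j t h c g ω ∂iidU (V × (ℤ × Bool)) with hA1
        have hA0 : 0 ≤ A1 := by
          have : 0 ≤ β * ((h : ℝ) * v * (1 - h * ε)) :=
            mul_nonneg hβ0 (mul_nonneg h0h (sub_nonneg.2 hεH))
          linarith
        have hAH : A1 ≤ (H : ℝ) * v := by nlinarith
        have : A1 ^ 2 ≤ v := by
          refine (pow_le_pow_left₀ hA0 hAH 2).trans ?_
          have := mul_le_mul_of_nonneg_left hvH2 hv0.le
          nlinarith
        linarith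
  obtain ⟨⟨hlow, -⟩, hsec⟩ := main H le_rfl p c hpc hcov
  have hcB : c ∈ P.B := (hcov c (by simp)).1
  obtain ⟨hem, ⟨Ce, hCe⟩, hodd, -⟩ := est_props hP j t H p c hcB (Or.inr hpc)
  have hp := hP.isPiece_pm t hcB (Or.inr hpc)
  have htest := test_le_info hp hem hCe (1 / 4)
  have hfl := integral_piece_flip measurePreserving_flipZ hp hem (-1)
    (fun ω => by rw [hodd]; ring) false
  rw [Bool.not_false] at hfl
  rw [hfl, integral_bar_eq measurePreserving_flipZ hp (hem.pow_const 2) (C := Ce ^ 2)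
    (fun ω => by rw [abs_pow]; exact pow_le_pow_left₀ (abs_nonneg _) (hCe ω) 2)
    (fun ω => by rw [hodd, neg_sq])] at htest
  have e : (H : ℝ) * ε = 1 / 2 := by rw [hε]; field_simp
  rw [e] at hlow
  have hfin : 1 / 384 * rt j ≤ (H : ℝ) * v / 8 := by
    have h1 := (rt_mul_depth j).1
    have h2 : rt j * rt j = (1 / 2) ^ j := Real.mul_self_sqrt (by positivity)
    rw [hv, ← h2]
    nlinarith [mul_le_mul_of_nonneg_left h1 (rt_pos j).le]
  linarith

/-- The sides are uniformly away from certainty when the levels are bounded above. -/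
theorem abs_cav_wts (d : ℕ) (J : ℕ) : ∃ r : ℝ, 0 ≤ r ∧ r < 1 ∧ ∀ {V : Type*} {G : SimpleGraph V},
    Reg G d → ∀ θ : ℝ, 0 ≤ θ → θ ^ 2 * ((d : ℝ) - 1) ≤ 1 → ∀ B : Finset V, ∀ S : Finset (V × ℤ),
      (∀ s ∈ S, s.2 < (J : ℤ)) → ∀ (y : V × ℤ → ℝ) (p c : V),
        |cav G θ B (wts S y) p c| ≤ r := by
  set L : ℝ := Real.exp (4 * (2 + (J : ℝ))) * 7 ^ d with hL
  have hL1 : 1 ≤ L := one_le_mul_of_one_le_of_one_le (Real.one_le_exp (by positivity)) (one_le_pow₀ (by norm_num))
  refine ⟨(L - 1) / (L + 1), div_nonneg (by linarith) (by linarith),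
    (div_lt_one (by linarith)).2 (by linarith), ?_⟩
  intro V G hR θ hθ0 hθ B S hS y p c
  classical
  have hθ3 := theta_le hR hθ
  have habs : |θ| < 1 := by rw [abs_of_nonneg hθ0]; linarith
  set K : ℝ := Real.exp (4 * (2 + (J : ℝ))) with hK
  have hK1 : 1 ≤ K := Real.one_le_exp (by positivity)
  have hr : ∀ v σ, wts S y v σ ≤ K * wts S y v (!σ) := by
    intro v σ
    set S' := S.filter (fun s => s.1 = v) with hS'
    have e : ∀ τ, wts S y v τ = wts S' y v τ := fun τ => by
      simp only [wts, hS', filter_filter, and_self]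
    rw [e, e]
    refine (wts_ratio S' y v σ).trans (mul_le_mul_of_nonneg_right (Real.exp_le_exp.2 ?_)
      (wts_pos S' y v _).le)
    refine mul_le_mul_of_nonneg_left ?_ (by norm_num)
    have hinj : Set.InjOn (Prod.snd : V × ℤ → ℤ) (S' : Set (V × ℤ)) := by
      intro a ha b hb he
      simp only [hS', coe_filter, Set.mem_ofPred_eq] at ha hb
      exact Prod.ext (ha.2.trans hb.2.symm) he
    rw [← sum_image (g := Prod.snd) (f := eps) hinj]
    simp only [eps]
    rw [← sum_div]
    have := sum_sqrt_wid_le J (S'.image Prod.snd) fun i hi => by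
      obtain ⟨s, hs, rfl⟩ := mem_image.1 hi
      exact hS s (mem_filter.1 hs).1
    have : (0 : ℝ) ≤ J := Nat.cast_nonneg J
    linarith
  have hratio : (1 + |θ|) / (1 - |θ|) ≤ 7 := by
    rw [abs_of_nonneg hθ0, div_le_iff₀ (by linarith)]; linarith
  have hr0 : 0 ≤ (1 + |θ|) / (1 - |θ|) := div_nonneg (by positivity) (by linarith)
  refine (abs_cav_le habs (wts_pos S y) hK1 hr
    (fun p c => kid_card_le (by have := hR.three; omega) hR.deg p c) p c).trans ?_
  have hLe : K * ((1 + |θ|) / (1 - |θ|)) ^ d ≤ L :=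
    mul_le_mul_of_nonneg_left (pow_le_pow_left₀ hr0 hratio d) (by linarith)
  have h0 : 0 ≤ K * ((1 + |θ|) / (1 - |θ|)) ^ d := mul_nonneg (by linarith) (pow_nonneg hr0 d)
  rw [div_le_div_iff₀ (by linarith) (by linarith)]
  linarith

end Vale.Agent.P161.Crit
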