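import Vale.Agent.P161.Crit.Jump
import Vale.Agent.P161.Crit.StaticInfo
import Vale.Agent.P161.Crit.Hoeffding
import Mathlib.MeasureTheory.Integral.DominatedConvergence

/-!
# P161, critical point: convergence of the mean damping exponent

No rate is needed. The information of a side grows with the slots (it is the second moment of a
martingale) and with the coupling (a smaller coupling is a degraded channel), so it is close to its
supremum in a fixed finite window, and the mean damping exponent is then close to its value there,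
which is continuous in the coupling.
-/

open MeasureTheory SimpleGraph Finset Filter
open scoped Topology

namespace Vale.Agent.P161.Crit

variable {V : Type*} {G : SimpleGraph V}

/-- The mean damping exponent of one directed edge. -/
noncomputable def meanLr (G : SimpleGraph V) (d n J : ℕ) (p c : V) (R : ℕ) (t : ℝ) : ℝ :=
  ∫ ω, lr (thN d n) (cav G (thN d n) (ball G c R) ((runN G d n J c R).st G ω t) p c)
    ∂iidU (V × (ℤ × Bool))

/-! ### The degradation order -/

/-- A sublinear test function of a pair of likelihoods, given by its supporting linear forms. -/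
structure Sublin (ψ : ℝ → ℝ → ℝ) : Prop where
  meas : Measurable fun x : ℝ × ℝ => ψ x.1 x.2
  bdd : ∃ C, 0 ≤ C ∧ ∀ a b, 0 < a → 0 < b → |ψ a b| ≤ C * (a + b)
  supp : ∀ a b, 0 < a → 0 < b → ∃ α β : ℝ,
    ψ a b = α * a + β * b ∧ ∀ a' b', 0 < a' → 0 < b' → α * a' + β * b' ≤ ψ a' b'

/-- The test function giving the information. -/
noncomputable def infoFn (a b : ℝ) : ℝ := (a - b) ^ 2 / (2 * (a + b))

lemma sublin_infoFn : Sublin infoFn := by
  refine ⟨((measurable_fst.sub measurable_snd).pow_const 2).div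
    (measurable_const.mul (measurable_fst.add measurable_snd)), ⟨1, zero_le_one, fun a b ha hb => ?_⟩,
    fun a b ha hb => ?_⟩
  · rw [infoFn, abs_of_nonneg (by positivity), div_le_iff₀ (by linarith)]
    nlinarith
  · refine ⟨(a - b) / (a + b) - ((a - b) / (a + b)) ^ 2 / 2,
      -((a - b) / (a + b)) - ((a - b) / (a + b)) ^ 2 / 2, ?_, fun a' b' ha' hb' => ?_⟩
    · have : a + b ≠ 0 := by linarith
      rw [infoFn]; field_simp; ring
    · rw [infoFn, le_div_iff₀ (by linarith)]
      nlinarith [sq_nonneg ((a' - b') - (a - b) / (a + b) * (a' + b'))]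

variable {ι : Type*} {fl : (ι → ℝ) → ι → ℝ}

/-- `g` is at least as informative as `f`. -/
def PLe (f g : Bool → (ι → ℝ) → ℝ) : Prop :=
  ∀ ψ, Sublin ψ →
    ∫ ω, ψ (f true ω) (f false ω) ∂iidU ι ≤ ∫ ω, ψ (g true ω) (g false ω) ∂iidU ι

lemma Sublin.integrable {ψ : ℝ → ℝ → ℝ} (hψ : Sublin ψ) {f : Bool → (ι → ℝ) → ℝ}
    {D : Finset ι} (hf : IsPiece fl D f) :
    Integrable (fun ω => ψ (f true ω) (f false ω)) (iidU ι) := by
  obtain ⟨C, hC0, hC⟩ := hψ.bdd
  obtain ⟨K, hK⟩ := hf.bdd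
  refine integrable_of_abs_le (hψ.meas.comp ((hf.meas true).prodMk (hf.meas false)))
    (C := C * (K + K)) fun ω => (hC _ _ (hf.pos _ ω) (hf.pos _ ω)).trans ?_
  exact mul_le_mul_of_nonneg_left (add_le_add (hK _ ω) (hK _ ω)) hC0

/-- Two independent pieces: replacing the first. -/
lemma PLe.mul {f g F : Bool → (ι → ℝ) → ℝ} {D E : Finset ι} (hf : IsPiece fl D f)
    (hg : IsPiece fl D g) (hF : IsPiece fl E F) (hDE : Disjoint D E) (h : PLe f g) :
    PLe (fun s ω => f s ω * F s ω) fun s ω => g s ω * F s ω := by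
  classical
  intro ψ hψ
  obtain ⟨C, hC0, hC⟩ := hψ.bdd
  obtain ⟨L, hL⟩ := hF.bdd
  have key : ∀ g : Bool → (ι → ℝ) → ℝ, IsPiece fl D g →
      ∫ ω, ψ (g true ω * F true ω) (g false ω * F false ω) ∂iidU ι =
        ∫ u, ∫ z, ψ (g true z * F true u) (g false z * F false u) ∂iidU ι ∂iidU ι ∧
      Integrable (fun u => ∫ z, ψ (g true z * F true u) (g false z * F false u) ∂iidU ι)
        (iidU ι) := by
    intro g hg
    obtain ⟨K, hK⟩ := hg.bdd
    have hm : Measurable fun p : (ι → ℝ) × (ι → ℝ) =>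
        ψ (g true p.1 * F true p.2) (g false p.1 * F false p.2) :=
      hψ.meas.comp ((((hg.meas true).comp measurable_fst).mul ((hF.meas true).comp measurable_snd)).prodMk
        (((hg.meas false).comp measurable_fst).mul ((hF.meas false).comp measurable_snd)))
    have hi := integrable_of_abs_le (m := (iidU ι).prod (iidU ι)) hm (C := C * (K * L + K * L))
      fun p => (hC _ _ (mul_pos (hg.pos _ _) (hF.pos _ _)) (mul_pos (hg.pos _ _) (hF.pos _ _))).trans
        (mul_le_mul_of_nonneg_left (add_le_add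
          (mul_le_mul (hK _ _) (hL _ _) (hF.pos _ _).le ((hg.pos _ _).le.trans (hK true p.1)))
          (mul_le_mul (hK _ _) (hL _ _) (hF.pos _ _).le ((hg.pos _ _).le.trans (hK true p.1)))) hC0)
    refine ⟨?_, hi.integral_prod_right⟩
    conv_lhs => rw [← map_merge D]
    rw [integral_map (f := fun ω => ψ (g true ω * F true ω) (g false ω * F false ω))
      (measurable_merge D).aemeasurable
      (hψ.meas.comp (((hg.meas true).mul (hF.meas true)).prodMk
        ((hg.meas false).mul (hF.meas false)))).aestronglyMeasurable]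
    have e : ∀ p : (ι → ℝ) × (ι → ℝ), ψ (g true (merge D p) * F true (merge D p))
        (g false (merge D p) * F false (merge D p)) =
        ψ (g true p.1 * F true p.2) (g false p.1 * F false p.2) := by
      intro p
      have e1 : ∀ s, g s (merge D p) = g s p.1 := fun s =>
        hg.dep s fun i hi => by simp [merge, Finset.mem_coe.1 hi]
      have e2 : ∀ s, F s (merge D p) = F s p.2 := fun s => hF.dep s fun i hi => by
        simp [merge, Finset.disjoint_right.1 hDE (Finset.mem_coe.1 hi)]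
      simp only [e1, e2]
    simp only [e]
    exact integral_prod_symm _ hi
  rw [(key f hf).1, (key g hg).1]
  refine integral_mono (key f hf).2 (key g hg).2 fun u => ?_
  refine h (fun a b => ψ (a * F true u) (b * F false u)) ⟨?_, ⟨C * L, ?_, fun a b ha hb => ?_⟩,
    fun a b ha hb => ?_⟩
  · exact hψ.meas.comp ((measurable_fst.mul_const _).prodMk (measurable_snd.mul_const _))
  · exact mul_nonneg hC0 ((hF.pos true u).le.trans (hL _ u))
  · refine (hC _ _ (mul_pos ha (hF.pos _ u)) (mul_pos hb (hF.pos _ u))).trans ?_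
    rw [mul_assoc, mul_comm a, mul_comm b]
    refine mul_le_mul_of_nonneg_left ?_ hC0
    nlinarith [mul_le_mul_of_nonneg_right (hL true u) ha.le,
      mul_le_mul_of_nonneg_right (hL false u) hb.le]
  · obtain ⟨α, β, e, hle⟩ := hψ.supp _ _ (mul_pos ha (hF.pos true u)) (mul_pos hb (hF.pos false u))
    refine ⟨α * F true u, β * F false u, by rw [e]; ring, fun a' b' ha' hb' => ?_⟩
    exact le_trans (le_of_eq (by ring)) (hle _ _ (mul_pos ha' (hF.pos _ u)) (mul_pos hb' (hF.pos _ u)))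

lemma PLe.pprod {κ : Type*} (hfl : MeasurePreserving fl (iidU ι) (iidU ι)) {K : Finset κ}
    {f g : κ → Bool → (ι → ℝ) → ℝ} {D : κ → Finset ι} (hf : ∀ k ∈ K, IsPiece fl (D k) (f k))
    (hg : ∀ k ∈ K, IsPiece fl (D k) (g k)) (hd : (K : Set κ).PairwiseDisjoint D)
    (h : ∀ k ∈ K, PLe (f k) (g k)) : PLe (Crit.pprod K f) (Crit.pprod K g) := by
  classical
  induction K using Finset.induction_on with
  | empty => intro ψ _; simp [Crit.pprod]
  | insert a K ha ih =>
    intro ψ hψ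
    have hd' : (K : Set κ).PairwiseDisjoint D := hd.subset (coe_subset.2 (subset_insert a K))
    have hKf := fun k hk => hf k (mem_insert_of_mem hk)
    have hKg := fun k hk => hg k (mem_insert_of_mem hk)
    have pf := isPiece_pprod hfl hKf hd'
    have pg := isPiece_pprod hfl hKg hd'
    have hdis : Disjoint (D a) (K.biUnion D) := (disjoint_biUnion_right _ _ _).2 fun k hk =>
      hd (by simp) (by simp [hk]) fun e => ha (e ▸ hk)
    have h1 := (h a (mem_insert_self _ _)).mul (hf a (mem_insert_self _ _))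
      (hg a (mem_insert_self _ _)) pf hdis ψ hψ
    have h2 := (ih hKf hKg hd' fun k hk => h k (mem_insert_of_mem hk)).mul pf pg
      (hg a (mem_insert_self _ _)) hdis.symm ψ hψ
    simp only [mul_comm (Crit.pprod K f _ _), mul_comm (Crit.pprod K g _ _)] at h2
    simp only [Crit.pprod, prod_insert ha] at h1 h2 ⊢
    exact h1.trans h2

/-- A smaller coupling is a degraded channel. -/
lemma PLe.ppull {f g : Bool → (ι → ℝ) → ℝ} {D : Finset ι}
    (hfl : MeasurePreserving fl (iidU ι) (iidU ι)) {θ θ' : ℝ} (h0 : 0 ≤ θ) (hle : θ ≤ θ')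
    (h1 : θ' < 1) (hg : IsPiece fl D g) (h : PLe f g) :
    PLe (Crit.ppull θ f) (Crit.ppull θ' g) := by
  intro ψ hψ
  obtain ⟨C, hC0, hC⟩ := hψ.bdd
  have ha0 : |θ| ≤ 1 := abs_le.2 ⟨by linarith, by linarith⟩
  have pp : ∀ a b : ℝ, 0 < a → 0 < b → ∀ s, 0 < pull θ (fun r => if r then a else b) s :=
    fun a b ha hb s => pull_pos ha0 (fun r => by cases r <;> simp [ha, hb]) s
  have e : ∀ (k : Bool → (ι → ℝ) → ℝ) ω s,
      Crit.ppull θ k s ω = pull θ (fun r => if r then k true ω else k false ω) s := fun k ω s => by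
    simp [Crit.ppull, pull]
  have step : ∫ ω, ψ (Crit.ppull θ f true ω) (Crit.ppull θ f false ω) ∂iidU ι ≤
      ∫ ω, ψ (Crit.ppull θ g true ω) (Crit.ppull θ g false ω) ∂iidU ι := by
    simp only [e]
    refine h (fun a b => ψ (pull θ (fun r => if r then a else b) true)
      (pull θ (fun r => if r then a else b) false)) ⟨?_, ⟨C, hC0, fun a b ha hb => ?_⟩,
      fun a b ha hb => ?_⟩
    · simp only [pull, if_true, Bool.false_eq_true, if_false]
      exact hψ.meas.comp (((measurable_fst.const_mul _).add (measurable_snd.const_mul _)).prodMk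
        ((measurable_fst.const_mul _).add (measurable_snd.const_mul _)))
    · refine (hC _ _ (pp a b ha hb _) (pp a b ha hb _)).trans (le_of_eq ?_)
      simp only [pull, sgn, if_true, Bool.false_eq_true, if_false]; ring
    · obtain ⟨α, β, e', hle'⟩ := hψ.supp _ _ (pp a b ha hb true) (pp a b ha hb false)
      refine ⟨α * ((1 + θ) / 2) + β * ((1 - θ) / 2), α * ((1 - θ) / 2) + β * ((1 + θ) / 2), ?_,
        fun a' b' ha' hb' => le_trans (le_of_eq ?_) (hle' _ _ (pp a' b' ha' hb' _) (pp a' b' ha' hb' _))⟩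
      · rw [e']; simp [pull, sgn]; ring
      · simp [pull, sgn]; ring
  refine step.trans ?_
  rcases eq_or_lt_of_le (h0.trans hle) with h' | h'
  · rw [show θ = θ' by linarith]
  have hlam0 : 0 ≤ θ / θ' := div_nonneg h0 h'.le
  have hlam1 : θ / θ' ≤ 1 := (div_le_one h').2 hle
  have hp' := isPiece_ppull (abs_lt.2 ⟨by linarith, h1⟩) hfl hg
  have hp := isPiece_ppull (abs_lt.2 ⟨by linarith, lt_of_le_of_lt hle h1⟩) hfl hg
  have hi : ∀ {k : Bool → (ι → ℝ) → ℝ}, IsPiece fl D k → ∀ s, Integrable (k s) (iidU ι) :=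
    fun {k} hk s => by
      obtain ⟨K, hK⟩ := hk.bdd
      exact integrable_of_abs_le (hk.meas s) fun ω => by
        rw [abs_of_pos (hk.pos s ω)]; exact hK s ω
  obtain ⟨α, β, h11, hle1⟩ := hψ.supp 1 1 one_pos one_pos
  have hdiag : ∀ m : ℝ, 0 < m → ψ m m = m * ψ 1 1 := by
    intro m hm
    obtain ⟨α', β', em, hlem⟩ := hψ.supp m m hm hm
    refine le_antisymm ?_ ?_
    · rw [em]; nlinarith [hlem 1 1 one_pos one_pos]
    · rw [h11]; linarith [hle1 m m hm hm]
  have hbar : Integrable (fun ω => bar g ω * ψ 1 1) (iidU ι) :=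
    (((hi hg true).add (hi hg false)).div_const 2).mul_const _
  have hjen : ψ 1 1 ≤ ∫ ω, ψ (Crit.ppull θ' g true ω) (Crit.ppull θ' g false ω) ∂iidU ι := by
    have : ∫ ω, (α * Crit.ppull θ' g true ω + β * Crit.ppull θ' g false ω) ∂iidU ι = ψ 1 1 := by
      rw [integral_add ((hi hp' true).const_mul α) ((hi hp' false).const_mul β), integral_const_mul,
        integral_const_mul, hp'.norm, hp'.norm, h11]
    rw [← this]
    exact integral_mono (((hi hp' true).const_mul α).add ((hi hp' false).const_mul β))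
      (hψ.integrable hp') fun ω => hle1 _ _ (hp'.pos _ ω) (hp'.pos _ ω)
  calc ∫ ω, ψ (Crit.ppull θ g true ω) (Crit.ppull θ g false ω) ∂iidU ι
      ≤ ∫ ω, (θ / θ' * ψ (Crit.ppull θ' g true ω) (Crit.ppull θ' g false ω) +
          (1 - θ / θ') * (bar g ω * ψ 1 1)) ∂iidU ι := by
        refine integral_mono (hψ.integrable hp)
          (((hψ.integrable hp').const_mul _).add (hbar.const_mul _)) fun ω => ?_
        have hm : 0 < bar g ω := by rw [bar]; linarith [hg.pos true ω, hg.pos false ω]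
        obtain ⟨α', β', e', hle'⟩ := hψ.supp _ _ (hp.pos true ω) (hp.pos false ω)
        have a1 := hle' _ _ (hp'.pos true ω) (hp'.pos false ω)
        have a2 := hle' _ _ hm hm
        rw [hdiag _ hm] at a2
        have em : ∀ s, Crit.ppull θ g s ω =
            θ / θ' * Crit.ppull θ' g s ω + (1 - θ / θ') * bar g ω := fun s => by
          cases s <;> simp [Crit.ppull, pull, bar, sgn] <;> field_simp <;> ring
        show ψ _ _ ≤ _
        rw [e', em, em]
        nlinarith [mul_le_mul_of_nonneg_left a1 hlam0,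
          mul_le_mul_of_nonneg_left a2 (sub_nonneg.2 hlam1)]
    _ ≤ _ := by
        rw [integral_add ((hψ.integrable hp').const_mul _) (hbar.const_mul _), integral_const_mul,
          integral_const_mul, integral_mul_const]
        have hone : ∫ ω, bar g ω ∂iidU ι = 1 := by
          simp only [bar]
          rw [integral_div, integral_add (hi hg true) (hi hg false), hg.norm, hg.norm]
          norm_num
        rw [hone, one_mul]
        nlinarith [mul_le_mul_of_nonneg_left hjen (sub_nonneg.2 hlam1)]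

lemma info_mono {f g : Bool → (ι → ℝ) → ℝ} {D : Finset ι} (hf : IsPiece fl D f)
    (hg : IsPiece fl D g) (h : PLe f g) : info f ≤ info g := by
  have e : ∀ k : Bool → (ι → ℝ) → ℝ, IsPiece fl D k →
      info k = ∫ ω, infoFn (k true ω) (k false ω) ∂iidU ι := fun k hk =>
    integral_congr_ae (ae_of_all _ fun ω => by
      have := hk.pos true ω
      have := hk.pos false ω
      simp only [bar, pmag, magOf, infoFn]
      field_simp)
  rw [e f hf, e g hg]
  exact h _ sublin_infoFn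

/-! ### Monotonicity in the coupling and in the slots -/

lemma supp_θ (θ θ' : ℝ) (B : Finset V) (A : Finset (V × ℤ)) (p c : V) :
    (⟨θ, B, A⟩ : Run V).supp G p c = (⟨θ', B, A⟩ : Run V).supp G p c := rfl

lemma pm_ple {θ θ' : ℝ} {B : Finset V} {A : Finset (V × ℤ)} (h : (⟨θ, B, A⟩ : Run V).Ok G)
    (hle : θ ≤ θ') (h1 : θ' < 1) (t : ℝ) : ∀ n, ∀ p c : V, c ∈ B → G.Adj p c →
      (far G B p c).card ≤ n →
      PLe ((⟨θ, B, A⟩ : Run V).pm G t p c) ((⟨θ', B, A⟩ : Run V).pm G t p c) := by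
  classical
  have h' : (⟨θ', B, A⟩ : Run V).Ok G := ⟨h.tree, h.nonneg.trans hle, h1, h.conn, h.sub⟩
  intro n
  induction n with
  | zero =>
    intro p c hc hpc hcard
    have : c ∈ far G B p c := mem_far.2 ⟨hc, by
      rw [SimpleGraph.dist_self]; exact h.tree.connected.pos_dist_of_ne hpc.ne'⟩
    have := card_pos.2 ⟨c, this⟩
    omega
  | succ n ih =>
    intro p c hc hpc hcard
    rw [h.pm_eq t hc (Or.inr hpc), h'.pm_eq t hc (Or.inr hpc)]
    refine PLe.pprod measurePreserving_flipZ (D := (⟨θ, B, A⟩ : Run V).partD G c)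
      (K := (⟨θ, B, A⟩ : Run V).parts G p c)
      (h.isPiece_part t (p := p) (c := c)) (h'.isPiece_part t (p := p) (c := c)) h.partD_disjoint ?_
    intro k hk
    obtain ⟨s, hs, rfl⟩ | ⟨g, hg, rfl⟩ := mem_disjSum.1 hk
    · exact fun ψ _ => le_rfl
    · refine PLe.ppull measurePreserving_flipZ h.nonneg hle h1
        (h'.isPiece_pm t (mem_kid.1 hg).1 (Or.inr (mem_kid.1 hg).2.1))
        (ih c g (mem_kid.1 hg).1 (mem_kid.1 hg).2.1 ?_)
      have := card_lt_card ((far_subset h.tree hg (Or.inr hpc) hc).2 hpc.ne)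
      simp only at this ⊢
      omega

open scoped Classical in
/-- Averaging out the extra slots removes them. -/
lemma avgOut_pm {θ : ℝ} {B : Finset V} {A A' : Finset (V × ℤ)} (hA : A ⊆ A')
    (h : (⟨θ, B, A'⟩ : Run V).Ok G) (t : ℝ) : ∀ n, ∀ p c : V, c ∈ B → G.Adj p c →
      (far G B p c).card ≤ n → ∀ σ,
      avgOut ((⟨θ, B, A'⟩ : Run V).pm G t p c σ) (A.biUnion slotD) =
        (⟨θ, B, A⟩ : Run V).pm G t p c σ := by
  classical
  have h₀ : (⟨θ, B, A⟩ : Run V).Ok G :=
    ⟨h.tree, h.nonneg, h.lt_one, h.conn, fun s hs => h.sub s (hA hs)⟩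
  intro n
  induction n with
  | zero =>
    intro p c hc hpc hcard
    have : c ∈ far G B p c := mem_far.2 ⟨hc, by
      rw [SimpleGraph.dist_self]; exact h.tree.connected.pos_dist_of_ne hpc.ne'⟩
    have := card_pos.2 ⟨c, this⟩
    omega
  | succ n ih =>
    intro p c hc hpc hcard σ
    funext z
    set T := A.biUnion (slotD (V := V)) with hT
    rw [h.pm_eq t hc (Or.inr hpc), h₀.pm_eq t hc (Or.inr hpc)]
    have hpc' := h.isPiece_part t (p := p) (c := c)
    simp only [avgOut, pprod]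
    rw [integral_prod_of_disjoint
      (F := fun k u => (⟨θ, B, A'⟩ : Run V).part G t c k σ (merge T (z, u)))
      (D := (⟨θ, B, A'⟩ : Run V).partD G c)
      (fun k hk => ((hpc' k hk).meas σ).comp (measurable_merge_right T z))
      (fun k hk u u' e => (hpc' k hk).dep σ fun i hi => by
        simp only [merge]; split_ifs
        · rfl
        · exact e i hi) h.partD_disjoint]
    simp only [Run.parts, prod_disjSum, Run.part, Sum.elim_inl, Sum.elim_inr]
    congr 1
    · symm
      refine ((prod_congr rfl fun s hs => (if_pos (mem_filter.1 hs).1).symm).trans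
        (prod_subset (filter_subset_filter _ hA)
          (f := fun s => if s ∈ A then slotPiece t s σ z else 1) ?_)).trans ?_
      · intro s hs hs'
        exact if_neg fun e => hs' (mem_filter.2 ⟨e, (mem_filter.1 hs).2⟩)
      · refine prod_congr rfl fun s hs => ?_
        by_cases hsA : s ∈ A
        · rw [if_pos hsA]
          have hmem : ∀ i ∈ slotD s, i ∈ T := fun i hi => mem_biUnion.2 ⟨s, hsA, hi⟩
          have : ∀ u, slotPiece t s σ (merge T (z, u)) = slotPiece t s σ z := fun u =>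
            dependsOn_slotPiece t s σ fun i hi => by simp [merge, hmem i (Finset.mem_coe.1 hi)]
          simp [this]
        · rw [if_neg hsA]
          have hmem : ∀ i ∈ slotD s, i ∉ T := fun i hi hiT => by
            obtain ⟨s', hs', hi'⟩ := mem_biUnion.1 hiT
            simp only [slotD, Finset.mem_insert, Finset.mem_singleton] at hi hi'
            refine hsA (?_ : s ∈ A)
            have : s = s' := by
              rcases hi with rfl | rfl <;> rcases hi' with e | e <;>
                simp only [Prod.mk.injEq] at e <;> exact Prod.ext e.1 e.2.1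
            rw [this]; exact hs'
          have : ∀ u, slotPiece t s σ (merge T (z, u)) = slotPiece t s σ u := fun u =>
            dependsOn_slotPiece t s σ fun i hi => by simp [merge, hmem i (Finset.mem_coe.1 hi)]
          simp only [this]
          exact ((isPiece_slotPiece t s).norm σ).symm
    · refine prod_congr rfl fun g hg => ?_
      have hadj := (mem_kid.1 hg).2.1
      have hpg := h.isPiece_pm t (mem_kid.1 hg).1 (Or.inr hadj)
      have hi : ∀ r, Integrable (fun u => (⟨θ, B, A'⟩ : Run V).pm G t c g r (merge T (z, u)))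
          (iidU (V × (ℤ × Bool))) := fun r => by
        obtain ⟨K, hK⟩ := hpg.bdd
        exact integrable_of_abs_le ((hpg.meas r).comp (measurable_merge_right T z)) fun u => by
          rw [abs_of_pos (hpg.pos r _)]; exact hK r _
      have hlt := card_lt_card ((far_subset h.tree hg (Or.inr hpc) hc).2 hpc.ne)
      have e : ∀ r, ∫ u, (⟨θ, B, A'⟩ : Run V).pm G t c g r (merge T (z, u))
          ∂iidU (V × (ℤ × Bool)) = (⟨θ, B, A⟩ : Run V).pm G t c g r z := fun r =>
        congrFun (ih c g (mem_kid.1 hg).1 hadj (by omega) r) z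
      simp only [ppull, pull]
      rw [integral_add ((hi true).const_mul _) ((hi false).const_mul _), integral_const_mul,
        integral_const_mul, e, e]

/-- The martingale property of one side: the two identities used below. -/
lemma side_martingale {θ : ℝ} {B : Finset V} {A A' : Finset (V × ℤ)} (hA : A ⊆ A')
    (h : (⟨θ, B, A'⟩ : Run V).Ok G) (t : ℝ) {p c : V} (hc : c ∈ B) (hpc : G.Adj p c) :
    let P₀ : Run V := ⟨θ, B, A⟩
    let P : Run V := ⟨θ, B, A'⟩
    (∀ (φ : ℝ → ℝ), Measurable φ → (∃ C, ∀ x, |φ x| ≤ C) →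
      ∫ ω, bar (P.pm G t p c) ω * φ (pmag (P₀.pm G t p c) ω) ∂iidU (V × (ℤ × Bool)) =
        ∫ ω, bar (P₀.pm G t p c) ω * φ (pmag (P₀.pm G t p c) ω) ∂iidU (V × (ℤ × Bool))) ∧
      ∫ ω, bar (P.pm G t p c) ω * (pmag (P.pm G t p c) ω - pmag (P₀.pm G t p c) ω) ^ 2
          ∂iidU (V × (ℤ × Bool)) = info (P.pm G t p c) - info (P₀.pm G t p c) := by
  classical
  intro P₀ P
  have h₀ : P₀.Ok G := ⟨h.tree, h.nonneg, h.lt_one, h.conn, fun s hs => h.sub s (hA hs)⟩
  have hp := h.isPiece_pm t hc (Or.inr hpc)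
  have hp₀ := h₀.isPiece_pm t hc (Or.inr hpc)
  set f := P.pm G t p c
  set f₀ := P₀.pm G t p c
  set T := A.biUnion (slotD (V := V))
  have hdep : ∀ s, DependsOn (f₀ s) (T : Set (V × (ℤ × Bool))) := fun s => by
    have := avgOut_dependsOn ((⟨θ, B, A'⟩ : Run V).pm G t p c s) T
    rwa [avgOut_pm hA h t _ p c hc hpc le_rfl s] at this
  have hu : Measurable (pmag f₀) := ((hp₀.meas true).sub (hp₀.meas false)).div
    ((hp₀.meas true).add (hp₀.meas false))
  have hu' : Measurable (pmag f) := ((hp.meas true).sub (hp.meas false)).div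
    ((hp.meas true).add (hp.meas false))
  have hu1 : ∀ ω, |pmag f₀ ω| ≤ 1 := fun ω => (abs_magOf fun s => hp₀.pos s ω).le
  have hu1' : ∀ ω, |pmag f ω| ≤ 1 := fun ω => (abs_magOf fun s => hp.pos s ω).le
  have marg : ∀ (φ : ℝ → ℝ), Measurable φ → ∀ C, (∀ x, |x| ≤ 1 → |φ x| ≤ C) → ∀ s,
      ∫ ω, f s ω * φ (pmag f₀ ω) ∂iidU (V × (ℤ × Bool)) =
        ∫ ω, f₀ s ω * φ (pmag f₀ ω) ∂iidU (V × (ℤ × Bool)) := by
    intro φ hφ C hC s
    obtain ⟨K, hK⟩ := hp.bdd
    set g := fun ω => φ (pmag f₀ ω)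
    have hg : Measurable g := hφ.comp hu
    have hgd : DependsOn g (T : Set (V × (ℤ × Bool))) := fun x y e => by
      simp only [g, pmag, magOf, hdep true e, hdep false e]
    have := integral_mul_avgOut (f := g) (h := f s) hg (C := max C K)
      (fun ω => (hC _ (hu1 ω)).trans (le_max_left _ _)) (hp.meas s)
      (fun ω => by rw [abs_of_pos (hp.pos s ω)]; exact (hK s ω).trans (le_max_right _ _)) T
    rw [avgOut_self hgd, avgOut_pm hA h t _ p c hc hpc le_rfl s] at this
    exact this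
  have ib : ∀ {k : Bool → (V × (ℤ × Bool) → ℝ) → ℝ} {D}, IsPiece flipZ D k →
      ∀ {g : (V × (ℤ × Bool) → ℝ) → ℝ}, Measurable g → ∀ {C : ℝ}, (∀ ω, |g ω| ≤ C) → ∀ s,
      Integrable (fun ω => k s ω * g ω) (iidU (V × (ℤ × Bool))) :=
    fun hk _ hg _ hC s => integrable_piece_mul hk hg hC s
  have eb : ∀ {k : Bool → (V × (ℤ × Bool) → ℝ) → ℝ} {D}, IsPiece flipZ D k →
      ∀ {g : (V × (ℤ × Bool) → ℝ) → ℝ}, Measurable g → ∀ {C : ℝ}, (∀ ω, |g ω| ≤ C) →
      ∫ ω, bar k ω * g ω ∂iidU (V × (ℤ × Bool)) = ((∫ ω, k true ω * g ω ∂iidU (V × (ℤ × Bool))) +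
        ∫ ω, k false ω * g ω ∂iidU (V × (ℤ × Bool))) / 2 := by
    intro k D hk g hg C hC
    rw [← integral_add (ib hk hg hC true) (ib hk hg hC false), ← integral_div]
    refine integral_congr_ae (ae_of_all _ fun ω => ?_)
    simp only [bar]; ring
  have marg2 : ∀ (φ : ℝ → ℝ), Measurable φ → ∀ C, (∀ x, |x| ≤ 1 → |φ x| ≤ C) →
      ∫ ω, bar f ω * φ (pmag f₀ ω) ∂iidU (V × (ℤ × Bool)) =
        ∫ ω, bar f₀ ω * φ (pmag f₀ ω) ∂iidU (V × (ℤ × Bool)) := by
    intro φ hφ C hC
    have hφu : Measurable fun ω => φ (pmag f₀ ω) := hφ.comp hu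
    rw [eb hp hφu fun ω => hC _ (hu1 ω), eb hp₀ hφu fun ω => hC _ (hu1 ω),
      marg φ hφ C hC, marg φ hφ C hC]
  refine ⟨fun φ hφ hC => marg2 φ hφ hC.choose fun x _ => hC.choose_spec x, ?_⟩
  have hsq : ∀ x : ℝ, |x| ≤ 1 → |x ^ 2| ≤ 1 := fun x hx => by
    rw [abs_pow]; exact pow_le_one₀ (abs_nonneg x) hx
  have e2 : ∫ ω, bar f ω * pmag f₀ ω ^ 2 ∂iidU (V × (ℤ × Bool)) = info f₀ :=
    marg2 (fun x => x ^ 2) (measurable_id.pow_const 2) 1 hsq
  have e1 : ∫ ω, (f true ω - f false ω) / 2 * pmag f₀ ω ∂iidU (V × (ℤ × Bool)) = info f₀ := by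
    have : ∀ k : Bool → (V × (ℤ × Bool) → ℝ) → ℝ, ∀ {D}, IsPiece flipZ D k →
        ∫ ω, (k true ω - k false ω) / 2 * pmag f₀ ω ∂iidU (V × (ℤ × Bool)) =
          ((∫ ω, k true ω * pmag f₀ ω ∂iidU (V × (ℤ × Bool))) -
            ∫ ω, k false ω * pmag f₀ ω ∂iidU (V × (ℤ × Bool))) / 2 := fun k D hk => by
      rw [← integral_sub (ib hk hu hu1 true) (ib hk hu hu1 false), ← integral_div]
      refine integral_congr_ae (ae_of_all _ fun ω => ?_)
      ring
    have mid := fun s => marg (fun x => x) measurable_id 1 (fun x hx => hx) s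
    rw [this f hp, mid true, mid false, ← this f₀ hp₀, info]
    refine integral_congr_ae (ae_of_all _ fun ω => ?_)
    have := hp₀.pos true ω
    have := hp₀.pos false ω
    simp only [bar, pmag, magOf]
    field_simp
  have hb : ∀ {g : (V × (ℤ × Bool) → ℝ) → ℝ}, Measurable g → ∀ {C : ℝ}, (∀ ω, |g ω| ≤ C) →
      Integrable (fun ω => bar f ω * g ω) (iidU (V × (ℤ × Bool))) := fun {g} hg {C} hC => by
    have := ((ib hp hg hC true).add (ib hp hg hC false)).div_const 2
    refine this.congr (ae_of_all _ fun ω => ?_)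
    simp only [bar, Pi.add_apply]; ring
  have i1 := hb (hu'.pow_const 2) fun ω => hsq _ (hu1' ω)
  have i2 := hb (hu.pow_const 2) fun ω => hsq _ (hu1 ω)
  have i3 : Integrable (fun ω => (f true ω - f false ω) / 2 * pmag f₀ ω) (iidU (V × (ℤ × Bool))) := by
    refine (((ib hp hu hu1 true).sub (ib hp hu hu1 false)).div_const 2).congr
      (ae_of_all _ fun ω => ?_)
    simp only [Pi.sub_apply]; ring
  calc ∫ ω, bar f ω * (pmag f ω - pmag f₀ ω) ^ 2 ∂iidU (V × (ℤ × Bool))
      = ∫ ω, (bar f ω * pmag f ω ^ 2 - 2 * ((f true ω - f false ω) / 2 * pmag f₀ ω) +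
          bar f ω * pmag f₀ ω ^ 2) ∂iidU (V × (ℤ × Bool)) := by
        refine integral_congr_ae (ae_of_all _ fun ω => ?_)
        have := hp.pos true ω
        have := hp.pos false ω
        have e : bar f ω * pmag f ω = (f true ω - f false ω) / 2 := by
          simp only [bar, pmag, magOf]; field_simp
        linear_combination -(2 * pmag f₀ ω) * e
    _ = info f - 2 * info f₀ + info f₀ := by
        have i12 : Integrable (fun ω => bar f ω * pmag f ω ^ 2 -
            2 * ((f true ω - f false ω) / 2 * pmag f₀ ω)) (iidU (V × (ℤ × Bool))) :=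
          i1.sub (i3.const_mul 2)
        rw [integral_add i12 i2, integral_sub i1 (i3.const_mul 2), integral_const_mul, e1, e2]
        rfl
    _ = info f - info f₀ := by ring

/-! ### Continuity in the coupling -/

lemma exists_msg_bound (B : Finset V) (M : ℝ) : ∀ n, ∃ K, ∀ θ : ℝ, |θ| ≤ 1 →
    ∀ W : V → Bool → ℝ, (∀ x r, |W x r| ≤ M) → ∀ p c r, |msgN G θ B W n p c r| ≤ K := by
  classical
  intro n
  induction n with
  | zero => exact ⟨M, fun θ _ W h p c r => h c r⟩
  | succ n ih =>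
    obtain ⟨K, hK⟩ := ih
    refine ⟨|M| * max 1 K ^ B.card, fun θ hθ W h p c r => ?_⟩
    show |_ * _| ≤ _
    rw [abs_mul, Finset.abs_prod]
    refine mul_le_mul ((h c r).trans (le_abs_self M)) ?_
      (prod_nonneg fun _ _ => abs_nonneg _) (abs_nonneg _)
    refine (prod_le_prod (fun _ _ => abs_nonneg _) fun g _ =>
      (abs_pull_le hθ (hK θ hθ W h c g) r).trans (le_max_right 1 K)).trans ?_
    rw [prod_const]
    exact pow_le_pow_right₀ (le_max_left _ _) (card_le_card (filter_subset _ _))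

lemma tendsto_bar_stat (B : Finset V) (A : Finset (V × ℤ)) (t : ℝ) (p c : V)
    {θn : ℕ → ℝ} {θc : ℝ} (hn : ∀ n, |θn n| ≤ 1) (hc : |θc| < 1)
    (hlim : Tendsto θn atTop (𝓝 θc)) {F : ℝ → ℝ → ℝ}
    (hF : ∀ θ, Measurable (F θ)) {C : ℝ} (hFC : ∀ n x, |F (θn n) x| ≤ C)
    (hcont : ∀ ω : V × (ℤ × Bool) → ℝ, ContinuousAt (fun q : ℝ × ℝ => F q.1 q.2)
      (θc, pmag ((⟨θc, B, A⟩ : Run V).pm G t p c) ω)) :
    Tendsto (fun n => ∫ ω, bar ((⟨θn n, B, A⟩ : Run V).pm G t p c) ω *
        F (θn n) (pmag ((⟨θn n, B, A⟩ : Run V).pm G t p c) ω) ∂iidU (V × (ℤ × Bool)))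
      atTop (𝓝 (∫ ω, bar ((⟨θc, B, A⟩ : Run V).pm G t p c) ω *
        F θc (pmag ((⟨θc, B, A⟩ : Run V).pm G t p c) ω) ∂iidU (V × (ℤ × Bool)))) := by
  classical
  obtain ⟨K, hK⟩ := exists_msg_bound (G := G) B (2 ^ A.card) B.card
  have hmeas : ∀ θ s, Measurable ((⟨θ, B, A⟩ : Run V).pm G t p c s) := fun θ s =>
    Run.measurable_pm (⟨θ, B, A⟩ : Run V) t p c s
  refine tendsto_integral_of_dominated_convergence (fun _ => K * C) (fun n => ?_)
    (integrable_const _) (fun n => ae_of_all _ fun ω => ?_) (ae_of_all _ fun ω => ?_)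
  · exact ((((hmeas _ true).add (hmeas _ false)).div_const 2).mul ((hF _).comp
      (((hmeas _ true).sub (hmeas _ false)).div ((hmeas _ true).add (hmeas _ false))))).aestronglyMeasurable
  · rw [Real.norm_eq_abs, abs_mul]
    have hb : ∀ s, |(⟨θn n, B, A⟩ : Run V).pm G t p c s ω| ≤ K := fun s =>
      hK _ (hn n) _ (abs_wts A _ (live_subset _ _ _) _) p c s
    refine mul_le_mul ?_ (hFC n _) (abs_nonneg _) ((abs_nonneg _).trans (hb true))
    rw [bar, abs_div, abs_two, div_le_iff₀ two_pos]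
    linarith [abs_add_le ((⟨θn n, B, A⟩ : Run V).pm G t p c true ω)
      ((⟨θn n, B, A⟩ : Run V).pm G t p c false ω), hb true, hb false]
  · let a : ℝ → V → Bool → ℝ := fun _ => (⟨θc, B, A⟩ : Run V).obs ω t
    have hm : ∀ s, Continuous fun x : ℝ => msgN G x B (a x) B.card p c s :=
      fun s => msgN_continuous a (fun _ _ => continuous_const) _ p c s
    have hpos : ∀ s, 0 < msg G θc B ((⟨θc, B, A⟩ : Run V).obs ω t) p c s :=
      msg_pos hc.le (fun v s => (⟨θc, B, A⟩ : Run V).obs_pos ω t v s) p c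
    have h1 : ∀ s, Tendsto (fun n => (⟨θn n, B, A⟩ : Run V).pm G t p c s ω) atTop
        (𝓝 ((⟨θc, B, A⟩ : Run V).pm G t p c s ω)) := fun s => ((hm s).tendsto θc).comp hlim
    have h2 : Tendsto (fun n => pmag ((⟨θn n, B, A⟩ : Run V).pm G t p c) ω) atTop
        (𝓝 (pmag ((⟨θc, B, A⟩ : Run V).pm G t p c) ω)) :=
      ((h1 true).sub (h1 false)).div ((h1 true).add (h1 false)) (add_pos (hpos true) (hpos false)).ne'
    exact (((h1 true).add (h1 false)).div_const 2).mul
      ((hcont ω).tendsto.comp (hlim.prodMk_nhds h2))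

lemma abs_le_delta_add_sq (x : ℝ) {δ : ℝ} (hδ : 0 < δ) : |x| ≤ δ + x ^ 2 / δ := by
  rw [← sub_le_iff_le_add', le_div_iff₀ hδ]
  nlinarith [sq_nonneg (|x| - δ), sq_abs x, abs_nonneg x]

lemma tendsto_thN (d : ℕ) :
    Tendsto (thN d) atTop (𝓝 (1 / Real.sqrt ((d : ℝ) - 1))) := by
  have h := (tendsto_pow_atTop_nhds_zero_of_lt_one (by norm_num : (0 : ℝ) ≤ 1 / 2)
    (by norm_num)).const_sub (1 : ℝ) |>.const_mul (1 / Real.sqrt ((d : ℝ) - 1))
  simp only [sub_zero, mul_one] at h
  exact h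

lemma continuousAt_lr {θ x : ℝ} (hθ : |θ| < 1) (hx : |x| < 1) :
    ContinuousAt (fun q : ℝ × ℝ => lr q.1 q.2) (θ, x) := by
  have h1 : (1 - θ ^ 2 * x ^ 2) ≠ 0 := (one_sub_sq_pos hθ hx.le).ne'
  have h2 : (1 - x ^ 2) ≠ 0 := (sub_pos.2 ((sq_lt_one_iff_abs_lt_one x).2 hx)).ne'
  refine ContinuousAt.sub (ContinuousAt.log (by fun_prop) h1) (ContinuousAt.log (by fun_prop) h2)

/-! ### The mean damping exponent -/

variable {d : ℕ}

/-- Restriction to the values possible below level `J`. -/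
noncomputable def clp (r x : ℝ) : ℝ := max (-r) (min r x)

lemma continuous_clp (r : ℝ) : Continuous (clp r) := continuous_const.max (continuous_const.min continuous_id)

lemma abs_clp {r : ℝ} (hr : 0 ≤ r) (x : ℝ) : |clp r x| ≤ r :=
  abs_le.2 ⟨le_max_left _ _, max_le (by linarith) (min_le_left _ _)⟩

lemma clp_of_abs_le {r x : ℝ} (h : |x| ≤ r) : clp r x = x := by
  obtain ⟨a, b⟩ := abs_le.1 h
  simp [clp, a, b]

lemma clp_neg (r x : ℝ) (hr : 0 ≤ r) : clp r (-x) = -clp r x := by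
  simp only [clp]
  rcases le_total x (-r) with h | h <;> rcases le_total x r with h' | h' <;>
    simp [max_def, min_def] <;> split_ifs <;> linarith

lemma measurable_lr_fun (θ : ℝ) : Measurable (lr θ) :=
  ((measurable_const.sub (measurable_const.mul (measurable_id.pow_const 2))).log).sub
    ((measurable_const.sub (measurable_id.pow_const 2)).log)

lemma lr_neg (θ x : ℝ) : lr θ (-x) = lr θ x := by simp [lr]

lemma abs_lr_le {θ x r : ℝ} (hr : r < 1) (h0 : 0 ≤ θ) (h1 : θ ≤ 1) (hx : |x| ≤ r) :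
    |lr θ x| ≤ 2 / (1 - r ^ 2) := by
  have hr0 : 0 ≤ r := (abs_nonneg x).trans hx
  have hc : 0 < 1 - r ^ 2 := by nlinarith
  have := abs_lr_sub (θ' := θ) (x' := 0) hr h0 h1 h0 h1 hx (by simpa using hr0)
  rw [show lr θ 0 = 0 by simp [lr]] at this
  simp only [sub_zero, abs_zero, add_zero, sub_self] at this
  refine this.trans (mul_le_of_le_one_right (div_nonneg two_pos.le hc.le) ?_)
  nlinarith [abs_nonneg x]

lemma thN_sq_le (hR : Reg G d) {n : ℕ} (hn : 1 ≤ n) :
    0 ≤ thN d n ∧ thN d n ≤ 1 ∧ thN d n ^ 2 * ((d : ℝ) - 1) ≤ 1 :=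
  ⟨(thN_spec hR hn).2.1.le, (thN_spec hR hn).2.2.1.le, (thN_spec hR hn).2.2.2.1.le⟩

lemma meanLr_eq (hR : Reg G d) {J : ℕ} {r : ℝ} (hr0 : 0 ≤ r) (hr1 : r < 1)
    (hr : ∀ θ : ℝ, 0 ≤ θ → θ ^ 2 * ((d : ℝ) - 1) ≤ 1 → ∀ B : Finset V, ∀ S : Finset (V × ℤ),
      (∀ s ∈ S, s.2 < (J : ℤ)) → ∀ (y : V × ℤ → ℝ) (p c : V), |cav G θ B (wts S y) p c| ≤ r)
    {p c : V} (h : G.Adj p c) {n R : ℕ} (hn : 1 ≤ n) (hR1 : 1 ≤ R) (t : ℝ) :
    meanLr G d n J p c R t = ∫ ω, bar ((runN G d n J c R).pm G t p c) ω *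
      lr (thN d n) (clp r (pmag ((runN G d n J c R).pm G t p c) ω)) ∂iidU (V × (ℤ × Bool)) := by
  obtain ⟨t0, t1, t2⟩ := thN_sq_le hR hn
  set P := runN G d n J c R with hP
  have hok : P.Ok G := runN_ok hR hn J c R
  have hpB : p ∈ P.B := (mem_ball hR).2 (by
    rw [dist_eq_one_iff_adj.2 h.symm]; exact hR1)
  have hcB : c ∈ P.B := self_mem_ball hR c R
  have hlive : ∀ ω, ∀ s ∈ live P.A ω t, s.2 < (J : ℤ) := fun ω s hs =>
    (Finset.mem_Ico.1 (mem_product.1 (mem_live.1 hs).1).2).2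
  let F : (V → Bool → ℝ) → ℝ := fun W => lr (thN d n) (clp r (cav G P.θ P.B W p c))
  have key := hok.state_integral (t := t) hcB hpB (Or.inr h) (F := F)
    ((measurable_lr_fun _).comp ((continuous_clp r).measurable.comp
      (measurable_cav (W := fun W : V → Bool → ℝ => W)
        (fun v σ => (measurable_pi_apply σ).comp (measurable_pi_apply v)) P.θ P.B p c)))
    (fun W => abs_lr_le hr1 t0 t1 (abs_clp hr0 _))
    (fun W W' e => by
      simp only [F]
      rw [cav_congr hok.tree hcB h fun x hx => e x (by rw [side_of_adj h]; exact hx)])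
    (fun W => by simp only [F, cav_not, clp_neg r _ hr0, lr_neg])
  refine Eq.trans (integral_congr_ae (ae_of_all _ fun ω => ?_)) key
  show lr _ _ = lr _ _
  rw [clp_of_abs_le]
  · rfl
  · exact hr _ t0 t2 _ _ (hlive ω) _ p c

lemma abs_meanLr_le {d : ℕ} (hR : Reg G d) {J : ℕ} {r : ℝ} (hr1 : r < 1)
    (hr : ∀ θ : ℝ, 0 ≤ θ → θ ^ 2 * ((d : ℝ) - 1) ≤ 1 → ∀ B : Finset V, ∀ S : Finset (V × ℤ),
      (∀ s ∈ S, s.2 < (J : ℤ)) → ∀ (y : V × ℤ → ℝ) (p c : V), |cav G θ B (wts S y) p c| ≤ r)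
    (p c : V) {n : ℕ} (hn : 1 ≤ n) (R : ℕ) (t : ℝ) :
    |meanLr G d n J p c R t| ≤ 2 / (1 - r ^ 2) := by
  obtain ⟨t0, t1, t2⟩ := thN_sq_le hR hn
  refine abs_integral_le_of_bound fun ω => abs_lr_le hr1 t0 t1 (hr _ t0 t2 _ _ ?_ _ p c)
  exact fun s hs => (Finset.mem_Ico.1 (mem_product.1 (mem_live.1 hs).1).2).2

lemma measurable_meanLr (hR : Reg G d) (J : ℕ) (p c : V) {n : ℕ} (hn : 1 ≤ n) (R : ℕ) :
    Measurable (meanLr G d n J p c R) := by
  have hm : Measurable fun q : (V × (ℤ × Bool) → ℝ) × ℝ =>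
      lr (thN d n) (cav G (thN d n) (ball G c R) ((runN G d n J c R).st G q.1 q.2) p c) :=
    (measurable_lr_fun _).comp (measurable_cav (Run.measurable_st (runN_ok hR hn J c R)) _ _ p c)
  exact (hm.stronglyMeasurable.integral_prod_left' (μ := iidU (V × (ℤ × Bool)))).measurable

lemma mean_pointwise (hR : Reg G d) (J : ℕ) {p c : V} (h : G.Adj p c) (t : ℝ) {ε : ℝ}
    (hε : 0 < ε) : ∃ N : ℕ, ∀ n m R : ℕ, N ≤ n → N ≤ m → N ≤ R →
      |meanLr G d n J p c R t - meanLr G d m J p c R t| < ε := by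
  classical
  obtain ⟨r, hr0, hr1, hr'⟩ := abs_cav_wts d J
  have hr := hr' (G := G) hR
  have hc' : 0 < 1 - r ^ 2 := by nlinarith
  set Lc : ℝ := 2 / (1 - r ^ 2) * (2 * r + 1) with hLc
  have hLc0 : 0 < Lc := by positivity
  set η : ℝ := ε / (16 * Lc) with hη
  have hη0 : 0 < η := by positivity
  set θc : ℝ := 1 / Real.sqrt ((d : ℝ) - 1) with hθc
  have hb := hR.two_le
  have hsq : Real.sqrt ((d : ℝ) - 1) ^ 2 = (d : ℝ) - 1 := Real.sq_sqrt (by linarith)
  have hs1 : 1 < Real.sqrt ((d : ℝ) - 1) := by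
    nlinarith [Real.sqrt_nonneg ((d : ℝ) - 1)]
  have hc0 : 0 ≤ θc := by positivity
  have hc1 : θc < 1 := by rw [hθc, div_lt_one (by linarith)]; exact hs1
  have hcabs : |θc| < 1 := abs_lt.2 ⟨by linarith, hc1⟩
  let I : ℕ × ℕ → ℝ := fun q => info ((fullRun θc (ball G c (q.1 + 1)) q.2 J).pm G t p c)
  have hI : BddAbove (Set.range I) := by
    refine ⟨1, ?_⟩
    rintro _ ⟨q, rfl⟩
    exact info_le_one ((fullRun_ok hR hc0 hc1 (connected_ball hR c _) q.2 J).isPiece_pm t
      (self_mem_ball hR c _) (Or.inr h))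
  obtain ⟨⟨R₀, M₀⟩, hq⟩ := exists_lt_of_lt_ciSup (f := I)
    (show (⨆ q, I q) - η ^ 2 / 2 < ⨆ q, I q by linarith [pow_pos hη0 2])
  set B₀ := ball G c (R₀ + 1) with hB₀
  set A₀ := B₀ ×ˢ Finset.Ico (-(M₀ : ℤ)) (J : ℤ) with hA₀
  let θs : ℕ → ℝ := fun n => thN d (n + 1)
  have hθs : ∀ n, 0 ≤ θs n ∧ θs n ≤ 1 := fun n =>
    ⟨(thN_sq_le hR (Nat.le_add_left 1 n)).1, (thN_sq_le hR (Nat.le_add_left 1 n)).2.1⟩
  have habs : ∀ n, |θs n| ≤ 1 := fun n => abs_le.2 ⟨by linarith [hθs n], (hθs n).2⟩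
  have hlim : Tendsto θs atTop (𝓝 θc) := (tendsto_thN d).comp (tendsto_add_atTop_nat 1)
  -- continuity of the information and of the mean in the fixed window
  have hinfo := tendsto_bar_stat (G := G) B₀ A₀ t p c habs hcabs hlim
    (F := fun _ x => clp 1 x ^ 2) (fun _ => (continuous_clp 1).measurable.pow_const 2) (C := 1)
    (fun _ x => by rw [abs_pow]; exact pow_le_one₀ (abs_nonneg _) (abs_clp zero_le_one x))
    (fun ω => by
      have := continuous_clp 1
      exact Continuous.continuousAt (by fun_prop))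
  have hmean := tendsto_bar_stat (G := G) B₀ A₀ t p c habs hcabs hlim
    (F := fun θ x => lr θ (clp r x)) (fun θ => (measurable_lr_fun θ).comp (continuous_clp r).measurable)
    (C := 2 / (1 - r ^ 2)) (fun n x => abs_lr_le hr1 (hθs n).1 (hθs n).2 (abs_clp hr0 x))
    (fun ω => by
      have hq := continuousAt_lr hcabs (lt_of_le_of_lt (abs_clp hr0
        (pmag ((⟨θc, B₀, A₀⟩ : Run V).pm G t p c) ω)) hr1)
      exact hq.comp (x := (θc, pmag ((⟨θc, B₀, A₀⟩ : Run V).pm G t p c) ω))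
        (continuous_fst.prodMk ((continuous_clp r).comp continuous_snd)).continuousAt)
  have einfo : ∀ θ : ℝ, |θ| ≤ 1 →
      ∫ ω, bar ((⟨θ, B₀, A₀⟩ : Run V).pm G t p c) ω *
        clp 1 (pmag ((⟨θ, B₀, A₀⟩ : Run V).pm G t p c) ω) ^ 2 ∂iidU (V × (ℤ × Bool)) =
      info ((⟨θ, B₀, A₀⟩ : Run V).pm G t p c) := fun θ hθ =>
    integral_congr_ae (ae_of_all _ fun ω => by
      simp only
      rw [clp_of_abs_le]
      exact (abs_magOf fun s => msg_pos hθ
        (fun v s => (⟨θ, B₀, A₀⟩ : Run V).obs_pos ω t v s) p c s).le)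
  simp only [einfo _ hcabs.le, fun n => einfo _ (habs n)] at hinfo
  obtain ⟨N₁, hN₁⟩ := Metric.tendsto_atTop.1 hinfo (η ^ 2 / 2) (by positivity)
  obtain ⟨N₂, hN₂⟩ := Metric.tendsto_atTop.1 hmean (ε / 8) (by positivity)
  refine ⟨N₁ + N₂ + M₀ + R₀ + 2, ?_⟩
  -- one run against the window
  have one : ∀ n R : ℕ, N₁ + N₂ + M₀ + R₀ + 2 ≤ n → N₁ + N₂ + M₀ + R₀ + 2 ≤ R →
      |meanLr G d n J p c R t -
        ∫ ω, bar ((⟨θc, B₀, A₀⟩ : Run V).pm G t p c) ω *
          lr θc (clp r (pmag ((⟨θc, B₀, A₀⟩ : Run V).pm G t p c) ω)) ∂iidU (V × (ℤ × Bool))| <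
        ε / 2 := by
    intro n R hn hRn
    obtain ⟨i, rfl⟩ : ∃ i, n = i + 1 := ⟨n - 1, by omega⟩
    obtain ⟨R', rfl⟩ : ∃ R', R = R' + 1 := ⟨R - 1, by omega⟩
    set θ := thN d (i + 1) with hθ
    obtain ⟨t0, t1, t2⟩ := thN_sq_le hR (Nat.le_add_left 1 i)
    have tlt : θ < 1 := (thN_spec hR (Nat.le_add_left 1 i)).2.2.1
    have tle : θ ≤ θc := (thN_spec hR (Nat.le_add_left 1 i)).2.2.2.2.2
    set B := ball G c (R' + 1) with hB
    set A := B ×ˢ Finset.Ico (-((i + 1 : ℕ) : ℤ)) (J : ℤ) with hA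
    have hBB : B₀ ⊆ B := ball_subset hR (by rw [SimpleGraph.dist_self]; omega)
    have hAA : A₀ ⊆ A := product_subset_product hBB fun x hx => by
      simp only [Finset.mem_Ico] at hx ⊢
      omega
    have hok : (⟨θ, B, A⟩ : Run V).Ok G := runN_ok hR (Nat.le_add_left 1 i) J c (R' + 1)
    have hcB : c ∈ B := self_mem_ball hR c _
    set f := (⟨θ, B, A⟩ : Run V).pm G t p c with hf
    set f₀ := (⟨θ, B, A₀⟩ : Run V).pm G t p c with hf₀
    have hext : f₀ = (⟨θ, B₀, A₀⟩ : Run V).pm G t p c := by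
      funext s ω
      refine msg_extend hR.tree hBB (connected_ball hR c _) (fun x hx s => ?_) _ p c
        (self_mem_ball hR c _) (Or.inr h) le_rfl s
      rw [obs_eq_prod]
      refine prod_eq_one fun u hu => absurd ?_ hx
      obtain ⟨huA, hux⟩ := mem_filter.1 hu
      exact hux ▸ (mem_product.1 huA).1
    obtain ⟨hm1, hm2⟩ := side_martingale hAA hok t hcB h
    simp only [← hf, ← hf₀] at hm1 hm2
    -- the information gap
    have hgap : info f - info f₀ ≤ η ^ 2 := by
      have h1 : info f ≤ ⨆ q, I q := by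
        refine le_trans ?_ (le_ciSup hI (R', i + 1))
        have hok' : (⟨θc, B, A⟩ : Run V).Ok G :=
          fullRun_ok hR hc0 hc1 (connected_ball hR c _) (i + 1) J
        refine info_mono (hok.isPiece_pm t hcB (Or.inr h)) ?_ (pm_ple hok tle hc1 t _ p c hcB h le_rfl)
        exact hok'.isPiece_pm t hcB (Or.inr h)
      have h2 := abs_lt.1 ((Real.dist_eq _ _).symm.trans_lt (hN₁ i (by omega)))
      have h3 : info ((⟨θc, B₀, A₀⟩ : Run V).pm G t p c) = I (R₀, M₀) := rfl
      rw [hext]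
      linarith [h2.1]
    have hu : ∀ ω, |pmag f ω| ≤ r := fun ω =>
      hr θ t0 t2 B _ (fun s hs => (Finset.mem_Ico.1 (mem_product.1 (mem_live.1 hs).1).2).2) _ p c
    have hu₀ : ∀ ω, |pmag f₀ ω| ≤ r := fun ω =>
      hr θ t0 t2 B _ (fun s hs => (Finset.mem_Ico.1 (mem_product.1 (mem_live.1 hs).1).2).2) _ p c
    have hp := hok.isPiece_pm t hcB (Or.inr h)
    have hmp : ∀ (k : Bool → (V × (ℤ × Bool) → ℝ) → ℝ), (∀ s, Measurable (k s)) →
        Measurable (pmag k) := fun k hk =>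
      ((hk true).sub (hk false)).div ((hk true).add (hk false))
    have hmu := hmp f hp.meas
    have hmu₀ := hmp f₀ fun s => Run.measurable_pm (⟨θ, B, A₀⟩ : Run V) t p c s
    obtain ⟨K, hK⟩ := hp.bdd
    have hbm : Measurable (bar f) := ((hp.meas true).add (hp.meas false)).div_const 2
    have hb0 : ∀ ω, 0 < bar f ω := fun ω => by
      rw [bar]; linarith [hp.pos true ω, hp.pos false ω]
    have hbK : ∀ ω, |bar f ω| ≤ K := fun ω => by
      rw [abs_of_pos (hb0 ω), bar]; linarith [hK true ω, hK false ω]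
    have hint : ∀ {g : (V × (ℤ × Bool) → ℝ) → ℝ}, Measurable g → ∀ {C : ℝ}, (∀ ω, |g ω| ≤ C) →
        Integrable (fun ω => bar f ω * g ω) (iidU (V × (ℤ × Bool))) := fun {g} hg {C} hC =>
      integrable_of_abs_le (hbm.mul hg) (C := K * C) fun ω => by
        rw [abs_mul]
        exact mul_le_mul (hbK ω) (hC ω) (abs_nonneg _) ((abs_nonneg _).trans (hbK ω))
    have hlm : ∀ k : Bool → (V × (ℤ × Bool) → ℝ) → ℝ, Measurable (pmag k) →
        Measurable fun ω => lr θ (clp r (pmag k ω)) := fun k hk =>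
      (measurable_lr_fun θ).comp ((continuous_clp r).measurable.comp hk)
    have hlb : ∀ x, |lr θ (clp r x)| ≤ 2 / (1 - r ^ 2) := fun x =>
      abs_lr_le hr1 t0 t1 (abs_clp hr0 x)
    -- Lipschitz bound
    have hA1 : |(∫ ω, bar f ω * lr θ (clp r (pmag f ω)) ∂iidU (V × (ℤ × Bool))) -
        ∫ ω, bar f ω * lr θ (clp r (pmag f₀ ω)) ∂iidU (V × (ℤ × Bool))| ≤ Lc * (2 * η) := by
      rw [← integral_sub (hint (hlm f hmu) fun ω => hlb _) (hint (hlm f₀ hmu₀) fun ω => hlb _)]
      refine (abs_integral_le_integral_abs).trans ?_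
      have hbi : Integrable (bar f) (iidU (V × (ℤ × Bool))) := integrable_of_abs_le hbm hbK
      have hsqi : Integrable (fun ω => bar f ω * (pmag f ω - pmag f₀ ω) ^ 2)
          (iidU (V × (ℤ × Bool))) := hint ((hmu.sub hmu₀).pow_const 2) (C := (r + r) ^ 2) fun ω => by
        rw [abs_pow]
        exact pow_le_pow_left₀ (abs_nonneg _) ((abs_sub _ _).trans (add_le_add (hu ω) (hu₀ ω))) 2
      calc ∫ ω, |bar f ω * lr θ (clp r (pmag f ω)) - bar f ω * lr θ (clp r (pmag f₀ ω))|
            ∂iidU (V × (ℤ × Bool))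
          ≤ ∫ ω, Lc * (η * bar f ω + 1 / η * (bar f ω * (pmag f ω - pmag f₀ ω) ^ 2))
            ∂iidU (V × (ℤ × Bool)) := by
            refine integral_mono_of_nonneg (ae_of_all _ fun ω => abs_nonneg _)
              (((hbi.const_mul η).add (hsqi.const_mul (1 / η))).const_mul Lc)
              (ae_of_all _ fun ω => ?_)
            simp only
            rw [← mul_sub, abs_mul, abs_of_pos (hb0 ω), clp_of_abs_le (hu ω), clp_of_abs_le (hu₀ ω)]
            have h1 : |lr θ (pmag f ω) - lr θ (pmag f₀ ω)| ≤ Lc * |pmag f ω - pmag f₀ ω| := by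
              refine (abs_lr_sub hr1 t0 t1 t0 t1 (hu ω) (hu₀ ω)).trans ?_
              rw [sub_self, abs_zero, add_zero, hLc, mul_assoc]
              refine mul_le_mul_of_nonneg_left (mul_le_mul_of_nonneg_right ?_ (abs_nonneg _))
                (by positivity)
              linarith [hu ω, hu₀ ω]
            have h2 : |pmag f ω - pmag f₀ ω| ≤ η + 1 / η * (pmag f ω - pmag f₀ ω) ^ 2 := by
              have := abs_le_delta_add_sq (pmag f ω - pmag f₀ ω) hη0
              rwa [one_div_mul_eq_div]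
            calc bar f ω * |lr θ (pmag f ω) - lr θ (pmag f₀ ω)|
                ≤ bar f ω * (Lc * (η + 1 / η * (pmag f ω - pmag f₀ ω) ^ 2)) :=
                  mul_le_mul_of_nonneg_left (h1.trans (mul_le_mul_of_nonneg_left h2 hLc0.le)) (hb0 ω).le
              _ = _ := by ring
        _ ≤ Lc * (2 * η) := by
            rw [integral_const_mul, integral_add (hbi.const_mul η) (hsqi.const_mul _),
              integral_const_mul, integral_const_mul, hm2]
            have hone : ∫ ω, bar f ω ∂iidU (V × (ℤ × Bool)) = 1 := by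
              have hi : ∀ s, Integrable (f s) (iidU (V × (ℤ × Bool))) := fun s =>
                integrable_of_abs_le (hp.meas s) fun ω => by
                  rw [abs_of_pos (hp.pos s ω)]; exact hK s ω
              simp only [bar]
              rw [integral_div, integral_add (hi true) (hi false), hp.norm, hp.norm]
              norm_num
            rw [hone, mul_one]
            refine mul_le_mul_of_nonneg_left ?_ hLc0.le
            rw [one_div_mul_eq_div]
            have : (info f - info f₀) / η ≤ η := by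
              rw [div_le_iff₀ hη0]; nlinarith
            linarith
    -- the window
    have hA2 : (∫ ω, bar f ω * lr θ (clp r (pmag f₀ ω)) ∂iidU (V × (ℤ × Bool))) =
        ∫ ω, bar f₀ ω * lr θ (clp r (pmag f₀ ω)) ∂iidU (V × (ℤ × Bool)) :=
      hm1 (fun x => lr θ (clp r x)) ((measurable_lr_fun θ).comp (continuous_clp r).measurable)
        ⟨_, hlb⟩
    have hA3 := (Real.dist_eq _ _).symm.trans_lt (hN₂ i (by omega))
    rw [meanLr_eq hR hr0 hr1 hr h (Nat.le_add_left 1 i) (Nat.le_add_left 1 R') t]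
    have hLcη : Lc * (2 * η) = ε / 8 := by rw [hη]; field_simp; ring
    rw [hA2, hext, hLcη] at hA1
    have e1 := abs_sub_le (∫ ω, bar f ω * lr θ (clp r (pmag f ω)) ∂iidU (V × (ℤ × Bool)))
      (∫ ω, bar ((⟨θ, B₀, A₀⟩ : Run V).pm G t p c) ω *
        lr θ (clp r (pmag ((⟨θ, B₀, A₀⟩ : Run V).pm G t p c) ω)) ∂iidU (V × (ℤ × Bool)))
      (∫ ω, bar ((⟨θc, B₀, A₀⟩ : Run V).pm G t p c) ω *
        lr θc (clp r (pmag ((⟨θc, B₀, A₀⟩ : Run V).pm G t p c) ω)) ∂iidU (V × (ℤ × Bool)))
    exact lt_of_le_of_lt e1 (by linarith [hA1, hA3])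
  intro n m R hn hm hRn
  have a := abs_lt.1 (one n R hn hRn)
  have b := abs_lt.1 (one m R hm hRn)
  rw [abs_lt]
  constructor <;> linarith [a.1, a.2, b.1, b.2]

theorem mean_cauchy {d : ℕ} (hR : Reg G d) (J k : ℕ) {p c : V} (h : G.Adj p c) {ε : ℝ} (hε : 0 < ε) :
    ∃ N : ℕ, ∀ n m R : ℕ, N ≤ n → N ≤ m → N ≤ R →
      ∫ t in Set.Ico ((1 / 2 : ℝ) ^ k) (1 + J),
        (meanLr G d n J p c R t - meanLr G d m J p c R t) ^ 2 ≤ ε := by
  obtain ⟨r, hr0, hr1, hr'⟩ := abs_cav_wts d J
  have hr := hr' (G := G) hR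
  by_contra hcon
  push Not at hcon
  choose n m R hn hm hRi hbig using fun i => hcon (i + 1)
  set S := volume.restrict (Set.Ico ((1 / 2 : ℝ) ^ k) (1 + J)) with hS
  have : IsFiniteMeasure S := by
    rw [hS]; infer_instance
  have hmeas : ∀ i, Measurable (meanLr G d (n i) J p c (R i)) ∧
      Measurable (meanLr G d (m i) J p c (R i)) := fun i =>
    ⟨measurable_meanLr hR J p c (le_trans (Nat.le_add_left 1 i) (hn i)) _,
      measurable_meanLr hR J p c (le_trans (Nat.le_add_left 1 i) (hm i)) _⟩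
  have hlim : Tendsto (fun i => ∫ t, (meanLr G d (n i) J p c (R i) t -
      meanLr G d (m i) J p c (R i) t) ^ 2 ∂S) atTop (𝓝 (∫ _t, (0 : ℝ) ∂S)) := by
    refine tendsto_integral_of_dominated_convergence
      (fun _ => (2 / (1 - r ^ 2) + 2 / (1 - r ^ 2)) ^ 2)
      (fun i => (((hmeas i).1.sub (hmeas i).2).pow_const 2).aestronglyMeasurable)
      (integrable_const _) (fun i => ae_of_all _ fun t => ?_) (ae_of_all _ fun t => ?_)
    · rw [Real.norm_eq_abs, abs_pow]
      refine pow_le_pow_left₀ (abs_nonneg _) ((abs_sub _ _).trans (add_le_add ?_ ?_)) 2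
      · exact abs_meanLr_le hR hr1 hr p c (le_trans (Nat.le_add_left 1 i) (hn i)) _ _
      · exact abs_meanLr_le hR hr1 hr p c (le_trans (Nat.le_add_left 1 i) (hm i)) _ _
    · rw [Metric.tendsto_atTop]
      intro δ hδ
      obtain ⟨N, hN⟩ := mean_pointwise hR J h t (Real.sqrt_pos.2 hδ)
      refine ⟨N, fun i hi => ?_⟩
      have hlt := hN (n i) (m i) (R i) (le_trans (by omega) (hn i)) (le_trans (by omega) (hm i))
        (le_trans (by omega) (hRi i))
      rw [Real.dist_eq, sub_zero, abs_pow]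
      calc |meanLr G d (n i) J p c (R i) t - meanLr G d (m i) J p c (R i) t| ^ 2
          < Real.sqrt δ ^ 2 := pow_lt_pow_left₀ hlt (abs_nonneg _) two_ne_zero
        _ = δ := Real.sq_sqrt hδ.le
  rw [integral_zero] at hlim
  obtain ⟨N, hN⟩ := Metric.tendsto_atTop.1 hlim ε hε
  have h1 := hN N le_rfl
  rw [Real.dist_eq, sub_zero] at h1
  exact absurd ((le_abs_self _).trans_lt h1) (not_lt.2 (hbig N).le)

end Vale.Agent.P161.Crit
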