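import Vale.Agent.P161.Crit.Expect
import Vale.Agent.P161.Crit.Mean

/-!
# P161, critical point: the drift of the squared distance of two runs
-/

open MeasureTheory SimpleGraph Finset

namespace Vale.Agent.P161.Crit

variable {V : Type*} {G : SimpleGraph V} {d : ℕ}

/-- The moment bound for the sides of the runs with levels below `J`. -/
def MomU (G : SimpleGraph V) (d J : ℕ) (K : ℝ) : Prop :=
  0 ≤ K ∧ ∀ P : Run V, P.Ok G → P.θ ^ 2 * ((d : ℝ) - 1) ≤ 1 →
    1 / (2 * Real.sqrt ((d : ℝ) - 1)) ≤ P.θ → (∀ s ∈ P.A, s.2 < (J : ℤ)) →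
    ∀ (j : ℕ) (t : ℝ), 0 < t → t ≤ ((J : ℝ) + 2) * (1 / 2) ^ j →
      ∀ p c : V, p ∈ P.B → c ∈ P.B → (p = c ∨ G.Adj p c) → ∀ q : ℕ, 1 ≤ q →
        Mom (iidU (V × (ℤ × Bool))) (4 * q)
          (fun ω => Real.sqrt (Real.sqrt (P.U G t p c ω ^ 2)))
          (K * Real.sqrt q * Real.sqrt (Real.sqrt (rt j)))

/-- The moment bound for the averaged damping. -/
def MomR (G : SimpleGraph V) (d : ℕ) (K γ : ℝ) : Prop :=
  0 ≤ K ∧ 0 < γ ∧ γ ≤ 1 / 20 ∧ ∀ P : Run V, P.Ok G → ∀ j : ℕ, NearCrit d P.θ j →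
    ∀ t : ℝ, (1 / 2) ^ j ≤ t → ∀ p c : V, G.Adj p c → p ∈ P.B → ∀ h : ℕ,
      Covers P G j c (h + depth j + 1) → ∀ q : ℕ, 1 ≤ q →
        Mom (iidU (V × (ℤ × Bool))) q (fun ω => Rw G d P.θ P.B (P.st G ω t) h p c)
          (K * Real.sqrt q * (1 - γ * rt j) ^ h)

/-- The integral of a sum of four functions. -/
lemma integral_add₄ {Ω : Type*} [MeasurableSpace Ω] {μ : Measure Ω} {f g h k : Ω → ℝ}
    (hf : Integrable f μ) (hg : Integrable g μ) (hh : Integrable h μ) (hk : Integrable k μ) :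
    ∫ a, (f a + g a + h a + k a) ∂μ =
      (∫ a, f a ∂μ) + (∫ a, g a ∂μ) + (∫ a, h a ∂μ) + ∫ a, k a ∂μ := by
  have h1 : Integrable (fun a => f a + g a) μ := hf.add hg
  have h2 : Integrable (fun a => f a + g a + h a) μ := h1.add hh
  rw [integral_add h2 hk, integral_add h1 hh, integral_add hf hg]

/-- The integral of a sum of four functions and a constant. -/
lemma integral_add₄_const {Ω : Type*} [MeasurableSpace Ω] {μ : Measure Ω} [IsProbabilityMeasure μ]
    {f g h k : Ω → ℝ} (hf : Integrable f μ) (hg : Integrable g μ) (hh : Integrable h μ)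
    (hk : Integrable k μ) (c : ℝ) :
    ∫ a, (f a + g a + h a + k a + c) ∂μ =
      (∫ a, f a ∂μ) + (∫ a, g a ∂μ) + (∫ a, h a ∂μ) + (∫ a, k a ∂μ) + c := by
  have h3 : Integrable (fun a => f a + g a + h a + k a) μ := ((hf.add hg).add hh).add hk
  rw [integral_add h3 (integrable_const c), integral_add₄ hf hg hh hk, integral_const,
    probReal_univ, one_smul]

/-- The second moment of the difference at a vertex. -/
noncomputable def sqDist (G : SimpleGraph V) (d n m J R : ℕ) (t : ℝ) (o : V) : ℝ :=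
  ∫ ω, dsq G (runN G d n J o R) (runN G d m J o R) t o ω ∂iidU (V × (ℤ × Bool))

/-- The coefficient of the squared distance in the drift during the window `j`. -/
noncomputable def driftA (γ : ℝ) (j N : ℕ) : ℝ :=
  1 + (N : ℝ) ^ 2 * Real.sqrt (Real.sqrt (rt j)) + 1 / (γ * rt j) +
    1 / (γ * rt j) ^ 3 * Real.exp (-(γ * rt j * N / 4))

/-- The contribution of the remote slots. -/
noncomputable def farF (γ : ℝ) (j N0 : ℕ) : ℝ :=
  (1 - γ * rt j) ^ (N0 - depth j - 3) / (γ * rt j)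

lemma sqDist_nonneg (n m J R : ℕ) (t : ℝ) (o : V) : 0 ≤ sqDist G d n m J R t o :=
  integral_nonneg fun _ => sq_nonneg _

variable (hR : Reg G d) {n m k J R0 R : ℕ} {η r KU KR γ : ℝ} {o g0 : V} {j q : ℕ} {t : ℝ}
  (hn : 1 ≤ n) (hm : 1 ≤ m)
include hR hn hm

lemma sqDist_eq (R : ℕ) (t : ℝ) (a a' : V) : sqDist G d n m J R t a = sqDist G d n m J R t a' := by
  have := integral_dsq_pth_eq (J := J) (R := R) hR hn hm hn (a := a) (x := a) (a' := a') (x' := a')
    SimpleGraph.dist_self SimpleGraph.dist_self t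
  simpa [sqDist, Run.pth, pthW] using this

/-- The canonical family of differences of exponents. -/
lemma mean_dlr (g0 : V) :
    ∫ ω, dlr G (runN G d n J o R) (runN G d m J o R) t g0 o ω ∂iidU (V × (ℤ × Bool)) =
      meanLr G d n J g0 o R t - meanLr G d m J g0 o R t := by
  have hi : ∀ k, 1 ≤ k → Integrable (fun ω => lr (thN d k)
      ((runN G d k J o R).U G t g0 o ω)) (iidU (V × (ℤ × Bool))) := fun k hk => by
    obtain ⟨r, hr0, hr1, hr⟩ := abs_U_le d J
    refine integrable_of_abs_le (measurable_lr ((runN_ok hR hk J o R).measurable_U t g0 o) _)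
      (C := 2 / (1 - r ^ 2) * 2) fun ω => ?_
    have hu := hr hR _ (runN_ok hR hk J o R) (thN_spec hR hk).2.2.2.1.le runN_lev t g0 o ω
    have hc : 0 < 1 - r ^ 2 := by nlinarith
    have := abs_lr_sub hr1 (thN_spec hR hk).2.1.le (thN_spec hR hk).2.2.1.le (le_refl 0) zero_le_one
      hu (x' := 0) (by simpa using hr0)
    simp only [lr, zero_pow two_ne_zero, mul_zero, sub_zero, Real.log_one, abs_zero, add_zero] at this ⊢
    refine this.trans (mul_le_mul_of_nonneg_left ?_ (by positivity))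
    have h1 := (runN_ok hR hk J o R).abs_U t g0 o ω
    have h2 : |thN d k| ≤ 1 := by
      rw [abs_of_pos (thN_spec hR hk).2.1]; exact (thN_spec hR hk).2.2.1.le
    have h3 := mul_le_one₀ h1 (abs_nonneg _) h1
    linarith
  exact integral_sub (hi n hn) (hi m hm)

variable (hb : SideBound G d J r)
include hb

/-- The second moment of the difference of exponents at the reference edge. -/
lemma integral_dlr_sq (hU : MomU G d J KU) (hSn : Stable G d J n R0 η) (hSm : Stable G d J m R0 η)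
    (hg : G.Adj g0 o) (hRR : R0 + 1 ≤ R) (hq : 1 ≤ q) (ht0 : 0 < t)
    (ht : t ≤ ((J : ℝ) + 2) * (1 / 2) ^ j) (ht1 : t ≤ 1 + J) :
    ∫ ω, dlr G (runN G d n J o R) (runN G d m J o R) t g0 o ω ^ 2 ∂iidU (V × (ℤ × Bool)) ≤
      lrC r ^ 2 * (128 * (KU + 1) * Real.sqrt q * Real.sqrt (Real.sqrt (rt j)) *
          (2 * sqDist G d n m J R t o + 8 * η + 8 * (1 / 8) ^ (4 * q)) +
        2 * (thN d n - thN d m) ^ 2) := by
  set P := runN G d n J o R
  set Q := runN G d m J o R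
  have hP : P.Ok G := runN_ok hR hn J o R
  have hQ : Q.Ok G := runN_ok hR hm J o R
  have hgo : G.dist o g0 = 1 := dist_eq_one_iff_adj.2 hg.symm
  have ho : o ∈ ball G o R := self_mem_ball hR o R
  have hg0 : g0 ∈ ball G o R := (mem_ball hR).2 (by omega)
  let Y : (V × (ℤ × Bool) → ℝ) → ℝ := fun ω =>
    Real.sqrt (Real.sqrt (P.U G t g0 o ω ^ 2)) + Real.sqrt (Real.sqrt (Q.U G t g0 o ω ^ 2))
  let Z : (V × (ℤ × Bool) → ℝ) → ℝ := fun ω => (dsq G P Q t o ω + dsq G P Q t g0 ω) / 8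
  have hs : 0 < Real.sqrt (Real.sqrt (rt j)) := Real.sqrt_pos.2 (Real.sqrt_pos.2 (rt_pos j))
  have hq0 : 1 ≤ Real.sqrt q := Real.one_le_sqrt.2 (by exact_mod_cast hq)
  have hKU := hU.1
  have hY : Mom (iidU (V × (ℤ × Bool))) (4 * q) Y
      (2 * (KU + 1) * Real.sqrt q * Real.sqrt (Real.sqrt (rt j))) := by
    refine ((hU.2 P hP (thN_spec hR hn).2.2.2.1.le (thN_spec hR hn).1 runN_lev j t ht0 ht g0 o
      hg0 ho (Or.inr hg) q hq).add (by omega) (hU.2 Q hQ (thN_spec hR hm).2.2.2.1.le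
      (thN_spec hR hm).1 runN_lev j t ht0 ht g0 o hg0 ho (Or.inr hg) q hq)).congr_le ?_
    have : 0 ≤ Real.sqrt q * Real.sqrt (Real.sqrt (rt j)) := by positivity
    nlinarith
  have hY1 : ∀ ω, Y ω ≤ 2 := fun ω => by
    have h1 : ∀ {A : Run V}, A.Ok G → Real.sqrt (Real.sqrt (A.U G t g0 o ω ^ 2)) ≤ 1 := fun {A} hA => by
      rw [Real.sqrt_le_one, Real.sqrt_le_one]; exact (hA.U_sq_mem t g0 o ω).2
    show _ + _ ≤ (2 : ℝ)
    linarith [h1 hP, h1 hQ]
  have hdd : ∀ v ω, 0 ≤ dsq G P Q t v ω ∧ dsq G P Q t v ω ≤ 4 :=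
    fun v ω => ⟨sq_nonneg _, dsq_le_four hP hQ t v ω⟩
  have hid : ∀ v, Integrable (dsq G P Q t v) (iidU (V × (ℤ × Bool))) := fun v =>
    integrable_of_abs_le (measurable_dsq hP hQ t v) (C := 4) fun ω => by
      rw [abs_of_nonneg (hdd v ω).1]; exact (hdd v ω).2
  have hZm : Measurable Z := ((measurable_dsq hP hQ t o).add (measurable_dsq hP hQ t g0)).div_const 8
  have hZ0 : ∀ ω, 0 ≤ Z ω := fun ω => div_nonneg (add_nonneg (hdd o ω).1 (hdd g0 ω).1) (by norm_num)
  have hZ1 : ∀ ω, Z ω ≤ 1 := fun ω => by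
    show _ / 8 ≤ (1 : ℝ)
    linarith [(hdd o ω).2, (hdd g0 ω).2]
  have hYZ := integral_mul_le_moment hY.meas hZm hY1 hY.nonneg hZ0 hZ1 (by positivity)
    (by omega) hY.le
  have hDg : ∫ ω, dsq G P Q t g0 ω ∂iidU (V × (ℤ × Bool)) ≤ sqDist G d n m J R t o + 8 * η := by
    rw [sqDist_eq hR hn hm R t o g0]
    have hd' := integral_dsq_centre (o := o) (R := R) hR hn hm hSn hSm (o' := g0) (a := g0) (R' := R)
      (by omega) (by simp; omega) ht1
    have e : ∫ ω, (dsq G P Q t g0 ω - dsq G (runN G d n J g0 R) (runN G d m J g0 R) t g0 ω)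
        ∂iidU (V × (ℤ × Bool)) ≤ 8 * η :=
      (le_abs_self _).trans (abs_integral_le_integral_abs.trans hd')
    rw [integral_sub (hid g0) (integrable_of_abs_le (measurable_dsq (runN_ok hR hn J g0 R)
      (runN_ok hR hm J g0 R) t g0) (C := 4) fun ω => by
        rw [abs_of_nonneg (sq_nonneg _)]
        exact dsq_le_four (runN_ok hR hn J g0 R) (runN_ok hR hm J g0 R) t g0 ω)] at e
    simp only [sqDist]
    linarith
  have hEZ : ∫ ω, Z ω ∂iidU (V × (ℤ × Bool)) ≤ (2 * sqDist G d n m J R t o + 8 * η) / 8 := by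
    simp only [Z]
    rw [integral_div, integral_add (hid o) (hid g0)]
    have : ∫ ω, dsq G P Q t o ω ∂iidU (V × (ℤ × Bool)) = sqDist G d n m J R t o := rfl
    linarith
  have key : ∀ ω, dlr G P Q t g0 o ω ^ 2 ≤
      lrC r ^ 2 * (64 * (Y ω * Z ω) + 2 * (thN d n - thN d m) ^ 2) := fun ω => by
    have h := abs_dlr_runN (o := o) (R := R) (o' := o) (R' := R) (J := J) hR hn hm hb hg (by omega) (by simp)
      (by omega) (by simp) t ω
    rw [← sq_abs]
    refine (pow_le_pow_left₀ (abs_nonneg _) h 2).trans ?_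
    rw [mul_pow]
    refine mul_le_mul_of_nonneg_left ?_ (sq_nonneg _)
    set u := |P.U G t g0 o ω|
    set u' := |Q.U G t g0 o ω|
    set a := |P.m G ω t o - Q.m G ω t o|
    set a' := |P.m G ω t g0 - Q.m G ω t g0|
    have hsq : ∀ {x : ℝ}, 0 ≤ x → x ≤ 1 → x ^ 2 ≤ Real.sqrt x := fun {x} h0 h1 => by
      refine Real.le_sqrt_of_sq_le ?_
      nlinarith [pow_le_pow_of_le_one h0 h1 (show 1 ≤ 4 by norm_num)]
    have e1 : u ^ 2 + u' ^ 2 ≤ Y ω := by
      show _ ≤ Real.sqrt (Real.sqrt _) + Real.sqrt (Real.sqrt _)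
      rw [Real.sqrt_sq_eq_abs, Real.sqrt_sq_eq_abs]
      exact add_le_add (hsq (abs_nonneg _) (hP.abs_U t g0 o ω))
        (hsq (abs_nonneg _) (hQ.abs_U t g0 o ω))
    have e2 : a ^ 2 + a' ^ 2 = 8 * Z ω := by
      simp only [Z, dsq, a, a', sq_abs]; ring
    have hY0 := hY.nonneg ω
    calc ((u + u') * (a + a') + |thN d n - thN d m|) ^ 2
        ≤ 2 * ((u + u') ^ 2 * (a + a') ^ 2) + 2 * (thN d n - thN d m) ^ 2 := by
          nlinarith [sq_nonneg ((u + u') * (a + a') - |thN d n - thN d m|),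
            sq_abs (thN d n - thN d m)]
      _ ≤ 2 * ((2 * Y ω) * (2 * (8 * Z ω))) + 2 * (thN d n - thN d m) ^ 2 := by
          have f1 : (u + u') ^ 2 ≤ 2 * Y ω := by nlinarith [sq_nonneg (u - u')]
          have f2 : (a + a') ^ 2 ≤ 2 * (8 * Z ω) := by nlinarith [sq_nonneg (a - a')]
          gcongr
      _ = _ := by ring
  have hiYZ : Integrable (fun ω => Y ω * Z ω) (iidU (V × (ℤ × Bool))) :=
    integrable_of_abs_le (hY.meas.mul hZm) (C := 2 * 1) fun ω => by
      rw [abs_of_nonneg (mul_nonneg (hY.nonneg ω) (hZ0 ω))]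
      exact mul_le_mul (hY1 ω) (hZ1 ω) (hZ0 ω) (by norm_num)
  calc ∫ ω, dlr G P Q t g0 o ω ^ 2 ∂iidU (V × (ℤ × Bool))
      ≤ ∫ ω, lrC r ^ 2 * (64 * (Y ω * Z ω) + 2 * (thN d n - thN d m) ^ 2)
          ∂iidU (V × (ℤ × Bool)) :=
        integral_mono_of_nonneg (ae_of_all _ fun ω => sq_nonneg _)
          (((hiYZ.const_mul 64).add (integrable_const _)).const_mul _) (ae_of_all _ key)
    _ = lrC r ^ 2 * (64 * (∫ ω, Y ω * Z ω ∂iidU (V × (ℤ × Bool))) +
          2 * (thN d n - thN d m) ^ 2) := by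
        rw [integral_const_mul, integral_add (hiYZ.const_mul 64) (integrable_const _),
          integral_const_mul, integral_const]
        simp
    _ ≤ _ := by
        refine mul_le_mul_of_nonneg_left (add_le_add ?_ le_rfl) (sq_nonneg _)
        have hg0' : 0 ≤ 2 * (KU + 1) * Real.sqrt q * Real.sqrt (Real.sqrt (rt j)) := by positivity
        nlinarith [hYZ, mul_le_mul_of_nonneg_left hEZ hg0']

/-- Short geodesics: the variance of the sum of the differences of exponents. -/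
lemma integral_sq_pth_head {CP : ℝ} (hCP0 : 0 ≤ CP)
    (hCP : ∀ (X : V → V → (V × (ℤ × Bool) → ℝ) → ℝ) (R : ℕ) (L : Finset (ℤ × Bool)) (B0 : ℝ),
      (∀ p c, G.Adj p c → Measurable (X p c)) →
      (∀ p c ω, G.Adj p c → |X p c ω| ≤ B0) →
      (∀ p c, G.Adj p c →
        DependsOn (X p c) {x : V × (ℤ × Bool) | G.dist c x.1 ≤ R ∧ x.2 ∈ L}) →
      (∀ (g : G ≃g G) p c ω, G.Adj p c → X (g p) (g c) (actC g ω) = X p c ω) →
      ∀ (l : ℕ) (w : ℕ → V), (∀ i i', i ≤ i' → i' ≤ l → G.dist (w i) (w i') = i' - i) →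
        ∫ ω, (∑ i ∈ range l, X (w i) (w (i + 1)) ω) ^ 2 ∂iidU (V × (ℤ × Bool)) ≤
          CP * (l * ∫ ω, X (w 0) (w 1) ω ^ 2 ∂iidU (V × (ℤ × Bool)) +
            (l * ∫ ω, X (w 0) (w 1) ω ∂iidU (V × (ℤ × Bool))) ^ 2))
    (hSn : Stable G d J n R0 η) (hSm : Stable G d J m R0 η) (hg : G.Adj g0 o) {w : ℕ → V} {l : ℕ}
    (hw : IsGeo G w l) (hl : 1 ≤ l) (hwo : ∀ i ≤ l, G.dist o (w i) + R0 ≤ R) (hRR : R0 + 1 ≤ R)
    (ht : t ≤ 1 + J) :
    ∫ ω, ((runN G d n J o R).pth G t w l ω - (runN G d m J o R).pth G t w l ω) ^ 2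
        ∂iidU (V × (ℤ × Bool)) ≤
      CP * (l * (∫ ω, dlr G (runN G d n J o R) (runN G d m J o R) t g0 o ω ^ 2
          ∂iidU (V × (ℤ × Bool))) +
        (l * (meanLr G d n J g0 o R t - meanLr G d m J g0 o R t)) ^ 2) +
      144 * lrC r ^ 2 * (l : ℝ) ^ 2 * η := by
  classical
  have hT := hR.tree
  set P := runN G d n J o R
  set Q := runN G d m J o R
  have hP : P.Ok G := runN_ok hR hn J o R
  have hQ : Q.Ok G := runN_ok hR hm J o R
  let X : V → V → (V × (ℤ × Bool) → ℝ) → ℝ := fun p c =>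
    dlr G (runN G d n J c R) (runN G d m J c R) t p c
  have hC := lrC_nonneg hb.1 hb.2.1
  have hth : |thN d n - thN d m| ≤ 1 := by
    rw [abs_le]
    have h1 := thN_spec hR hn
    have h2 := thN_spec hR hm
    constructor <;> linarith [h1.2.1, h1.2.2.1, h2.2.1, h2.2.2.1]
  have hB : ∀ {a b : V} {p c : V}, G.Adj p c → G.dist a p ≤ R → G.dist a c ≤ R →
      G.dist b p ≤ R → G.dist b c ≤ R → ∀ ω,
      |dlr G (runN G d n J a R) (runN G d m J b R) t p c ω| ≤ 9 * lrC r := by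
    intro a b p c hpc h1 h2 h3 h4 ω
    refine (abs_dlr_runN hR hn hm hb hpc h1 h2 h3 h4 t ω).trans ?_
    rw [mul_comm 9]
    refine mul_le_mul_of_nonneg_left ?_ hC
    have hA : (runN G d n J a R).Ok G := runN_ok hR hn J a R
    have hB' : (runN G d m J b R).Ok G := runN_ok hR hm J b R
    nlinarith [hA.abs_U t p c ω, hB'.abs_U t p c ω, hA.abs_m_le ω t c, hA.abs_m_le ω t p,
      hB'.abs_m_le ω t c, hB'.abs_m_le ω t p, hth,
      abs_sub ((runN G d n J a R).m G ω t c) ((runN G d m J b R).m G ω t c),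
      abs_sub ((runN G d n J a R).m G ω t p) ((runN G d m J b R).m G ω t p),
      abs_nonneg ((runN G d n J a R).U G t p c ω), abs_nonneg ((runN G d m J b R).U G t p c ω),
      abs_nonneg ((runN G d n J a R).m G ω t c - (runN G d m J b R).m G ω t c),
      abs_nonneg ((runN G d n J a R).m G ω t p - (runN G d m J b R).m G ω t p)]
  have hXb : ∀ p c ω, G.Adj p c → |X p c ω| ≤ 9 * lrC r := fun p c ω hpc => by
    have : G.dist c p = 1 := dist_eq_one_iff_adj.2 hpc.symm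
    exact hB hpc (by omega) (by simp) (by omega) (by simp) ω
  have hXm : ∀ p c, G.Adj p c → Measurable (X p c) := fun p c _ =>
    measurable_dlr (runN_ok hR hn J c R) (runN_ok hR hm J c R) t p c
  have hXd : ∀ p c, G.Adj p c → DependsOn (X p c)
      {x : V × (ℤ × Bool) | G.dist c x.1 ≤ R ∧
        x.2 ∈ Finset.Ico (-(max n m : ℕ) : ℤ) (J : ℤ) ×ˢ (univ : Finset Bool)} := by
    intro p c _ x y hxy
    have hst : ∀ k ≤ max n m, (runN G d k J c R).st G x t = (runN G d k J c R).st G y t :=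
      fun k hk => st_congr (fun s hs b => by
        have hs' : s ∈ ball G c R ×ˢ Finset.Ico (-(k : ℤ)) (J : ℤ) := hs
        refine hxy _ ⟨(mem_ball hR).1 (mem_product.1 hs').1, ?_⟩
        obtain ⟨h1, h2⟩ := mem_Ico.1 (mem_product.1 hs').2
        simp only [mem_product, mem_univ, and_true, Finset.mem_Ico]
        exact ⟨by omega, h2⟩) t
    simp only [X, dlr, Run.U, hst n (le_max_left _ _), hst m (le_max_right _ _)]
  have hXe : ∀ (g : G ≃g G) p c ω, G.Adj p c → X (g p) (g c) (actC g ω) = X p c ω := by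
    intro g p c ω _
    have := dlr_map (runN G d n J c R) (runN G d m J c R) hT.connected g ω t p c
    simpa only [runN_map hR] using this
  have hpc := hCP X R _ (9 * lrC r) hXm hXb hXd hXe l w fun i i' hii hi' => hw.dist_eq hT hii hi'
  obtain ⟨g, hg0, hg1⟩ := exists_iso_pair hT (by have := hR.three; omega) hR.deg 1 g0 o (w 0) (w 1)
    (dist_eq_one_iff_adj.2 hg) (dist_eq_one_iff_adj.2 (hw.1 0 hl))
  have hm1 : Measurable (X (w 0) (w 1)) := hXm _ _ (hw.1 0 hl)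
  have ea : ∀ ω, X (w 0) (w 1) (actC g ω) = dlr G P Q t g0 o ω := fun ω => by
    rw [← hg0, ← hg1]; exact hXe g g0 o ω hg
  have e1 : ∫ ω, X (w 0) (w 1) ω ∂iidU (V × (ℤ × Bool)) =
      meanLr G d n J g0 o R t - meanLr G d m J g0 o R t := by
    rw [← integral_actC g hm1]
    simp only [ea]
    exact mean_dlr hR hn hm g0
  have e2 : ∫ ω, X (w 0) (w 1) ω ^ 2 ∂iidU (V × (ℤ × Bool)) =
      ∫ ω, dlr G P Q t g0 o ω ^ 2 ∂iidU (V × (ℤ × Bool)) := by
    rw [← integral_actC g (hm1.pow_const 2)]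
    simp only [ea]
  rw [e1, e2] at hpc
  -- replacing the centre
  let E : ℕ → (V × (ℤ × Bool) → ℝ) → ℝ := fun i ω =>
    |dlr G P (runN G d n J (w (i + 1)) R) t (w i) (w (i + 1)) ω| +
      |dlr G Q (runN G d m J (w (i + 1)) R) t (w i) (w (i + 1)) ω|
  have hE : ∀ i ∈ range l, Integrable (E i) (iidU (V × (ℤ × Bool))) ∧
      ∫ ω, E i ω ∂iidU (V × (ℤ × Bool)) ≤ 8 * lrC r * η := fun i hi => by
    rw [mem_range] at hi
    have h1 : G.dist (w (i + 1)) (w i) = 1 := dist_eq_one_iff_adj.2 (hw.1 i hi).symm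
    obtain ⟨i1, b1⟩ := integral_dlr_centre hR hn hb hSn (o := o) (o' := w (i + 1)) (R := R) (R' := R)
      (hw.1 i hi) (hwo i hi.le) (hwo _ hi) (by omega) (by simp; omega) ht
    obtain ⟨i2, b2⟩ := integral_dlr_centre hR hm hb hSm (o := o) (o' := w (i + 1)) (R := R) (R' := R)
      (hw.1 i hi) (hwo i hi.le) (hwo _ hi) (by omega) (by simp; omega) ht
    refine ⟨i1.add i2, ?_⟩
    show ∫ ω, (_ + _) ∂iidU (V × (ℤ × Bool)) ≤ _
    rw [integral_add i1 i2]
    linarith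
  let S : (V × (ℤ × Bool) → ℝ) → ℝ := fun ω => ∑ i ∈ range l, X (w i) (w (i + 1)) ω
  have key : ∀ ω, (P.pth G t w l ω - Q.pth G t w l ω) ^ 2 ≤
      S ω ^ 2 + 18 * lrC r * l * ∑ i ∈ range l, E i ω := fun ω => by
    rw [← sq_abs (P.pth G t w l ω - Q.pth G t w l ω)]
    refine le_trans (pow_le_pow_left₀ (abs_nonneg _) (abs_pth_sub hP hQ t w l ω) 2) ?_
    rw [sq_abs]
    set T := ∑ i ∈ range l, dlr G P Q t (w i) (w (i + 1)) ω
    have hT1 : |T| ≤ 9 * lrC r * l := by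
      refine (abs_sum_le_sum_abs _ _).trans ((sum_le_sum fun i hi => hB (hw.1 i (mem_range.1 hi))
        (by have := hwo i (mem_range.1 hi).le; omega) (by have := hwo (i + 1) (mem_range.1 hi); omega)
        (by have := hwo i (mem_range.1 hi).le; omega) (by have := hwo (i + 1) (mem_range.1 hi); omega)
        ω).trans (le_of_eq ?_))
      simp; ring
    have hS1 : |S ω| ≤ 9 * lrC r * l := by
      refine (abs_sum_le_sum_abs _ _).trans ((sum_le_sum fun i hi =>
        hXb _ _ ω (hw.1 i (mem_range.1 hi))).trans (le_of_eq ?_))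
      simp; ring
    have hd' : |T - S ω| ≤ ∑ i ∈ range l, E i ω := by
      rw [← sum_sub_distrib]
      refine (abs_sum_le_sum_abs _ _).trans (sum_le_sum fun i _ => ?_)
      refine le_trans (le_of_eq ?_) (abs_sub _ _)
      simp only [X, dlr]
      congr 1
      ring
    have hle : T ^ 2 - S ω ^ 2 ≤ |T - S ω| * (18 * lrC r * l) := by
      rw [sq_sub_sq, mul_comm]
      refine (le_abs_self _).trans ?_
      rw [abs_mul]
      exact mul_le_mul_of_nonneg_left (by linarith [abs_add_le T (S ω)]) (abs_nonneg _)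
    have := mul_le_mul_of_nonneg_right hd' (show 0 ≤ 18 * lrC r * l by positivity)
    nlinarith
  have iS : Integrable (fun ω => S ω ^ 2) (iidU (V × (ℤ × Bool))) :=
    integrable_of_abs_le ((Finset.measurable_fun_sum _ fun i hi =>
      hXm _ _ (hw.1 i (mem_range.1 hi))).pow_const 2) (C := (∑ i ∈ range l, 9 * lrC r) ^ 2)
      fun ω => by
        rw [abs_pow]
        exact pow_le_pow_left₀ (abs_nonneg _) ((abs_sum_le_sum_abs _ _).trans
          (sum_le_sum fun i hi => hXb _ _ ω (hw.1 i (mem_range.1 hi)))) 2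
  calc ∫ ω, (P.pth G t w l ω - Q.pth G t w l ω) ^ 2 ∂iidU (V × (ℤ × Bool))
      ≤ ∫ ω, (S ω ^ 2 + 18 * lrC r * l * ∑ i ∈ range l, E i ω) ∂iidU (V × (ℤ × Bool)) :=
        integral_mono_of_nonneg (ae_of_all _ fun ω => sq_nonneg _)
          (iS.add ((integrable_finsetSum _ fun i hi => (hE i hi).1).const_mul _)) (ae_of_all _ key)
    _ = (∫ ω, S ω ^ 2 ∂iidU (V × (ℤ × Bool))) + 18 * lrC r * l *
          ∑ i ∈ range l, ∫ ω, E i ω ∂iidU (V × (ℤ × Bool)) := by
        rw [integral_add iS ((integrable_finsetSum _ fun i hi => (hE i hi).1).const_mul _),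
          integral_const_mul, integral_finsetSum _ fun i hi => (hE i hi).1]
    _ ≤ _ := by
        refine add_le_add hpc ((mul_le_mul_of_nonneg_left (sum_le_sum fun i hi => (hE i hi).2)
          (by positivity)).trans (le_of_eq ?_))
        simp; ring

omit hn hm in
/-- The bound on the squared distance against the damping along a geodesic of length `l`. -/
noncomputable def psiB (G : SimpleGraph V) (d n m J R : ℕ) (t : ℝ) (o : V) (η r : ℝ) (l : ℕ) : ℝ :=
  8 * η + 4 * (l * (4 * lrC r * η)) + 1 / (1 - r ^ 2) * Phi G d n m J R t ((l - 1) / 2) o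

omit hb in
lemma integrable_dsq_pth {k : ℕ} (hk : 1 ≤ k) (t : ℝ) (v : V) (w : ℕ → V) (l : ℕ) :
    Integrable (fun ω => dsq G (runN G d n J o R) (runN G d m J o R) t v ω *
      (runN G d k J o R).pth G t w l ω) (iidU (V × (ℤ × Bool))) := by
  have hP := runN_ok hR hn J o R
  have hQ := runN_ok hR hm J o R
  have hK := runN_ok hR hk J o R
  refine integrable_of_abs_le ((measurable_dsq hP hQ t v).mul (measurable_pth hK t w l))
    (C := 4 * 1) fun ω => ?_
  obtain ⟨h0, h1⟩ := pth_mem_unit hK t w l ω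
  rw [abs_mul, abs_of_nonneg h0]
  exact mul_le_mul (by
    rw [abs_of_nonneg (show 0 ≤ dsq G (runN G d n J o R) (runN G d m J o R) t v ω from sq_nonneg _)]
    exact dsq_le_four hP hQ t v ω) h1 h0 (by norm_num)

/-- Long geodesics: the squared difference of the damping. -/
lemma integral_sq_pth_tail (hSn : Stable G d J n R0 η) (hSm : Stable G d J m R0 η) {w : ℕ → V}
    {l : ℕ} (hw : IsGeo G w l) (hl : 1 ≤ l) (hlR : l + R0 ≤ R)
    (hwo : ∀ i ≤ l, G.dist o (w i) + R0 ≤ R) (ht : t ≤ 1 + J) :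
    ∫ ω, ((runN G d n J o R).pth G t w l ω - (runN G d m J o R).pth G t w l ω) ^ 2
        ∂iidU (V × (ℤ × Bool)) ≤
      2 * (l : ℝ) ^ 2 * lrC r ^ 2 *
        (64 * psiB G d n m J R t o η r l + 4 * (thN d n - thN d m) ^ 2) := by
  set P := runN G d n J o R
  set Q := runN G d m J o R
  have hP : P.Ok G := runN_ok hR hn J o R
  have hQ : Q.Ok G := runN_ok hR hm J o R
  let F : ℕ → (V × (ℤ × Bool) → ℝ) → ℝ := fun i ω =>
    lrC r ^ 2 * (16 * (dsq G P Q t (w i) ω * P.pth G t w l ω) +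
      16 * (dsq G P Q t (w i) ω * Q.pth G t w l ω) +
      16 * (dsq G P Q t (w (i + 1)) ω * P.pth G t w l ω) +
      16 * (dsq G P Q t (w (i + 1)) ω * Q.pth G t w l ω) +
      4 * (thN d n - thN d m) ^ 2)
  have hiF : ∀ i, Integrable (F i) (iidU (V × (ℤ × Bool))) := fun i =>
    ((((((integrable_dsq_pth hR hn hm hn t _ w l).const_mul 16).add
      ((integrable_dsq_pth hR hn hm hm t _ w l).const_mul 16)).add
      ((integrable_dsq_pth hR hn hm hn t _ w l).const_mul 16)).add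
      ((integrable_dsq_pth hR hn hm hm t _ w l).const_mul 16)).add (integrable_const _)).const_mul _
  have key : ∀ ω, (P.pth G t w l ω - Q.pth G t w l ω) ^ 2 ≤
      2 * l * ∑ i ∈ range l, F i ω := fun ω => by
    refine (sq_pth_sub hP hQ t w l ω).trans (mul_le_mul_of_nonneg_left ?_ (by positivity))
    rw [mul_sum]
    refine sum_le_sum fun i hi => ?_
    rw [mem_range] at hi
    obtain ⟨p0, p1⟩ := pth_mem_unit hP t w l ω
    obtain ⟨q0, q1⟩ := pth_mem_unit hQ t w l ω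
    have h := abs_dlr_runN (o := o) (R := R) (o' := o) (R' := R) (J := J) hR hn hm hb (hw.1 i hi)
      (by have := hwo i hi.le; omega) (by have := hwo (i + 1) hi; omega)
      (by have := hwo i hi.le; omega) (by have := hwo (i + 1) hi; omega) t ω
    set u := |P.U G t (w i) (w (i + 1)) ω| + |Q.U G t (w i) (w (i + 1)) ω|
    set a := |P.m G ω t (w (i + 1)) - Q.m G ω t (w (i + 1))|
    set b := |P.m G ω t (w i) - Q.m G ω t (w i)|
    have hu0 : 0 ≤ u := by positivity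
    have hu2 : u ≤ 2 := by
      linarith [hP.abs_U t (w i) (w (i + 1)) ω, hQ.abs_U t (w i) (w (i + 1)) ω]
    have h2 : dlr G P Q t (w i) (w (i + 1)) ω ^ 2 ≤ lrC r ^ 2 *
        (16 * dsq G P Q t (w i) ω + 16 * dsq G P Q t (w (i + 1)) ω +
          2 * (thN d n - thN d m) ^ 2) := by
      rw [← sq_abs]
      refine (pow_le_pow_left₀ (abs_nonneg _) h 2).trans ?_
      rw [mul_pow]
      refine mul_le_mul_of_nonneg_left ?_ (sq_nonneg _)
      have e1 : dsq G P Q t (w i) ω = b ^ 2 := (sq_abs _).symm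
      have e2 : dsq G P Q t (w (i + 1)) ω = a ^ 2 := (sq_abs _).symm
      rw [e1, e2]
      have e3 : u ^ 2 * (a + b) ^ 2 ≤ 4 * (2 * (a ^ 2 + b ^ 2)) :=
        mul_le_mul (by nlinarith) (by nlinarith [sq_nonneg (a - b)]) (sq_nonneg _) (by norm_num)
      nlinarith [sq_nonneg (u * (a + b) - |thN d n - thN d m|), sq_abs (thN d n - thN d m)]
    have h3 := mul_le_mul_of_nonneg_left h2 (add_nonneg p0 q0)
    have hle : (P.pth G t w l ω + Q.pth G t w l ω) * (lrC r ^ 2 * (2 * (thN d n - thN d m) ^ 2)) ≤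
        2 * (lrC r ^ 2 * (2 * (thN d n - thN d m) ^ 2)) :=
      mul_le_mul_of_nonneg_right (by linarith) (by positivity)
    simp only [F]
    linarith
  have hF : ∀ i ∈ range l, ∫ ω, F i ω ∂iidU (V × (ℤ × Bool)) ≤
      lrC r ^ 2 * (64 * psiB G d n m J R t o η r l + 4 * (thN d n - thN d m) ^ 2) := fun i hi => by
    rw [mem_range] at hi
    have b1 := integral_dsq_pth_le (o := o) hR hn hm hb hSn hSm (k := n) (Or.inl rfl) (i := i) hw hl
      hi.le hlR hwo ht o
    have b2 := integral_dsq_pth_le (o := o) hR hn hm hb hSn hSm (k := m) (Or.inr rfl) (i := i) hw hl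
      hi.le hlR hwo ht o
    have b3 := integral_dsq_pth_le (o := o) hR hn hm hb hSn hSm (k := n) (Or.inl rfl) (i := i + 1)
      hw hl hi hlR hwo ht o
    have b4 := integral_dsq_pth_le (o := o) hR hn hm hb hSn hSm (k := m) (Or.inr rfl) (i := i + 1)
      hw hl hi hlR hwo ht o
    have i1 := (integrable_dsq_pth (o := o) (R := R) (J := J) hR hn hm hn t (w i) w l).const_mul 16
    have i2 := (integrable_dsq_pth (o := o) (R := R) (J := J) hR hn hm hm t (w i) w l).const_mul 16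
    have i3 :=
      (integrable_dsq_pth (o := o) (R := R) (J := J) hR hn hm hn t (w (i + 1)) w l).const_mul 16
    have i4 :=
      (integrable_dsq_pth (o := o) (R := R) (J := J) hR hn hm hm t (w (i + 1)) w l).const_mul 16
    simp only [F]
    rw [integral_const_mul,
      integral_add₄_const i1 i2 i3 i4,
      integral_const_mul, integral_const_mul, integral_const_mul, integral_const_mul]
    refine mul_le_mul_of_nonneg_left ?_ (sq_nonneg _)
    simp only [psiB]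
    linarith
  calc ∫ ω, (P.pth G t w l ω - Q.pth G t w l ω) ^ 2 ∂iidU (V × (ℤ × Bool))
      ≤ ∫ ω, 2 * l * ∑ i ∈ range l, F i ω ∂iidU (V × (ℤ × Bool)) :=
        integral_mono_of_nonneg (ae_of_all _ fun ω => sq_nonneg _)
          ((integrable_finsetSum _ fun i _ => hiF i).const_mul _) (ae_of_all _ key)
    _ ≤ _ := by
        rw [integral_const_mul, integral_finsetSum _ fun i _ => hiF i]
        refine (mul_le_mul_of_nonneg_left (sum_le_sum hF) (by positivity)).trans (le_of_eq ?_)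
        simp; ring

/-- The drift coming from one slot at positive distance. -/
lemma integral_phi_le (hSn : Stable G d J n R0 η) (hSm : Stable G d J m R0 η) {b : V} {l : ℕ}
    (hd' : G.dist o b = l) (hl : 1 ≤ l) (hlR : l + R0 ≤ R) (ht : t ≤ 1 + J) :
    ∫ ω, phi G (runN G d n J o R) (runN G d m J o R) t o b ω ∂iidU (V × (ℤ × Bool)) ≤
      8 * (1 / ((d : ℝ) - 1)) ^ l * (5 * psiB G d n m J R t o η r l +
        (l : ℝ) ^ 2 * ((d : ℝ) - 1) * (thN d n - thN d m) ^ 2 +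
        ∫ ω, ((runN G d n J o R).pth G t (geo G o b) l ω -
          (runN G d m J o R).pth G t (geo G o b) l ω) ^ 2 ∂iidU (V × (ℤ × Bool))) := by
  have hT := hR.tree
  set P := runN G d n J o R
  set Q := runN G d m J o R
  have hP : P.Ok G := runN_ok hR hn J o R
  have hQ : Q.Ok G := runN_ok hR hm J o R
  have hw : IsGeo G (geo G o b) l := hd' ▸ isGeo_geo hT o b
  have hwo : ∀ i ≤ l, G.dist o (geo G o b i) + R0 ≤ R := fun i hi => by
    have := hw.2 i hi
    rw [geo_zero hT] at this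
    omega
  have e0 : geo G o b 0 = o := geo_zero hT o b
  have el : geo G o b l = b := hd' ▸ geo_end o b
  have b1 := integral_dsq_pth_le (o := o) hR hn hm hb hSn hSm (k := n) (Or.inl rfl) (i := 0) hw hl
    (Nat.zero_le _) hlR hwo ht o
  have b2 := integral_dsq_pth_le (o := o) hR hn hm hb hSn hSm (k := m) (Or.inr rfl) (i := l) hw hl
    le_rfl hlR hwo ht o
  rw [e0] at b1
  rw [el] at b2
  have i1 := (integrable_dsq_pth (o := o) (R := R) (J := J) hR hn hm hn t o (geo G o b) l).const_mul 4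
  have i2 := integrable_dsq_pth (o := o) (R := R) (J := J) hR hn hm hm t b (geo G o b) l
  have i3 : Integrable (fun ω => (P.pth G t (geo G o b) l ω - Q.pth G t (geo G o b) l ω) ^ 2)
      (iidU (V × (ℤ × Bool))) :=
    integrable_of_abs_le (((measurable_pth hP t _ _).sub (measurable_pth hQ t _ _)).pow_const 2)
      (C := 1) fun ω => by
        obtain ⟨p0, p1⟩ := pth_mem_unit hP t (geo G o b) l ω
        obtain ⟨q0, q1⟩ := pth_mem_unit hQ t (geo G o b) l ω
        rw [abs_of_nonneg (sq_nonneg _)]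
        exact (sq_le_one_iff_abs_le_one _).2 (abs_le.2 ⟨by linarith, by linarith⟩)
  let c := (l : ℝ) ^ 2 * ((d : ℝ) - 1) * (thN d n - thN d m) ^ 2
  have key : ∀ ω, phi G P Q t o b ω ≤ 8 * (1 / ((d : ℝ) - 1)) ^ l *
      (4 * (dsq G P Q t o ω * P.pth G t (geo G o b) l ω) + c +
        (P.pth G t (geo G o b) l ω - Q.pth G t (geo G o b) l ω) ^ 2 +
        dsq G P Q t b ω * Q.pth G t (geo G o b) l ω) := fun ω => by
    have h := phi_le (pairOk_runN hR hn hm J o o R R) (thN_spec hR hn).2.1 (thN_spec hR hm).2.1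
      (o := o) (b := b) (self_mem_ball hR o R) ((mem_ball hR).2 (by omega)) (self_mem_ball hR o R)
      ((mem_ball hR).2 (by omega)) t ω
    rw [hd'] at h
    refine h.trans (mul_le_mul_of_nonneg_left ?_ (by have := hR.two_le; positivity))
    have hW : (|P.m G ω t o| + |Q.m G ω t o|) ^ 2 ≤ 4 := by
      nlinarith [hP.abs_m_le ω t o, hQ.abs_m_le ω t o, abs_nonneg (P.m G ω t o),
        abs_nonneg (Q.m G ω t o)]
    have h4 := mul_le_mul_of_nonneg_right hW
      (mul_nonneg (sq_nonneg (P.m G ω t o - Q.m G ω t o)) (pth_mem_unit hP t (geo G o b) l ω).1)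
    simp only [dsq, c] at h4 ⊢
    show _ * P.pth G t (geo G o b) l ω + _ * (P.θ - Q.θ) ^ 2 + _ + _ ≤ _
    change _ ≤ _ + _ * (P.θ - Q.θ) ^ 2 + _ + _
    linarith
  calc ∫ ω, phi G P Q t o b ω ∂iidU (V × (ℤ × Bool))
      ≤ ∫ ω, 8 * (1 / ((d : ℝ) - 1)) ^ l *
        (4 * (dsq G P Q t o ω * P.pth G t (geo G o b) l ω) + c +
          (P.pth G t (geo G o b) l ω - Q.pth G t (geo G o b) l ω) ^ 2 +
          dsq G P Q t b ω * Q.pth G t (geo G o b) l ω) ∂iidU (V × (ℤ × Bool)) :=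
        integral_mono_of_nonneg (ae_of_all _ fun ω => phi_nonneg t o b ω)
          ((((i1.add (integrable_const c)).add i3).add i2).const_mul _) (ae_of_all _ key)
    _ ≤ _ := by
        rw [integral_const_mul, integral_add₄ i1 (integrable_const c) i3 i2,
          integral_const_mul, integral_const, probReal_univ, one_smul]
        refine mul_le_mul_of_nonneg_left ?_ (by have := hR.two_le; positivity)
        simp only [psiB, c]
        linarith

omit hb in
/-- The moments of the averaged damping at the centre. -/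
lemma mom_rbar (hM : MomR G d KR γ) {k : ℕ} (hkj : j + 4 ≤ k) (htj : (1 / 2) ^ j ≤ t) {h q : ℕ}
    (hh : h + depth j + 2 ≤ R) (hq : 1 ≤ q) :
    Mom (iidU (V × (ℤ × Bool))) q (rbar G d k J R t h o)
      (KR * Real.sqrt q * (1 - γ * rt j) ^ h) := by
  obtain ⟨hK0, hγ0, hγ1, hM⟩ := hM
  have hk : 1 ≤ k := by omega
  obtain ⟨s1, s2, s3, s4, s5, s6⟩ := thN_spec hR hk
  have hcl : (1 - thN d k ^ 2 * ((d : ℝ) - 1)) * depth j ≤ 1 / 2 := by
    refine (mul_le_mul_of_nonneg_right s5 (Nat.cast_nonneg _)).trans ?_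
    have h1 : (depth j : ℝ) ≤ 2 ^ (j + 1) := by
      simp only [depth, Nat.cast_pow, Nat.cast_ofNat]
      exact pow_le_pow_right₀ one_le_two (by omega)
    have h2 : ((1 : ℝ) / 2) ^ k ≤ (1 / 2) ^ (j + 4) :=
      pow_le_pow_of_le_one (by norm_num) (by norm_num) hkj
    have h3 : (2 : ℝ) * (1 / 2) ^ (j + 4) * 2 ^ (j + 1) = 1 / 4 := by
      rw [show j + 4 = (j + 1) + 3 by omega, pow_add (1 / 2 : ℝ),
        show (2 : ℝ) * ((1 / 2) ^ (j + 1) * (1 / 2) ^ 3) * 2 ^ (j + 1) =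
          1 / 4 * ((1 / 2) ^ (j + 1) * 2 ^ (j + 1)) by ring, ← mul_pow]
      norm_num
    have h5 := mul_le_mul (mul_le_mul_of_nonneg_left h2 (zero_le_two (α := ℝ))) h1 (Nat.cast_nonneg _)
      (by positivity)
    linarith
  have hc : ∀ g ∈ kid G (ball G o R) o o, Mom (iidU (V × (ℤ × Bool))) q
      (fun ω => Rw G d (thN d k) (ball G o R) ((runN G d k J o R).st G ω t) h o g)
      (KR * Real.sqrt q * (1 - γ * rt j) ^ h) := fun g hg => by
    refine hM (runN G d k J o R) (runN_ok hR hk J o R) j ⟨s1, s4.le, hcl⟩ t htj o g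
      (mem_kid.1 hg).2.1 (self_mem_ball hR o R) h (fun v hv => ?_) q hq
    have hov : v ∈ ball G o R := by
      refine (mem_ball hR).2 ?_
      have := hR.tree.connected.dist_triangle (u := o) (v := g) (w := v)
      have h1 := dist_eq_one_iff_adj.2 (mem_kid.1 hg).2.1
      omega
    exact ⟨hov, mem_product.2 ⟨hov, Finset.mem_Ico.2 ⟨by omega, by omega⟩⟩⟩
  have hd : (0 : ℝ) < d := by exact_mod_cast (by have := hR.three; omega : 0 < d)
  have hy : 0 ≤ 1 - γ * rt j := by nlinarith [rt_le_one j, rt_pos j]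
  refine ((mom_sum hq _ hc).const_mul (show 0 ≤ 1 / (d : ℝ) by positivity)).congr_le ?_
  rw [sum_const, nsmul_eq_mul, one_div_mul_eq_div, div_le_iff₀ hd, mul_comm _ (d : ℝ)]
  exact mul_le_mul_of_nonneg_right
    (by exact_mod_cast kid_card_le (by have := hR.three; omega) hR.deg o o) (by positivity)

omit hb in
/-- The mean of the squared distance against the averaged damping. -/
lemma Phi_le (hM : MomR G d KR γ) (hjn : j + 4 ≤ n) (hjm : j + 4 ≤ m) (htj : (1 / 2) ^ j ≤ t)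
    {h : ℕ} (hh : h + depth j + 2 ≤ R) (hq : 1 ≤ q) :
    Phi G d n m J R t h o ≤ 128 * (KR + 1) * Real.sqrt q * (1 - γ * rt j) ^ h *
      (sqDist G d n m J R t o + (1 / 8) ^ (4 * q)) := by
  obtain ⟨hK0, hγ0, hγ1, -⟩ := id hM
  have hP := runN_ok hR hn J o R
  have hQ := runN_ok hR hm J o R
  have hy : 0 < 1 - γ * rt j := by nlinarith [rt_le_one j, rt_pos j]
  have hq1 : (1 : ℝ) ≤ q := by exact_mod_cast hq
  have hs : Real.sqrt ((4 * q : ℕ) : ℝ) = 2 * Real.sqrt q := by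
    rw [Nat.cast_mul, Real.sqrt_mul (by norm_num),
      show ((4 : ℕ) : ℝ) = 2 ^ 2 by norm_num, Real.sqrt_sq zero_le_two]
  have hm1 := mom_rbar (o := o) (J := J) (R := R) hR hn hm hM hjn htj hh
    (show 1 ≤ 4 * q by omega)
  have hm2 := mom_rbar (o := o) (J := J) (R := R) hR hn hm hM hjm htj hh
    (show 1 ≤ 4 * q by omega)
  have hY := (hm1.add (by omega) hm2).congr_le
    (g' := 4 * (KR + 1) * Real.sqrt q * (1 - γ * rt j) ^ h) (by
      rw [hs]
      have : 0 ≤ Real.sqrt q * (1 - γ * rt j) ^ h := by positivity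
      nlinarith)
  set Z := fun ω => dsq G (runN G d n J o R) (runN G d m J o R) t o ω / 4 with hZ
  have hZ0 : ∀ ω, 0 ≤ Z ω := fun ω => div_nonneg (sq_nonneg _) (by norm_num)
  have hZ1 : ∀ ω, Z ω ≤ 1 := fun ω => by
    simp only [hZ]; linarith [dsq_le_four hP hQ t o ω]
  have key := integral_mul_le_moment (C := 2) hY.meas ((measurable_dsq hP hQ t o).div_const 4)
    (fun ω => by
      linarith [(rbar_mem (J := J) (R := R) hR hn t h o ω).2,
        (rbar_mem (J := J) (R := R) hR hm t h o ω).2]) hY.nonneg hZ0 hZ1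
    (by
      have : 0 < Real.sqrt q := Real.sqrt_pos.2 (by linarith)
      positivity) (by omega) hY.le
  have e1 : Phi G d n m J R t h o = 4 * ∫ ω, (rbar G d n J R t h o ω + rbar G d m J R t h o ω) *
      Z ω ∂iidU (V × (ℤ × Bool)) := by
    rw [Phi, ← integral_const_mul]
    congr 1
    funext ω
    simp only [hZ]
    ring
  have e2 : ∫ ω, Z ω ∂iidU (V × (ℤ × Bool)) = sqDist G d n m J R t o / 4 := by
    simp only [hZ, integral_div, sqDist]
  rw [e2] at key
  rw [e1]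
  have h0 := sqDist_nonneg (G := G) (d := d) n m J R t o
  have hg0 : 0 ≤ 4 * (KR + 1) * Real.sqrt q * (1 - γ * rt j) ^ h := by positivity
  nlinarith [mul_nonneg hg0 h0]

omit hb in
/-- The drift coming from a remote sphere. -/
lemma far_sphere_le (hM : MomR G d KR γ) (hjn : j + 4 ≤ n) (hjm : j + 4 ≤ m)
    (htj : (1 / 2) ^ j ≤ t) {l : ℕ} (hl : l + 1 ≤ R) (hR4 : depth j + 2 ≤ R) :
    ∑ b ∈ sphere G o (l + 1), ∫ ω, phi G (runN G d n J o R) (runN G d m J o R) t o b ω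
        ∂iidU (V × (ℤ × Bool)) ≤
      160 * KR * (1 - γ * rt j) ^ (l - depth j - 3) := by
  have hP := runN_ok hR hn J o R
  have hQ := runN_ok hR hm J o R
  have hb0 := hR.two_le
  have hd : (d : ℝ) ≤ 2 * ((d : ℝ) - 1) := by linarith
  set h := l - depth j - 3 with hh
  have hi : ∀ b ∈ sphere G o (l + 1), Integrable (phi G (runN G d n J o R) (runN G d m J o R) t o b)
      (iidU (V × (ℤ × Bool))) := fun b _ =>
    integrable_of_abs_le (measurable_phi hP hQ t o b) (C := 34) fun ω => by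
      rw [abs_of_nonneg (phi_nonneg t o b ω)]; exact phi_le_bound hP hQ t o b ω
  have hm1 := mom_rbar (o := o) (J := J) (R := R) (h := h) hR hn hm hM hjn htj (by omega) le_rfl
  have hm2 := mom_rbar (o := o) (J := J) (R := R) (h := h) hR hn hm hM hjm htj (by omega) le_rfl
  have hmi : ∀ {k : ℕ}, 1 ≤ k → Integrable (rbar G d k J R t h o) (iidU (V × (ℤ × Bool))) :=
    fun {k} hk => integrable_of_abs_le (measurable_rbar hR hk t h o) (C := 1) fun ω => by
      rw [abs_of_nonneg (rbar_mem (J := J) (R := R) hR hk t h o ω).1]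
      exact (rbar_mem (J := J) (R := R) hR hk t h o ω).2
  have key : ∀ ω, ∑ b ∈ sphere G o (l + 1), phi G (runN G d n J o R) (runN G d m J o R) t o b ω ≤
      80 * (rbar G d n J R t h o ω + rbar G d m J R t h o ω) := fun ω => by
    refine (sum_le_sum fun b hb' => (phi_le_far (pairOk_runN hR hn hm J o o R R)
      (thN_spec hR hn).2.1 (thN_spec hR hm).2.1 (self_mem_ball hR o R)
      ((mem_ball hR).2 (by rw [(mem_sphere hR).1 hb']; omega)) (self_mem_ball hR o R)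
      ((mem_ball hR).2 (by rw [(mem_sphere hR).1 hb']; omega)) t ω).trans (le_of_eq (by
        rw [(mem_sphere hR).1 hb']))).trans ?_
    rw [← mul_sum, sum_add_distrib, sum_sphere_pth hR hn hl t o ω, sum_sphere_pth hR hm hl t o ω,
      pow_succ, show 40 * ((1 / ((d : ℝ) - 1)) ^ l * (1 / ((d : ℝ) - 1))) *
        ((d : ℝ) * ((d : ℝ) - 1) ^ l * rbar G d n J R t l o ω +
          (d : ℝ) * ((d : ℝ) - 1) ^ l * rbar G d m J R t l o ω) =
        40 * ((1 / ((d : ℝ) - 1) * ((d : ℝ) - 1)) ^ l * ((d : ℝ) / ((d : ℝ) - 1))) *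
          (rbar G d n J R t l o ω + rbar G d m J R t l o ω) by rw [mul_pow]; ring,
      one_div_mul_cancel (by linarith), one_pow, one_mul]
    refine mul_le_mul ?_ (add_le_add (rbar_anti hR hn t (by omega) o ω)
      (rbar_anti hR hm t (by omega) o ω)) (add_nonneg (rbar_mem hR hn t l o ω).1
      (rbar_mem hR hm t l o ω).1) (by norm_num)
    have := div_le_div_of_nonneg_right hd (show (0 : ℝ) ≤ (d : ℝ) - 1 by linarith)
    rw [mul_div_assoc, div_self (by linarith)] at this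
    linarith
  rw [← integral_finsetSum _ hi]
  refine (integral_mono (integrable_finsetSum _ hi) (((hmi hn).add (hmi hm)).const_mul 80) key).trans ?_
  rw [integral_const_mul, integral_add' (hmi hn) (hmi hm)]
  have a1 := hm1.le
  have a2 := hm2.le
  simp only [pow_one, Nat.cast_one, Real.sqrt_one, mul_one] at a1 a2
  linarith

end Vale.Agent.P161.Crit

namespace Vale.Agent.P161.Crit

lemma geom_range_le {a : ℝ} (h0 : 0 < a) (h1 : a ≤ 1) (M : ℕ) :
    ∑ i ∈ range M, (1 - a) ^ i ≤ 1 / a := by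
  rw [le_div_iff₀ h0]
  have h := geom_sum_mul_neg (1 - a) M
  rw [sub_sub_cancel] at h
  rw [h]
  linarith [pow_nonneg (sub_nonneg.2 h1) M]

lemma half_pow_le {x : ℝ} (h0 : 0 ≤ x) (h1 : x ≤ 1 / 2) (i : ℕ) :
    (1 - x) ^ (i / 2) ≤ 2 * (1 - x / 2) ^ i := by
  have hz : 0 ≤ 1 - x / 2 := by linarith
  have hz1 : 1 - x / 2 ≤ 1 := by linarith
  have hsq : (1 - x) ^ (i / 2) ≤ (1 - x / 2) ^ (2 * (i / 2)) := by
    rw [pow_mul]
    exact pow_le_pow_left₀ (by linarith) (by nlinarith [sq_nonneg x]) _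
  refine hsq.trans ?_
  have h2 : (1 - x / 2) ^ (2 * (i / 2)) * (1 - x / 2) ≤ (1 - x / 2) ^ i := by
    rw [← pow_succ]
    exact pow_le_pow_of_le_one hz hz1 (by omega)
  have h3 := mul_le_mul_of_nonneg_left (show (1 / 2 : ℝ) ≤ 1 - x / 2 by linarith)
    (pow_nonneg hz (2 * (i / 2)))
  linarith

/-- The sum over the near spheres. -/
lemma sum_near_le : ∃ C : ℝ, 0 ≤ C ∧ ∀ (x s : ℝ), 0 < x → x ≤ 1 / 2 → 0 ≤ s → ∀ N N0 : ℕ,
    ∑ i ∈ range N0, ((1 - x / 2) ^ i +
        if i < N then ((i : ℝ) + 1) * s else ((i : ℝ) + 1) ^ 2 * (1 - x / 2) ^ i) ≤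
      C * (1 + (N : ℝ) ^ 2 * s + 1 / x + 1 / x ^ 3 * Real.exp (-(x * N / 4))) := by
  classical
  obtain ⟨C, hC⟩ := sum_sq_geom_le
  refine ⟨2 + 8 * |C|, by positivity, fun x s hx hx1 hs N N0 => ?_⟩
  rw [sum_add_distrib, sum_ite]
  have h1 : ∑ i ∈ range N0, (1 - x / 2) ^ i ≤ 2 / x :=
    (geom_range_le (by linarith) (by linarith) N0).trans (le_of_eq (by field_simp))
  have h2 : ∑ i ∈ (range N0).filter (fun i => i < N), ((i : ℝ) + 1) * s ≤ (N : ℝ) ^ 2 * s := by
    refine (sum_le_sum_of_subset_of_nonneg (fun i hi => mem_range.2 (mem_filter.1 hi).2)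
      fun i _ _ => by positivity).trans ?_
    refine (sum_le_sum (g := fun _ => (N : ℝ) * s) fun i hi =>
      mul_le_mul_of_nonneg_right (by exact_mod_cast mem_range.1 hi) hs).trans (le_of_eq ?_)
    simp; ring
  have h3 : ∑ i ∈ (range N0).filter (fun i => ¬i < N), ((i : ℝ) + 1) ^ 2 * (1 - x / 2) ^ i ≤
      8 * |C| * (1 / x ^ 3 * Real.exp (-(x * N / 4))) := by
    have e : (range N0).filter (fun i => ¬i < N) = Finset.Ico N N0 := by
      ext i; simp only [mem_filter, mem_range, Finset.mem_Ico, not_lt]; omega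
    rw [e]
    refine (hC (x / 2) (by linarith) (by linarith) N N0).trans ?_
    have e2 : -(x / 2 * N / 2) = -(x * N / 4) := by ring
    rw [e2]
    refine (mul_le_mul_of_nonneg_right (div_le_div_of_nonneg_right (le_abs_self C)
      (by positivity)) (Real.exp_pos _).le).trans (le_of_eq ?_)
    field_simp
    ring
  have : 0 ≤ 1 / x ^ 3 * Real.exp (-(x * N / 4)) := by positivity
  have : 0 ≤ (N : ℝ) ^ 2 * s := by positivity
  have : 0 ≤ 1 / x := by positivity
  have : 2 / x = 2 * (1 / x) := by ring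
  nlinarith [abs_nonneg C]

/-- The sum over the remote spheres. -/
lemma sum_far_le {x : ℝ} (hx : 0 < x) (hx1 : x ≤ 1) {c : ℕ} (hc : x * c ≤ 1 / 2) (N0 M : ℕ) :
    ∑ i ∈ range M, (1 - x) ^ (N0 + i - c) ≤ 2 * ((1 - x) ^ (N0 - c) / x) := by
  have hy : 0 ≤ 1 - x := by linarith
  have hb := one_add_mul_le_pow (show (-2 : ℝ) ≤ -x by linarith) c
  rw [← sub_eq_add_neg 1 x] at hb
  have h : ∀ i, (1 - x) ^ (N0 + i - c) ≤ 2 * (1 - x) ^ (N0 - c) * (1 - x) ^ i := fun i => by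
    have h1 : (1 - x) ^ (N0 + i - c) * (1 - x) ^ c ≤ (1 - x) ^ (N0 - c) * (1 - x) ^ i := by
      rw [← pow_add, ← pow_add]
      exact pow_le_pow_of_le_one hy (by linarith) (by omega)
    have h2 := mul_le_mul_of_nonneg_left (show (1 / 2 : ℝ) ≤ (1 - x) ^ c by linarith)
      (pow_nonneg hy (N0 + i - c))
    linarith
  refine (sum_le_sum fun i _ => h i).trans ?_
  rw [← mul_sum]
  refine (mul_le_mul_of_nonneg_left (geom_range_le hx hx1 M) (by positivity)).trans (le_of_eq ?_)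
  ring

variable {V : Type*} {G : SimpleGraph V} {d J : ℕ} {r KU KR γ : ℝ}

/-- The algebra for a short geodesic. -/
lemma head_arith {L CP U q E W s l M3 Ψ H dd d1 e2 Δ η T u c : ℝ}
    (hCP : 0 ≤ CP) (hU : 0 ≤ U) (hq : 1 ≤ q) (hs0 : 0 ≤ s) (hs1 : s ≤ 1)
    (hl1 : 1 ≤ l) (hlM : l ≤ M3) (hl2 : l ^ 2 ≤ M3) (hE : 0 ≤ E) (hW : 0 ≤ W) (hη0 : 0 ≤ η)
    (he0 : 0 ≤ e2) (hΔ0 : 0 ≤ Δ) (hη : η ≤ W) (he : e2 ≤ W) (hΔ : Δ ≤ W) (hd : 0 ≤ dd)
    (hT : T ≤ 8 * E + 8 * W)
    (hd1 : d1 ≤ L ^ 2 * (128 * U * q * s * T + 2 * Δ))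
    (hH : H ≤ CP * (l * d1 + l ^ 2 * e2) + 144 * L ^ 2 * l ^ 2 * η)
    (hL : 0 ≤ L) (hΨ : Ψ ≤ c * q * u * E + (8 + 16 * L) * q * l * W) :
    5 * Ψ + l ^ 2 * dd * Δ + H ≤ 5 * c * (q * u * E) + 1024 * CP * L ^ 2 * U * (q * (l * s) * E) +
      (5 * (8 + 16 * L) + dd + (1024 * CP * L ^ 2 * U + 2 * CP * L ^ 2 + CP + 144 * L ^ 2)) *
        (q * M3 * W) := by
  have k1 := mul_le_mul_of_nonneg_left hT (show 0 ≤ 128 * U * q * s by positivity)
  have k2 := mul_le_mul_of_nonneg_left hs1 (show 0 ≤ 1024 * U * q * W by positivity)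
  have k3 : Δ ≤ q * W := hΔ.trans (le_mul_of_one_le_left hW hq)
  have g2 : d1 ≤ L ^ 2 * (1024 * U * q * s * E + (1024 * U + 2) * (q * W)) :=
    hd1.trans (mul_le_mul_of_nonneg_left (by linarith) (sq_nonneg L))
  have g3 := mul_le_mul_of_nonneg_left g2 (show 0 ≤ CP * l by positivity)
  have g6 := mul_le_mul_of_nonneg_left hlM
    (show 0 ≤ CP * L ^ 2 * (1024 * U + 2) * (q * W) by positivity)
  have e1 : l ^ 2 * e2 ≤ M3 * (q * W) :=
    mul_le_mul hl2 (he.trans (le_mul_of_one_le_left hW hq)) he0 (by linarith)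
  have e3 : l ^ 2 * η ≤ M3 * (q * W) :=
    mul_le_mul hl2 (hη.trans (le_mul_of_one_le_left hW hq)) hη0 (by linarith)
  have e4 : l ^ 2 * Δ ≤ M3 * (q * W) := mul_le_mul hl2 k3 hΔ0 (by linarith)
  have e1' := mul_le_mul_of_nonneg_left e1 hCP
  have e3' := mul_le_mul_of_nonneg_left e3 (show 0 ≤ 144 * L ^ 2 by positivity)
  have e4' := mul_le_mul_of_nonneg_left e4 hd
  have e5 := mul_le_mul_of_nonneg_left hlM (show 0 ≤ 5 * (8 + 16 * L) * (q * W) by positivity)
  linarith only [hH, hΨ, g3, g6, e1', e3', e4', e5]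

/-- The algebra for a long geodesic. -/
lemma tail_arith {L q E W l M3 Ψ H dd Δ u c : ℝ}
    (hL : 0 ≤ L) (hq : 1 ≤ q) (hl1 : 1 ≤ l) (hlM : l ≤ M3) (hl2 : l ^ 2 ≤ M3)
    (hl3 : l ^ 3 ≤ M3) (hW : 0 ≤ W) (hΔ0 : 0 ≤ Δ) (hΔ : Δ ≤ W) (hd : 0 ≤ dd)
    (hH : H ≤ 2 * l ^ 2 * L ^ 2 * (64 * Ψ + 4 * Δ))
    (hΨ : Ψ ≤ c * q * u * E + (8 + 16 * L) * q * l * W) :
    5 * Ψ + l ^ 2 * dd * Δ + H ≤
      5 * c * (q * u * E) + 128 * L ^ 2 * c * (q * (l ^ 2 * u) * E) +
      (5 * (8 + 16 * L) + dd + (128 * L ^ 2 * (8 + 16 * L) + 8 * L ^ 2)) * (q * M3 * W) := by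
  have g1 := mul_le_mul_of_nonneg_left hΨ (show 0 ≤ 128 * l ^ 2 * L ^ 2 by positivity)
  have g2 := mul_le_mul_of_nonneg_left hl3
    (show 0 ≤ 128 * L ^ 2 * ((8 + 16 * L) * (q * W)) by positivity)
  have e4 : l ^ 2 * Δ ≤ M3 * (q * W) :=
    mul_le_mul hl2 (hΔ.trans (le_mul_of_one_le_left hW hq)) hΔ0 (by linarith)
  have g4 := mul_le_mul_of_nonneg_left e4 (show 0 ≤ 8 * L ^ 2 by positivity)
  have e4' := mul_le_mul_of_nonneg_left e4 hd
  have e5 := mul_le_mul_of_nonneg_left hlM (show 0 ≤ 5 * (8 + 16 * L) * (q * W) by positivity)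
  linarith only [hH, hΨ, g1, g2, g4, e4', e5]

/-- The bound on `psiB`. -/
lemma psiB_le (hR : Reg G d) (hb : SideBound G d J r) (hM : MomR G d KR γ) {n m R j q : ℕ}
    {t η W : ℝ} {o : V} (hjn : j + 4 ≤ n) (hjm : j + 4 ≤ m) (htj : (1 / 2) ^ j ≤ t) (hq : 1 ≤ q)
    (hη : 0 ≤ η) (hW : η ≤ W) {i : ℕ} (hi : i / 2 + depth j + 2 ≤ R) :
    psiB G d n m J R t o η r (i + 1) ≤
      2 * (1 / (1 - r ^ 2) * (128 * (KR + 1))) * Real.sqrt q * (1 - γ * rt j / 2) ^ i *
          (sqDist G d n m J R t o + (1 / 8) ^ (4 * q)) +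
        (8 + 16 * lrC r) * Real.sqrt q * ((i : ℝ) + 1) * W := by
  have hL := lrC_nonneg hb.1 hb.2.1
  have hr : 0 < 1 - r ^ 2 := by nlinarith [hb.1, hb.2.1]
  obtain ⟨hK0, hγ0, hγ1, -⟩ := id hM
  have hx0 : 0 < γ * rt j := mul_pos hγ0 (rt_pos j)
  have hx1 : γ * rt j ≤ 1 / 20 := (mul_le_of_le_one_right hγ0.le (rt_le_one j)).trans hγ1
  have hQ : 1 ≤ Real.sqrt q := Real.one_le_sqrt.2 (by exact_mod_cast hq)
  simp only [psiB, Nat.add_sub_cancel, Nat.cast_add, Nat.cast_one]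
  have hp := Phi_le (o := o) (J := J) (R := R) hR (by omega : 1 ≤ n) (by omega : 1 ≤ m) hM hjn hjm
    htj (h := i / 2) hi hq
  have hh := half_pow_le hx0.le (by linarith) i
  set E := sqDist G d n m J R t o + (1 / 8) ^ (4 * q) with hE
  have hE0 : 0 ≤ E := add_nonneg (sqDist_nonneg n m J R t o) (by positivity)
  have e1 := mul_le_mul_of_nonneg_left (mul_le_mul_of_nonneg_right hh hE0)
    (show 0 ≤ 128 * (KR + 1) * Real.sqrt q by positivity)
  have e3 := mul_le_mul_of_nonneg_left (hp.trans (le_trans (le_of_eq (mul_assoc _ _ _)) e1))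
    (show 0 ≤ 1 / (1 - r ^ 2) by positivity)
  have hl : (1 : ℝ) ≤ (i : ℝ) + 1 := le_add_of_nonneg_left (Nat.cast_nonneg i)
  have h1 : η ≤ Real.sqrt q * W := hW.trans (le_mul_of_one_le_left (hη.trans hW) hQ)
  have h2 : η ≤ ((i : ℝ) + 1) * (Real.sqrt q * W) :=
    h1.trans (le_mul_of_one_le_left (hη.trans h1) hl)
  have h3 := mul_le_mul_of_nonneg_left h1 (show 0 ≤ 16 * lrC r * ((i : ℝ) + 1) by positivity)
  linarith only [e3, h2, h3]

/-- The drift coming from a near sphere. -/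
lemma near_sphere_le (hR : Reg G d) (hb : SideBound G d J r) (hU : MomU G d J KU)
    (hM : MomR G d KR γ) :
    ∃ A B : ℝ, 0 ≤ A ∧ 0 ≤ B ∧ ∀ (n m R R0 : ℕ) (η : ℝ) (o g0 : V) (j q N N0 i : ℕ) (t : ℝ),
      j + 4 ≤ n → j + 4 ≤ m → Stable G d J n R0 η → Stable G d J m R0 η → G.Adj g0 o → 1 ≤ q →
      (1 / 2) ^ j ≤ t → t ≤ ((J : ℝ) + 2) * (1 / 2) ^ j → t ≤ 1 + J →
      N0 + depth j + R0 + 4 ≤ R → i < N0 →
      ∑ b ∈ sphere G o (i + 1), ∫ ω, phi G (runN G d n J o R) (runN G d m J o R) t o b ω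
          ∂iidU (V × (ℤ × Bool)) ≤
        A * Real.sqrt q * (sqDist G d n m J R t o + (1 / 8) ^ (4 * q)) *
          ((1 - γ * rt j / 2) ^ i + if i < N then ((i : ℝ) + 1) * Real.sqrt (Real.sqrt (rt j))
            else ((i : ℝ) + 1) ^ 2 * (1 - γ * rt j / 2) ^ i) +
          B * Real.sqrt q * ((N0 : ℝ) + 1) ^ 3 *
            (η + (meanLr G d n J g0 o R t - meanLr G d m J g0 o R t) ^ 2 +
              (thN d n - thN d m) ^ 2) := by
  classical
  obtain ⟨CP, hCP0, hCP⟩ := pathCov hR.three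
  obtain ⟨hKU0, -⟩ := id hU
  obtain ⟨hKR0, hγ0, hγ1, -⟩ := id hM
  have hL0 : 0 ≤ lrC r := lrC_nonneg hb.1 hb.2.1
  have hb0 := hR.two_le
  have hr0 : 0 < 1 - r ^ 2 := by nlinarith [hb.1, hb.2.1]
  obtain ⟨L, hL⟩ : ∃ L, L = lrC r := ⟨_, rfl⟩
  rw [← hL] at hL0
  obtain ⟨c1, hc1⟩ : ∃ c, c = 2 * (1 / (1 - r ^ 2) * (128 * (KR + 1))) := ⟨_, rfl⟩
  have hc10 : 0 ≤ c1 := by rw [hc1]; positivity
  obtain ⟨cH, hcH⟩ : ∃ c, c = 1024 * CP * L ^ 2 * (KU + 1) := ⟨_, rfl⟩
  have hcH0 : 0 ≤ cH := by rw [hcH]; positivity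
  refine ⟨16 * (5 * c1 + cH + 128 * L ^ 2 * c1), 16 * (5 * (8 + 16 * L) + ((d : ℝ) - 1) +
    (cH + 2 * CP * L ^ 2 + CP + 144 * L ^ 2) + (128 * L ^ 2 * (8 + 16 * L) + 8 * L ^ 2)),
    by positivity, by positivity, ?_⟩
  intro n m R R0 η o g0 j q N N0 i t hjn hjm hSn hSm hg hq htj htJ ht hRR hi
  have hn : 1 ≤ n := by omega
  have hm : 1 ≤ m := by omega
  have hT := hR.tree
  have hη : 0 ≤ η := (integral_nonneg fun _ => abs_nonneg _).trans
    (hSn o o o R R (by simp; omega) (by simp; omega) t ht)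
  have hQ1 : 1 ≤ Real.sqrt q := Real.one_le_sqrt.2 (by exact_mod_cast hq)
  have he8 : (0 : ℝ) ≤ (1 / 8) ^ (4 * q) := by positivity
  have hD0 := sqDist_nonneg (G := G) (d := d) n m J R t o
  have hx : γ * rt j ≤ 1 / 20 := (mul_le_of_le_one_right hγ0.le (rt_le_one j)).trans hγ1
  have hs1 : Real.sqrt (Real.sqrt (rt j)) ≤ 1 := by
    rw [Real.sqrt_le_one, Real.sqrt_le_one]; exact rt_le_one j
  obtain ⟨W, hW⟩ : ∃ W, W = η + (meanLr G d n J g0 o R t - meanLr G d m J g0 o R t) ^ 2 +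
      (thN d n - thN d m) ^ 2 := ⟨_, rfl⟩
  have he20 : 0 ≤ (meanLr G d n J g0 o R t - meanLr G d m J g0 o R t) ^ 2 := sq_nonneg _
  have hΔ0 : 0 ≤ (thN d n - thN d m) ^ 2 := sq_nonneg _
  have hΨ := psiB_le (o := o) (W := W) (i := i) hR hb hM hjn hjm htj hq hη
    (by rw [hW]; linarith) (by omega : i / 2 + depth j + 2 ≤ R)
  rw [← hc1, ← hL] at hΨ
  have hl1 : (1 : ℝ) ≤ (i : ℝ) + 1 := le_add_of_nonneg_left (Nat.cast_nonneg i)
  have hlM : (i : ℝ) + 1 ≤ (N0 : ℝ) + 1 := by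
    have : (i : ℝ) ≤ N0 := by exact_mod_cast hi.le
    linarith
  have hM1 : 1 ≤ (N0 : ℝ) + 1 := hl1.trans hlM
  have hlM3 : (i : ℝ) + 1 ≤ ((N0 : ℝ) + 1) ^ 3 := hlM.trans (le_self_pow₀ hM1 (by norm_num))
  have hlM2 : ((i : ℝ) + 1) ^ 2 ≤ ((N0 : ℝ) + 1) ^ 3 :=
    (pow_le_pow_left₀ (by linarith) hlM 2).trans (pow_le_pow_right₀ hM1 (by norm_num))
  have hl3M : ((i : ℝ) + 1) ^ 3 ≤ ((N0 : ℝ) + 1) ^ 3 := pow_le_pow_left₀ (by linarith) hlM 3
  have hz : 0 ≤ 1 - γ * rt j / 2 := by linarith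
  set z := 1 - γ * rt j / 2
  set s := Real.sqrt (Real.sqrt (rt j))
  have hs0 : 0 ≤ s := Real.sqrt_nonneg _
  set E := sqDist G d n m J R t o + (1 / 8) ^ (4 * q) with hE
  have hE0 : 0 ≤ E := add_nonneg hD0 he8
  set Q' := Real.sqrt q
  have p1 : 0 ≤ Q' * E * z ^ i := by positivity
  have p2 : 0 ≤ Q' * ((N0 : ℝ) + 1) ^ 3 * W := by
    have : 0 ≤ W := by rw [hW]; positivity
    positivity
  have hpt : ∀ b ∈ sphere G o (i + 1), ∫ ω, phi G (runN G d n J o R) (runN G d m J o R) t o b ω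
        ∂iidU (V × (ℤ × Bool)) ≤ 8 * (1 / ((d : ℝ) - 1)) ^ (i + 1) *
      ((5 * c1 + cH + 128 * L ^ 2 * c1) * (Q' * E *
          (z ^ i + if i < N then ((i : ℝ) + 1) * s else ((i : ℝ) + 1) ^ 2 * z ^ i)) +
        (5 * (8 + 16 * L) + ((d : ℝ) - 1) + (cH + 2 * CP * L ^ 2 + CP + 144 * L ^ 2) +
          (128 * L ^ 2 * (8 + 16 * L) + 8 * L ^ 2)) * (Q' * ((N0 : ℝ) + 1) ^ 3 * W)) := by
    intro b hb'
    have hbl := (mem_sphere hR).1 hb'
    refine (integral_phi_le hR hn hm hb hSn hSm hbl (by omega) (by omega) ht).trans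
      (mul_le_mul_of_nonneg_left ?_ (by positivity))
    have hw : IsGeo G (geo G o b) (i + 1) := hbl ▸ isGeo_geo hT o b
    have hwo : ∀ k ≤ i + 1, G.dist o (geo G o b k) + R0 ≤ R := fun k hk => by
      have := hw.2 k hk
      rw [geo_zero hT] at this
      omega
    have hcast : ((i + 1 : ℕ) : ℝ) = (i : ℝ) + 1 := by simp
    rw [hcast]
    by_cases hiN : i < N
    · rw [if_pos hiN]
      have hh := integral_sq_pth_head hR hn hm hb hCP0 (hCP G hR.tree hR.deg) hSn hSm hg hw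
        (by omega) hwo (by omega) ht
      rw [hcast, ← hL, mul_pow] at hh
      have he := integral_dlr_sq (o := o) (q := q) (R := R) (J := J) hR hn hm hb hU hSn hSm hg (by omega) hq
        (lt_of_lt_of_le (by positivity) htj) htJ ht
      rw [← hL] at he
      refine (head_arith (W := W) (E := E) hCP0 (show (0 : ℝ) ≤ KU + 1 by linarith) hQ1 hs0 hs1 hl1
        hlM3 hlM2 hE0 (by rw [hW]; positivity) hη he20 hΔ0 (by rw [hW]; linarith)
        (by rw [hW]; linarith) (by rw [hW]; linarith) (by linarith)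
        (by rw [hE, hW]; linarith) he hh hL0 hΨ).trans ?_
      rw [← hcH]
      have p3 : 0 ≤ Q' * E * (((i : ℝ) + 1) * s) := by positivity
      linarith only [mul_nonneg (show 0 ≤ cH + 128 * L ^ 2 * c1 by positivity) p1,
        mul_nonneg (show 0 ≤ 5 * c1 + 128 * L ^ 2 * c1 by positivity) p3,
        mul_nonneg (show 0 ≤ 128 * L ^ 2 * (8 + 16 * L) + 8 * L ^ 2 by positivity) p2]
    · rw [if_neg hiN]
      have hh := integral_sq_pth_tail hR hn hm hb hSn hSm hw (by omega) (by omega) hwo ht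
      rw [hcast, ← hL] at hh
      refine (tail_arith (W := W) (E := E) hL0 hQ1 hl1 hlM3 hlM2 hl3M (by rw [hW]; positivity) hΔ0
        (by rw [hW]; linarith) (by linarith) hh hΨ).trans ?_
      have p3 : 0 ≤ Q' * E * (((i : ℝ) + 1) ^ 2 * z ^ i) := by positivity
      linarith only [mul_nonneg (show 0 ≤ cH + 128 * L ^ 2 * c1 by positivity) p1,
        mul_nonneg (show 0 ≤ 5 * c1 + cH by positivity) p3,
        mul_nonneg (show 0 ≤ cH + 2 * CP * L ^ 2 + CP + 144 * L ^ 2 by positivity) p2]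
  refine (sum_le_sum hpt).trans ?_
  rw [sum_const, card_sphere hR, nsmul_eq_mul, Nat.cast_mul, Nat.cast_pow,
    Nat.cast_sub (by have := hR.three; omega : 1 ≤ d), Nat.cast_one, ← hW]
  generalize hX : (5 * c1 + cH + 128 * L ^ 2 * c1) * (Q' * E *
    (z ^ i + if i < N then ((i : ℝ) + 1) * s else ((i : ℝ) + 1) ^ 2 * z ^ i)) = X
  generalize hY : (5 * (8 + 16 * L) + ((d : ℝ) - 1) + (cH + 2 * CP * L ^ 2 + CP + 144 * L ^ 2) +
    (128 * L ^ 2 * (8 + 16 * L) + 8 * L ^ 2)) * (Q' * ((N0 : ℝ) + 1) ^ 3 * W) = Y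
  have hXY : 0 ≤ X + Y := by
    have h1 : 0 ≤ z ^ i + if i < N then ((i : ℝ) + 1) * s else ((i : ℝ) + 1) ^ 2 * z ^ i := by
      split_ifs <;> positivity
    have : 0 ≤ W := by rw [hW]; positivity
    rw [← hX, ← hY]; positivity
  calc (d : ℝ) * ((d : ℝ) - 1) ^ i * (8 * (1 / ((d : ℝ) - 1)) ^ (i + 1) * (X + Y))
      = (1 / ((d : ℝ) - 1) * ((d : ℝ) - 1)) ^ i * (8 * ((d : ℝ) / ((d : ℝ) - 1))) * (X + Y) := by
        rw [mul_pow, pow_succ]; ring
    _ ≤ 16 * (X + Y) := by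
        rw [one_div_mul_cancel (by linarith), one_pow, one_mul]
        refine mul_le_mul_of_nonneg_right ?_ hXY
        have : (d : ℝ) / ((d : ℝ) - 1) ≤ 2 := by rw [div_le_iff₀ (by linarith)]; linarith
        linarith
    _ = _ := by rw [← hX, ← hY]; ring

/-- The drift coming from the slots at the centre. -/
lemma sphere_zero_le (hR : Reg G d) {n m R : ℕ} (hn : 1 ≤ n) (hm : 1 ≤ m) (o : V) (t : ℝ) :
    ∑ b ∈ sphere G o 0, ∫ ω, phi G (runN G d n J o R) (runN G d m J o R) t o b ω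
        ∂iidU (V × (ℤ × Bool)) ≤ 40 * sqDist G d n m J R t o := by
  set P := runN G d n J o R
  set Q := runN G d m J o R
  have hP : P.Ok G := runN_ok hR hn J o R
  have hQ : Q.Ok G := runN_ok hR hm J o R
  have e : sphere G o 0 = {o} := by
    ext b; rw [mem_sphere hR, mem_singleton, hR.tree.connected.dist_eq_zero_iff, eq_comm]
  rw [e, sum_singleton]
  have key : ∀ ω, phi G P Q t o o ω ≤ 40 * dsq G P Q t o ω := fun ω => by
    have h := phi_le (pairOk_runN hR hn hm J o o R R) (thN_spec hR hn).2.1 (thN_spec hR hm).2.1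
      (o := o) (b := o) (self_mem_ball hR o R) (self_mem_ball hR o R) (self_mem_ball hR o R)
      (self_mem_ball hR o R) t ω
    have hWm : (|P.m G ω t o| + |Q.m G ω t o|) ^ 2 ≤ 4 := by
      nlinarith [hP.abs_m_le ω t o, hQ.abs_m_le ω t o, abs_nonneg (P.m G ω t o),
        abs_nonneg (Q.m G ω t o)]
    have hd0 : 0 ≤ dsq G P Q t o ω := sq_nonneg _
    simp [Run.pth, pthW] at h
    linarith [mul_le_mul_of_nonneg_right hWm hd0]
  refine (integral_mono (integrable_of_abs_le (measurable_phi hP hQ t o o) (C := 34) fun ω => by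
      rw [abs_of_nonneg (phi_nonneg t o o ω)]; exact phi_le_bound hP hQ t o o ω)
    ((integrable_of_abs_le (measurable_dsq hP hQ t o) (C := 4) fun ω => by
      rw [abs_of_nonneg (show 0 ≤ dsq G P Q t o ω from sq_nonneg _)]
      exact dsq_le_four hP hQ t o ω).const_mul 40) key).trans ?_
  rw [integral_const_mul]
  rfl

/-- The drift of the squared distance at a time in the window `j`. -/
theorem drift_le (hR : Reg G d) (hb : SideBound G d J r) (hU : MomU G d J KU)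
    (hM : MomR G d KR γ) :
    ∃ K : ℝ, 0 ≤ K ∧ ∀ (n m R R0 : ℕ) (η : ℝ) (o g0 : V) (j q N N0 : ℕ) (t : ℝ),
      j + 4 ≤ n → j + 4 ≤ m → Stable G d J n R0 η → Stable G d J m R0 η → G.Adj g0 o → 1 ≤ q →
      (1 / 2) ^ j ≤ t → t ≤ ((J : ℝ) + 2) * (1 / 2) ^ j → t ≤ 1 + J →
      N0 + depth j + R0 + 4 ≤ R →
      ∑ b ∈ ball G o R, ∫ ω, phi G (runN G d n J o R) (runN G d m J o R) t o b ω
          ∂iidU (V × (ℤ × Bool)) ≤
        K * Real.sqrt q * driftA γ j N * (sqDist G d n m J R t o + (1 / 8) ^ (4 * q)) +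
          K * Real.sqrt q * ((N0 : ℝ) + 1) ^ 4 *
            (η + (meanLr G d n J g0 o R t - meanLr G d m J g0 o R t) ^ 2 +
              (thN d n - thN d m) ^ 2) +
          K * farF γ j N0 := by
  classical
  obtain ⟨Cs, hCs0, hCs⟩ := sum_near_le
  obtain ⟨A, B, hA0, hB0, hnear⟩ := near_sphere_le hR hb hU hM
  obtain ⟨hKR0, hγ0, hγ1, -⟩ := id hM
  refine ⟨40 + A * Cs + B + 320 * KR, by positivity, ?_⟩
  intro n m R R0 η o g0 j q N N0 t hjn hjm hSn hSm hg hq htj htJ ht hRR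
  have hn : 1 ≤ n := by omega
  have hm : 1 ≤ m := by omega
  have hη : 0 ≤ η := (integral_nonneg fun _ => abs_nonneg _).trans
    (hSn o o o R R (by simp; omega) (by simp; omega) t ht)
  obtain ⟨S, hS⟩ : ∃ S : ℕ → ℝ, S = fun l => ∑ b ∈ sphere G o l,
      ∫ ω, phi G (runN G d n J o R) (runN G d m J o R) t o b ω ∂iidU (V × (ℤ × Bool)) := ⟨_, rfl⟩
  have hsplit : ∑ b ∈ ball G o R, ∫ ω, phi G (runN G d n J o R) (runN G d m J o R) t o b ω
      ∂iidU (V × (ℤ × Bool)) = ∑ l ∈ range (R + 1), S l := by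
    rw [← sum_fiberwise_of_maps_to (g := fun b => G.dist o b)
      (fun b hb' => mem_range.2 (Nat.lt_succ_of_le ((mem_ball hR).1 hb'))), hS]
    refine sum_congr rfl fun l hl => sum_congr (Finset.ext fun b => ?_) fun _ _ => rfl
    rw [mem_filter, mem_ball hR, mem_sphere hR]
    have := mem_range.1 hl
    omega
  have hS0 : S 0 ≤ 40 * sqDist G d n m J R t o := by
    rw [hS]; exact sphere_zero_le hR hn hm o t
  have hnear' : ∀ i ∈ range N0, S (i + 1) ≤
      A * Real.sqrt q * (sqDist G d n m J R t o + (1 / 8) ^ (4 * q)) *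
        ((1 - γ * rt j / 2) ^ i + if i < N then ((i : ℝ) + 1) * Real.sqrt (Real.sqrt (rt j))
          else ((i : ℝ) + 1) ^ 2 * (1 - γ * rt j / 2) ^ i) +
        B * Real.sqrt q * ((N0 : ℝ) + 1) ^ 3 *
          (η + (meanLr G d n J g0 o R t - meanLr G d m J g0 o R t) ^ 2 +
            (thN d n - thN d m) ^ 2) := fun i hi => by
    rw [hS]
    exact hnear n m R R0 η o g0 j q N N0 i t hjn hjm hSn hSm hg hq htj htJ ht hRR (mem_range.1 hi)
  obtain ⟨M, hMR⟩ : ∃ M, R = N0 + M := ⟨R - N0, by omega⟩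
  have hfar : ∀ i ∈ range M,
      S (N0 + i + 1) ≤ 160 * KR * (1 - γ * rt j) ^ (N0 + i - (depth j + 3)) := fun i hi => by
    rw [mem_range] at hi
    rw [hS]
    refine (far_sphere_le (o := o) hR hn hm hM hjn hjm htj (l := N0 + i) (by omega)
      (by omega)).trans (le_of_eq ?_)
    rw [Nat.sub_sub]
  have hx0 : 0 < γ * rt j := mul_pos hγ0 (rt_pos j)
  have hx1 : γ * rt j ≤ 1 / 20 := (mul_le_of_le_one_right hγ0.le (rt_le_one j)).trans hγ1
  have hc : γ * rt j * ((depth j + 3 : ℕ) : ℝ) ≤ 1 / 2 := by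
    push_cast
    linarith [mul_le_mul_of_nonneg_left (rt_mul_depth j).2 hγ0.le,
      mul_le_mul_of_nonneg_left (rt_le_one j) hγ0.le]
  have hs0 : 0 ≤ Real.sqrt (Real.sqrt (rt j)) := Real.sqrt_nonneg _
  have hN := hCs (γ * rt j) _ hx0 (by linarith) hs0 N N0
  have hF := sum_far_le hx0 (by linarith) hc N0 M
  have s1 := sum_le_sum hnear'
  rw [sum_add_distrib, ← mul_sum, sum_const, card_range, nsmul_eq_mul] at s1
  have s2 := (sum_le_sum hfar).trans (le_of_eq (mul_sum _ _ _).symm)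
  rw [hsplit, sum_range_succ', hMR, sum_range_add, ← hMR]
  have e1 : driftA γ j N = 1 + (N : ℝ) ^ 2 * Real.sqrt (Real.sqrt (rt j)) + 1 / (γ * rt j) +
      1 / (γ * rt j) ^ 3 * Real.exp (-(γ * rt j * N / 4)) := rfl
  rw [← e1] at hN
  have e2 : farF γ j N0 = (1 - γ * rt j) ^ (N0 - (depth j + 3)) / (γ * rt j) := by
    rw [farF, Nat.sub_sub]
  rw [← e2] at hF
  have hA1 : 1 ≤ driftA γ j N := by
    rw [e1]
    have : 0 ≤ (N : ℝ) ^ 2 * Real.sqrt (Real.sqrt (rt j)) + 1 / (γ * rt j) +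
      1 / (γ * rt j) ^ 3 * Real.exp (-(γ * rt j * N / 4)) := by positivity
    linarith
  have hF0 : 0 ≤ farF γ j N0 := div_nonneg (pow_nonneg (by linarith) _) hx0.le
  have hQ1 : 1 ≤ Real.sqrt q := Real.one_le_sqrt.2 (by exact_mod_cast hq)
  generalize hE : sqDist G d n m J R t o + (1 / 8) ^ (4 * q) = E at s1 ⊢
  generalize hW : η + (meanLr G d n J g0 o R t - meanLr G d m J g0 o R t) ^ 2 +
      (thN d n - thN d m) ^ 2 = W at s1 ⊢
  have hE0 : 0 ≤ E := by
    rw [← hE]; exact add_nonneg (sqDist_nonneg n m J R t o) (by positivity)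
  have hDE : sqDist G d n m J R t o ≤ E := by
    rw [← hE]; exact le_add_of_nonneg_right (by positivity)
  have hW0 : 0 ≤ W := by rw [← hW]; positivity
  generalize driftA γ j N = a at hN hA1 ⊢
  generalize Real.sqrt q = Q' at s1 hQ1 ⊢
  have s3 := mul_le_mul_of_nonneg_left hN (show 0 ≤ A * Q' * E by positivity)
  have s4 := mul_le_mul_of_nonneg_left hF (show 0 ≤ 160 * KR by positivity)
  have s5 : (N0 : ℝ) * (B * Q' * ((N0 : ℝ) + 1) ^ 3 * W) ≤
      B * (Q' * ((N0 : ℝ) + 1) ^ 4 * W) := by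
    have : 0 ≤ B * Q' * ((N0 : ℝ) + 1) ^ 3 * W := by positivity
    linarith
  have t0 : 40 * E ≤ 40 * (Q' * a * E) := by
    linarith [le_mul_of_one_le_left hE0 (one_le_mul_of_one_le_of_one_le hQ1 hA1)]
  have q1 : 0 ≤ Q' * a * E := by positivity
  have q2 : 0 ≤ Q' * ((N0 : ℝ) + 1) ^ 4 * W := by positivity
  linarith only [hS0, hDE, s1, s2, s3, s4, s5, t0, mul_nonneg (show 0 ≤ B + 320 * KR by positivity) q1,
    mul_nonneg (show 0 ≤ 40 + A * Cs + 320 * KR by positivity) q2,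
    mul_nonneg (show 0 ≤ 40 + A * Cs + B by positivity) hF0]

end Vale.Agent.P161.Crit
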