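import Vale.Agent.P161.Crit.Meas
import Mathlib.MeasureTheory.Measure.Haar.NormedSpace

/-!
# P161, critical point: exactness of the sampler and the martingale identity
-/

open MeasureTheory SimpleGraph Finset

namespace Vale.Agent.P161.Crit

variable {V : Type*} {G : SimpleGraph V} {P P₁ P₂ : Run V}

/-! ### Exactness -/

open scoped Classical in
/-- The state and the observation model have the same law at times bounded by `k` slots. -/
lemma exactness_aux (hP : P.Ok G) {o : V} (ho : o ∈ P.B) :
    ∀ (k : ℕ) {L : (V × (ℤ × Bool) → ℝ) → ℝ}, Measurable L →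
      (∀ ω ω', TimeEq ω ω' → L ω = L ω') →
      ∀ {F : (V × (ℤ × Bool) → ℝ) → (V → Bool → ℝ) → ℝ},
      (Measurable fun p : (V × (ℤ × Bool) → ℝ) × (V → Bool → ℝ) => F p.1 p.2) →
      ∀ {C : ℝ}, (∀ ω W, |F ω W| ≤ C) → (∀ ω ω' W, TimeEq ω ω' → F ω W = F ω' W) →
      (∀ ω W, k < (win P.A ω 0 (L ω)).card → F ω W = 0) →
      ∫ ω, (F ω (P.st G ω (L ω)) - evid G P.θ P.B o (P.obs ω (L ω)) * F ω (P.obs ω (L ω)))
        ∂iidU (V × (ℤ × Bool)) = 0 := by
  obtain ⟨K, hK⟩ := exists_evid_bound G hP.abs_θ.le P.B (2 ^ P.A.card)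
  have hE : ∀ ω t, |evid G P.θ P.B o (P.obs ω t)| ≤ K := fun ω t =>
    hK o _ (abs_wts P.A _ (live_subset _ _ _) _)
  intro k
  induction k with
  | zero =>
    intro L _ _ F _ C _ _ hs
    refine integral_eq_zero_of_ae (ae_of_all _ fun ω => ?_)
    rcases Nat.eq_zero_or_pos (win P.A ω 0 (L ω)).card with h | h
    · have he : live P.A ω (L ω) = ∅ := eq_empty_of_forall_notMem fun q hq => by
        have hm : q ∈ win P.A ω 0 (L ω) := mem_win.2 ⟨(mem_live.1 hq).1, (mem_live.1 hq).2.1,
          (lo_pos q.2).le.trans (lo_le_time ω q), (mem_live.1 hq).2.2⟩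
        rw [card_eq_zero.1 h] at hm
        exact notMem_empty q hm
      have hw : ∀ y, wts (∅ : Finset (V × ℤ)) y = fun _ _ => 1 := fun y => by
        funext x r
        simp [wts]
      simp [Run.st, Run.obs, he, hw, evid_one]
    · simp [hs ω _ h]
  | succ k ih =>
    intro L hL hLu F hF C hC hFu hs
    have hC0 : 0 ≤ C := (abs_nonneg _).trans (hC (fun _ => 0) (fun _ _ => 0))
    have hK0 : 0 ≤ K := (abs_nonneg _).trans (hE (fun _ => 0) 0)
    have mdiff : ∀ {F : (V × (ℤ × Bool) → ℝ) → (V → Bool → ℝ) → ℝ},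
        (Measurable fun p : (V × (ℤ × Bool) → ℝ) × (V → Bool → ℝ) => F p.1 p.2) →
        ∀ {L : (V × (ℤ × Bool) → ℝ) → ℝ}, Measurable L →
        (Measurable fun ω => F ω (P.st G ω (L ω))) ∧
        (Measurable fun ω => evid G P.θ P.B o (P.obs ω (L ω)) * F ω (P.obs ω (L ω))) :=
      fun {F} hF {L} hL =>
        ⟨Measurable.comp (g := fun p : (V × (ℤ × Bool) → ℝ) × (V → Bool → ℝ) => F p.1 p.2)
          (f := fun ω => (ω, P.st G ω (L ω))) hF
          (measurable_id.prodMk (measurable_st_pi P G measurable_id hL)),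
        ((measurable_evid G P.θ P.B o).comp (measurable_obs_pi P measurable_id hL)).mul
          (Measurable.comp (g := fun p : (V × (ℤ × Bool) → ℝ) × (V → Bool → ℝ) => F p.1 p.2)
          (f := fun ω => (ω, P.obs ω (L ω))) hF
          (measurable_id.prodMk (measurable_obs_pi P measurable_id hL)))⟩
    have bE : ∀ {F : (V × (ℤ × Bool) → ℝ) → (V → Bool → ℝ) → ℝ} {C : ℝ},
        (∀ ω W, |F ω W| ≤ C) → ∀ ω t, |evid G P.θ P.B o (P.obs ω t) * F ω (P.obs ω t)| ≤ K * C :=
      fun {F C} hC ω t => by
        rw [abs_mul]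
        exact mul_le_mul (hE ω t) (hC _ _) (abs_nonneg _) hK0
    obtain ⟨mS, mO⟩ := mdiff hF hL
    refine integral_split P.A 0 hL (k := k) (mS.sub mO) (C := C + K * C)
      (fun ω => (abs_sub _ _).trans (add_le_add (hC _ _) (bE hC _ _)))
      (fun ω h => ?_) ?_ fun s hsA => ?_
    · simp [hs ω _ h]
    · -- at most `k` slots
      have h := ih hL hLu
        (F := fun ω W => if (win P.A ω 0 (L ω)).card ≤ k then F ω W else 0)
        (Measurable.ite (measurable_fst (measurable_card_win P.A 0 hL (measurableSet_Iic (a := k))))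
          hF measurable_const)
        (C := C) (fun ω W => by split_ifs <;> simp [hC, hC0])
        (fun ω ω' W e => by simp only [e.win_eq, hLu ω ω' e, hFu ω ω' W e])
        (fun ω W e => by simp [not_le.2 e])
      refine (integral_congr_ae (ae_of_all _ fun ω => ?_)).trans h
      simp only [Set.indicator_apply, Set.mem_ofPred_eq]
      by_cases h' : (win P.A ω 0 (L ω)).card ≤ k <;> simp [h']
    · -- `s` is the last of `k + 1` slots
      let T : Set (V × (ℤ × Bool) → ℝ) := lastSet P.A L 0 k s
      have hT : MeasurableSet T := measurableSet_lastSet P.A 0 k s hL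
      let b : (V → Bool → ℝ) → ℝ := fun W => eps s.2 * clY (mag G P.θ P.B W s.1)
      let F' : (V × (ℤ × Bool) → ℝ) → (V → Bool → ℝ) → ℝ := fun ω W =>
        if ω ∈ T then ∫ x, (1 + b W * xi x) * F ω (bump W s (xi x)) ∂unifR else 0
      have hb : ∀ W x, |1 + b W * xi x| ≤ 2 := fun W x => by
        have h : |b W * xi x| ≤ 1 / 2 * 1 := by
          rw [abs_mul]
          exact mul_le_mul (abs_eps_mul (abs_clY _)) (abs_xi x) (abs_nonneg _) (by norm_num)
        obtain ⟨h1, h2⟩ := abs_le.1 h
        exact abs_le.2 ⟨by linarith, by linarith⟩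
      have hC' : ∀ ω W, |F' ω W| ≤ 2 * C := fun ω W => by
        simp only [F']
        split_ifs
        · exact abs_integral_le_of_bound fun x => by
            rw [abs_mul]; exact mul_le_mul (hb W x) (hC _ _) (abs_nonneg _) zero_le_two
        · simpa using hC0
      have hF' : Measurable fun p : (V × (ℤ × Bool) → ℝ) × (V → Bool → ℝ) => F' p.1 p.2 := by
        refine Measurable.ite (measurable_fst hT) ?_ measurable_const
        refine StronglyMeasurable.measurable (StronglyMeasurable.integral_prod_right'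
          (f := fun p : ((V × (ℤ × Bool) → ℝ) × (V → Bool → ℝ)) × ℝ =>
            (1 + b p.1.2 * xi p.2) * F p.1.1 (bump p.1.2 s (xi p.2))) ?_)
        refine Measurable.stronglyMeasurable (Measurable.mul ?_ ?_)
        · exact measurable_const.add ((measurable_const.mul (continuous_clY.measurable.comp
            ((measurable_mag _ _ _ _).comp (measurable_snd.comp measurable_fst)))).mul
              (continuous_xi.measurable.comp measurable_snd))
        · exact Measurable.comp (g := fun p : (V × (ℤ × Bool) → ℝ) × (V → Bool → ℝ) => F p.1 p.2)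
            (f := fun p : ((V × (ℤ × Bool) → ℝ) × (V → Bool → ℝ)) × ℝ =>
              (p.1.1, bump p.1.2 s (xi p.2))) hF
            ((measurable_fst.comp measurable_fst).prodMk ((measurable_bump s).comp
              ((measurable_snd.comp measurable_fst).prodMk
                (continuous_xi.measurable.comp measurable_snd))))
      have hFu' : ∀ ω ω' W, TimeEq ω ω' → F' ω W = F' ω' W := fun ω ω' W e => by
        simp only [F', T, lastSet_iff hLu e, fun x => hFu ω ω' (bump W s (xi x)) e]
      have h0 := ih (L := fun ω => time ω s) (measurable_time s) (fun ω ω' e => e.time_eq s)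
        (F := F') hF' (C := 2 * C) hC' hFu' (fun ω W e => if_neg fun h : ω ∈ T =>
          absurd e (by rw [h.2.2]; exact lt_irrefl k))
      obtain ⟨mS', mO'⟩ := mdiff hF' (measurable_time s)
      -- replacing the last innovation
      have hSdiff : ∫ ω, (T.indicator (fun ω => F ω (P.st G ω (L ω))) ω -
          F' ω (P.st G ω (time ω s))) ∂iidU (V × (ℤ × Bool)) = 0 := by
        refine integral_eq_zero_update (s.1, (s.2, false))
          ((mS.indicator hT).sub mS') (C := C + 2 * C) (fun ω => (abs_sub _ _).trans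
            (add_le_add (by by_cases h : ω ∈ T <;> simp [h, hC, hC0]) (hC' _ _))) fun ω => ?_
        set W0 := P.st G ω (time ω s) with hW0
        have hu : ∀ x, P.st G (Function.update ω (s.1, (s.2, false)) x)
            (time (Function.update ω (s.1, (s.2, false)) x) s) = W0 := fun x => by
          have e := timeEq_update ω s x
          rw [e.time_eq, hW0]
          refine P.st_congr G (e.live_eq _ _) fun q hq => ⟨e.time_eq q, zc_update_ne ω ?_ x⟩
          rintro rfl
          rw [e.live_eq] at hq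
          exact notMem_live_time _ _ _ hq
        by_cases hω : ω ∈ T
        · have hW : ∀ x r, 0 < W0 x r := P.st_pos (G := G) ω _
          have hb1 : |eps s.2 * mag G P.θ P.B W0 s.1| < 1 := Run.abs_bias hP hW s
          have hval : ∀ x, T.indicator (fun ω => F ω (P.st G ω (L ω)))
                (Function.update ω (s.1, (s.2, false)) x) -
              F' (Function.update ω (s.1, (s.2, false)) x) (P.st G
                (Function.update ω (s.1, (s.2, false)) x)
                (time (Function.update ω (s.1, (s.2, false)) x) s)) =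
              F ω (bump W0 s (chQ (eps s.2 * mag G P.θ P.B W0 s.1) x)) - F' ω W0 := fun x => by
            have e := timeEq_update ω s x
            have hωu := (lastSet_iff hLu e).2 hω
            rw [Set.indicator_of_mem hωu, hu, hFu' _ _ _ e, hFu _ _ _ e]
            congr 2
            rw [Run.st, wts_insert (T := live P.A _ (L (Function.update ω (s.1, (s.2, false)) x)))
              (notMem_live_time P.A (Function.update ω (s.1, (s.2, false)) x) s) (fun q => by
              rw [mem_live_of_last subset_rfl hωu q]; simp [hsA]), Run.yS_eq hP _ hsA, Run.m, hu,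
              zc_update]
            exact congrArg (fun W => bump W s _) (hu x)
          simp only [hval]
          have hFω : Measurable (F ω) := hF.of_uncurry_left
          have hg : Measurable fun x => F ω (bump W0 s (chQ (eps s.2 * mag G P.θ P.B W0 s.1) x)) :=
            hFω.comp ((measurable_bump s).comp (measurable_const.prodMk
              (continuous_chQ.measurable.comp (measurable_const.prodMk measurable_id))))
          rw [integral_sub (integrable_of_abs_le hg fun x => hC _ _) (integrable_const _),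
            integral_chQ hb1 (fun c => F ω (bump W0 s c)), integral_const]
          simp only [probReal_univ, one_smul, F', if_pos hω, b,
            clY_of_abs_le (abs_mag hP.abs_θ.le hW _).le, sub_self]
        · refine integral_eq_zero_of_ae (ae_of_all _ fun x => ?_)
          have e := timeEq_update ω s x
          have hωu : Function.update ω (s.1, (s.2, false)) x ∉ T :=
            fun h => hω ((lastSet_iff hLu e).1 h)
          simp [F', hωu]
      have hOdiff : ∫ ω, (evid G P.θ P.B o (P.obs ω (time ω s)) * F' ω (P.obs ω (time ω s)) -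
          T.indicator (fun ω => evid G P.θ P.B o (P.obs ω (L ω)) * F ω (P.obs ω (L ω))) ω)
            ∂iidU (V × (ℤ × Bool)) = 0 := by
        refine integral_eq_zero_update (s.1, (s.2, false))
          (mO'.sub (mO.indicator hT)) (C := K * (2 * C) + K * C) (fun ω => (abs_sub _ _).trans
            (add_le_add (bE hC' _ _) (by
              by_cases h : ω ∈ T
              · simpa [h] using bE hC ω (L ω)
              · simpa [h] using mul_nonneg hK0 hC0))) fun ω => ?_
        set W0 := P.obs ω (time ω s) with hW0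
        have hu : ∀ x, P.obs (Function.update ω (s.1, (s.2, false)) x)
            (time (Function.update ω (s.1, (s.2, false)) x) s) = W0 := fun x => by
          have e := timeEq_update ω s x
          rw [e.time_eq, hW0, Run.obs, Run.obs, e.live_eq]
          refine wts_congr fun q hq => ?_
          rw [zc_update_ne ω (fun h : q = s => notMem_live_time P.A ω s (h ▸ hq))]
        by_cases hω : ω ∈ T
        · have hW : ∀ x r, 0 < W0 x r := P.obs_pos ω _
          have hval : ∀ x, evid G P.θ P.B o (P.obs (Function.update ω (s.1, (s.2, false)) x)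
                (time (Function.update ω (s.1, (s.2, false)) x) s)) *
                F' (Function.update ω (s.1, (s.2, false)) x) (P.obs
                  (Function.update ω (s.1, (s.2, false)) x)
                  (time (Function.update ω (s.1, (s.2, false)) x) s)) -
              T.indicator (fun ω => evid G P.θ P.B o (P.obs ω (L ω)) * F ω (P.obs ω (L ω)))
                (Function.update ω (s.1, (s.2, false)) x) =
              evid G P.θ P.B o W0 * F' ω W0 - evid G P.θ P.B o W0 *
                ((1 + eps s.2 * mag G P.θ P.B W0 s.1 * xi x) * F ω (bump W0 s (xi x))) := fun x => by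
            have e := timeEq_update ω s x
            have hωu := (lastSet_iff hLu e).2 hω
            have hobs : P.obs (Function.update ω (s.1, (s.2, false)) x)
                (L (Function.update ω (s.1, (s.2, false)) x)) = bump W0 s (xi x) := by
              rw [Run.obs, wts_insert (T := live P.A _ (L (Function.update ω (s.1, (s.2, false)) x)))
                (notMem_live_time P.A (Function.update ω (s.1, (s.2, false)) x) s) (fun q => by
                rw [mem_live_of_last subset_rfl hωu q]; simp [hsA]), zc_update]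
              exact congrArg (fun W => bump W s _) (hu x)
            rw [Set.indicator_of_mem hωu, hu, hFu' _ _ _ e, hobs, hFu _ _ _ e,
              evid_bump hP.tree hP.abs_θ hP.conn hW ho (hP.sub s hsA), clY_of_abs_le (abs_xi x)]
            ring
          simp only [hval]
          have hFω : Measurable (F ω) := hF.of_uncurry_left
          have hb1 := Run.abs_bias hP hW s
          have hg : Measurable fun x =>
              (1 + eps s.2 * mag G P.θ P.B W0 s.1 * xi x) * F ω (bump W0 s (xi x)) :=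
            (measurable_const.add (measurable_const.mul continuous_xi.measurable)).mul
              (hFω.comp ((measurable_bump s).comp
                (measurable_const.prodMk continuous_xi.measurable)))
          have hgC : ∀ x, |(1 + eps s.2 * mag G P.θ P.B W0 s.1 * xi x) *
              F ω (bump W0 s (xi x))| ≤ 2 * C := fun x => by
            rw [abs_mul]
            refine mul_le_mul ?_ (hC _ _) (abs_nonneg _) zero_le_two
            simpa [b, clY_of_abs_le (abs_mag hP.abs_θ.le hW s.1).le] using hb W0 x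
          rw [integral_sub (integrable_const _) ((integrable_of_abs_le hg hgC).const_mul _),
            integral_const, integral_const_mul]
          simp only [probReal_univ, one_smul, F', if_pos hω, b,
            clY_of_abs_le (abs_mag hP.abs_θ.le hW _).le, sub_self]
        · refine integral_eq_zero_of_ae (ae_of_all _ fun x => ?_)
          have e := timeEq_update ω s x
          have hωu : Function.update ω (s.1, (s.2, false)) x ∉ T :=
            fun h => hω ((lastSet_iff hLu e).1 h)
          simp [F', hωu]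
      have i1 := integrable_of_abs_le (m := iidU (V × (ℤ × Bool))) mS (fun ω => hC _ _)
      have i2 := integrable_of_abs_le (m := iidU (V × (ℤ × Bool))) mO (fun ω => bE hC _ _)
      have i3 := integrable_of_abs_le (m := iidU (V × (ℤ × Bool))) mS' (fun ω => hC' _ _)
      have i4 := integrable_of_abs_le (m := iidU (V × (ℤ × Bool))) mO' (fun ω => bE hC' _ _)
      rw [integral_sub (i1.indicator hT) i3] at hSdiff
      rw [integral_sub i4 (i2.indicator hT)] at hOdiff
      rw [integral_sub i3 i4] at h0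
      have heq : ∀ ω, (lastSet P.A L 0 k s).indicator
          (fun ω => F ω (P.st G ω (L ω)) -
            evid G P.θ P.B o (P.obs ω (L ω)) * F ω (P.obs ω (L ω))) ω =
          T.indicator (fun ω => F ω (P.st G ω (L ω))) ω -
            T.indicator (fun ω => evid G P.θ P.B o (P.obs ω (L ω)) * F ω (P.obs ω (L ω))) ω :=
        fun ω => by
          simp only [T, Set.indicator_apply]
          split_ifs <;> simp
      simp only [heq]
      rw [integral_sub (i1.indicator hT) (i2.indicator hT)]
      linarith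

open scoped Classical in
/-- The law of the state at a time read off the slot labels is the observation model. -/
theorem exactness (hP : P.Ok G) {o : V} (ho : o ∈ P.B) {L : (V × (ℤ × Bool) → ℝ) → ℝ}
    (hL : Measurable L)
    (hLu : ∀ ω ω', (∀ v i, ω (v, (i, true)) = ω' (v, (i, true))) → L ω = L ω')
    {F : (V × (ℤ × Bool) → ℝ) → (V → Bool → ℝ) → ℝ}
    (hF : Measurable fun p : (V × (ℤ × Bool) → ℝ) × (V → Bool → ℝ) => F p.1 p.2)
    {C : ℝ} (hC : ∀ ω W, |F ω W| ≤ C)
    (hFu : ∀ ω ω' W, (∀ v i, ω (v, (i, true)) = ω' (v, (i, true))) → F ω W = F ω' W) :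
    ∫ ω, F ω (P.st G ω (L ω)) ∂iidU (V × (ℤ × Bool)) =
      ∫ ω, evid G P.θ P.B o (P.obs ω (L ω)) * F ω (P.obs ω (L ω)) ∂iidU (V × (ℤ × Bool)) := by
  obtain ⟨K, hK⟩ := exists_evid_bound G hP.abs_θ.le P.B (2 ^ P.A.card)
  have h := exactness_aux hP ho P.A.card hL hLu hF hC hFu
    fun ω W h => absurd h (not_lt.2 (card_win_le P.A ω 0 (L ω)))
  have hE : ∀ ω t, |evid G P.θ P.B o (P.obs ω t)| ≤ K := fun ω t =>
    hK o _ (abs_wts P.A _ (live_subset _ _ _) _)
  rw [integral_sub (integrable_of_abs_le ?_ fun ω => hC _ _)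
    (integrable_of_abs_le ?_ (C := K * C) fun ω => ?_), sub_eq_zero] at h
  · exact h
  · exact Measurable.comp (g := fun p : (V × (ℤ × Bool) → ℝ) × (V → Bool → ℝ) => F p.1 p.2)
      (f := fun ω => (ω, P.st G ω (L ω))) hF
      (measurable_id.prodMk (measurable_st_pi P G measurable_id hL))
  · exact ((measurable_evid G P.θ P.B o).comp (measurable_obs_pi P measurable_id hL)).mul
      (Measurable.comp (g := fun p : (V × (ℤ × Bool) → ℝ) × (V → Bool → ℝ) => F p.1 p.2)
      (f := fun ω => (ω, P.obs ω (L ω))) hF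
      (measurable_id.prodMk (measurable_obs_pi P measurable_id hL)))
  · rw [abs_mul]
    exact mul_le_mul (hE ω _) (hC _ _) (abs_nonneg _) ((abs_nonneg _).trans (hE ω 0))

/-! ### The martingale identity -/

open scoped Classical in
lemma inc_bound (hP : P.Ok G) {W : V → Bool → ℝ} (hW : ∀ x r, 0 < W x r) (a : V) (s : V × ℤ)
    (x : ℝ) : |P.inc G W a s x| ≤ 2 := by
  unfold Run.inc
  split_ifs
  · refine (abs_sub _ _).trans ?_
    linarith [(abs_mag (G := G) (B := P.B) hP.abs_θ.le (bump_pos hW s
      (chQ (eps s.2 * mag G P.θ P.B W s.1) x)) a).le,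
      (abs_mag (G := G) (B := P.B) hP.abs_θ.le hW a).le]
  · simp

open scoped Classical in
/-- Every increment has mean zero. -/
lemma integral_inc (hP : P.Ok G) {W : V → Bool → ℝ} (hW : ∀ x r, 0 < W x r) (a : V) (ha : a ∈ P.B)
    (s : V × ℤ) : ∫ x, P.inc G W a s x ∂unifR = 0 := by
  by_cases hs : s ∈ P.A
  · obtain ⟨c, hc⟩ := mag_bump_affine hP.tree hP.abs_θ hP.conn hW ha (hP.sub s hs)
    have hb := Run.abs_bias hP hW s
    have hg : Measurable fun x => mag G P.θ P.B
        (bump W s (chQ (eps s.2 * mag G P.θ P.B W s.1) x)) a :=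
      (measurable_mag _ _ _ a).comp ((measurable_bump s).comp (measurable_const.prodMk
        (continuous_chQ.measurable.comp (measurable_const.prodMk measurable_id))))
    have hgb : ∀ x, |mag G P.θ P.B
        (bump W s (chQ (eps s.2 * mag G P.θ P.B W s.1) x)) a| ≤ 1 := fun x =>
      (abs_mag hP.abs_θ.le (bump_pos hW _ _) a).le
    simp only [Run.inc, hs, if_true]
    rw [integral_sub (integrable_of_abs_le hg hgb) (integrable_const _),
      integral_chQ hb (fun y => mag G P.θ P.B (bump W s y) a), integral_const]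
    have he : ∀ x, (1 + eps s.2 * mag G P.θ P.B W s.1 * xi x) *
        mag G P.θ P.B (bump W s (xi x)) a = mag G P.θ P.B W a + c * xi x := fun x => by
      have := hc (xi x)
      rwa [clY_of_abs_le (abs_xi x)] at this
    simp only [he, probReal_univ, one_smul]
    rw [integral_add (integrable_const _)
      ((integrable_of_abs_le continuous_xi.measurable abs_xi).const_mul c), integral_const,
      integral_const_mul, integral_xi.1]
    simp
  · simp [Run.inc, hs]

/-- The mean squared difference of the increments of two runs at the times `r`. -/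
noncomputable def incSq (G : SimpleGraph V) (P₁ P₂ : Run V) (a : V) (s : V × ℤ)
    (ω : V × (ℤ × Bool) → ℝ) (r : ℝ) : ℝ :=
  ∫ x, (P₁.inc G (P₁.st G ω r) a s x - P₂.inc G (P₂.st G ω r) a s x) ^ 2 ∂unifR

lemma measurable_incSq (G : SimpleGraph V) (P₁ P₂ : Run V) (a : V) (s : V × ℤ) :
    Measurable fun p : (V × (ℤ × Bool) → ℝ) × ℝ => incSq G P₁ P₂ a s p.1 p.2 := by
  refine StronglyMeasurable.measurable (StronglyMeasurable.integral_prod_right'
    (f := fun p : ((V × (ℤ × Bool) → ℝ) × ℝ) × ℝ =>
      (P₁.inc G (P₁.st G p.1.1 p.1.2) a s p.2 - P₂.inc G (P₂.st G p.1.1 p.1.2) a s p.2) ^ 2) ?_)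
  have h : ∀ P : Run V, Measurable fun p : ((V × (ℤ × Bool) → ℝ) × ℝ) × ℝ =>
      P.inc G (P.st G p.1.1 p.1.2) a s p.2 := fun P => by
    have hst : Measurable fun p : ((V × (ℤ × Bool) → ℝ) × ℝ) × ℝ => P.st G p.1.1 p.1.2 :=
      measurable_st_pi P G (f := fun p : ((V × (ℤ × Bool) → ℝ) × ℝ) × ℝ => p.1.1)
        (T := fun p => p.1.2) (measurable_fst.comp measurable_fst)
        (measurable_snd.comp measurable_fst)
    exact Measurable.comp (g := fun q : (V → Bool → ℝ) × ℝ => P.inc G q.1 a s q.2)
      (f := fun p : ((V × (ℤ × Bool) → ℝ) × ℝ) × ℝ => (P.st G p.1.1 p.1.2, p.2))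
      (measurable_inc P G a s) (hst.prodMk measurable_snd)
  exact (((h P₁).sub (h P₂)).pow_const 2).stronglyMeasurable

lemma abs_incSq (h₁ : P₁.Ok G) (h₂ : P₂.Ok G) (a : V) (s : V × ℤ) (ω : V × (ℤ × Bool) → ℝ)
    (r : ℝ) : |incSq G P₁ P₂ a s ω r| ≤ 16 :=
  abs_integral_le_of_bound fun x => by
    have e := abs_sub (P₁.inc G (P₁.st G ω r) a s x) (P₂.inc G (P₂.st G ω r) a s x)
    have e1 := inc_bound h₁ (P₁.st_pos (G := G) ω r) a s x
    have e2 := inc_bound h₂ (P₂.st_pos (G := G) ω r) a s x
    rw [abs_pow]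
    nlinarith [abs_nonneg (P₁.inc G (P₁.st G ω r) a s x - P₂.inc G (P₂.st G ω r) a s x)]

lemma incSq_nonneg (G : SimpleGraph V) (P₁ P₂ : Run V) (a : V) (s : V × ℤ)
    (ω : V × (ℤ × Bool) → ℝ) (r : ℝ) : 0 ≤ incSq G P₁ P₂ a s ω r :=
  integral_nonneg fun _ => sq_nonneg _

lemma m_last (hP : P.Ok G) {A : Finset (V × ℤ)} (hA : P.A ⊆ A)
    {L : (V × (ℤ × Bool) → ℝ) → ℝ} {t₀ : ℝ} {k : ℕ} {s : V × ℤ} {ω : V × (ℤ × Bool) → ℝ}
    (hω : ω ∈ lastSet A L t₀ k s) (a : V) :
    P.m G ω (L ω) a =
      P.m G ω (time ω s) a + P.inc G (P.st G ω (time ω s)) a s (zc ω s) := by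
  classical
  unfold Run.inc
  by_cases hs : s ∈ P.A
  · rw [if_pos hs, Run.m, Run.m, add_sub_cancel, Run.st,
      wts_insert (T := live P.A ω (L ω)) (notMem_live_time P.A ω s) (fun q => by
        rw [mem_live_of_last hA hω q]; simp [hs]), Run.yS_eq hP ω hs]
    rfl
  · rw [if_neg hs, add_zero, Run.m, Run.m, Run.st, Run.st]
    have : live P.A ω (L ω) = live P.A ω (time ω s) := by
      ext q
      rw [mem_live_of_last hA hω q]
      simp [hs]
    rw [this]

/-- The difference of the magnetisations of two runs. -/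
noncomputable def dm (G : SimpleGraph V) (P₁ P₂ : Run V) (a : V) (ω : V × (ℤ × Bool) → ℝ) (r : ℝ) :
    ℝ := P₁.m G ω r a - P₂.m G ω r a

open scoped Classical in
/-- The defect of the martingale identity. -/
noncomputable def defect (G : SimpleGraph V) (P₁ P₂ : Run V) (a : V) (A : Finset (V × ℤ)) (t₀ : ℝ)
    (L : (V × (ℤ × Bool) → ℝ) → ℝ) (ω : V × (ℤ × Bool) → ℝ) : ℝ :=
  dm G P₁ P₂ a ω (L ω) ^ 2 - dm G P₁ P₂ a ω t₀ ^ 2 - ∑ q ∈ A,
    if present ω q ∧ t₀ ≤ time ω q ∧ time ω q < L ω then
      incSq G P₁ P₂ a q ω (time ω q) else 0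

lemma abs_dm_sq (h₁ : P₁.Ok G) (h₂ : P₂.Ok G) (a : V) (ω : V × (ℤ × Bool) → ℝ) (r : ℝ) :
    |dm G P₁ P₂ a ω r ^ 2| ≤ 4 := by
  have e : |dm G P₁ P₂ a ω r| ≤ 2 := by
    refine (abs_sub _ _).trans ?_
    linarith [(Run.abs_m h₁ ω r a).le, (Run.abs_m h₂ ω r a).le]
  rw [abs_pow]
  nlinarith [abs_nonneg (dm G P₁ P₂ a ω r)]

lemma measurable_dm (h₁ : P₁.Ok G) (h₂ : P₂.Ok G) (a : V) {L : (V × (ℤ × Bool) → ℝ) → ℝ}
    (hL : Measurable L) : Measurable fun ω => dm G P₁ P₂ a ω (L ω) :=
  (measurable_m_comp h₁ a hL).sub (measurable_m_comp h₂ a hL)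

lemma measurable_incSq_time (G : SimpleGraph V) (P₁ P₂ : Run V) (a : V) (s : V × ℤ) :
    Measurable fun ω : V × (ℤ × Bool) → ℝ => incSq G P₁ P₂ a s ω (time ω s) :=
  Measurable.comp (g := fun p : (V × (ℤ × Bool) → ℝ) × ℝ => incSq G P₁ P₂ a s p.1 p.2)
    (f := fun ω => (ω, time ω s)) (measurable_incSq G P₁ P₂ a s)
    (measurable_id.prodMk (measurable_time s))

lemma measurableSet_window (s : V × ℤ) (t₀ : ℝ) {L : (V × (ℤ × Bool) → ℝ) → ℝ} (hL : Measurable L) :
    MeasurableSet {ω : V × (ℤ × Bool) → ℝ | present ω s ∧ t₀ ≤ time ω s ∧ time ω s < L ω} :=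
  (measurableSet_present s).inter ((measurableSet_le measurable_const (measurable_time s)).inter
    (measurableSet_lt (measurable_time s) hL))

lemma measurable_defect (h₁ : P₁.Ok G) (h₂ : P₂.Ok G) (a : V) (A : Finset (V × ℤ)) (t₀ : ℝ)
    {L : (V × (ℤ × Bool) → ℝ) → ℝ} (hL : Measurable L) :
    Measurable (defect G P₁ P₂ a A t₀ L) := by
  classical
  exact (((measurable_dm h₁ h₂ a hL).pow_const 2).sub
    ((measurable_dm h₁ h₂ a measurable_const).pow_const 2)).sub
      (Finset.measurable_sum _ fun q _ => Measurable.ite (measurableSet_window q t₀ hL)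
        (measurable_incSq_time G P₁ P₂ a q) measurable_const)

lemma abs_defect (h₁ : P₁.Ok G) (h₂ : P₂.Ok G) (a : V) (A : Finset (V × ℤ)) (t₀ : ℝ)
    (L : (V × (ℤ × Bool) → ℝ) → ℝ) (ω : V × (ℤ × Bool) → ℝ) :
    |defect G P₁ P₂ a A t₀ L ω| ≤ 4 + 4 + ∑ _q ∈ A, (16 : ℝ) := by
  classical
  refine (abs_sub _ _).trans (add_le_add ((abs_sub _ _).trans
    (add_le_add (abs_dm_sq h₁ h₂ a ω _) (abs_dm_sq h₁ h₂ a ω _))) ?_)
  refine (abs_sum_le_sum_abs _ _).trans (sum_le_sum fun q _ => ?_)
  split_ifs
  · exact abs_incSq h₁ h₂ a q ω _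
  · simp

lemma defect_empty {A : Finset (V × ℤ)} (hA₁ : P₁.A ⊆ A) (hA₂ : P₂.A ⊆ A) (a : V) {t₀ : ℝ}
    {L : (V × (ℤ × Bool) → ℝ) → ℝ} {ω : V × (ℤ × Bool) → ℝ} (ht : t₀ ≤ L ω)
    (hw : win A ω t₀ (L ω) = ∅) : defect G P₁ P₂ a A t₀ L ω = 0 := by
  classical
  have hno : ∀ q ∈ A, ¬ (present ω q ∧ t₀ ≤ time ω q ∧ time ω q < L ω) := fun q hq h =>
    notMem_empty q (hw ▸ (mem_win.2 ⟨hq, h⟩ : q ∈ win A ω t₀ (L ω)))
  have hl : ∀ P : Run V, P.A ⊆ A → P.m G ω (L ω) a = P.m G ω t₀ a := fun P hA => by
    have e : live P.A ω (L ω) = live P.A ω t₀ := by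
      ext q
      simp only [mem_live]
      constructor
      · rintro ⟨hq, hp, hlt⟩
        exact ⟨hq, hp, not_le.1 fun h => hno q (hA hq) ⟨hp, h, hlt⟩⟩
      · rintro ⟨hq, hp, hlt⟩
        exact ⟨hq, hp, hlt.trans_le ht⟩
    rw [Run.m, Run.m, Run.st, Run.st, e]
  rw [defect, dm, dm, hl P₁ hA₁, hl P₂ hA₂, Finset.sum_eq_zero fun q hq => if_neg (hno q hq),
    sub_self, sub_zero]

lemma defect_step {A : Finset (V × ℤ)} (a : V) {L : (V × (ℤ × Bool) → ℝ) → ℝ} {t₀ : ℝ} {k : ℕ}
    {s : V × ℤ} {ω : V × (ℤ × Bool) → ℝ} (h : ω ∈ lastSet A L t₀ k s) :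
    defect G P₁ P₂ a A t₀ L ω = defect G P₁ P₂ a A t₀ (fun ω => time ω s) ω +
      (dm G P₁ P₂ a ω (L ω) ^ 2 - dm G P₁ P₂ a ω (time ω s) ^ 2 -
        incSq G P₁ P₂ a s ω (time ω s)) := by
  classical
  obtain ⟨hsA, hsp, hs0, hsL⟩ := mem_win.1 h.1
  have hsum : (∑ q ∈ A, if present ω q ∧ t₀ ≤ time ω q ∧ time ω q < L ω then
        incSq G P₁ P₂ a q ω (time ω q) else 0) =
      (∑ q ∈ A, if present ω q ∧ t₀ ≤ time ω q ∧ time ω q < time ω s then
        incSq G P₁ P₂ a q ω (time ω q) else 0) + incSq G P₁ P₂ a s ω (time ω s) := by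
    have hg : incSq G P₁ P₂ a s ω (time ω s) =
        ∑ q ∈ A, if q = s then incSq G P₁ P₂ a q ω (time ω q) else 0 := by
      rw [Finset.sum_ite_eq', if_pos hsA]
    rw [hg, ← sum_add_distrib]
    refine sum_congr rfl fun q hq => ?_
    by_cases e : q = s
    · subst e
      simp [hsp, hs0, hsL]
    · have hmem := mem_live_of_last (subset_refl _) h q
      simp only [mem_live, hq, e, false_and, false_or, true_and] at hmem
      rw [if_neg e, add_zero]
      exact if_congr ⟨fun h' => ⟨h'.1, h'.2.1, (hmem.1 ⟨h'.1, h'.2.2⟩).2⟩,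
        fun h' => ⟨h'.1, h'.2.1, (hmem.2 ⟨h'.1, h'.2.2⟩).2⟩⟩ rfl rfl
  rw [defect, defect, hsum]
  ring

/-- Integrating out the innovation of the last slot. -/
lemma integral_step (h₁ : P₁.Ok G) (h₂ : P₂.Ok G) {a : V} (ha₁ : a ∈ P₁.B) (ha₂ : a ∈ P₂.B)
    {A : Finset (V × ℤ)} (hA₁ : P₁.A ⊆ A) (hA₂ : P₂.A ⊆ A) {t₀ : ℝ} {k : ℕ} {s : V × ℤ}
    {L : (V × (ℤ × Bool) → ℝ) → ℝ} (hL : Measurable L) (hLu : ∀ ω ω', TimeEq ω ω' → L ω = L ω')
    {H : (V × (ℤ × Bool) → ℝ) → ℝ} (hH : Measurable H) {C : ℝ} (hC : ∀ ω, |H ω| ≤ C)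
    (hHu : ∀ ω ω', TimeEq ω ω' → H ω = H ω') :
    ∫ ω, (lastSet A L t₀ k s).indicator H ω * (dm G P₁ P₂ a ω (L ω) ^ 2 -
        dm G P₁ P₂ a ω (time ω s) ^ 2 - incSq G P₁ P₂ a s ω (time ω s))
      ∂iidU (V × (ℤ × Bool)) = 0 := by
  classical
  have hC0 : 0 ≤ C := (abs_nonneg _).trans (hC fun _ => 0)
  refine integral_eq_zero_update (s.1, (s.2, false))
    ((hH.indicator (measurableSet_lastSet A t₀ k s hL)).mul
      ((((measurable_dm h₁ h₂ a hL).pow_const 2).sub
        ((measurable_dm h₁ h₂ a (measurable_time s)).pow_const 2)).sub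
          (measurable_incSq_time G P₁ P₂ a s)))
    (C := C * (4 + 4 + 16)) (fun ω => ?_) fun ω => ?_
  · rw [abs_mul]
    exact mul_le_mul (by by_cases h : ω ∈ lastSet A L t₀ k s <;> simp [h, hC, hC0])
      ((abs_sub _ _).trans (add_le_add ((abs_sub _ _).trans (add_le_add (abs_dm_sq h₁ h₂ a ω _)
        (abs_dm_sq h₁ h₂ a ω _))) (abs_incSq h₁ h₂ a s ω _))) (abs_nonneg _) hC0
  by_cases hω : ω ∈ lastSet A L t₀ k s
  · set W₁ := P₁.st G ω (time ω s) with hW₁
    set W₂ := P₂.st G ω (time ω s) with hW₂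
    have hu : ∀ (P : Run V) x, P.st G (Function.update ω (s.1, (s.2, false)) x) (time ω s) =
        P.st G ω (time ω s) := fun P x => by
      have e := timeEq_update ω s x
      refine P.st_congr G (e.live_eq _ _) fun q hq => ⟨e.time_eq q, zc_update_ne ω ?_ x⟩
      rintro rfl
      rw [e.live_eq] at hq
      exact notMem_live_time _ _ _ hq
    have hval : ∀ x, (lastSet A L t₀ k s).indicator H (Function.update ω (s.1, (s.2, false)) x) *
        (dm G P₁ P₂ a (Function.update ω (s.1, (s.2, false)) x)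
            (L (Function.update ω (s.1, (s.2, false)) x)) ^ 2 -
          dm G P₁ P₂ a (Function.update ω (s.1, (s.2, false)) x)
            (time (Function.update ω (s.1, (s.2, false)) x) s) ^ 2 -
          incSq G P₁ P₂ a s (Function.update ω (s.1, (s.2, false)) x)
            (time (Function.update ω (s.1, (s.2, false)) x) s)) =
        H ω * (2 * dm G P₁ P₂ a ω (time ω s) * (P₁.inc G W₁ a s x - P₂.inc G W₂ a s x) +
          (P₁.inc G W₁ a s x - P₂.inc G W₂ a s x) ^ 2 - incSq G P₁ P₂ a s ω (time ω s)) := fun x => by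
      have e := timeEq_update ω s x
      have hωu := (lastSet_iff hLu e).2 hω
      simp only [dm, incSq]
      rw [Set.indicator_of_mem hωu, m_last h₁ hA₁ hωu a, m_last h₂ hA₂ hωu a, hHu _ _ e]
      simp only [Run.m, e.time_eq, hu, zc_update, ← hW₁, ← hW₂]
      ring
    simp only [hval]
    have mi : ∀ (P : Run V) (W : V → Bool → ℝ), Measurable fun x => P.inc G W a s x := fun P W =>
      Measurable.comp (g := fun p : (V → Bool → ℝ) × ℝ => P.inc G p.1 a s p.2)
        (f := fun x : ℝ => (W, x)) (measurable_inc P G a s) measurable_prodMk_left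
    have b1 := inc_bound h₁ (P₁.st_pos (G := G) ω (time ω s)) a s
    have b2 := inc_bound h₂ (P₂.st_pos (G := G) ω (time ω s)) a s
    rw [← hW₁] at b1
    rw [← hW₂] at b2
    have id1 : Integrable (fun x => P₁.inc G W₁ a s x) unifR := integrable_of_abs_le (mi _ _) b1
    have id2 : Integrable (fun x => P₂.inc G W₂ a s x) unifR := integrable_of_abs_le (mi _ _) b2
    have isq : Integrable (fun x => (P₁.inc G W₁ a s x - P₂.inc G W₂ a s x) ^ 2) unifR :=
      integrable_of_abs_le (((mi P₁ W₁).sub (mi P₂ W₂)).pow_const 2) (C := 16) fun x => by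
        simp only [abs_pow]
        nlinarith [b1 x, b2 x, abs_sub (P₁.inc G W₁ a s x) (P₂.inc G W₂ a s x),
          abs_nonneg (P₁.inc G W₁ a s x - P₂.inc G W₂ a s x)]
    have hmean : Integrable (fun x => 2 * dm G P₁ P₂ a ω (time ω s) *
        (P₁.inc G W₁ a s x - P₂.inc G W₂ a s x)) unifR := (id1.sub id2).const_mul _
    have hboth : Integrable (fun x => 2 * dm G P₁ P₂ a ω (time ω s) *
        (P₁.inc G W₁ a s x - P₂.inc G W₂ a s x) +
        (P₁.inc G W₁ a s x - P₂.inc G W₂ a s x) ^ 2) unifR := hmean.add isq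
    rw [integral_const_mul, integral_sub hboth (integrable_const _),
      integral_add hmean isq, integral_const_mul, integral_sub id1 id2, hW₁, hW₂,
      integral_inc h₁ (P₁.st_pos (G := G) ω _) a ha₁, integral_inc h₂ (P₂.st_pos (G := G) ω _) a ha₂,
      integral_const]
    simp [incSq]
  · refine integral_eq_zero_of_ae (ae_of_all _ fun x => ?_)
    have hωu : Function.update ω (s.1, (s.2, false)) x ∉ lastSet A L t₀ k s :=
      fun h => hω ((lastSet_iff hLu (timeEq_update ω s x)).1 h)
    simp [hωu]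

/-- The defect vanishes in the mean, for times read off the labels. -/
lemma two_run_aux (h₁ : P₁.Ok G) (h₂ : P₂.Ok G) {a : V} (ha₁ : a ∈ P₁.B) (ha₂ : a ∈ P₂.B)
    {A : Finset (V × ℤ)} (hA₁ : P₁.A ⊆ A) (hA₂ : P₂.A ⊆ A) (t₀ : ℝ) :
    ∀ (k : ℕ) {L : (V × (ℤ × Bool) → ℝ) → ℝ}, Measurable L →
      (∀ ω ω', TimeEq ω ω' → L ω = L ω') →
      ∀ {H : (V × (ℤ × Bool) → ℝ) → ℝ}, Measurable H →
      ∀ {C : ℝ}, (∀ ω, |H ω| ≤ C) → (∀ ω ω', TimeEq ω ω' → H ω = H ω') →
      (∀ ω, H ω ≠ 0 → t₀ ≤ L ω) →
      (∀ ω, k < (win A ω t₀ (L ω)).card → H ω = 0) →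
      ∫ ω, H ω * defect G P₁ P₂ a A t₀ L ω ∂iidU (V × (ℤ × Bool)) = 0 := by
  classical
  intro k
  induction k with
  | zero =>
    intro L _ _ H _ C _ _ hH0 hs
    refine integral_eq_zero_of_ae (ae_of_all _ fun ω => ?_)
    by_cases hH : H ω = 0
    · simp [hH]
    simp [defect_empty hA₁ hA₂ a (hH0 ω hH) (card_eq_zero.1 (by
      by_contra hne
      exact hH (hs ω (Nat.pos_of_ne_zero hne))))]
  | succ k ih =>
    intro L hL hLu H hH C hC hHu hH0 hs
    have hC0 : 0 ≤ C := (abs_nonneg _).trans (hC fun _ => 0)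
    refine integral_split A t₀ hL (k := k) (f := fun ω => H ω * defect G P₁ P₂ a A t₀ L ω)
      (hH.mul (measurable_defect h₁ h₂ a A t₀ hL))
      (C := C * (4 + 4 + ∑ _q ∈ A, (16 : ℝ)))
      (fun ω => by
        rw [abs_mul]
        exact mul_le_mul (hC ω) (abs_defect h₁ h₂ a A t₀ L ω) (abs_nonneg _) hC0)
      (fun ω h => by simp [hs ω h]) ?_ fun s hsA => ?_
    · have h := ih hL hLu (H := fun ω => if (win A ω t₀ (L ω)).card ≤ k then H ω else 0)
        (Measurable.ite (measurable_card_win A t₀ hL (measurableSet_Iic (a := k))) hH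
          measurable_const)
        (C := C) (fun ω => by split_ifs <;> simp [hC, hC0])
        (fun ω ω' e => by simp only [e.win_eq, hLu ω ω' e, hHu ω ω' e])
        (fun ω h => by split_ifs at h with h' <;> simp_all)
        (fun ω e => by simp [not_le.2 e])
      refine (integral_congr_ae (ae_of_all _ fun ω => ?_)).trans h
      simp only [Set.indicator_apply, Set.mem_ofPred_eq]
      by_cases h' : (win A ω t₀ (L ω)).card ≤ k <;> simp [h']
    · have hT : MeasurableSet (lastSet A L t₀ k s) := measurableSet_lastSet _ t₀ k s hL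
      have bT : ∀ ω, |(lastSet A L t₀ k s).indicator H ω| ≤ C := fun ω => by
        by_cases h : ω ∈ lastSet A L t₀ k s <;> simp [h, hC, hC0]
      have h0 := ih (L := fun ω => time ω s) (measurable_time s) (fun ω ω' e => e.time_eq s)
        (H := (lastSet A L t₀ k s).indicator H) (hH.indicator hT) (C := C) bT
        (fun ω ω' e => by
          by_cases h : ω ∈ lastSet A L t₀ k s
          · rw [Set.indicator_of_mem h, Set.indicator_of_mem ((lastSet_iff hLu e).1 h), hHu ω ω' e]
          · rw [Set.indicator_of_notMem h,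
              Set.indicator_of_notMem fun h' => h ((lastSet_iff hLu e).2 h')])
        (fun ω h => (mem_win.1 (Set.mem_of_indicator_ne_zero h).1).2.2.1)
        (fun ω e => Set.indicator_of_notMem (fun h : ω ∈ lastSet A L t₀ k s =>
          absurd e (by rw [h.2.2]; exact lt_irrefl k)) _)
      have hR := integral_step (t₀ := t₀) (k := k) (s := s) h₁ h₂ ha₁ ha₂ hA₁ hA₂ hL hLu hH hC hHu
      have heq : ∀ ω, (lastSet A L t₀ k s).indicator
          (fun ω => H ω * defect G P₁ P₂ a A t₀ L ω) ω =
          (lastSet A L t₀ k s).indicator H ω * defect G P₁ P₂ a A t₀ (fun ω => time ω s) ω +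
            (lastSet A L t₀ k s).indicator H ω * (dm G P₁ P₂ a ω (L ω) ^ 2 -
              dm G P₁ P₂ a ω (time ω s) ^ 2 - incSq G P₁ P₂ a s ω (time ω s)) := fun ω => by
        by_cases h : ω ∈ lastSet A L t₀ k s
        · rw [Set.indicator_of_mem h, Set.indicator_of_mem h, defect_step a h]
          ring
        · simp [h]
      simp only [heq]
      have i1 : Integrable (fun ω => (lastSet A L t₀ k s).indicator H ω *
          defect G P₁ P₂ a A t₀ (fun ω => time ω s) ω) (iidU (V × (ℤ × Bool))) :=
        integrable_of_abs_le ((hH.indicator hT).mul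
          (measurable_defect h₁ h₂ a A t₀ (measurable_time s)))
          (C := C * (4 + 4 + ∑ _q ∈ A, (16 : ℝ))) fun ω => by
            simp only [abs_mul]
            exact mul_le_mul (bT ω) (abs_defect h₁ h₂ a A t₀ _ ω) (abs_nonneg _) hC0
      have i2 : Integrable (fun ω => (lastSet A L t₀ k s).indicator H ω *
          (dm G P₁ P₂ a ω (L ω) ^ 2 - dm G P₁ P₂ a ω (time ω s) ^ 2 -
            incSq G P₁ P₂ a s ω (time ω s))) (iidU (V × (ℤ × Bool))) :=
        integrable_of_abs_le ((hH.indicator hT).mul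
          ((((measurable_dm h₁ h₂ a hL).pow_const 2).sub
            ((measurable_dm h₁ h₂ a (measurable_time s)).pow_const 2)).sub
              (measurable_incSq_time G P₁ P₂ a s))) (C := C * (4 + 4 + 16)) fun ω => by
            simp only [abs_mul]
            exact mul_le_mul (bT ω) ((abs_sub _ _).trans (add_le_add ((abs_sub _ _).trans
              (add_le_add (abs_dm_sq h₁ h₂ a ω _) (abs_dm_sq h₁ h₂ a ω _)))
              (abs_incSq h₁ h₂ a s ω _))) (abs_nonneg _) hC0
      rw [integral_add i1 i2, hR, add_zero]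
      exact h0

open scoped Classical in
/-- The martingale identity for two runs driven by the same labels. -/
theorem two_run (h₁ : P₁.Ok G) (h₂ : P₂.Ok G) {a : V} (ha₁ : a ∈ P₁.B) (ha₂ : a ∈ P₂.B)
    {t₀ t : ℝ} (ht : t₀ ≤ t) :
    ∫ ω, (P₁.m G ω t a - P₂.m G ω t a) ^ 2 ∂iidU (V × (ℤ × Bool)) =
      (∫ ω, (P₁.m G ω t₀ a - P₂.m G ω t₀ a) ^ 2 ∂iidU (V × (ℤ × Bool))) +
        ∑ s ∈ P₁.A ∪ P₂.A, ∫ ω,
          (if present ω s ∧ t₀ ≤ time ω s ∧ time ω s < t then
            ∫ x, (P₁.inc G (P₁.st G ω (time ω s)) a s x -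
              P₂.inc G (P₂.st G ω (time ω s)) a s x) ^ 2 ∂unifR
          else 0) ∂iidU (V × (ℤ × Bool)) := by
  have h := two_run_aux h₁ h₂ ha₁ ha₂ (A := P₁.A ∪ P₂.A) subset_union_left subset_union_right t₀
    (P₁.A ∪ P₂.A).card (L := fun _ => t) measurable_const (fun _ _ _ => rfl) (H := fun _ => (1 : ℝ))
    measurable_const (C := 1) (fun _ => by simp) (fun _ _ _ => rfl) (fun _ _ => ht)
    (fun ω e => absurd e (not_lt.2 (card_win_le _ ω t₀ t)))
  have iD : ∀ r, Integrable (fun ω => dm G P₁ P₂ a ω r ^ 2) (iidU (V × (ℤ × Bool))) := fun r =>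
    integrable_of_abs_le ((measurable_dm h₁ h₂ a measurable_const).pow_const 2) (C := 4)
      fun ω => abs_dm_sq h₁ h₂ a ω r
  have ig : ∀ s, Integrable (fun ω => if present ω s ∧ t₀ ≤ time ω s ∧ time ω s < t then
      incSq G P₁ P₂ a s ω (time ω s) else 0) (iidU (V × (ℤ × Bool))) := fun s =>
    integrable_of_abs_le (Measurable.ite (measurableSet_window s t₀ measurable_const)
      (measurable_incSq_time G P₁ P₂ a s) measurable_const) (C := 16) fun ω => by
      split_ifs
      · exact abs_incSq h₁ h₂ a s ω _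
      · simp
  have ig' : Integrable (fun ω => ∑ s ∈ P₁.A ∪ P₂.A,
      if present ω s ∧ t₀ ≤ time ω s ∧ time ω s < t then
        incSq G P₁ P₂ a s ω (time ω s) else 0) (iidU (V × (ℤ × Bool))) :=
    integrable_finsetSum _ fun s _ => ig s
  have iDD : Integrable (fun ω => dm G P₁ P₂ a ω t ^ 2 - dm G P₁ P₂ a ω t₀ ^ 2)
      (iidU (V × (ℤ × Bool))) := (iD t).sub (iD t₀)
  simp only [one_mul, defect] at h
  rw [integral_sub iDD ig', integral_sub (iD t) (iD t₀), integral_finsetSum _ fun s _ => ig s] at h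
  simp only [incSq, dm] at h
  linarith

open scoped Classical in
/-- One slot, averaged over its time. -/
lemma slot_average (h₁ : P₁.Ok G) (h₂ : P₂.Ok G) (a : V) (s : V × ℤ) (t₀ t : ℝ) :
    ∫ ω, (if present ω s ∧ t₀ ≤ time ω s ∧ time ω s < t then
        incSq G P₁ P₂ a s ω (time ω s) else 0) ∂iidU (V × (ℤ × Bool)) ≤
      ∫ r in Set.Ico t₀ t, (if lo s.2 ≤ r ∧ r < lo s.2 + wid s.2 then
        1 / wid s.2 * ∫ ω, incSq G P₁ P₂ a s ω r ∂iidU (V × (ℤ × Bool)) else 0) := by
  set τ : V × (ℤ × Bool) := (s.1, (s.2, true)) with hτ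
  set w := wid s.2 with hw
  set l := lo s.2 with hl
  have w0 := wid_pos s.2
  rw [← hw] at w0
  have hpres : ∀ ω x, (present (Function.update ω τ x) s ↔ clZ x < 1 / 2) ∧
      time (Function.update ω τ x) s = l + 2 * w * clZ x := fun ω x =>
    ⟨by rw [present, hτ, Function.update_self], by rw [time, hτ, Function.update_self]⟩
  have hoff : ∀ ω x (q : V × ℤ), q ≠ s →
      (present (Function.update ω τ x) q ↔ present ω q) ∧
        time (Function.update ω τ x) q = time ω q := fun ω x q hq => by
    have hne : (q.1, (q.2, true)) ≠ τ := fun e => hq (by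
      simp only [hτ, Prod.mk.injEq, and_true] at e
      exact Prod.ext e.1 e.2)
    exact ⟨by rw [present, Function.update_of_ne hne]; rfl,
      by rw [time, Function.update_of_ne hne]; rfl⟩
  have hz : ∀ ω x q, zc (Function.update ω τ x) q = zc ω q := fun ω x q =>
    Function.update_of_ne (by simp [hτ]) _ _
  -- when the slot is not live, the label of its time plays no part
  have hst : ∀ (P : Run V) ω x r,
      (present (Function.update ω τ x) s → ¬ time (Function.update ω τ x) s < r) →
      P.st G (Function.update ω τ x) r = P.st G (Function.update ω τ 1) r := fun P ω x r hx => by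
    have h1 : ¬ present (Function.update ω τ 1) s := by
      rw [(hpres ω 1).1, clZ_of_mem zero_le_one le_rfl]
      norm_num
    have hne : ∀ q ∈ live P.A (Function.update ω τ x) r, q ≠ s := fun q hq e => by
      subst e
      exact hx (mem_live.1 hq).2.1 (mem_live.1 hq).2.2
    refine P.st_congr G ?_ fun q hq => ⟨?_, by rw [hz, hz]⟩
    · ext q
      simp only [mem_live]
      by_cases e : q = s
      · subst e
        exact ⟨fun h => absurd h.2.2 (hx h.2.1), fun h => absurd h.2.1 h1⟩
      · rw [(hoff ω x q e).1, (hoff ω 1 q e).1, (hoff ω x q e).2, (hoff ω 1 q e).2]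
    · rw [(hoff ω x q (hne q hq)).2, (hoff ω 1 q (hne q hq)).2]
  let gb : ℝ → ℝ := fun r =>
    ∫ ω, incSq G P₁ P₂ a s (Function.update ω τ 1) r ∂iidU (V × (ℤ × Bool))
  let G2 : ℝ → ℝ := fun r => ∫ ω, incSq G P₁ P₂ a s ω r ∂iidU (V × (ℤ × Bool))
  have mg := measurable_incSq G P₁ P₂ a s
  have mupd : Measurable fun ω : V × (ℤ × Bool) → ℝ => Function.update ω τ 1 :=
    (measurable_update₂ τ).comp (measurable_id.prodMk measurable_const)
  have mgb : Measurable gb := by
    refine StronglyMeasurable.measurable (StronglyMeasurable.integral_prod_right'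
      (f := fun p : ℝ × (V × (ℤ × Bool) → ℝ) =>
        incSq G P₁ P₂ a s (Function.update p.2 τ 1) p.1) ?_)
    exact (Measurable.comp (g := fun p : (V × (ℤ × Bool) → ℝ) × ℝ => incSq G P₁ P₂ a s p.1 p.2)
      (f := fun p : ℝ × (V × (ℤ × Bool) → ℝ) => (Function.update p.2 τ 1, p.1)) mg
      ((mupd.comp measurable_snd).prodMk measurable_fst)).stronglyMeasurable
  have mG2 : Measurable G2 := by
    refine StronglyMeasurable.measurable (StronglyMeasurable.integral_prod_right'
      (f := fun p : ℝ × (V × (ℤ × Bool) → ℝ) => incSq G P₁ P₂ a s p.2 p.1) ?_)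
    exact (Measurable.comp (g := fun p : (V × (ℤ × Bool) → ℝ) × ℝ => incSq G P₁ P₂ a s p.1 p.2)
      (f := fun p : ℝ × (V × (ℤ × Bool) → ℝ) => (p.2, p.1)) mg
      (measurable_snd.prodMk measurable_fst)).stronglyMeasurable
  -- the slot is absent at least half of the time
  have hhalf : ∀ r, gb r ≤ 2 * G2 r := fun r => by
    have mgr : Measurable fun ω => incSq G P₁ P₂ a s ω r :=
      Measurable.comp (g := fun p : (V × (ℤ × Bool) → ℝ) × ℝ => incSq G P₁ P₂ a s p.1 p.2)
        (f := fun ω => (ω, r)) mg (measurable_id.prodMk measurable_const)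
    have hb := fun ω => abs_incSq h₁ h₂ a s ω r
    simp only [gb, G2]
    rw [integral_update τ mgr hb, ← integral_const_mul]
    refine integral_mono (integrable_of_abs_le (mgr.comp mupd) fun ω => hb _)
      (Integrable.const_mul (integrable_of_abs_le (StronglyMeasurable.measurable
        (StronglyMeasurable.integral_prod_right' (f := fun p : (V × (ℤ × Bool) → ℝ) × ℝ =>
          incSq G P₁ P₂ a s (Function.update p.1 τ p.2) r)
          (mgr.comp (measurable_update₂ τ)).stronglyMeasurable))
        fun ω => abs_integral_le_of_bound fun x => hb _) _) fun ω => ?_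
    have hset : ∀ x, (Set.Ici (1 / 2 : ℝ)).indicator
        (fun _ => incSq G P₁ P₂ a s (Function.update ω τ 1) r) x ≤
        incSq G P₁ P₂ a s (Function.update ω τ x) r := fun x => by
      by_cases hx : 1 / 2 ≤ x
      · rw [Set.indicator_of_mem (show x ∈ Set.Ici (1 / 2 : ℝ) from hx)]
        have hnot : present (Function.update ω τ x) s → ¬ time (Function.update ω τ x) s < r :=
          fun h => by
            rw [(hpres ω x).1] at h
            exact absurd h (not_lt.2 (le_max_of_le_right (le_min (by norm_num) hx)))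
        simp only [incSq, hst P₁ ω x r hnot, hst P₂ ω x r hnot]
        exact le_rfl
      · rw [Set.indicator_of_notMem (show x ∉ Set.Ici (1 / 2 : ℝ) from hx)]
        exact incSq_nonneg G P₁ P₂ a s _ r
    have h1 := integral_mono ((integrable_const _).indicator measurableSet_Ici)
      (integrable_of_abs_le (m := unifR) (mgr.comp ((measurable_update₂ τ).comp
        (measurable_const.prodMk measurable_id))) fun x => hb _) hset
    rw [integral_indicator measurableSet_Ici, setIntegral_const, smul_eq_mul] at h1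
    have hreal : unifR.real (Set.Ici (1 / 2)) = 1 / 2 := by
      rw [measureReal_def, unifR, Measure.restrict_apply measurableSet_Ici,
        show Set.Ici (1 / 2 : ℝ) ∩ Set.Icc 0 1 = Set.Icc (1 / 2) 1 by
          ext x; simp only [Set.mem_inter_iff, Set.mem_Ici, Set.mem_Icc]; constructor <;>
            intro hx <;> [exact ⟨hx.1, hx.2.2⟩; exact ⟨hx.1, by linarith [hx.1], hx.2⟩],
        Real.volume_Icc]
      norm_num
    rw [hreal] at h1
    simp only [Function.comp_apply, id] at h1 ⊢
    linarith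
  -- integrate out the label of the time
  let h : ℝ → ℝ := fun r => if (t₀ ≤ r ∧ r < t) ∧ l ≤ r ∧ r < l + w then gb r else 0
  have hinner : ∀ ω x, (if present (Function.update ω τ x) s ∧
      t₀ ≤ time (Function.update ω τ x) s ∧ time (Function.update ω τ x) s < t then
        incSq G P₁ P₂ a s (Function.update ω τ x) (time (Function.update ω τ x) s) else 0) =
      if clZ x < 1 / 2 ∧ t₀ ≤ l + 2 * w * clZ x ∧ l + 2 * w * clZ x < t then
        incSq G P₁ P₂ a s (Function.update ω τ 1) (l + 2 * w * clZ x) else 0 := fun ω x => by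
    have hnot : present (Function.update ω τ x) s →
        ¬ time (Function.update ω τ x) s < l + 2 * w * clZ x := fun _ => by
      rw [(hpres ω x).2]; exact lt_irrefl _
    rw [(hpres ω x).1, (hpres ω x).2]
    simp only [incSq, hst P₁ ω x _ hnot, hst P₂ ω x _ hnot]
  have mval : Measurable fun p : (V × (ℤ × Bool) → ℝ) × ℝ =>
      if clZ p.2 < 1 / 2 ∧ t₀ ≤ l + 2 * w * clZ p.2 ∧ l + 2 * w * clZ p.2 < t then
        incSq G P₁ P₂ a s (Function.update p.1 τ 1) (l + 2 * w * clZ p.2) else 0 := by
    have mz : Measurable fun p : (V × (ℤ × Bool) → ℝ) × ℝ => l + 2 * w * clZ p.2 :=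
      measurable_const.add (measurable_const.mul (continuous_clZ.measurable.comp measurable_snd))
    refine Measurable.ite ((measurableSet_lt (continuous_clZ.measurable.comp measurable_snd)
      measurable_const).inter ((measurableSet_le measurable_const mz).inter
        (measurableSet_lt mz measurable_const)))
      (Measurable.comp (g := fun p : (V × (ℤ × Bool) → ℝ) × ℝ => incSq G P₁ P₂ a s p.1 p.2)
        (f := fun p : (V × (ℤ × Bool) → ℝ) × ℝ => (Function.update p.1 τ 1, l + 2 * w * clZ p.2))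
        mg ((mupd.comp measurable_fst).prodMk mz)) measurable_const
  have hlhs : ∫ ω, (if present ω s ∧ t₀ ≤ time ω s ∧ time ω s < t then
      incSq G P₁ P₂ a s ω (time ω s) else 0) ∂iidU (V × (ℤ × Bool)) =
      ∫ x, h (l + 2 * w * x) ∂unifR := by
    have mf : Measurable fun ω => if present ω s ∧ t₀ ≤ time ω s ∧ time ω s < t then
        incSq G P₁ P₂ a s ω (time ω s) else 0 :=
      Measurable.ite (measurableSet_window s t₀ measurable_const)
        (measurable_incSq_time G P₁ P₂ a s) measurable_const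
    rw [integral_update τ mf (C := 16) fun ω => by
      split_ifs
      · exact abs_incSq h₁ h₂ a s ω _
      · simp]
    simp only [hinner]
    rw [integral_integral_swap (integrable_of_abs_le mval (C := 16) fun p => by
      simp only [Function.uncurry]
      split_ifs
      · exact abs_incSq h₁ h₂ a s _ _
      · simp)]
    refine integral_congr_ae ?_
    filter_upwards [ae_unifR_mem] with x hx
    simp only [clZ_of_mem hx.1 hx.2, h]
    have hiff : (x < 1 / 2 ∧ t₀ ≤ l + 2 * w * x ∧ l + 2 * w * x < t) ↔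
        (t₀ ≤ l + 2 * w * x ∧ l + 2 * w * x < t) ∧ l ≤ l + 2 * w * x ∧ l + 2 * w * x < l + w := by
      constructor
      · exact fun ⟨e1, e2, e3⟩ => ⟨⟨e2, e3⟩, by nlinarith, by nlinarith⟩
      · exact fun ⟨⟨e2, e3⟩, _, e4⟩ => ⟨by nlinarith, e2, e3⟩
    by_cases hc : x < 1 / 2 ∧ t₀ ≤ l + 2 * w * x ∧ l + 2 * w * x < t
    · simp only [hc, hiff.1 hc, and_self, if_true, gb]
    · simp only [hc, if_false, mt hiff.2 hc, integral_zero]
  have hsub : ∫ x, h (l + 2 * w * x) ∂unifR = 1 / (2 * w) * ∫ r, h r := by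
    rw [unifR, setIntegral_eq_integral_of_forall_compl_eq_zero fun x hx => if_neg fun hc => hx ?_]
    · rw [Measure.integral_comp_mul_left (fun y => h (l + y)) (2 * w),
        integral_add_left_eq_self h l, smul_eq_mul, abs_of_pos (by positivity), one_div]
    · obtain ⟨-, e1, e2⟩ := hc
      exact ⟨by nlinarith, by nlinarith⟩
  rw [hlhs, hsub, ← integral_const_mul, ← integral_indicator measurableSet_Ico]
  have hmw : MeasurableSet {r : ℝ | l ≤ r ∧ r < l + w} := measurableSet_Ico
  have hzero : ∀ r, r ∉ Set.Ico l (l + w) → ∀ f : ℝ,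
      (if l ≤ r ∧ r < l + w then f else 0) = 0 := fun r hr f => if_neg hr
  have bgb : ∀ r, |gb r| ≤ 16 := fun r => abs_integral_le_of_bound fun ω => abs_incSq h₁ h₂ a s _ r
  have bG2 : ∀ r, |G2 r| ≤ 16 := fun r => abs_integral_le_of_bound fun ω => abs_incSq h₁ h₂ a s _ r
  have hint : ∀ f : ℝ → ℝ, Measurable f → (∀ r, |f r| ≤ 16 * (1 / w) + 16) →
      (∀ r, r ∉ Set.Ico l (l + w) → f r = 0) → Integrable f := fun f hf hb hz => by
    rw [← integrableOn_iff_integrable_of_support_subset (s := Set.Ico l (l + w))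
      (fun r hr => by_contra fun h' => hr (hz r h'))]
    have : IsFiniteMeasure (volume.restrict (Set.Ico l (l + w))) :=
      isFiniteMeasure_restrict.2 measure_Ico_lt_top.ne
    exact integrable_of_abs_le hf hb
  refine integral_mono ((hint h (Measurable.ite (measurableSet_Ico.inter hmw) mgb measurable_const)
      (fun r => ?_) (fun r hr => if_neg fun e => hr e.2)).const_mul _)
    (hint _ ((Measurable.ite hmw (measurable_const.mul mG2) measurable_const).indicator
      measurableSet_Ico) (fun r => ?_) (fun r hr => ?_)) fun r => ?_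
  · have : 0 ≤ 16 * (1 / w) := by positivity
    simp only [h]
    split_ifs
    · linarith [bgb r]
    · simp only [abs_zero]; linarith
  · have : 0 ≤ 16 * (1 / w) := by positivity
    refine le_trans ?_ (le_add_of_nonneg_right (by norm_num : (0 : ℝ) ≤ 16))
    simp only [Set.indicator_apply]
    split_ifs
    · rw [abs_mul, abs_of_pos (by positivity : (0 : ℝ) < 1 / w), mul_comm]
      exact mul_le_mul_of_nonneg_right (bG2 r) (by positivity)
    all_goals simpa using this
  · simp only [Set.indicator_apply, hzero r hr]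
    simp
  · simp only [h, Set.indicator_apply, Set.mem_Ico]
    by_cases hc : (t₀ ≤ r ∧ r < t) ∧ l ≤ r ∧ r < l + w
    · simp only [hc.1, hc.2, and_self, if_true]
      have := mul_le_mul_of_nonneg_left (hhalf r) (by positivity : (0 : ℝ) ≤ 1 / (2 * w))
      refine this.trans (le_of_eq ?_)
      field_simp
      ring
    · rw [if_neg hc, mul_zero]
      split_ifs
      · exact mul_nonneg (by positivity) (integral_nonneg fun ω => incSq_nonneg G P₁ P₂ a s ω r)
      all_goals exact le_rfl

open scoped Classical in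
/-- The martingale identity, averaged over the times of the slots. -/
theorem two_run_le (h₁ : P₁.Ok G) (h₂ : P₂.Ok G) {a : V} (ha₁ : a ∈ P₁.B) (ha₂ : a ∈ P₂.B)
    {t₀ t : ℝ} (ht : t₀ ≤ t) :
    ∫ ω, (P₁.m G ω t a - P₂.m G ω t a) ^ 2 ∂iidU (V × (ℤ × Bool)) ≤
      (∫ ω, (P₁.m G ω t₀ a - P₂.m G ω t₀ a) ^ 2 ∂iidU (V × (ℤ × Bool))) +
        ∫ r in Set.Ico t₀ t, ∑ s ∈ P₁.A ∪ P₂.A,
          (if lo s.2 ≤ r ∧ r < lo s.2 + wid s.2 then
            1 / wid s.2 * ∫ ω, ∫ x, (P₁.inc G (P₁.st G ω r) a s x -
              P₂.inc G (P₂.st G ω r) a s x) ^ 2 ∂unifR ∂iidU (V × (ℤ × Bool))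
          else 0) := by
  rw [two_run h₁ h₂ ha₁ ha₂ ht, integral_finsetSum]
  · exact add_le_add le_rfl (sum_le_sum fun s _ => slot_average h₁ h₂ a s t₀ t)
  · intro s _
    have : IsFiniteMeasure (volume.restrict (Set.Ico t₀ t)) :=
      isFiniteMeasure_restrict.2 measure_Ico_lt_top.ne
    have mG : Measurable fun r => ∫ ω, incSq G P₁ P₂ a s ω r ∂iidU (V × (ℤ × Bool)) := by
      refine StronglyMeasurable.measurable (StronglyMeasurable.integral_prod_right'
        (f := fun p : ℝ × (V × (ℤ × Bool) → ℝ) => incSq G P₁ P₂ a s p.2 p.1) ?_)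
      exact (Measurable.comp (g := fun p : (V × (ℤ × Bool) → ℝ) × ℝ => incSq G P₁ P₂ a s p.1 p.2)
        (f := fun p : ℝ × (V × (ℤ × Bool) → ℝ) => (p.2, p.1)) (measurable_incSq G P₁ P₂ a s)
        (measurable_snd.prodMk measurable_fst)).stronglyMeasurable
    refine integrable_of_abs_le (m := volume.restrict (Set.Ico t₀ t))
      (Measurable.ite measurableSet_Ico (measurable_const.mul mG) measurable_const)
      (C := 16 * (1 / wid s.2)) fun r => ?_
    have := (wid_pos s.2)
    split_ifs
    · rw [abs_mul, abs_of_pos (by positivity : (0 : ℝ) < 1 / wid s.2), mul_comm]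
      exact mul_le_mul_of_nonneg_right (abs_integral_le_of_bound fun ω => abs_incSq h₁ h₂ a s ω r)
        (by positivity)
    · simp only [abs_zero]; positivity

end Vale.Agent.P161.Crit
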