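import Mathlib.Analysis.SpecialFunctions.Pow.Real
import Mathlib.Tactic

/-!
# P161, critical point: the algebra of one edge

`x` and `y` are the magnetisations of the two sides of an edge, each computed without the edge.
-/

namespace Vale.Agent.P161.Crit

/-- The magnetisation of the endpoint on the `x` side. -/
noncomputable def edgeMag (θ x y : ℝ) : ℝ := (x + θ * y) / (1 + θ * x * y)

/-- The response of the endpoint on the `x` side to the other endpoint. -/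
noncomputable def resp (θ x : ℝ) : ℝ := θ * (1 - x ^ 2) / (1 - θ ^ 2 * x ^ 2)

/-- The free term of the endpoint on the `x` side. -/
noncomputable def offset (θ x : ℝ) : ℝ := x * (1 - θ ^ 2) / (1 - θ ^ 2 * x ^ 2)

variable {θ x x' y m m' : ℝ}

lemma one_sub_sq_pos (hθ : |θ| < 1) (hx : |x| ≤ 1) : 0 < 1 - θ ^ 2 * x ^ 2 := by
  have h1 : θ ^ 2 < 1 := (sq_lt_one_iff_abs_lt_one θ).2 hθ
  have h2 : x ^ 2 ≤ 1 := (sq_le_one_iff_abs_le_one x).2 hx
  nlinarith [sq_nonneg θ, sq_nonneg x, mul_le_mul_of_nonneg_left h2 (sq_nonneg θ)]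

lemma one_add_mul_pos (hθ : |θ| < 1) (hx : |x| ≤ 1) (hy : |y| ≤ 1) : 0 < 1 + θ * x * y := by
  have : |θ * x * y| < 1 := by
    rw [abs_mul, abs_mul]
    calc |θ| * |x| * |y| ≤ |θ| * 1 * 1 := by
          apply mul_le_mul _ hy (abs_nonneg _) (by positivity)
          exact mul_le_mul_of_nonneg_left hx (abs_nonneg _)
      _ < 1 := by simpa using hθ
  linarith [(abs_lt.1 this).1]

lemma edgeMag_eq (hθ : |θ| < 1) (hx : |x| ≤ 1) (hy : |y| ≤ 1) :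
    edgeMag θ x y = offset θ x + resp θ x * edgeMag θ y x := by
  have h1 := one_sub_sq_pos hθ hx
  have h2 := one_add_mul_pos hθ hx hy
  have h3 := one_add_mul_pos hθ hy hx
  rw [edgeMag, offset, resp, edgeMag, show 1 + θ * y * x = 1 + θ * x * y by ring,
    div_mul_div_comm, div_add_div _ _ h1.ne' (mul_pos h1 h2).ne',
    div_eq_div_iff h2.ne' (mul_pos h1 (mul_pos h1 h2)).ne']
  ring

lemma var_resp_comm (hθ : |θ| < 1) (hx : |x| ≤ 1) (hy : |y| ≤ 1) :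
    (1 - edgeMag θ y x ^ 2) * resp θ x = (1 - edgeMag θ x y ^ 2) * resp θ y := by
  have h1 := one_sub_sq_pos hθ hx
  have h2 := one_sub_sq_pos hθ hy
  have h3 := one_add_mul_pos hθ hx hy
  have h4 := one_add_mul_pos hθ hy hx
  have e1 : 1 - ((y + θ * x) / (1 + θ * x * y)) ^ 2 =
      ((1 - θ ^ 2 * x ^ 2) * (1 - y ^ 2)) / (1 + θ * x * y) ^ 2 := by
    rw [div_pow, one_sub_div (pow_ne_zero _ h3.ne')]; ring
  have e2 : 1 - ((x + θ * y) / (1 + θ * x * y)) ^ 2 =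
      ((1 - θ ^ 2 * y ^ 2) * (1 - x ^ 2)) / (1 + θ * x * y) ^ 2 := by
    rw [div_pow, one_sub_div (pow_ne_zero _ h3.ne')]; ring
  rw [edgeMag, edgeMag, resp, resp, show 1 + θ * y * x = 1 + θ * x * y by ring, e1, e2,
    div_mul_div_comm, div_mul_div_comm,
    div_eq_div_iff (mul_pos (pow_pos h3 2) h1).ne' (mul_pos (pow_pos h3 2) h2).ne']
  ring

lemma resp_nonneg (hθ0 : 0 ≤ θ) (hθ : θ < 1) (hx : |x| ≤ 1) : 0 ≤ resp θ x := by
  have h1 := one_sub_sq_pos (abs_lt.2 ⟨by linarith, hθ⟩) hx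
  have h2 : x ^ 2 ≤ 1 := (sq_le_one_iff_abs_le_one x).2 hx
  exact div_nonneg (mul_nonneg hθ0 (by linarith)) h1.le

/-- The damping of the response. -/
lemma resp_le_damped (hθ0 : 0 ≤ θ) (hθ : θ < 1) (hθ2 : θ ^ 2 ≤ 1 / 2) (hx : |x| ≤ 1) :
    resp θ x ≤ θ * (1 - x ^ 2 / 2) := by
  have h1 := one_sub_sq_pos (abs_lt.2 ⟨by linarith, hθ⟩) hx
  rw [resp, div_le_iff₀ h1]
  have key : 0 ≤ x ^ 2 * (1 / 2 - θ ^ 2) + θ ^ 2 * x ^ 4 / 2 :=
    add_nonneg (mul_nonneg (sq_nonneg x) (by linarith)) (by positivity)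
  nlinarith [mul_le_mul_of_nonneg_left key hθ0]

lemma resp_le (hθ0 : 0 ≤ θ) (hθ : θ < 1) (hx : |x| ≤ 1) : resp θ x ≤ θ := by
  have h1 := one_sub_sq_pos (abs_lt.2 ⟨by linarith, hθ⟩) hx
  rw [resp, div_le_iff₀ h1]
  nlinarith [mul_nonneg hθ0 (mul_nonneg (sq_nonneg x) (show 0 ≤ 1 - θ ^ 2 by nlinarith))]

lemma abs_resp_sub (hθ0 : 0 ≤ θ) (hθ : θ < 1) (hθ2 : θ ^ 2 ≤ 1 / 2) (hx : |x| ≤ 1)
    (hx' : |x'| ≤ 1) : |resp θ x - resp θ x'| ≤ 4 * θ * |x ^ 2 - x' ^ 2| := by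
  have hθa : |θ| < 1 := abs_lt.2 ⟨by linarith, hθ⟩
  have h1 := one_sub_sq_pos hθa hx
  have h2 := one_sub_sq_pos hθa hx'
  have e : resp θ x - resp θ x' = θ * (1 - θ ^ 2) * (x' ^ 2 - x ^ 2) /
      ((1 - θ ^ 2 * x ^ 2) * (1 - θ ^ 2 * x' ^ 2)) := by
    rw [resp, resp, div_sub_div _ _ h1.ne' h2.ne']
    ring
  have h3 : x ^ 2 ≤ 1 := (sq_le_one_iff_abs_le_one x).2 hx
  have h4 : x' ^ 2 ≤ 1 := (sq_le_one_iff_abs_le_one x').2 hx'
  have d1 : 1 / 2 ≤ 1 - θ ^ 2 * x ^ 2 := by nlinarith [mul_le_mul_of_nonneg_left h3 (sq_nonneg θ)]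
  have d2 : 1 / 2 ≤ 1 - θ ^ 2 * x' ^ 2 := by nlinarith [mul_le_mul_of_nonneg_left h4 (sq_nonneg θ)]
  rw [e, abs_div, abs_mul, abs_of_pos (mul_pos h1 h2), div_le_iff₀ (mul_pos h1 h2),
    abs_sub_comm (x' ^ 2), abs_of_nonneg (mul_nonneg hθ0 (by nlinarith))]
  have hd : 1 / 4 ≤ (1 - θ ^ 2 * x ^ 2) * (1 - θ ^ 2 * x' ^ 2) := by nlinarith
  calc θ * (1 - θ ^ 2) * |x ^ 2 - x' ^ 2| ≤ θ * 1 * |x ^ 2 - x' ^ 2| := by
        apply mul_le_mul_of_nonneg_right _ (abs_nonneg _)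
        exact mul_le_mul_of_nonneg_left (by nlinarith) hθ0
    _ ≤ 4 * θ * |x ^ 2 - x' ^ 2| * ((1 - θ ^ 2 * x ^ 2) * (1 - θ ^ 2 * x' ^ 2)) := by
        have := mul_le_mul_of_nonneg_left hd
          (show 0 ≤ 4 * θ * |x ^ 2 - x' ^ 2| by positivity)
        linarith

/-- A side magnetisation is controlled by the two endpoint magnetisations. -/
lemma abs_side_sub (hθ0 : 0 ≤ θ) (hθ : θ < 1) (hx : |x| ≤ 1) (hx' : |x'| ≤ 1) (hm : |m| ≤ 1) :
    (1 - θ) ^ 3 * |x - x'| ≤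
      |offset θ x + resp θ x * m - (offset θ x' + resp θ x' * m')| + θ * |m - m'| := by
  have hθa : |θ| < 1 := abs_lt.2 ⟨by linarith, hθ⟩
  have h1 := one_sub_sq_pos hθa hx
  have h2 := one_sub_sq_pos hθa hx'
  set q : ℝ := 1 + θ ^ 2 * (x * x') - θ * m * (x + x') with hq
  have e : offset θ x + resp θ x * m - (offset θ x' + resp θ x' * m) =
      (x - x') * ((1 - θ ^ 2) * q) / ((1 - θ ^ 2 * x ^ 2) * (1 - θ ^ 2 * x' ^ 2)) := by
    rw [offset, offset, resp, resp, hq, div_mul_eq_mul_div, div_mul_eq_mul_div, ← add_div,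
      ← add_div, div_sub_div _ _ h1.ne' h2.ne']
    ring
  obtain ⟨a1, a2⟩ := abs_le.1 hx
  obtain ⟨a3, a4⟩ := abs_le.1 hx'
  obtain ⟨a5, a6⟩ := abs_le.1 hm
  have hql : (1 - θ) ^ 2 ≤ q := by
    have g1 : (1 - θ) ^ 2 ≤ 1 + θ ^ 2 * (x * x') - θ * (x + x') := by
      rw [show 1 + θ ^ 2 * (x * x') - θ * (x + x') = (1 - θ * x) * (1 - θ * x') by ring, sq]
      exact mul_le_mul (by nlinarith) (by nlinarith) (by linarith) (by nlinarith)
    have g2 : (1 - θ) ^ 2 ≤ 1 + θ ^ 2 * (x * x') + θ * (x + x') := by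
      rw [show 1 + θ ^ 2 * (x * x') + θ * (x + x') = (1 + θ * x) * (1 + θ * x') by ring, sq]
      exact mul_le_mul (by nlinarith) (by nlinarith) (by linarith) (by nlinarith)
    have e2 : q = (1 + m) / 2 * (1 + θ ^ 2 * (x * x') - θ * (x + x')) +
        (1 - m) / 2 * (1 + θ ^ 2 * (x * x') + θ * (x + x')) := by rw [hq]; ring
    rw [e2]
    nlinarith [mul_le_mul_of_nonneg_left g1 (show 0 ≤ (1 + m) / 2 by linarith),
      mul_le_mul_of_nonneg_left g2 (show 0 ≤ (1 - m) / 2 by linarith)]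
  have hden : (1 - θ ^ 2 * x ^ 2) * (1 - θ ^ 2 * x' ^ 2) ≤ 1 := by
    have : 0 ≤ θ ^ 2 * x ^ 2 := by positivity
    have : 0 ≤ θ ^ 2 * x' ^ 2 := by positivity
    nlinarith
  have hlow : (1 - θ) ^ 3 * |x - x'| ≤
      |offset θ x + resp θ x * m - (offset θ x' + resp θ x' * m)| := by
    have hq0 : 0 ≤ q := le_trans (sq_nonneg _) hql
    have hk : (1 - θ) ^ 3 ≤ (1 - θ ^ 2) * q := by
      have : 1 - θ ≤ 1 - θ ^ 2 := by nlinarith
      calc (1 - θ) ^ 3 = (1 - θ) * (1 - θ) ^ 2 := by ring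
        _ ≤ _ := mul_le_mul this hql (sq_nonneg _) (by nlinarith)
    rw [e, abs_div, abs_mul, abs_of_pos (mul_pos h1 h2),
      abs_of_nonneg (show 0 ≤ (1 - θ ^ 2) * q from mul_nonneg (by nlinarith) hq0),
      le_div_iff₀ (mul_pos h1 h2)]
    calc (1 - θ) ^ 3 * |x - x'| * ((1 - θ ^ 2 * x ^ 2) * (1 - θ ^ 2 * x' ^ 2))
        ≤ (1 - θ) ^ 3 * |x - x'| * 1 :=
          mul_le_mul_of_nonneg_left hden (mul_nonneg (pow_nonneg (by linarith) _) (abs_nonneg _))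
      _ ≤ _ := by
          have := mul_le_mul_of_nonneg_right hk (abs_nonneg (x - x'))
          linarith
  refine hlow.trans ?_
  have e3 : offset θ x + resp θ x * m - (offset θ x' + resp θ x' * m) =
      (offset θ x + resp θ x * m - (offset θ x' + resp θ x' * m')) + (-(resp θ x' * (m - m'))) := by
    ring
  rw [e3]
  refine (abs_add_le _ _).trans ?_
  rw [abs_neg, abs_mul, abs_of_nonneg (resp_nonneg hθ0 hθ hx')]
  gcongr
  exact resp_le hθ0 hθ hx'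

end Vale.Agent.P161.Crit
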