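import Vale.Agent.P161.Tree
import Mathlib.Algebra.Order.BigOperators.Group.Finset
import Mathlib.Data.Real.Sqrt

/-!
# P161: directed spheres in a regular tree
-/

open SimpleGraph Finset

namespace Vale.Agent.P161.Crit

variable {V : Type*} [DecidableEq V] {G : SimpleGraph V}

/-- The vertices reached from the directed edge `(p, c)` by `l` further steps without turning. -/
noncomputable def Sl (hfin : ∀ v, (G.neighborSet v).Finite) : ℕ → V → V → Finset V
  | 0, _, c => {c}
  | l + 1, p, c => ((hfin c).toFinset.erase p).biUnion fun c₁ => Sl hfin l c c₁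

variable (hT : G.IsTree) (hfin : ∀ v, (G.neighborSet v).Finite)
include hT

lemma dist_Sl_far : ∀ {l : ℕ} {p c v : V} (z : V), G.Adj p c → v ∈ Sl hfin l p c →
    G.dist z c = G.dist z p + 1 → G.dist z v = G.dist z c + l := by
  intro l
  induction l with
  | zero => intro p c v z _ hv _; rw [Sl, mem_singleton] at hv; subst hv; rfl
  | succ l ih =>
    intro p c v z hpc hv hz
    rw [Sl, mem_biUnion] at hv
    obtain ⟨c₁, hc₁, hv⟩ := hv
    obtain ⟨hne, hc₁⟩ := mem_erase.1 hc₁
    have hadj : G.Adj c c₁ := (hfin c).mem_toFinset.1 hc₁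
    rcases hT.dist_eq_dist_add_one_of_adj z hadj with h | h
    · exact absurd (closer_unique hT hadj hpc.symm h hz) hne
    · rw [ih z hadj hv h, h]; omega

lemma dist_of_mem_Sl {l : ℕ} {p c v : V} (hpc : G.Adj p c) (hv : v ∈ Sl hfin l p c) :
    G.dist p v = l + 1 ∧ G.dist c v = l := by
  refine ⟨?_, ?_⟩
  · rw [dist_Sl_far hT hfin p hpc hv (by rw [SimpleGraph.dist_self, dist_eq_one_iff_adj.2 hpc]),
      dist_eq_one_iff_adj.2 hpc]
    omega
  · cases l with
    | zero => rw [Sl, mem_singleton] at hv; subst hv; exact SimpleGraph.dist_self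
    | succ l =>
      rw [Sl, mem_biUnion] at hv
      obtain ⟨c₁, hc₁, hv⟩ := hv
      have hadj : G.Adj c c₁ := (hfin c).mem_toFinset.1 (mem_erase.1 hc₁).2
      rw [dist_Sl_far hT hfin c hadj hv (by rw [SimpleGraph.dist_self, dist_eq_one_iff_adj.2 hadj]),
        dist_eq_one_iff_adj.2 hadj]
      omega

lemma mem_Sl : ∀ {l : ℕ} {p c v : V}, G.Adj p c → G.dist p v = l + 1 → G.dist c v = l →
    v ∈ Sl hfin l p c := by
  intro l
  induction l with
  | zero =>
    intro p c v _ _ hc
    rw [Sl, mem_singleton]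
    exact (hT.connected.dist_eq_zero_iff.1 hc).symm
  | succ l ih =>
    intro p c v hpc hp hc
    have hne : c ≠ v := by rintro rfl; simp at hc
    obtain ⟨c₁, hadj, hd⟩ := exists_closer hT hne
    rw [SimpleGraph.dist_comm, hc, SimpleGraph.dist_comm] at hd
    rw [Sl, mem_biUnion]
    refine ⟨c₁, mem_erase.2 ⟨fun h => by subst h; omega, (hfin c).mem_toFinset.2 hadj⟩, ?_⟩
    exact ih hadj hc (by omega)

omit hT in
lemma card_children {d : ℕ} (hdeg : ∀ v, (G.neighborSet v).ncard = d) {p c : V} (hpc : G.Adj p c) :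
    ((hfin c).toFinset.erase p).card = d - 1 := by
  rw [card_erase_of_mem ((hfin c).mem_toFinset.2 hpc.symm), ← Set.ncard_eq_toFinset_card _ (hfin c),
    hdeg]

lemma pairwiseDisjoint_Sl (l : ℕ) (p c : V) :
    (((hfin c).toFinset.erase p : Finset V) : Set V).PairwiseDisjoint fun c₁ => Sl hfin l c c₁ := by
  intro a ha b hb hab
  rw [Function.onFun, Finset.disjoint_left]
  intro v hva hvb
  have ha' : G.Adj c a := (hfin c).mem_toFinset.1 (mem_erase.1 (Finset.mem_coe.1 ha)).2
  have hb' : G.Adj c b := (hfin c).mem_toFinset.1 (mem_erase.1 (Finset.mem_coe.1 hb)).2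
  obtain ⟨h1, h2⟩ := dist_of_mem_Sl hT hfin ha' hva
  obtain ⟨-, h3⟩ := dist_of_mem_Sl hT hfin hb' hvb
  refine hab (closer_unique hT (u := v) ha' hb' ?_ ?_) <;>
    · simp only [SimpleGraph.dist_comm (u := v)]
      omega

lemma card_Sl {d : ℕ} (hdeg : ∀ v, (G.neighborSet v).ncard = d) :
    ∀ {l : ℕ} {p c : V}, G.Adj p c → (Sl hfin l p c).card = (d - 1) ^ l := by
  intro l
  induction l with
  | zero => intro p c _; simp [Sl]
  | succ l ih =>
    intro p c hpc
    rw [Sl, card_biUnion (pairwiseDisjoint_Sl hT hfin l p c),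
      Finset.sum_congr rfl fun c₁ hc₁ => ih ((hfin c).mem_toFinset.1 (mem_erase.1 hc₁).2),
      sum_const, card_children hfin hdeg hpc, smul_eq_mul, pow_succ']

/-- The weighted sphere sum, seen from the head. -/
lemma sum_Sl_head {d : ℕ} (hdeg : ∀ v, (G.neighborSet v).ncard = d) {β : ℝ} (hβ1 : 1 ≤ β)
    (hβ : β ^ 2 = ((d - 1 : ℕ) : ℝ)) (z : V) :
    ∀ {l : ℕ} {p c : V}, G.Adj p c →
      ∑ v ∈ Sl hfin l p c, β ^ G.dist z c / β ^ G.dist z v ≤ (l + 1) * β ^ l := by
  intro l
  have hβ0 : 0 < β := lt_of_lt_of_le one_pos hβ1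
  induction l with
  | zero =>
    intro p c _
    simp [Sl, hβ0.ne']
  | succ l ih =>
    intro p c hpc
    rw [Sl, Finset.sum_biUnion (pairwiseDisjoint_Sl hT hfin l p c)]
    set N := (hfin c).toFinset.erase p with hN
    have hb : ∀ c₁ ∈ N, ∑ v ∈ Sl hfin l c c₁, β ^ G.dist z c / β ^ G.dist z v ≤
        β ^ l / β + (if G.dist z c = G.dist z c₁ + 1 then (l + 1) * β ^ (l + 1) else 0) := by
      intro c₁ hc₁
      have hadj : G.Adj c c₁ := (hfin c).mem_toFinset.1 (mem_erase.1 hc₁).2
      rcases hT.dist_eq_dist_add_one_of_adj z hadj with h | h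
      · rw [if_pos h]
        refine le_add_of_nonneg_of_le (by positivity) ?_
        have e : ∀ v, β ^ G.dist z c / β ^ G.dist z v = β * (β ^ G.dist z c₁ / β ^ G.dist z v) :=
          fun v => by rw [h, pow_succ]; ring
        simp only [e, ← Finset.mul_sum]
        refine (mul_le_mul_of_nonneg_left (ih hadj) hβ0.le).trans_eq ?_
        rw [pow_succ]; ring
      · rw [if_neg (by omega), add_zero]
        have e : ∀ v ∈ Sl hfin l c c₁, β ^ G.dist z c / β ^ G.dist z v = 1 / β ^ (l + 1) :=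
          fun v hv => by
            rw [dist_Sl_far hT hfin z hadj hv h, h, add_assoc, pow_add β (G.dist z c)]
            field_simp
            ring
        rw [Finset.sum_congr rfl e, sum_const, card_Sl hT hfin hdeg hadj, nsmul_eq_mul, Nat.cast_pow,
          ← hβ]
        apply le_of_eq
        field_simp
        ring
    refine (Finset.sum_le_sum hb).trans ?_
    rw [Finset.sum_add_distrib, sum_const, hN, card_children hfin hdeg hpc, nsmul_eq_mul, ← hβ,
      Finset.sum_ite, Finset.sum_const_zero, add_zero, sum_const, nsmul_eq_mul]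
    have hcard : ((((hfin c).toFinset.erase p).filter fun c₁ => G.dist z c = G.dist z c₁ + 1).card : ℝ) ≤ 1 := by
      norm_cast
      refine card_le_one.2 fun a ha b hb => ?_
      rw [mem_filter, mem_erase] at ha hb
      exact closer_unique hT ((hfin c).mem_toFinset.1 ha.1.2) ((hfin c).mem_toFinset.1 hb.1.2) ha.2 hb.2
    have h2 := mul_le_mul_of_nonneg_right hcard (show 0 ≤ ((l : ℝ) + 1) * β ^ (l + 1) by positivity)
    have e : β ^ 2 * (β ^ l / β) = β ^ (l + 1) := by field_simp; ring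
    push_cast
    rw [e]
    linarith

/-- The weighted sphere sum, seen from the tail. -/
lemma sum_Sl_tail {d : ℕ} (hdeg : ∀ v, (G.neighborSet v).ncard = d) {β : ℝ} (hβ1 : 1 ≤ β)
    (hβ : β ^ 2 = ((d - 1 : ℕ) : ℝ)) (z : V) {l : ℕ} {p c : V} (hpc : G.Adj p c) :
    ∑ v ∈ Sl hfin l p c, β ^ G.dist z p / β ^ G.dist z v ≤ (l + 1) * β ^ (l + 1) := by
  have hβ0 : 0 < β := lt_of_lt_of_le one_pos hβ1
  have hz : G.dist z p ≤ G.dist z c + 1 := by
    have := hT.connected.dist_triangle (u := z) (v := c) (w := p)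
    rwa [dist_eq_one_iff_adj.2 hpc.symm] at this
  refine (Finset.sum_le_sum fun v _ => (show β ^ G.dist z p / β ^ G.dist z v ≤
    β * (β ^ G.dist z c / β ^ G.dist z v) from ?_)).trans ?_
  · rw [mul_div_assoc', ← pow_succ']
    exact div_le_div_of_nonneg_right (pow_le_pow_right₀ hβ1 hz) (by positivity)
  · rw [← Finset.mul_sum]
    refine (mul_le_mul_of_nonneg_left (sum_Sl_head hT hfin hdeg hβ1 hβ z hpc) hβ0.le).trans_eq ?_
    rw [pow_succ]; ring

end Vale.Agent.P161.Crit
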