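import Vale.Agent.P161.Crit.Hoeffding
import Vale.Agent.P161.Crit.Spheres
import Vale.Agent.P161.Automorphism
import Mathlib.Analysis.SpecificLimits.Normed

/-!
# P161: covariances of local factors along a path
-/

open MeasureTheory SimpleGraph Finset

namespace Vale.Agent.P161.Crit

/-- Relabelling of the coordinates by an automorphism. -/
def actC {V κ : Type*} {G : SimpleGraph V} (g : G ≃g G) (ω : V × κ → ℝ) : V × κ → ℝ :=
  fun t => ω (g.symm t.1, t.2)

variable {V κ : Type*} {G : SimpleGraph V}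

/-- An automorphism as a permutation of coordinates. -/
def coordPerm (g : G ≃g G) : (V × κ) ≃ (V × κ) := g.toEquiv.prodCongr (Equiv.refl κ)

lemma actC_apply (g : G ≃g G) (ω : V × κ → ℝ) (t : V × κ) :
    actC g ω (coordPerm g t) = ω t := by
  simp [actC, coordPerm]

lemma measurePreserving_actC (g : G ≃g G) :
    MeasurePreserving (actC (κ := κ) g) (iidU (V × κ)) (iidU (V × κ)) := by
  classical
  have hm : Measurable (actC (κ := κ) g) := measurable_pi_lambda _ fun t => measurable_pi_apply _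
  refine ⟨hm, Measure.eq_infinitePi _ fun s q hq => ?_⟩
  rw [Measure.map_apply hm (MeasurableSet.pi s.countable_toSet fun i _ => hq i)]
  have : actC g ⁻¹' Set.pi (s : Set (V × κ)) q = Set.pi
      ((s.map (coordPerm g).symm.toEmbedding : Finset (V × κ)) : Set (V × κ))
      (fun j => q (coordPerm g j)) := by
    ext u
    simp only [Set.mem_preimage, Set.mem_pi, Finset.mem_coe, Finset.forall_mem_map]
    refine forall₂_congr fun i _ => ?_
    show u ((coordPerm g).symm i) ∈ q i ↔ _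
    simp only [Equiv.coe_toEmbedding, Equiv.apply_symm_apply]
  rw [this, iidU, Measure.infinitePi_pi _ (fun i _ => hq _), Finset.prod_map]
  simp

lemma integral_actC (g : G ≃g G) {f : (V × κ → ℝ) → ℝ} (hf : Measurable f) :
    ∫ ω, f (actC g ω) ∂iidU (V × κ) = ∫ ω, f ω ∂iidU (V × κ) := by
  conv_rhs => rw [← (measurePreserving_actC g).map_eq]
  rw [integral_map (measurePreserving_actC g).measurable.aemeasurable hf.aestronglyMeasurable]

lemma dist_iso_le (hT : G.IsTree) (g : G ≃g G) (u v : V) : G.dist (g u) (g v) ≤ G.dist u v := by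
  obtain ⟨w, hw⟩ := hT.connected.exists_walk_length_eq_dist u v
  have hle := dist_le (w.map g.toHom)
  rw [Walk.length_map, hw] at hle
  exact hle

lemma dist_iso (hT : G.IsTree) (g : G ≃g G) (u v : V) : G.dist (g u) (g v) = G.dist u v := by
  refine le_antisymm (dist_iso_le hT g u v) ?_
  have := dist_iso_le hT g.symm (g u) (g v)
  simpa using this

lemma par_iso (hT : G.IsTree) (g : G ≃g G) {u v : V} (h : v ≠ u) :
    par G (g u) (g v) = g (par G u v) := by
  obtain ⟨h1, h2⟩ := par_spec hT h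
  exact par_eq hT (g.map_rel_iff.2 h1) (by rw [dist_iso hT, dist_iso hT, h2])

lemma sum_powerset_map {α β M : Type*} [AddCommMonoid M] (e : α ≃ β) (S : Finset α)
    (F : Finset β → M) :
    ∑ T ∈ (S.map e.toEmbedding).powerset, F T = ∑ T ∈ S.powerset, F (T.map e.toEmbedding) := by
  refine (Finset.sum_nbij' (fun T : Finset α => T.map e.toEmbedding) (fun T : Finset β => T.map e.symm.toEmbedding)
    ?_ ?_ ?_ ?_ fun T _ => rfl).symm
  · intro T hT
    simp only [Finset.mem_coe, Finset.mem_powerset] at hT ⊢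
    exact Finset.map_subset_map.2 hT
  · intro T hT
    simp only [Finset.mem_coe, Finset.mem_powerset] at hT ⊢
    intro x hx
    obtain ⟨y, hy, rfl⟩ := Finset.mem_map.1 hx
    obtain ⟨z, hz, rfl⟩ := Finset.mem_map.1 (hT hy)
    simpa using hz
  · intro T _; simp [Finset.map_map]
  · intro T _; simp [Finset.map_map]

/-- A local equivariant family indexed by directed edges. -/
structure LocalFamily (G : SimpleGraph V) (X : V → V → (V × κ → ℝ) → ℝ) (R : ℕ) (L : Finset κ)
    (B0 : ℝ) : Prop where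
  meas : ∀ p c, G.Adj p c → Measurable (X p c)
  bound : ∀ p c ω, G.Adj p c → |X p c ω| ≤ B0
  dep : ∀ p c, G.Adj p c → DependsOn (X p c) {t : V × κ | G.dist c t.1 ≤ R ∧ t.2 ∈ L}
  equi : ∀ (g : G ≃g G) p c ω, G.Adj p c → X (g p) (g c) (actC g ω) = X p c ω

variable (hT : G.IsTree) (hfin : ∀ v, (G.neighborSet v).Finite)

/-- The coordinates used by the edges with head `c`. -/
noncomputable def supp (R : ℕ) (L : Finset κ) (c : V) : Finset (V × κ) :=
  (finite_dist_le hT hfin c R).toFinset ×ˢ L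

lemma coe_supp (R : ℕ) (L : Finset κ) (c : V) :
    (supp hT hfin R L c : Set (V × κ)) = {t : V × κ | G.dist c t.1 ≤ R ∧ t.2 ∈ L} := by
  ext t
  simp [supp]

lemma supp_iso (R : ℕ) (L : Finset κ) (g : G ≃g G) (c : V) :
    supp hT hfin R L (g c) = (supp hT hfin R L c).map (coordPerm g).toEmbedding := by
  ext t
  obtain ⟨v, k⟩ := t
  simp only [supp, Finset.mem_product, Set.Finite.mem_toFinset, Set.mem_ofPred_eq, Finset.mem_map]
  constructor
  · rintro ⟨h1, h2⟩
    refine ⟨(g.symm v, k), ⟨?_, h2⟩, by simp [coordPerm]⟩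
    rw [← dist_iso hT g]
    simpa using h1
  · rintro ⟨⟨w, j⟩, ⟨h1, h2⟩, h3⟩
    simp [coordPerm] at h3
    obtain ⟨rfl, rfl⟩ := h3
    exact ⟨by rw [dist_iso hT]; exact h1, h2⟩

variable [DecidableEq V] [DecidableEq κ]

/-- The energy of the component at `S` of an edge variable. -/
noncomputable def energy (X : V → V → (V × κ → ℝ) → ℝ) (p c : V) (S : Finset (V × κ)) : ℝ :=
  ∫ ω, hoef (X p c) S ω ^ 2 ∂iidU (V × κ)

/-- The weighted energy. -/
noncomputable def wEnergy (X : V → V → (V × κ → ℝ) → ℝ) (R : ℕ) (L : Finset κ) (β : ℝ)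
    (p c u v : V) : ℝ :=
  ∑ S ∈ (supp hT hfin R L c).powerset, ∑ x ∈ S,
    energy X p c S / S.card * (β ^ G.dist x.1 u / β ^ G.dist x.1 v)

variable {X : V → V → (V × κ → ℝ) → ℝ} {R : ℕ} {L : Finset κ} {B0 β : ℝ}

lemma LocalFamily.dep_supp (hX : LocalFamily G X R L B0) {p c : V} (h : G.Adj p c) :
    DependsOn (X p c) (supp hT hfin R L c : Set (V × κ)) := by
  rw [coe_supp]; exact hX.dep p c h

include hT in
lemma energy_iso (hX : LocalFamily G X R L B0) (g : G ≃g G) {p c : V} (h : G.Adj p c)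
    (S : Finset (V × κ)) :
    energy X (g p) (g c) (S.map (coordPerm g).toEmbedding) = energy X p c S := by
  have hg : G.Adj (g p) (g c) := g.map_rel_iff.2 h
  have := hT
  have e : ∀ (T : Finset (V × κ)) ω,
      avgOut (X (g p) (g c)) (T.map (coordPerm g).toEmbedding) (actC g ω) = avgOut (X p c) T ω := by
    intro T ω
    simp only [avgOut]
    rw [← integral_actC g]
    · refine integral_congr_ae (ae_of_all _ fun u => ?_)
      show X (g p) (g c) (merge (T.map (coordPerm g).toEmbedding) (actC g ω, actC g u)) = X p c (merge T (ω, u))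
      rw [← hX.equi g p c _ h]
      congr 1
      funext t
      obtain ⟨y, rfl⟩ := (coordPerm g).surjective t
      simp only [merge, actC_apply, Finset.mem_map_equiv, Equiv.symm_apply_apply]
    · exact (hX.meas _ _ hg).comp (measurable_merge_right _ _)
  have e2 : ∀ ω, hoef (X (g p) (g c)) (S.map (coordPerm g).toEmbedding) (actC g ω) =
      hoef (X p c) S ω := fun ω => by
    simp only [hoef, mob, sum_powerset_map, e, card_map]
  unfold energy
  rw [← integral_actC g ((measurable_hoef (hX.meas _ _ hg) _).pow_const 2)]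
  simp only [e2]

lemma wEnergy_iso (hX : LocalFamily G X R L B0) (g : G ≃g G) {p c : V} (h : G.Adj p c) (u v : V) :
    wEnergy hT hfin X R L β (g p) (g c) (g u) (g v) = wEnergy hT hfin X R L β p c u v := by
  simp only [wEnergy, supp_iso hT hfin R L g c, sum_powerset_map, Finset.sum_map,
    energy_iso hT hX g h, card_map]
  refine Finset.sum_congr rfl fun S _ => Finset.sum_congr rfl fun x _ => ?_
  simp [coordPerm, dist_iso hT]

lemma energy_nonneg (p c : V) (S : Finset (V × κ)) : 0 ≤ energy X p c S :=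
  integral_nonneg fun _ => sq_nonneg _

lemma sum_energy_le (hX : LocalFamily G X R L B0) {p c : V} (h : G.Adj p c) :
    ∑ S ∈ (supp hT hfin R L c).powerset, ∑ _x ∈ S, energy X p c S / S.card ≤
      ∫ ω, X p c ω ^ 2 ∂iidU (V × κ) := by
  have hc := cov_eq (hX.meas p c h) (fun u => hX.bound p c u h) (hX.meas p c h)
    (fun u => hX.bound p c u h) (hX.dep_supp hT hfin h) (hX.dep_supp hT hfin h)
  simp only [← sq] at hc
  rw [← Finset.sum_erase (a := ∅) _ (by simp)]
  rw [Finset.sum_congr rfl fun S hS => (show ∑ _x ∈ S, energy X p c S / S.card = energy X p c S from by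
    rw [sum_const, nsmul_eq_mul, mul_div_assoc', mul_div_cancel_left₀]
    exact_mod_cast (Finset.card_ne_zero.2 (Finset.nonempty_iff_ne_empty.2 (mem_erase.1 hS).1)))]
  unfold energy
  rw [← hc]
  nlinarith [sq_nonneg (∫ ω, X p c ω ∂iidU (V × κ))]

lemma sum_wEnergy_le (hX : LocalFamily G X R L B0) {d : ℕ}
    (hdeg : ∀ v, (G.neighborSet v).ncard = d) (hβ1 : 1 ≤ β) (hβ : β ^ 2 = ((d - 1 : ℕ) : ℝ))
    {p c : V} (h : G.Adj p c) (l : ℕ) {a b : V} (hab : G.Adj a b) :
    ∑ v ∈ Sl hfin l a b, wEnergy hT hfin X R L β p c a v ≤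
      (l + 1) * β ^ (l + 1) * ∫ ω, X p c ω ^ 2 ∂iidU (V × κ) := by
  simp only [wEnergy]
  rw [Finset.sum_comm]
  simp only [Finset.sum_comm (s := Sl hfin l a b), ← Finset.mul_sum]
  refine le_trans ?_ (mul_le_mul_of_nonneg_left (sum_energy_le hT hfin hX h)
    (by have : 0 < β := lt_of_lt_of_le one_pos hβ1
        positivity))
  simp only [Finset.mul_sum]
  refine Finset.sum_le_sum fun S _ => Finset.sum_le_sum fun x _ => ?_
  rw [← Finset.mul_sum, mul_comm (_ * β ^ (l + 1))]
  exact mul_le_mul_of_nonneg_left (sum_Sl_tail hT hfin hdeg hβ1 hβ x.1 hab)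
    (div_nonneg (energy_nonneg _ _ _) (Nat.cast_nonneg _))

lemma abs_cov_le (hX : LocalFamily G X R L B0) (hβ1 : 1 ≤ β) {p c p' c' : V} (h : G.Adj p c)
    (h' : G.Adj p' c') (u v : V) :
    |(∫ ω, X p c ω * X p' c' ω ∂iidU (V × κ)) -
        (∫ ω, X p c ω ∂iidU (V × κ)) * ∫ ω, X p' c' ω ∂iidU (V × κ)| ≤
      (wEnergy hT hfin X R L β p c u v + wEnergy hT hfin X R L β p' c' v u) / 2 := by
  have hβ0 : 0 < β := lt_of_lt_of_le one_pos hβ1
  have hb := fun w => hX.bound p c w h
  have hb' := fun w => hX.bound p' c' w h'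
  set D := supp hT hfin R L c ∪ supp hT hfin R L c' with hD
  have hd := hX.dep_supp hT hfin h
  have hd' := hX.dep_supp hT hfin h'
  have hdD : DependsOn (X p c) (D : Set (V × κ)) := fun x y hxy =>
    hd fun i hi => hxy i (by rw [hD, coe_union]; exact Or.inl hi)
  have hdD' : DependsOn (X p' c') (D : Set (V × κ)) := fun x y hxy =>
    hd' fun i hi => hxy i (by rw [hD, coe_union]; exact Or.inr hi)
  rw [cov_eq (hX.meas p c h) hb (hX.meas p' c' h') hb' hdD hdD']
  have e1 : wEnergy hT hfin X R L β p c u v = ∑ S ∈ D.powerset, ∑ x ∈ S,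
      energy X p c S / S.card * (β ^ G.dist x.1 u / β ^ G.dist x.1 v) := by
    refine Finset.sum_subset (powerset_mono.2 (hD ▸ subset_union_left)) fun S _ hS => ?_
    have : energy X p c S = 0 := by
      simp [energy, hoef_eq_zero hd (fun hh => hS (mem_powerset.2 hh))]
    simp [this]
  have e2 : wEnergy hT hfin X R L β p' c' v u = ∑ S ∈ D.powerset, ∑ x ∈ S,
      energy X p' c' S / S.card * (β ^ G.dist x.1 v / β ^ G.dist x.1 u) := by
    refine Finset.sum_subset (powerset_mono.2 (hD ▸ subset_union_right)) fun S _ hS => ?_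
    have : energy X p' c' S = 0 := by
      simp [energy, hoef_eq_zero hd' (fun hh => hS (mem_powerset.2 hh))]
    simp [this]
  rw [e1, e2, ← Finset.sum_add_distrib, Finset.sum_div]
  refine (Finset.abs_sum_le_sum_abs _ _).trans ?_
  refine le_trans ?_ (Finset.sum_le_sum_of_subset_of_nonneg (erase_subset ∅ D.powerset) fun S _ _ => ?_)
  swap
  · have := energy_nonneg (X := X) p c S
    have := energy_nonneg (X := X) p' c' S
    positivity
  refine Finset.sum_le_sum fun S hS => ?_
  have hS0 : (0 : ℝ) < S.card := by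
    exact_mod_cast Finset.card_pos.2 (Finset.nonempty_iff_ne_empty.2 (mem_erase.1 hS).1)
  have key : ∀ φ : ℝ, 0 < φ → |∫ ω, hoef (X p c) S ω * hoef (X p' c') S ω ∂iidU (V × κ)| ≤
      (φ * energy X p c S + energy X p' c' S / φ) / 2 := by
    intro φ hφ
    have i1 : Integrable (fun ω => hoef (X p c) S ω ^ 2) (iidU (V × κ)) :=
      integrable_of_abs_le ((measurable_hoef (hX.meas p c h) S).pow_const 2)
        (C := (S.powerset.card * B0) ^ 2) fun ω => by
          rw [abs_pow]; exact pow_le_pow_left₀ (abs_nonneg _) (abs_hoef_le hb S ω) 2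
    have i2 : Integrable (fun ω => hoef (X p' c') S ω ^ 2) (iidU (V × κ)) :=
      integrable_of_abs_le ((measurable_hoef (hX.meas p' c' h') S).pow_const 2)
        (C := (S.powerset.card * B0) ^ 2) fun ω => by
          rw [abs_pow]; exact pow_le_pow_left₀ (abs_nonneg _) (abs_hoef_le hb' S ω) 2
    have hm := norm_integral_le_of_norm_le
      (f := fun ω => hoef (X p c) S ω * hoef (X p' c') S ω)
      (((i1.const_mul φ).add (i2.div_const φ)).div_const 2) (ae_of_all _ fun ω => ?_)
    · rw [Real.norm_eq_abs] at hm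
      refine hm.trans_eq ?_
      simp only [Pi.add_apply]
      rw [integral_div, integral_add (i1.const_mul φ) (i2.div_const φ), integral_const_mul,
        integral_div]
      rfl
    · rw [Real.norm_eq_abs, abs_mul, Pi.add_apply, le_div_iff₀ two_pos]
      have e : φ * hoef (X p c) S ω ^ 2 + hoef (X p' c') S ω ^ 2 / φ =
          ((φ * |hoef (X p c) S ω| - |hoef (X p' c') S ω|) ^ 2 / φ) +
            |hoef (X p c) S ω| * |hoef (X p' c') S ω| * 2 := by
        rw [← sq_abs (hoef (X p c) S ω), ← sq_abs (hoef (X p' c') S ω)]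
        field_simp
        ring
      rw [e]
      exact le_add_of_nonneg_left (by positivity)
  rw [← Finset.sum_add_distrib, Finset.sum_div]
  refine le_trans (le_of_eq ?_) (Finset.sum_le_sum fun x _ =>
    show |∫ ω, hoef (X p c) S ω * hoef (X p' c') S ω ∂iidU (V × κ)| / S.card ≤ _ from ?_)
  · rw [sum_const, nsmul_eq_mul]; field_simp
  · refine (div_le_div_of_nonneg_right (key _ (div_pos (pow_pos hβ0 (G.dist x.1 u))
      (pow_pos hβ0 (G.dist x.1 v)))) hS0.le).trans_eq ?_
    field_simp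

lemma cov_iso (hX : LocalFamily G X R L B0) (g : G ≃g G) {p c p' c' : V} (h : G.Adj p c)
    (h' : G.Adj p' c') :
    (∫ ω, X (g p) (g c) ω * X (g p') (g c') ω ∂iidU (V × κ)) =
      ∫ ω, X p c ω * X p' c' ω ∂iidU (V × κ) := by
  rw [← integral_actC g (f := fun ω => X (g p) (g c) ω * X (g p') (g c') ω)
    ((hX.meas _ _ (g.map_rel_iff.2 h)).mul (hX.meas _ _ (g.map_rel_iff.2 h')))]
  simp only [hX.equi g _ _ _ h, hX.equi g _ _ _ h']

lemma integral_edge_eq (hX : LocalFamily G X R L B0) {d : ℕ} (hd : 0 < d)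
    (hdeg : ∀ v, (G.neighborSet v).ncard = d) {F : ℝ → ℝ} (hF : Measurable F) {p c p' c' : V}
    (h : G.Adj p c) (h' : G.Adj p' c') (hT : G.IsTree) :
    ∫ ω, F (X p c ω) ∂iidU (V × κ) = ∫ ω, F (X p' c' ω) ∂iidU (V × κ) := by
  obtain ⟨g, rfl, rfl⟩ := exists_iso_pair hT hd hdeg 1 p c p' c' (dist_eq_one_iff_adj.2 h)
    (dist_eq_one_iff_adj.2 h')
  rw [← integral_actC g (f := fun ω => F (X (g p) (g c) ω))
    (hF.comp (hX.meas _ _ (g.map_rel_iff.2 h)))]
  simp only [hX.equi g _ _ _ h]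

include hT hfin in
/-- Decay of the covariance of two edges on a geodesic. -/
theorem cov_decay (hX : LocalFamily G X R L B0) {d : ℕ}
    (hdeg : ∀ v, (G.neighborSet v).ncard = d) (hd : 0 < d) (hβ1 : 1 ≤ β)
    (hβ : β ^ 2 = ((d - 1 : ℕ) : ℝ)) {p c u v : V} (h : G.Adj p c) (l : ℕ)
    (huv : G.dist u v = l + 1) :
    |(∫ ω, X u (par G v u) ω * X (par G u v) v ω ∂iidU (V × κ)) -
        (∫ ω, X u (par G v u) ω ∂iidU (V × κ)) * ∫ ω, X (par G u v) v ω ∂iidU (V × κ)| ≤
      (l + 1) * β * (β⁻¹) ^ l * ∫ ω, X p c ω ^ 2 ∂iidU (V × κ) := by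
  have hne : ∀ {a b : V}, G.dist a b = l + 1 → b ≠ a := fun hab h => by subst h; simp at hab
  have hadj : ∀ {a b : V}, G.dist a b = l + 1 → G.Adj (par G a b) b := fun hab =>
    (par_spec hT (hne hab)).1.symm
  have hsymm : ∀ {a b : V}, G.dist a b = l + 1 → G.dist b a = l + 1 := fun hab => by
    rw [SimpleGraph.dist_comm]; exact hab
  have hadj2 : ∀ {a b : V}, G.dist a b = l + 1 → G.Adj a (par G b a) := fun hab =>
    (hadj (hsymm hab)).symm
  let cv : V → V → ℝ := fun a b => |(∫ ω, X a (par G b a) ω * X (par G a b) b ω ∂iidU (V × κ)) -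
        (∫ ω, X a (par G b a) ω ∂iidU (V × κ)) * ∫ ω, X (par G a b) b ω ∂iidU (V × κ)|
  let G₂ : V → V → ℝ := fun a b => wEnergy hT hfin X R L β (par G a b) b b a
  have inv : ∀ a b, G.dist a b = l + 1 → cv a b = cv u v ∧ G₂ a b = G₂ u v := by
    intro a b hab
    obtain ⟨g, rfl, rfl⟩ := exists_iso_pair hT hd hdeg (l + 1) u v a b huv hab
    simp only [cv, G₂, par_iso hT g (hne huv), par_iso hT g (hne (hsymm huv))]
    refine ⟨?_, wEnergy_iso hT hfin hX g (hadj huv) _ _⟩
    rw [cov_iso hX g (hadj2 huv) (hadj huv),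
      ← integral_actC g (hX.meas _ _ (g.map_rel_iff.2 (hadj2 huv))),
      ← integral_actC g (hX.meas _ _ (g.map_rel_iff.2 (hadj huv)))]
    simp only [hX.equi g _ _ _ (hadj2 huv), hX.equi g _ _ _ (hadj huv)]
  set M : ℝ := ∫ ω, X p c ω ^ 2 ∂iidU (V × κ) with hM
  have hM' : ∀ {a b : V}, G.Adj a b → ∫ ω, X a b ω ^ 2 ∂iidU (V × κ) = M := fun hab =>
    integral_edge_eq hX hd hdeg (F := fun x => x ^ 2) (by fun_prop) hab h hT
  set P : ℝ := ((d - 1 : ℕ) : ℝ) ^ l with hP
  have hu := hadj2 huv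
  have hv := hadj huv
  have hfwd : ∀ w ∈ Sl hfin l u (par G v u), G.dist u w = l + 1 ∧ par G w u = par G v u := by
    intro w hw
    obtain ⟨h1, h2⟩ := dist_of_mem_Sl hT hfin hu hw
    refine ⟨h1, par_eq hT hu ?_⟩
    rw [SimpleGraph.dist_comm, h1, SimpleGraph.dist_comm, h2]
  have hbwd : ∀ w ∈ Sl hfin l v (par G u v), G.dist w v = l + 1 ∧ par G w v = par G u v := by
    intro w hw
    obtain ⟨h1, h2⟩ := dist_of_mem_Sl hT hfin hv.symm hw
    refine ⟨hsymm h1, par_eq hT hv.symm ?_⟩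
    rw [SimpleGraph.dist_comm, h1, SimpleGraph.dist_comm, h2]
  have hcu : ((Sl hfin l u (par G v u)).card : ℝ) = P := by
    rw [card_Sl hT hfin hdeg hu, hP]; push_cast; rfl
  have hcv : ((Sl hfin l v (par G u v)).card : ℝ) = P := by
    rw [card_Sl hT hfin hdeg hv.symm, hP]; push_cast; rfl
  have hG : P * G₂ u v ≤ (l + 1) * β ^ (l + 1) * M := by
    rw [← hcv, ← hM' hv, ← nsmul_eq_mul, ← sum_const]
    refine le_trans (le_of_eq ?_) (sum_wEnergy_le hT hfin hX hdeg hβ1 hβ hv l hv.symm)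
    refine Finset.sum_congr rfl fun w hw => ?_
    obtain ⟨h1, h2⟩ := hbwd w hw
    rw [← (inv w v h1).2]
    simp only [G₂, h2]
  have hC : P * cv u v ≤ (l + 1) * β ^ (l + 1) * M := by
    have : ∀ w ∈ Sl hfin l u (par G v u), cv u v ≤
        (wEnergy hT hfin X R L β u (par G v u) u w + G₂ u v) / 2 := by
      intro w hw
      obtain ⟨h1, h2⟩ := hfwd w hw
      have := abs_cov_le hT hfin hX hβ1 (hadj2 h1) (hadj h1) u w
      rw [← (inv u w h1).1, ← (inv u w h1).2]
      refine this.trans_eq ?_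
      simp only [G₂, h2]
    have hs := Finset.sum_le_sum this
    rw [sum_const, nsmul_eq_mul, hcu, ← Finset.sum_div, Finset.sum_add_distrib, sum_const,
      nsmul_eq_mul, hcu] at hs
    have := sum_wEnergy_le hT hfin hX hdeg hβ1 hβ hu l hu
    rw [hM' hu] at this
    linarith
  have hβ0 : 0 < β := lt_of_lt_of_le one_pos hβ1
  rw [hP, ← hβ] at hC
  show cv u v ≤ _
  refine le_of_mul_le_mul_left (hC.trans_eq ?_) (pow_pos (pow_pos hβ0 2) l)
  rw [inv_pow, ← pow_mul, mul_comm 2 l, pow_mul]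
  field_simp
  ring

omit [DecidableEq V] [DecidableEq κ] in
theorem pathCov {d : ℕ} (hd : 3 ≤ d) :
    ∃ C : ℝ, 0 ≤ C ∧ ∀ {V κ : Type*} (G : SimpleGraph V), G.IsTree →
      (∀ v, (G.neighborSet v).ncard = d) →
      ∀ (X : V → V → (V × κ → ℝ) → ℝ) (R : ℕ) (L : Finset κ) (B0 : ℝ),
        (∀ p c, G.Adj p c → Measurable (X p c)) →
        (∀ p c ω, G.Adj p c → |X p c ω| ≤ B0) →
        (∀ p c, G.Adj p c → DependsOn (X p c) {t : V × κ | G.dist c t.1 ≤ R ∧ t.2 ∈ L}) →
        (∀ (g : G ≃g G) p c ω, G.Adj p c → X (g p) (g c) (actC g ω) = X p c ω) →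
        ∀ (n : ℕ) (w : ℕ → V), (∀ i j, i ≤ j → j ≤ n → G.dist (w i) (w j) = j - i) →
          ∫ ω, (∑ i ∈ range n, X (w i) (w (i + 1)) ω) ^ 2 ∂iidU (V × κ) ≤
            C * (n * ∫ ω, X (w 0) (w 1) ω ^ 2 ∂iidU (V × κ) +
              (n * ∫ ω, X (w 0) (w 1) ω ∂iidU (V × κ)) ^ 2) := by
  set β : ℝ := Real.sqrt ((d - 1 : ℕ) : ℝ) with hβd
  have hb2 : (2 : ℝ) ≤ ((d - 1 : ℕ) : ℝ) := by exact_mod_cast (by omega : 2 ≤ d - 1)
  have hβ : β ^ 2 = ((d - 1 : ℕ) : ℝ) := Real.sq_sqrt (by linarith)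
  have hβ1 : 1 < β := by
    rw [hβd, Real.lt_sqrt zero_le_one]; linarith
  let k : ℕ → ℝ := fun l => ((l : ℝ) + 1) * β * (β⁻¹) ^ l
  have hk0 : ∀ l, 0 ≤ k l := fun l => by positivity
  have hks : Summable k := by
    have h1 := summable_pow_mul_geometric_of_norm_lt_one (R := ℝ) 1 (r := β⁻¹)
      (by rw [norm_inv, Real.norm_of_nonneg (by positivity)]; exact inv_lt_one_of_one_lt₀ hβ1)
    have h2 := summable_geometric_of_lt_one (r := β⁻¹) (by positivity) (inv_lt_one_of_one_lt₀ hβ1)
    refine ((h1.add h2).mul_left β).congr fun l => ?_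
    simp only [k, pow_one]; ring
  set K : ℝ := ∑' l, k l with hK
  have hK0 : 0 ≤ K := tsum_nonneg hk0
  refine ⟨2 * K + 1, by positivity, ?_⟩
  intro V κ G hT hdeg X R L B0 hm hb hdep heq n w hw
  classical
  have hfin : ∀ v, (G.neighborSet v).Finite := fun v =>
    Set.finite_of_ncard_pos (by rw [hdeg]; omega)
  have hX : LocalFamily G X R L B0 := ⟨hm, hb, hdep, heq⟩
  rcases Nat.eq_zero_or_pos n with rfl | hn
  · simp
  have hadj : ∀ i < n, G.Adj (w i) (w (i + 1)) := fun i hi =>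
    dist_eq_one_iff_adj.1 (by rw [hw i (i + 1) (by omega) hi]; omega)
  have h01 : G.Adj (w 0) (w 1) := hadj 0 hn
  set e : ℝ := ∫ ω, X (w 0) (w 1) ω ∂iidU (V × κ) with he
  set M : ℝ := ∫ ω, X (w 0) (w 1) ω ^ 2 ∂iidU (V × κ) with hM
  have hM0 : 0 ≤ M := integral_nonneg fun _ => sq_nonneg _
  have hmean : ∀ i < n, ∫ ω, X (w i) (w (i + 1)) ω ∂iidU (V × κ) = e := fun i hi =>
    integral_edge_eq hX (F := id) (by omega) hdeg measurable_id (hadj i hi) h01 hT
  have hcov : ∀ i l, i + l < n →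
      ∫ ω, X (w i) (w (i + 1)) ω * X (w (i + l)) (w (i + l + 1)) ω ∂iidU (V × κ) - e * e
        ≤ k l * M := by
    intro i l hil
    have hd1 : G.dist (w i) (w (i + l + 1)) = l + 1 := by rw [hw _ _ (by omega) hil]; omega
    have e1 : par G (w (i + l + 1)) (w i) = w (i + 1) := by
      refine par_eq hT (hadj i (by omega)) ?_
      rw [SimpleGraph.dist_comm, hd1, SimpleGraph.dist_comm, hw _ _ (by omega) hil]
      omega
    have e2 : par G (w i) (w (i + l + 1)) = w (i + l) := by
      refine par_eq hT (hadj (i + l) hil).symm ?_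
      rw [hd1, hw _ _ (by omega) (by omega)]
      omega
    have := cov_decay hT hfin hX hdeg (by omega) hβ1.le hβ h01 l hd1
    rw [e1, e2, hmean i (by omega), hmean (i + l) hil] at this
    exact (le_abs_self _).trans this
  have hint : ∀ i < n, ∀ j < n,
      Integrable (fun ω => X (w i) (w (i + 1)) ω * X (w j) (w (j + 1)) ω) (iidU (V × κ)) :=
    fun i hi j hj => integrable_of_abs_le ((hm _ _ (hadj i hi)).mul (hm _ _ (hadj j hj)))
      (C := B0 * B0) fun ω => by
        rw [abs_mul]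
        exact mul_le_mul (hb _ _ ω (hadj i hi)) (hb _ _ ω (hadj j hj)) (abs_nonneg _)
          ((abs_nonneg _).trans (hb _ _ ω (hadj i hi)))
  have expand : ∫ ω, (∑ i ∈ range n, X (w i) (w (i + 1)) ω) ^ 2 ∂iidU (V × κ) =
      ∑ i ∈ range n, ∑ j ∈ range n,
        ∫ ω, X (w i) (w (i + 1)) ω * X (w j) (w (j + 1)) ω ∂iidU (V × κ) := by
    simp only [sq, Finset.sum_mul_sum]
    rw [integral_finsetSum _ fun i hi => integrable_finsetSum _ fun j hj =>
      hint i (mem_range.1 hi) j (mem_range.1 hj)]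
    exact Finset.sum_congr rfl fun i hi =>
      integral_finsetSum _ fun j hj => hint i (mem_range.1 hi) j (mem_range.1 hj)
  rw [expand]
  have hrow : ∀ i ∈ range n, ∑ j ∈ range n,
      ∫ ω, X (w i) (w (i + 1)) ω * X (w j) (w (j + 1)) ω ∂iidU (V × κ) ≤
        n * (e * e) + 2 * K * M := by
    intro i hi
    rw [mem_range] at hi
    have hle : ∀ j ∈ range n, ∫ ω, X (w i) (w (i + 1)) ω * X (w j) (w (j + 1)) ω ∂iidU (V × κ) ≤
        e * e + ((if i ≤ j then k (j - i) else 0) + (if j ≤ i then k (i - j) else 0)) * M := by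
      intro j hj
      rw [mem_range] at hj
      rcases le_total i j with h | h
      · obtain ⟨l, rfl⟩ := Nat.exists_eq_add_of_le h
        have := hcov i l hj
        have h2 : 0 ≤ (if i + l ≤ i then k (i - (i + l)) else 0) := by split_ifs <;> simp [hk0]
        rw [if_pos h, Nat.add_sub_cancel_left]
        nlinarith [mul_nonneg h2 hM0]
      · obtain ⟨l, rfl⟩ := Nat.exists_eq_add_of_le h
        have := hcov j l hi
        simp only [mul_comm (X (w (j + l)) _ _)]
        have h2 : 0 ≤ (if j + l ≤ j then k (j - (j + l)) else 0) := by split_ifs <;> simp [hk0]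
        rw [if_pos h, Nat.add_sub_cancel_left]
        nlinarith [mul_nonneg h2 hM0]
    refine (Finset.sum_le_sum hle).trans ?_
    rw [Finset.sum_add_distrib, sum_const, card_range, nsmul_eq_mul, ← Finset.sum_mul,
      Finset.sum_add_distrib, ← Finset.sum_filter, ← Finset.sum_filter]
    have s1 : ∑ j ∈ (range n).filter (fun j => i ≤ j), k (j - i) ≤ K := by
      rw [← Finset.sum_image (g := fun j => j - i) (f := k)]
      · exact hks.sum_le_tsum _ fun l _ => hk0 l
      · intro a ha b hb hab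
        simp only [Finset.coe_filter, Set.mem_ofPred_eq] at ha hb
        simp only at hab
        omega
    have s2 : ∑ j ∈ (range n).filter (fun j => j ≤ i), k (i - j) ≤ K := by
      rw [← Finset.sum_image (g := fun j => i - j) (f := k)]
      · exact hks.sum_le_tsum _ fun l _ => hk0 l
      · intro a ha b hb hab
        simp only [Finset.coe_filter, Set.mem_ofPred_eq] at ha hb
        simp only at hab
        omega
    nlinarith
  refine (Finset.sum_le_sum hrow).trans ?_
  rw [sum_const, card_range, nsmul_eq_mul]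
  nlinarith [mul_nonneg (Nat.cast_nonneg (α := ℝ) n) hM0, sq_nonneg ((n : ℝ) * e),
    mul_nonneg hK0 (sq_nonneg ((n : ℝ) * e))]

end Vale.Agent.P161.Crit
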