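import Vale.Agent.P161.Crit.Jump
import Vale.Agent.P161.Crit.PathCov
import Vale.Agent.P161.Main

/-!
# P161, critical point: equivariance and locality of the sampler
-/

open MeasureTheory SimpleGraph Finset

namespace Vale.Agent.P161.Crit

variable {V : Type*} {G : SimpleGraph V} {d : ℕ}

/-- Transport of a slot. -/
def slotMap (g : G ≃g G) : (V × ℤ) ↪ (V × ℤ) :=
  ⟨fun s => (g s.1, s.2), fun s t h => by
    simp only [Prod.mk.injEq] at h
    exact Prod.ext (g.injective h.1) h.2⟩

lemma slotMap_apply (g : G ≃g G) (s : V × ℤ) : slotMap g s = (g s.1, s.2) := rfl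

/-- The transported run. -/
noncomputable def Run.map (P : Run V) (g : G ≃g G) : Run V :=
  ⟨P.θ, P.B.map g.toEquiv.toEmbedding, P.A.map (slotMap g)⟩

lemma slot_actC (g : G ≃g G) (ω : V × (ℤ × Bool) → ℝ) (s : V × ℤ) :
    (present (actC g ω) (slotMap g s) ↔ present ω s) ∧
      time (actC g ω) (slotMap g s) = time ω s ∧ zc (actC g ω) (slotMap g s) = zc ω s := by
  obtain ⟨v, i⟩ := s
  refine ⟨?_, ?_, ?_⟩ <;> simp [present, time, zc, actC, slotMap_apply]

lemma live_map (A : Finset (V × ℤ)) (g : G ≃g G) (ω : V × (ℤ × Bool) → ℝ) (t : ℝ) :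
    live (A.map (slotMap g)) (actC g ω) t = (live A ω t).map (slotMap g) := by
  classical
  ext s
  simp only [live, mem_filter, Finset.mem_map]
  constructor
  · rintro ⟨⟨r, hr, rfl⟩, h1, h2⟩
    obtain ⟨e1, e2, -⟩ := slot_actC g ω r
    exact ⟨r, ⟨hr, e1.1 h1, e2 ▸ h2⟩, rfl⟩
  · rintro ⟨r, ⟨hr, h1, h2⟩, rfl⟩
    obtain ⟨e1, e2, -⟩ := slot_actC g ω r
    exact ⟨⟨r, hr, rfl⟩, e1.2 h1, e2.symm ▸ h2⟩

lemma wts_map (S : Finset (V × ℤ)) (g : G ≃g G) (y y' : V × ℤ → ℝ)
    (h : ∀ s ∈ S, y' (slotMap g s) = y s) (v : V) (σ : Bool) :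
    wts (S.map (slotMap g)) y' (g v) σ = wts S y v σ := by
  classical
  simp only [wts, filter_map, prod_map]
  refine prod_congr (filter_congr fun s _ => by simp [slotMap_apply]) fun s hs => ?_
  rw [h s (mem_filter.1 hs).1]
  rfl

variable {P : Run V}

lemma yN_map (hG : G.Connected) (g : G ≃g G) (ω : V × (ℤ × Bool) → ℝ) :
    ∀ n s, (P.map g).yN G (actC g ω) n (slotMap g s) = P.yN G ω n s := by
  intro n
  induction n with
  | zero => intro s; rfl
  | succ n ih =>
    intro s
    obtain ⟨e1, e2, e3⟩ := slot_actC g ω s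
    show chQ _ _ = chQ _ _
    simp only [Run.map]
    rw [e2, e3, live_map]
    have hw : wts ((live P.A ω (time ω s)).map (slotMap g)) ((P.map g).yN G (actC g ω) n) =
        fun v => wts (live P.A ω (time ω s)) (P.yN G ω n) (g.symm v) := by
      funext v σ
      obtain ⟨u, rfl⟩ := g.surjective v
      rw [RelIso.symm_apply_apply]
      exact wts_map _ g _ _ (fun r _ => ih r) u σ
    simp only [Run.map] at hw
    rw [hw]
    show chQ (eps s.2 * cav G P.θ _ _ (g s.1) (g s.1)) _ = _
    rw [cav_map hG]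
    rfl

lemma st_map (hG : G.Connected) (g : G ≃g G) (ω : V × (ℤ × Bool) → ℝ) (t : ℝ) :
    (P.map g).st G (actC g ω) t = fun v => P.st G ω t (g.symm v) := by
  funext v σ
  obtain ⟨u, rfl⟩ := g.surjective v
  rw [RelIso.symm_apply_apply, Run.st, Run.st]
  simp only [Run.map, live_map]
  refine wts_map _ g _ _ (fun r _ => ?_) u σ
  simp only [Run.yS, card_map]
  exact yN_map hG g ω _ r

lemma m_map (hG : G.Connected) (g : G ≃g G) (ω : V × (ℤ × Bool) → ℝ) (t : ℝ) (v : V) :
    (P.map g).m G (actC g ω) t (g v) = P.m G ω t v := by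
  rw [Run.m, Run.m, st_map hG, mag]
  exact cav_map hG g _ v v

lemma runN_map (hR : Reg G d) (g : G ≃g G) (n J : ℕ) (o : V) (R : ℕ) :
    (runN G d n J o R).map g = runN G d n J (g o) R := by
  simp only [runN, fullRun, Run.map, ball_map hR]
  congr 1
  ext ⟨v, i⟩
  obtain ⟨u, rfl⟩ := g.surjective v
  constructor
  · intro h
    obtain ⟨⟨w, k⟩, hw, he⟩ := Finset.mem_map.1 h
    simp only [slotMap_apply, Prod.mk.injEq] at he
    obtain ⟨he, rfl⟩ := he
    obtain rfl : w = u := g.injective he
    refine mem_product.2 ⟨?_, (mem_product.1 hw).2⟩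
    rw [← ball_map hR]
    exact mem_map_of_mem _ (mem_product.1 hw).1
  · intro h
    refine Finset.mem_map.2 ⟨(u, i), mem_product.2 ⟨?_, (mem_product.1 h).2⟩, rfl⟩
    have := (mem_product.1 h).1
    rw [← ball_map hR] at this
    exact (mem_map' _).1 this

/-- The state only reads the labels of the slots of the run. -/
lemma yN_congr {ω ω' : V × (ℤ × Bool) → ℝ}
    (h : ∀ s ∈ P.A, ∀ b, ω (s.1, (s.2, b)) = ω' (s.1, (s.2, b))) :
    ∀ n, ∀ s ∈ P.A, P.yN G ω n s = P.yN G ω' n s := by
  classical
  intro n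
  induction n with
  | zero => intros; rfl
  | succ n ih =>
    intro s hs
    have ht : ∀ r ∈ P.A, time ω r = time ω' r := fun r hr => by simp [time, h r hr true]
    have hz : zc ω s = zc ω' s := h s hs false
    have hl : live P.A ω (time ω s) = live P.A ω' (time ω' s) := by
      simp only [live]
      refine filter_congr fun r hr => ?_
      rw [present, present, h r hr true, ht r hr, ht s hs]
    show chQ _ _ = chQ _ _
    rw [hz, hl]
    congr 3
    funext v σ
    simp only [wts]
    refine prod_congr rfl fun r hr => ?_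
    rw [ih r (mem_filter.1 (mem_filter.1 hr).1).1]

lemma st_congr {ω ω' : V × (ℤ × Bool) → ℝ}
    (h : ∀ s ∈ P.A, ∀ b, ω (s.1, (s.2, b)) = ω' (s.1, (s.2, b))) (t : ℝ) :
    P.st G ω t = P.st G ω' t := by
  classical
  funext v σ
  have hl : live P.A ω t = live P.A ω' t := by
    simp only [live]
    refine filter_congr fun r hr => ?_
    rw [present, present, time, time, h r hr true]
  simp only [Run.st, wts, hl]
  refine prod_congr rfl fun r hr => ?_
  simp only [Run.yS]
  rw [yN_congr h _ r (mem_filter.1 (mem_filter.1 hr).1).1]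

lemma Rw_congr (hT : G.IsTree) (θ : ℝ) (B : Finset V) {W W' : V → Bool → ℝ} :
    ∀ h p c, c ∈ B → G.Adj p c → (∀ x ∈ far G B p c, W x = W' x) →
      Rw G d θ B W h p c = Rw G d θ B W' h p c := by
  intro h
  induction h with
  | zero =>
    intro p c hc hpc hW
    rw [Rw, Rw, cav_congr hT hc hpc hW]
  | succ h ih =>
    intro p c hc hpc hW
    rw [Rw, Rw, cav_congr hT hc hpc hW]
    congr 2
    refine sum_congr rfl fun g hg => ih c g (mem_kid.1 hg).1 (mem_kid.1 hg).2.1 fun x hx => hW x ?_
    exact ((far_subset hT hg (Or.inr hpc) hc).2 hpc.ne).subset hx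

lemma Rw_not (θ : ℝ) (B : Finset V) (W : V → Bool → ℝ) :
    ∀ h p c, Rw G d θ B (fun v r => W v (!r)) h p c = Rw G d θ B W h p c := by
  intro h
  induction h with
  | zero => intro p c; simp only [Rw, damp, cav_sq_not]
  | succ h ih => intro p c; simp only [Rw, damp, cav_sq_not, ih]

lemma measurable_magW {α : Type*} [MeasurableSpace α] {W : α → V → Bool → ℝ}
    (hW : ∀ v σ, Measurable fun w => W w v σ) (θ : ℝ) (B : Finset V) (c : V) :
    Measurable fun w => mag G θ B (W w) c := measurable_cav hW θ B c c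

lemma measurable_pthW {α : Type*} [MeasurableSpace α] {W : α → V → Bool → ℝ}
    (hW : ∀ v σ, Measurable fun w => W w v σ) (θ : ℝ) (B : Finset V) (w : ℕ → V) (n : ℕ) :
    Measurable fun x => pthW G θ B (W x) w n := by
  simp only [pthW, damp]
  refine Finset.measurable_fun_prod _ fun i _ => ?_
  have hc := (measurable_cav (G := G) hW θ B (w i) (w (i + 1))).pow_const 2
  exact (measurable_const.sub hc).div (measurable_const.sub (measurable_const.mul hc))

lemma measurable_Rw {α : Type*} [MeasurableSpace α] {W : α → V → Bool → ℝ}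
    (hW : ∀ v σ, Measurable fun w => W w v σ) (θ : ℝ) (B : Finset V) :
    ∀ h p c, Measurable fun x => Rw G d θ B (W x) h p c := by
  have hd : ∀ p c, Measurable fun x => damp θ (cav G θ B (W x) p c) := fun p c => by
    have hc := (measurable_cav (G := G) hW θ B p c).pow_const 2
    exact (measurable_const.sub hc).div (measurable_const.sub (measurable_const.mul hc))
  intro h
  induction h with
  | zero => exact hd
  | succ h ih =>
    exact fun p c => (hd p c).mul
      (measurable_const.mul (Finset.measurable_fun_sum _ fun g _ => ih c g))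

lemma measurable_lr {α : Type*} [MeasurableSpace α] {u : α → ℝ} (hu : Measurable u) (θ : ℝ) :
    Measurable fun x => lr θ (u x) :=
  Measurable.sub (f := fun x => Real.log (1 - θ ^ 2 * u x ^ 2))
    (g := fun x => Real.log (1 - u x ^ 2))
    (Real.measurable_log.comp (measurable_const.sub (measurable_const.mul (hu.pow_const 2))))
    (Real.measurable_log.comp (measurable_const.sub (hu.pow_const 2)))

lemma measurable_st_at (hP : P.Ok G) (t : ℝ) (v : V) (σ : Bool) :
    Measurable fun ω => P.st G ω t v σ :=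
  Measurable.comp (g := fun p : (V × (ℤ × Bool) → ℝ) × ℝ => P.st G p.1 p.2 v σ)
    (f := fun ω => (ω, t)) (P.measurable_st hP v σ) (measurable_id.prodMk measurable_const)

end Vale.Agent.P161.Crit
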