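import Vale.Agent.P161.Crit.Process

/-!
# P161, critical point: evidence of site weights and determinism of the sampler
-/

open MeasureTheory SimpleGraph Finset

namespace Vale.Agent.P161.Crit

variable {V : Type*} {G : SimpleGraph V} {P : Run V} {θ : ℝ} {B : Finset V}

lemma wid_pos (i : ℤ) : 0 < wid i := by
  unfold wid
  split_ifs with h
  · exact zpow_pos two_pos _
  · exact one_pos

lemma wid_le_one (i : ℤ) : wid i ≤ 1 := by
  unfold wid
  split_ifs with h
  · exact zpow_le_one_of_nonpos₀ one_le_two h.le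
  · exact le_rfl

lemma lo_pos (i : ℤ) : 0 < lo i := by
  unfold lo
  split_ifs with h
  · exact zpow_pos two_pos _
  · have : (0 : ℝ) ≤ (i : ℝ) := by exact_mod_cast not_lt.1 h
    linarith

lemma eps_mem (i : ℤ) : 0 < eps i ∧ eps i ≤ 1 / 2 ∧ eps i ^ 2 = wid i / 4 := by
  have h := wid_pos i
  have h1 := wid_le_one i
  refine ⟨div_pos (Real.sqrt_pos.2 h) two_pos, ?_, ?_⟩
  · have := Real.sqrt_le_one.2 h1
    unfold eps
    linarith
  · rw [eps, div_pow, Real.sq_sqrt h.le]
    norm_num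

lemma lo_le_time (ω : V × (ℤ × Bool) → ℝ) (s : V × ℤ) : lo s.2 ≤ time ω s :=
  le_add_of_nonneg_right
    (mul_nonneg (mul_nonneg two_pos.le (wid_pos s.2).le) (clZ_mem _).1)

lemma abs_eps_mul_clY (i : ℤ) (σ : Bool) (y : ℝ) : |eps i * sgn σ * clY y| ≤ 1 / 2 := by
  rw [abs_mul, abs_mul, abs_sgn, mul_one, abs_of_pos (eps_mem i).1]
  calc eps i * |clY y| ≤ 1 / 2 * 1 :=
        mul_le_mul (eps_mem i).2.1 (abs_clY y) (abs_nonneg _) (by norm_num)
    _ = 1 / 2 := mul_one _

lemma qW_mem (i : ℤ) (y : ℝ) (σ : Bool) : 0 < qW i y σ ∧ |qW i y σ| ≤ 2 := by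
  obtain ⟨h1, h2⟩ := abs_le.1 (abs_eps_mul_clY i σ y)
  refine ⟨by unfold qW; linarith, abs_le.2 ⟨?_, ?_⟩⟩ <;> unfold qW <;> linarith

lemma wts_pos (S : Finset (V × ℤ)) (y : V × ℤ → ℝ) (v : V) (σ : Bool) : 0 < wts S y v σ := by
  classical
  exact Finset.prod_pos fun s _ => (qW_mem s.2 (y s) σ).1

lemma abs_wts (A S : Finset (V × ℤ)) (hS : S ⊆ A) (y : V × ℤ → ℝ) (v : V) (σ : Bool) :
    |wts S y v σ| ≤ 2 ^ A.card := by
  classical
  rw [wts, Finset.abs_prod]
  refine (prod_le_prod (fun _ _ => abs_nonneg _) fun s _ => (qW_mem s.2 (y s) σ).2).trans ?_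
  rw [prod_const]
  exact pow_le_pow_right₀ one_le_two (card_le_card ((filter_subset _ _).trans hS))

lemma bump_pos {W : V → Bool → ℝ} (hW : ∀ x r, 0 < W x r) (s : V × ℤ) (y : ℝ) :
    ∀ x r, 0 < bump W s y x r := fun x r => by
  unfold bump
  split_ifs
  · exact mul_pos (hW x r) (qW_mem _ _ _).1
  · exact hW x r

lemma bump_of_ne (W : V → Bool → ℝ) (s : V × ℤ) (y : ℝ) {x : V} (h : x ≠ s.1) :
    bump W s y x = W x := by
  funext r
  simp [bump, h]

lemma wts_insert {S T : Finset (V × ℤ)} {s : V × ℤ} (hs : s ∉ S)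
    (hT : ∀ q, q ∈ T ↔ q = s ∨ q ∈ S) (y : V × ℤ → ℝ) : wts T y = bump (wts S y) s (y s) := by
  classical
  have e : T = insert s S := by
    ext q
    rw [hT q, Finset.mem_insert]
  subst e
  funext v σ
  unfold wts bump
  by_cases h : v = s.1
  · subst h
    rw [if_pos rfl, filter_insert, if_pos rfl, prod_insert fun h' => hs (mem_filter.1 h').1,
      mul_comm]
  · rw [if_neg h, filter_insert, if_neg (Ne.symm h)]

lemma wts_congr {S : Finset (V × ℤ)} {y y' : V × ℤ → ℝ} (h : ∀ s ∈ S, y s = y' s) :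
    wts S y = wts S y' := by
  classical
  funext v σ
  exact prod_congr rfl fun s hs => by rw [h s (mem_filter.1 hs).1]

lemma mem_live {A : Finset (V × ℤ)} {ω : V × (ℤ × Bool) → ℝ} {t : ℝ} {q : V × ℤ} :
    q ∈ live A ω t ↔ q ∈ A ∧ present ω q ∧ time ω q < t := by
  classical
  simp [live]

lemma live_subset (A : Finset (V × ℤ)) (ω : V × (ℤ × Bool) → ℝ) (t : ℝ) : live A ω t ⊆ A :=
  fun _ h => (mem_live.1 h).1

lemma notMem_live_time (A : Finset (V × ℤ)) (ω : V × (ℤ × Bool) → ℝ) (s : V × ℤ) :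
    s ∉ live A ω (time ω s) := fun h => lt_irrefl _ (mem_live.1 h).2.2

/-! ### Evidence -/

open scoped Classical in
/-- Multiply the weights at `c` by the spin. -/
noncomputable def tilt (W : V → Bool → ℝ) (c : V) : V → Bool → ℝ :=
  fun v σ => if v = c then sgn σ * W v σ else W v σ

lemma tilt_bump (W : V → Bool → ℝ) (a : V) (s : V × ℤ) (y : ℝ) :
    tilt (bump W s y) a = bump (tilt W a) s y := by
  funext v σ
  by_cases h : v = a <;> by_cases h' : v = s.1 <;> simp [tilt, bump, h, h'] <;> (try split_ifs) <;> ring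

lemma tilt_of_ne (W : V → Bool → ℝ) {c x : V} (h : x ≠ c) : tilt W c x = W x := by
  funext r
  simp [tilt, h]

lemma msg_one (G : SimpleGraph V) (θ : ℝ) (B : Finset V) (p c : V) (r : Bool) :
    msg G θ B (fun _ _ => 1) p c r = 1 := by
  have : ∀ n p c r, msgN G θ B (fun _ _ => 1) n p c r = 1 := by
    intro n
    induction n with
    | zero => exact fun p c r => rfl
    | succ n ih =>
      intro p c r
      simp only [msgN, pull, ih, one_mul]
      exact prod_eq_one fun g _ => by ring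
  exact this _ p c r

lemma evid_one (G : SimpleGraph V) (θ : ℝ) (B : Finset V) (o : V) :
    evid G θ B o (fun _ _ => 1) = 1 := by
  simp [evid, msg_one]

lemma mag_one (G : SimpleGraph V) (θ : ℝ) (B : Finset V) (o : V) :
    mag G θ B (fun _ _ => 1) o = 0 := by
  simp [mag, cav, magOf, msg_one]

variable (hT : G.IsTree)
include hT

lemma msg_root_off {W W' : V → Bool → ℝ} {c : V} (h : ∀ x, x ≠ c → W x = W' x) {g : V}
    (hg : g ∈ kid G B c c) : msg G θ B W c g = msg G θ B W' c g := by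
  obtain ⟨hgB, hadj, -⟩ := mem_kid.1 hg
  refine msg_congr hT _ c g hgB hadj le_rfl fun x hx => h x fun hxc => ?_
  subst hxc
  have := (mem_far.1 hx).2
  simp at this

lemma evid_adj (W : V → Bool → ℝ) {c g : V} (hc : c ∈ B) (hg : g ∈ B) (hadj : G.Adj c g) :
    evid G θ B c W = evid G θ B g W := by
  classical
  have e : ∀ {c g : V}, c ∈ B → g ∈ B → G.Adj c g → ∀ r,
      msg G θ B W c c r = msg G θ B W g c r * pull θ (msg G θ B W c g) r :=
    fun {c g} hc hg hadj r => by
    rw [msg_eq hT hc (Or.inl rfl), msg_eq hT hc (Or.inr hadj.symm), kid_insert hadj hg,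
      prod_insert (fun h => (mem_kid.1 h).2.2 rfl)]
    ring
  rw [evid, evid, e hc hg hadj, e hc hg hadj, e hg hc hadj.symm, e hg hc hadj.symm]
  simp only [pull, sgn, if_true, Bool.false_eq_true, if_false]
  ring

/-- The evidence does not depend on the root. -/
lemma evid_root {θ : ℝ} {B : Finset V} (hB : (G.induce (B : Set V)).Connected)
    (W : V → Bool → ℝ) {o o' : V} (ho : o ∈ B) (ho' : o' ∈ B) :
    evid G θ B o W = evid G θ B o' W := by
  have key : ∀ {x y : (B : Set V)}, (G.induce (B : Set V)).Walk x y →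
      evid G θ B x.1 W = evid G θ B y.1 W := by
    intro x y p
    induction p with
    | nil => rfl
    | cons h _ ih => exact (evid_adj hT W (mem_coe.1 (Subtype.coe_prop _))
        (mem_coe.1 (Subtype.coe_prop _)) h).trans ih
  obtain ⟨p⟩ := hB ⟨o, ho⟩ ⟨o', ho'⟩
  exact key p

lemma evid_tilt_self (W : V → Bool → ℝ) {c : V} (hc : c ∈ B) :
    evid G θ B c (tilt W c) = (msg G θ B W c c true - msg G θ B W c c false) / 2 := by
  have e : ∀ g ∈ kid G B c c, msg G θ B (tilt W c) c g = msg G θ B W c g := fun g hg =>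
    msg_root_off hT (fun x hx => tilt_of_ne W hx) hg
  have e' : ∀ r, ∏ g ∈ kid G B c c, pull θ (msg G θ B (tilt W c) c g) r =
      ∏ g ∈ kid G B c c, pull θ (msg G θ B W c g) r :=
    fun r => prod_congr rfl fun g hg => by rw [e g hg]
  simp only [evid, msg_eq hT hc (Or.inl rfl), e']
  simp only [tilt, sgn, if_true, Bool.false_eq_true, if_false]
  ring

lemma evid_tilt_mag (hθ : |θ| ≤ 1) {W : V → Bool → ℝ} (hW : ∀ x r, 0 < W x r) {c : V}
    (hc : c ∈ B) : evid G θ B c (tilt W c) = mag G θ B W c * evid G θ B c W := by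
  have h0 := msg_pos (G := G) (θ := θ) (B := B) hθ hW c c true
  have h1 := msg_pos (G := G) (θ := θ) (B := B) hθ hW c c false
  rw [evid_tilt_self hT W hc, mag, cav, magOf, evid]
  field_simp

/-- The evidence is affine in one observation. -/
lemma evid_bump_linear (hB : (G.induce (B : Set V)).Connected) (W : V → Bool → ℝ) {o : V}
    (ho : o ∈ B) {s : V × ℤ} (hs : s.1 ∈ B) (y : ℝ) :
    evid G θ B o (bump W s y) =
      evid G θ B o W + eps s.2 * clY y * evid G θ B o (tilt W s.1) := by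
  rw [evid_root hT hB _ ho hs, evid_root hT hB W ho hs, evid_root hT hB (tilt W s.1) ho hs,
    evid_tilt_self hT W hs]
  have e' : ∀ r, ∏ g ∈ kid G B s.1 s.1, pull θ (msg G θ B (bump W s y) s.1 g) r =
      ∏ g ∈ kid G B s.1 s.1, pull θ (msg G θ B W s.1 g) r :=
    fun r => prod_congr rfl fun g hg => by
      rw [msg_root_off hT (fun x hx => bump_of_ne W s y hx) hg]
  simp only [evid, msg_eq hT hs (Or.inl rfl), e']
  simp only [bump, qW, sgn, if_true, Bool.false_eq_true, if_false]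
  ring

lemma evid_bump {θ : ℝ} (hθ : |θ| < 1) {B : Finset V}
    (hB : (G.induce (B : Set V)).Connected) {W : V → Bool → ℝ} (hW : ∀ x r, 0 < W x r) {o : V}
    (ho : o ∈ B) {s : V × ℤ} (hs : s.1 ∈ B) (y : ℝ) :
    evid G θ B o (bump W s y) =
      evid G θ B o W * (1 + eps s.2 * mag G θ B W s.1 * clY y) := by
  rw [evid_bump_linear hT hB W ho hs, evid_root hT hB W ho hs,
    evid_root hT hB (tilt W s.1) ho hs, evid_tilt_mag hT hθ.le hW hs]
  ring

/-- The tilted evidence of the bumped weights is affine in the observation. -/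
lemma mag_bump_affine (hθ : |θ| < 1) (hB : (G.induce (B : Set V)).Connected)
    {W : V → Bool → ℝ} (hW : ∀ x r, 0 < W x r) {a : V} (ha : a ∈ B) {s : V × ℤ} (hs : s.1 ∈ B) :
    ∃ c : ℝ, ∀ y, (1 + eps s.2 * mag G θ B W s.1 * clY y) * mag G θ B (bump W s y) a =
      mag G θ B W a + c * clY y := by
  have hE : 0 < evid G θ B a W :=
    div_pos (add_pos (msg_pos hθ.le hW a a true) (msg_pos hθ.le hW a a false)) two_pos
  refine ⟨eps s.2 * evid G θ B a (tilt (tilt W a) s.1) / evid G θ B a W, fun y => ?_⟩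
  have h1 := evid_tilt_mag (B := B) hT hθ.le (bump_pos hW s y) ha
  rw [tilt_bump, evid_bump_linear hT hB _ ha hs, evid_tilt_mag hT hθ.le hW ha,
    evid_bump hT hθ hB hW ha hs] at h1
  field_simp
  linear_combination -h1

omit hT

/-! ### The sampler -/

lemma Run.Ok.abs_θ (hP : P.Ok G) : |P.θ| < 1 := by rw [abs_of_nonneg hP.nonneg]; exact hP.lt_one

lemma Run.st_pos (P : Run V) (ω : V × (ℤ × Bool) → ℝ) (t : ℝ) (v : V) (σ : Bool) :
    0 < P.st G ω t v σ := wts_pos _ _ v σ

lemma Run.obs_pos (P : Run V) (ω : V × (ℤ × Bool) → ℝ) (t : ℝ) (v : V) (σ : Bool) :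
    0 < P.obs ω t v σ := wts_pos _ _ v σ

lemma Run.abs_m (hP : P.Ok G) (ω : V × (ℤ × Bool) → ℝ) (t : ℝ) (v : V) : |P.m G ω t v| < 1 :=
  abs_mag hP.abs_θ.le (P.st_pos (G := G) ω t) v

lemma abs_eps_mul {i : ℤ} {x : ℝ} (hx : |x| ≤ 1) : |eps i * x| ≤ 1 / 2 := by
  rw [abs_mul, abs_of_pos (eps_mem i).1]
  calc eps i * |x| ≤ 1 / 2 * 1 := mul_le_mul (eps_mem i).2.1 hx (abs_nonneg _) (by norm_num)
    _ = 1 / 2 := mul_one _

lemma Run.abs_bias (hP : P.Ok G) {W : V → Bool → ℝ} (hW : ∀ x r, 0 < W x r) (s : V × ℤ) :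
    |eps s.2 * mag G P.θ P.B W s.1| < 1 :=
  (abs_eps_mul (abs_mag hP.abs_θ.le hW _).le).trans_lt (by norm_num)

/-- The defining equation of the observations. -/
lemma Run.yS_eq (hP : P.Ok G) (ω : V × (ℤ × Bool) → ℝ) {s : V × ℤ} (hs : s ∈ P.A) :
    P.yS G ω s = chQ (eps s.2 * P.m G ω (time ω s) s.1) (zc ω s) := by
  classical
  have _ := hP
  let R : V × ℤ → ℕ := fun q => (P.A.filter fun t => time ω t < time ω q).card
  have hR : ∀ q ∈ P.A, ∀ u, time ω q < time ω u → R q < R u := fun q hq u h => by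
    refine card_lt_card ((ssubset_iff_of_subset fun x hx => ?_).2
      ⟨q, mem_filter.2 ⟨hq, h⟩, fun h' => lt_irrefl _ (mem_filter.1 h').2⟩)
    exact mem_filter.2 ⟨(mem_filter.1 hx).1, (mem_filter.1 hx).2.trans h⟩
  have key : ∀ n u, R u < n → P.yN G ω (n + 1) u = P.yN G ω n u := by
    intro n
    induction n with
    | zero => exact fun u h => absurd h (Nat.not_lt_zero _)
    | succ n ih =>
      intro u hu
      show chQ _ _ = chQ _ _
      rw [wts_congr fun q hq => ih q
        (Nat.lt_of_lt_of_le (hR q (mem_live.1 hq).1 u (mem_live.1 hq).2.2) (Nat.le_of_lt_succ hu))]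
  have h1 : R s < P.A.card := card_lt_card ((ssubset_iff_of_subset (filter_subset _ _)).2
    ⟨s, hs, fun h' => lt_irrefl _ (mem_filter.1 h').2⟩)
  exact (key _ s h1).symm

/-- The state at time `T` depends only on the slots used before `T`. -/
lemma Run.st_congr (P : Run V) (G : SimpleGraph V) {ω ω' : V × (ℤ × Bool) → ℝ} {T : ℝ}
    (hl : live P.A ω T = live P.A ω' T)
    (h : ∀ q ∈ live P.A ω T, time ω q = time ω' q ∧ zc ω q = zc ω' q) :
    P.st G ω T = P.st G ω' T := by
  classical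
  have hlive : ∀ q ∈ live P.A ω T, live P.A ω (time ω q) = live P.A ω' (time ω' q) := by
    intro q hq
    have hqT := (mem_live.1 hq).2.2
    rw [← (h q hq).1]
    ext u
    simp only [mem_live]
    constructor
    · rintro ⟨hu, hpu, htu⟩
      have hu' : u ∈ live P.A ω T := mem_live.2 ⟨hu, hpu, htu.trans hqT⟩
      refine ⟨hu, ?_, (h u hu').1 ▸ htu⟩
      rw [hl] at hu'
      exact (mem_live.1 hu').2.1
    · rintro ⟨hu, hpu, htu⟩
      have hu' : u ∈ live P.A ω' T := mem_live.2 ⟨hu, hpu, htu.trans hqT⟩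
      rw [← hl] at hu'
      exact ⟨hu, (mem_live.1 hu').2.1, (h u hu').1.symm ▸ htu⟩
  have key : ∀ n, ∀ q ∈ live P.A ω T, P.yN G ω n q = P.yN G ω' n q := by
    intro n
    induction n with
    | zero => exact fun q _ => rfl
    | succ n ih =>
      intro q hq
      show chQ _ _ = chQ _ _
      rw [(h q hq).2, ← hlive q hq, wts_congr fun u hu => ih u (mem_live.2
        ⟨(mem_live.1 hu).1, (mem_live.1 hu).2.1, (mem_live.1 hu).2.2.trans (mem_live.1 hq).2.2⟩)]
  rw [Run.st, Run.st, ← hl]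
  exact wts_congr (key _)

lemma Run.m_eq_zero (hP : P.Ok G) (ω : V × (ℤ × Bool) → ℝ) (t : ℝ) {v : V} (hv : v ∈ P.B)
    (h : ∀ s ∈ P.A, t ≤ lo s.2) : P.m G ω t v = 0 := by
  classical
  have _ := And.intro hP hv
  have he : live P.A ω t = ∅ := eq_empty_of_forall_notMem fun q hq => by
    obtain ⟨hqA, -, hlt⟩ := mem_live.1 hq
    exact absurd (((h q hqA).trans (lo_le_time ω q)).trans_lt hlt) (lt_irrefl t)
  rw [Run.m, Run.st, he]
  have : wts (∅ : Finset (V × ℤ)) (P.yS G ω) = fun _ _ => 1 := by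
    funext x r
    simp [wts]
  rw [this, mag_one]

end Vale.Agent.P161.Crit
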