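import Vale.Agent.P161.Crit.Crude
import Vale.Agent.P161.Crit.Drift

/-!
# P161, critical point: the runs form a Cauchy sequence in the coupling
-/

open MeasureTheory SimpleGraph Finset

namespace Vale.Agent.P161.Crit

variable {V : Type*} {G : SimpleGraph V} {d : ℕ}

lemma rt_eq_pow (j : ℕ) : rt j = Real.sqrt (1 / 2) ^ j := by
  induction j with
  | zero => simp [rt]
  | succ j ih =>
    rw [rt, pow_succ, Real.sqrt_mul (by positivity), ← rt, ih, ← pow_succ]

lemma sum_geom_le {g : ℝ} (h0 : 0 ≤ g) (h1 : g < 1) (k : ℕ) :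
    ∑ j ∈ range k, g ^ j ≤ 1 / (1 - g) := by
  rw [one_div, ← tsum_geometric_of_lt_one h0 h1]
  exact (summable_geometric_of_lt_one h0 h1).sum_le_tsum _ fun _ _ => pow_nonneg h0 _

lemma driftA_nonneg {γ : ℝ} (hγ : 0 < γ) (j N : ℕ) : 0 ≤ driftA γ j N := by
  have := rt_pos j
  rw [driftA]
  positivity

lemma farF_nonneg {γ : ℝ} (hγ : 0 < γ) (hγ1 : γ ≤ 1) (j N : ℕ) : 0 ≤ farF γ j N :=
  div_nonneg (pow_nonneg (by nlinarith [rt_pos j, rt_le_one j]) _) (mul_pos hγ (rt_pos j)).le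

/-- The cut-offs can be chosen so that the total drift over all dyadic windows stays bounded. -/
lemma exists_cutoff {γ : ℝ} (hγ : 0 < γ) : ∃ (Nf : ℕ → ℕ) (S : ℝ), 0 ≤ S ∧
    ∀ k : ℕ, ∑ j ∈ range k, driftA γ j (Nf j) * (1 / 2) ^ j ≤ S := by
  set z : ℝ := 33 / 32 with hz
  set c : ℝ := Real.sqrt (1 / 2) with hc
  set h : ℝ := Real.sqrt (Real.sqrt c) with hh
  have hc0 : 0 < c := Real.sqrt_pos.2 (by norm_num)
  have hc2 : c ^ 2 = 1 / 2 := Real.sq_sqrt (by norm_num)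
  have hc1 : c < 1 := by nlinarith
  have hh0 : 0 ≤ h := Real.sqrt_nonneg _
  have hh4 : h ^ 4 = c := sqrt_sqrt_sqrt_pow hc0.le
  have g2 : z ^ 2 * h < 1 := by
    refine lt_of_pow_lt_pow_left₀ 8 zero_le_one ?_
    rw [mul_pow, ← pow_mul, show h ^ 8 = (h ^ 4) ^ 2 by ring, hh4, hc2, hz]
    norm_num
  have g4 : 1 / (c * z ^ 16) < 1 := by
    rw [div_lt_one (by positivity)]
    refine lt_of_pow_lt_pow_left₀ 2 (by positivity) ?_
    rw [mul_pow, hc2, hz]
    norm_num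
  obtain ⟨C, hC⟩ := pow_mul_exp_neg_le 16 (show 0 < γ / 4 by positivity)
  have hC0 : 0 ≤ C := le_trans (by positivity) (hC 0 le_rfl)
  refine ⟨fun j => ⌈z ^ j / rt j⌉₊,
    1 / (1 - 1 / 2) + 4 * (1 / (1 - z ^ 2 * h)) + 1 / γ * (1 / (1 - c)) +
      C / γ ^ 3 * (1 / (1 - 1 / (c * z ^ 16))), ?_, fun k => ?_⟩
  · have : 0 < 1 - z ^ 2 * h := by linarith
    have : 0 < 1 - c := by linarith
    have : 0 < 1 - 1 / (c * z ^ 16) := by linarith
    positivity
  calc ∑ j ∈ range k, driftA γ j ⌈z ^ j / rt j⌉₊ * (1 / 2) ^ j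
      ≤ ∑ j ∈ range k, ((1 / 2) ^ j + 4 * (z ^ 2 * h) ^ j + 1 / γ * c ^ j +
          C / γ ^ 3 * (1 / (c * z ^ 16)) ^ j) := sum_le_sum fun j _ => ?_
    _ ≤ _ := by
        simp only [sum_add_distrib, ← mul_sum]
        have s1 := sum_geom_le (show (0 : ℝ) ≤ 1 / 2 by norm_num) (by norm_num) k
        have s2 := sum_geom_le (show 0 ≤ z ^ 2 * h by positivity) g2 k
        have s3 := sum_geom_le hc0.le hc1 k
        have s4 := sum_geom_le (show 0 ≤ 1 / (c * z ^ 16) by positivity) g4 k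
        gcongr
  have hr : rt j = c ^ j := rt_eq_pow j
  have hr0 : 0 < rt j := rt_pos j
  have hhalf : (1 / 2 : ℝ) ^ j = rt j ^ 2 := by
    rw [hr, ← pow_mul, mul_comm j 2, pow_mul, hc2]
  have hsq : Real.sqrt (Real.sqrt (rt j)) = h ^ j := by
    rw [← pow_left_inj₀ (n := 4) (Real.sqrt_nonneg _) (by positivity) (by norm_num),
      sqrt_sqrt_sqrt_pow hr0.le, hr, ← hh4, ← pow_mul, ← pow_mul, mul_comm]
  have hz1 : (1 : ℝ) ≤ z ^ j := one_le_pow₀ (by norm_num [hz])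
  set M : ℕ := ⌈z ^ j / rt j⌉₊
  have hM1 : z ^ j ≤ rt j * M := by
    rw [← div_le_iff₀' hr0]; exact Nat.le_ceil _
  have hM2 : (M : ℝ) * rt j ≤ 2 * z ^ j := by
    have h1 : (M : ℝ) < z ^ j / rt j + 1 := Nat.ceil_lt_add_one (by positivity)
    have h2 := mul_le_mul_of_nonneg_right h1.le hr0.le
    rw [add_mul, div_mul_cancel₀ _ hr0.ne', one_mul] at h2
    linarith [rt_le_one j]
  have t2 : (M : ℝ) ^ 2 * Real.sqrt (Real.sqrt (rt j)) * rt j ^ 2 ≤ 4 * (z ^ 2 * h) ^ j := by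
    calc (M : ℝ) ^ 2 * Real.sqrt (Real.sqrt (rt j)) * rt j ^ 2
        = ((M : ℝ) * rt j) ^ 2 * h ^ j := by rw [hsq]; ring
      _ ≤ (2 * z ^ j) ^ 2 * h ^ j := by gcongr
      _ = _ := by rw [mul_pow (z ^ 2), ← pow_mul z 2, mul_comm 2 j, pow_mul]; ring
  have t4 : 1 / (γ * rt j) ^ 3 * Real.exp (-(γ * rt j * M / 4)) * rt j ^ 2 ≤
      C / γ ^ 3 * (1 / (c * z ^ 16)) ^ j := by
    have e1 : Real.exp (-(γ * rt j * M / 4)) ≤ Real.exp (-(γ / 4 * z ^ j)) := by
      have := mul_le_mul_of_nonneg_left hM1 (show 0 ≤ γ / 4 by positivity)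
      rw [Real.exp_le_exp]
      linarith
    have e2 : Real.exp (-(γ / 4 * z ^ j)) ≤ C / (z ^ 16) ^ j := by
      rw [le_div_iff₀ (by positivity), ← pow_mul, mul_comm 16 j, pow_mul, mul_comm]
      exact hC _ (by positivity)
    calc 1 / (γ * rt j) ^ 3 * Real.exp (-(γ * rt j * M / 4)) * rt j ^ 2
        ≤ 1 / (γ * rt j) ^ 3 * (C / (z ^ 16) ^ j) * rt j ^ 2 := by
          gcongr
          exact e1.trans e2
      _ = C / γ ^ 3 * (1 / (rt j * (z ^ 16) ^ j)) := by field_simp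
      _ = _ := by rw [hr, ← mul_pow, one_div_pow]
  have t3 : 1 / (γ * rt j) * rt j ^ 2 = 1 / γ * c ^ j := by rw [← hr]; field_simp
  rw [driftA, hhalf, add_mul, add_mul, add_mul, one_mul, t3]
  exact add_le_add (add_le_add (add_le_add le_rfl t2) le_rfl) t4

lemma depth_mono {j k : ℕ} (h : j ≤ k) : depth j ≤ depth k :=
  Nat.pow_le_pow_right two_pos (Nat.div_le_div_right (by omega))

/-- The couplings of two runs with large indices are close. -/
lemma thN_sub_sq_le (hR : Reg G d) {n m N : ℕ} (hn : N ≤ n) (hm : N ≤ m) :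
    (thN d n - thN d m) ^ 2 ≤ (1 / 2) ^ N := by
  have hb := hR.two_le
  set b := (d : ℝ) - 1
  have hs : 1 ≤ Real.sqrt b := Real.one_le_sqrt.2 (by linarith)
  have h1 : ∀ i, N ≤ i → (0 : ℝ) ≤ (1 / 2) ^ i ∧ (1 / 2 : ℝ) ^ i ≤ (1 / 2) ^ N := fun i hi =>
    ⟨by positivity, pow_le_pow_of_le_one (by norm_num) (by norm_num) hi⟩
  obtain ⟨a0, a1⟩ := h1 n hn
  obtain ⟨b0, b1⟩ := h1 m hm
  have hN : (1 / 2 : ℝ) ^ N ≤ 1 := pow_le_one₀ (by norm_num) (by norm_num)
  rw [thN, thN, ← mul_sub, mul_pow, div_pow, one_pow]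
  refine (mul_le_of_le_one_left (sq_nonneg _) ?_).trans ?_
  · rw [div_le_one (by positivity)]; exact one_le_pow₀ hs
  · nlinarith

/-- A run with a large index hardly depends on its centre. -/
lemma exists_stable (hR : Reg G d) (J : ℕ) {n : ℕ} (hn : 1 ≤ n) {η : ℝ} (hη : 0 < η) :
    ∃ R0 : ℕ, ∀ R1, R0 ≤ R1 → Stable G d J n R1 η := by
  obtain ⟨K, κ, hK, hκ0, hκ1, hc⟩ := crude d n J hn
  obtain ⟨R0, hR0⟩ := exists_pow_lt_of_lt_one
    (show 0 < η / 2 * (η / 2) / (K + 1) by positivity) hκ1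
  refine ⟨R0, fun R1 h1 a o o' R R' h h' t ht => ?_⟩
  set P := runN G d n J o R
  set Q := runN G d n J o' R'
  have hP : P.Ok G := runN_ok hR hn J o R
  have hQ : Q.Ok G := runN_ok hR hn J o' R'
  have hsq : ∫ ω, (P.m G ω t a - Q.m G ω t a) ^ 2 ∂iidU (V × (ℤ × Bool)) ≤ η / 2 * (η / 2) := by
    refine (hc hR a o o' R R' R1 h h' t ht).trans ?_
    have h2 := (pow_le_pow_of_le_one hκ0 hκ1.le h1).trans hR0.le
    rw [le_div_iff₀ (by linarith)] at h2
    nlinarith [pow_nonneg hκ0 R1]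
  have i2 : Integrable (fun ω => (P.m G ω t a - Q.m G ω t a) ^ 2) (iidU (V × (ℤ × Bool))) :=
    integrable_of_abs_le (measurable_sq_m_sub hP hQ a t) fun ω => sq_m_sub_le hP hQ ω t a
  refine (integral_mono_of_nonneg (ae_of_all _ fun ω => abs_nonneg _)
    ((integrable_const (η / 2)).add (i2.div_const (η / 2)))
    (ae_of_all _ fun ω => abs_le_delta_add_sq _ (half_pos hη))).trans ?_
  simp only [Pi.add_apply]
  rw [integral_add (integrable_const _) (i2.div_const _), integral_const, integral_div]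
  have : (∫ ω, (P.m G ω t a - Q.m G ω t a) ^ 2 ∂iidU (V × (ℤ × Bool))) / (η / 2) ≤ η / 2 :=
    (div_le_iff₀ (half_pos hη)).2 hsq
  simp only [probReal_univ, one_smul]
  linarith

variable {n m k J R : ℕ} {o : V}

lemma measurable_sqDist (hR : Reg G d) (hn : 1 ≤ n) (hm : 1 ≤ m) (R : ℕ) (o : V) :
    Measurable fun t => sqDist G d n m J R t o :=
  measurable_mdist (runN_ok hR hn J o R) (runN_ok hR hm J o R) o

lemma sqDist_le_four (hR : Reg G d) (hn : 1 ≤ n) (hm : 1 ≤ m) (R : ℕ) (t : ℝ) (o : V) :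
    sqDist G d n m J R t o ≤ 4 :=
  (mdist_mem (runN_ok hR hn J o R) (runN_ok hR hm J o R) o t).2

/-- At an early time both magnetisations are small. -/
lemma sqDist_le_sqrt (hR : Reg G d) {K : ℝ}
    (hK : ∀ P : Run V, P.Ok G → P.θ ^ 2 * ((d : ℝ) - 1) ≤ 1 → ∀ t : ℝ, 0 ≤ t → ∀ p c : V,
      c ∈ P.B → (p = c ∨ G.Adj p c) → info (P.pm G t p c) ≤ K * Real.sqrt t)
    (hn : 1 ≤ n) (hm : 1 ≤ m) (R : ℕ) {t : ℝ} (ht : 0 ≤ t) (o : V) :
    sqDist G d n m J R t o ≤ 4 * K * Real.sqrt t := by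
  have key : ∀ i, 1 ≤ i → Integrable (fun ω => (runN G d i J o R).m G ω t o ^ 2)
      (iidU (V × (ℤ × Bool))) ∧
      ∫ ω, (runN G d i J o R).m G ω t o ^ 2 ∂iidU (V × (ℤ × Bool)) ≤ K * Real.sqrt t := by
    intro i hi
    have hP : (runN G d i J o R).Ok G := runN_ok hR hi J o R
    have ho : o ∈ (runN G d i J o R).B := self_mem_ball hR o R
    refine ⟨integrable_of_abs_le ((measurable_m_at hP t o).pow_const 2) (C := 1) fun ω => by
      rw [abs_pow]; exact pow_le_one₀ (abs_nonneg _) (hP.abs_m_le ω t o), ?_⟩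
    simp only [Run.m_eq_U]
    rw [integral_U_sq hP ho ho (Or.inl rfl)]
    exact hK _ hP (thN_spec hR hi).2.2.2.1.le t ht o o ho (Or.inl rfl)
  obtain ⟨i1, b1⟩ := key n hn
  obtain ⟨i2, b2⟩ := key m hm
  refine (integral_mono_of_nonneg (ae_of_all _ fun ω => sq_nonneg _)
    ((i1.const_mul 2).add (i2.const_mul 2)) (ae_of_all _ fun ω => ?_)).trans ?_
  · simp only [Pi.add_apply, dsq]
    nlinarith [sq_nonneg ((runN G d n J o R).m G ω t o + (runN G d m J o R).m G ω t o)]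
  · simp only [Pi.add_apply]
    rw [integral_add (i1.const_mul 2) (i2.const_mul 2), integral_const_mul, integral_const_mul]
    linarith

open scoped Classical in
/-- The rate in the martingale identity is the sum of the drift densities. -/
lemma rate_le (hR : Reg G d) (hn : k + 4 ≤ n) (hm : k + 4 ≤ m) {x : ℝ} (hx : (1 / 2) ^ k ≤ x) :
    (∑ s ∈ (runN G d n J o R).A ∪ (runN G d m J o R).A,
      if lo s.2 ≤ x ∧ x < lo s.2 + wid s.2 then
        1 / wid s.2 * ∫ ω, ∫ y, ((runN G d n J o R).inc G ((runN G d n J o R).st G ω x) o s y -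
          (runN G d m J o R).inc G ((runN G d m J o R).st G ω x) o s y) ^ 2
            ∂unifR ∂iidU (V × (ℤ × Bool))
      else 0) ≤
    ∑ b ∈ ball G o R, ∫ ω, phi G (runN G d n J o R) (runN G d m J o R) x o b ω
      ∂iidU (V × (ℤ × Bool)) := by
  set P := runN G d n J o R with hPd
  set Q := runN G d m J o R with hQd
  have hP : P.Ok G := runN_ok hR (by omega) J o R
  have hQ : Q.Ok G := runN_ok hR (by omega) J o R
  have hA : ∀ s ∈ P.A ∪ Q.A, s.1 ∈ ball G o R ∧ s.2 < (J : ℤ) := fun s hs => by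
    rcases mem_union.1 hs with h | h <;>
      exact ⟨(mem_product.1 h).1, (Finset.mem_Ico.1 (mem_product.1 h).2).2⟩
  refine (sum_le_sum fun s hs => ?_).trans (sum_window_le (B := ball G o R)
    (f := fun b => ∫ ω, phi G P Q x o b ω ∂iidU (V × (ℤ × Bool))) (fun s hs => (hA s hs).1)
    (fun b => integral_nonneg fun ω => phi_nonneg x o b ω) x)
  split_ifs with hc
  · have hlev : -(k : ℤ) ≤ s.2 := by
      by_contra hlt
      rw [not_le] at hlt
      have h1 : lo s.2 + wid s.2 ≤ (1 / 2) ^ k := by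
        rw [lo, wid, if_pos (by omega), if_pos (by omega), ← two_mul,
          show (2 : ℝ) * 2 ^ s.2 = 2 ^ (s.2 + 1) by rw [zpow_add_one₀ two_ne_zero]; ring,
          one_div, inv_pow, ← zpow_natCast, ← zpow_neg]
        exact zpow_le_zpow_right₀ one_le_two (by omega)
      linarith [hc.2]
    obtain ⟨hb, hJ⟩ := hA s hs
    have hsP : s ∈ P.A := mem_product.2 ⟨hb, Finset.mem_Ico.2 ⟨by omega, hJ⟩⟩
    have hsQ : s ∈ Q.A := mem_product.2 ⟨hb, Finset.mem_Ico.2 ⟨by omega, hJ⟩⟩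
    have ho : o ∈ ball G o R := self_mem_ball hR o R
    have hw := wid_pos s.2
    rw [one_div, ← div_eq_inv_mul, div_le_iff₀ hw, mul_comm, ← integral_const_mul]
    refine integral_mono_of_nonneg (ae_of_all _ fun ω => integral_nonneg fun y => sq_nonneg _)
      ((integrable_of_abs_le (measurable_phi hP hQ x o s.1) (C := 34) fun ω => ?_).const_mul _)
      (ae_of_all _ fun ω => ?_)
    · rw [abs_of_nonneg (phi_nonneg x o s.1 ω)]; exact phi_le_bound hP hQ x o s.1 ω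
    · refine (integral_inc_sub_le hP hQ (P.st_pos ω x) (Q.st_pos ω x) ho ho hsP hsQ).trans
        (le_of_eq ?_)
      simp only [phi, dsq, Run.m, (eps_mem s.2).2.2]
      ring
  · exact le_rfl

open scoped Classical in
/-- Grönwall's inequality on one window. -/
lemma window_le (hR : Reg G d) {K γ η I w : ℝ} {g0 : V} {j q Nj N0 : ℕ} (hK : 0 ≤ K) (hγ : 0 < γ)
    (hγ1 : γ ≤ 1) (hη : 0 ≤ η) (hn : k + 4 ≤ n) (hm : k + 4 ≤ m)
    (hdrift : ∀ t : ℝ, (1 / 2) ^ j ≤ t → t ≤ ((J : ℝ) + 2) * (1 / 2) ^ j → t ≤ 1 + J →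
      ∑ b ∈ ball G o R, ∫ ω, phi G (runN G d n J o R) (runN G d m J o R) t o b ω
          ∂iidU (V × (ℤ × Bool)) ≤
        K * Real.sqrt q * driftA γ j Nj * (sqDist G d n m J R t o + (1 / 8) ^ (4 * q)) +
          K * Real.sqrt q * ((N0 : ℝ) + 1) ^ 4 *
            (η + (meanLr G d n J g0 o R t - meanLr G d m J g0 o R t) ^ 2 +
              (thN d n - thN d m) ^ 2) +
          K * farF γ j N0)
    (hI : ∫ t in Set.Ico ((1 / 2 : ℝ) ^ k) (1 + J),
      (meanLr G d n J g0 o R t - meanLr G d m J g0 o R t) ^ 2 ≤ I)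
    (hjk : j ≤ k) {b : ℝ} (hab : (1 / 2) ^ j ≤ b) (hb2 : b ≤ ((J : ℝ) + 2) * (1 / 2) ^ j)
    (hbJ : b ≤ 1 + J) (hw : b - (1 / 2) ^ j ≤ w) :
    sqDist G d n m J R b o ≤ Real.exp (K * Real.sqrt q * driftA γ j Nj * w) *
      (sqDist G d n m J R ((1 / 2) ^ j) o +
        K * Real.sqrt q * driftA γ j Nj * w * (1 / 8) ^ (4 * q) +
        K * Real.sqrt q * ((N0 : ℝ) + 1) ^ 4 * (w * (η + (thN d n - thN d m) ^ 2) + I) +
        K * farF γ j N0 * w) := by
  have hn1 : 1 ≤ n := by omega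
  have hm1 : 1 ≤ m := by omega
  set kc := K * Real.sqrt q * driftA γ j Nj with hkc
  set B1 := K * Real.sqrt q * ((N0 : ℝ) + 1) ^ 4 with hB1
  set F := K * farF γ j N0 with hF
  set δ : ℝ := (1 / 8) ^ (4 * q) with hδ
  set D := fun t => sqDist G d n m J R t o with hD
  set e := fun t => (meanLr G d n J g0 o R t - meanLr G d m J g0 o R t) ^ 2 with he
  set Δ := (thN d n - thN d m) ^ 2 with hΔ
  set a : ℝ := (1 / 2) ^ j with ha
  have hkc0 : 0 ≤ kc := mul_nonneg (by positivity) (driftA_nonneg hγ j Nj)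
  have hB10 : 0 ≤ B1 := by positivity
  have hF0 : 0 ≤ F := mul_nonneg hK (farF_nonneg hγ hγ1 j N0)
  have hw0 : 0 ≤ w := by linarith
  have hka : (1 / 2 : ℝ) ^ k ≤ a := pow_le_pow_of_le_one (by norm_num) (by norm_num) hjk
  have hDm : Measurable D := measurable_sqDist hR hn1 hm1 R o
  have hD0 : ∀ t, 0 ≤ D t := fun t => sqDist_nonneg n m J R t o
  have hD4 : ∀ t, D t ≤ 4 := fun t => sqDist_le_four hR hn1 hm1 R t o
  obtain ⟨r, hr0, hr1, hr'⟩ := abs_cav_wts d J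
  have hem : Measurable e :=
    ((measurable_meanLr hR J g0 o hn1 R).sub (measurable_meanLr hR J g0 o hm1 R)).pow_const 2
  have heC : ∀ t, |e t| ≤ (2 / (1 - r ^ 2) + 2 / (1 - r ^ 2)) ^ 2 := fun t => by
    rw [he, abs_pow]
    exact pow_le_pow_left₀ (abs_nonneg _) ((abs_sub _ _).trans (add_le_add
      (abs_meanLr_le hR hr1 (hr' hR) g0 o hn1 R t) (abs_meanLr_le hR hr1 (hr' hR) g0 o hm1 R t))) 2
  have hIG : ∀ s, ∫ t in Set.Ico a s, e t = ∫ t, e t ∂volume.restrict (Set.Ico a s) := fun _ => rfl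
  refine (gronwall_le (a := a) (b := b) (k := kc) (e := D a + kc * w * δ + B1 * (w * (η + Δ) + I) + F * w)
    hkc0 ?_ hDm hD0 hD4 ?_ b ⟨hab, le_rfl⟩).trans ?_
  · have hI0 : 0 ≤ I := le_trans (integral_nonneg fun t => sq_nonneg _) hI
    have : 0 ≤ δ := by positivity
    have := hD0 a
    positivity
  · intro t ht
    have : IsFiniteMeasure (volume.restrict (Set.Ico a t)) :=
      isFiniteMeasure_restrict.2 measure_Ico_lt_top.ne
    have htw := two_run_le (runN_ok hR hn1 J o R) (runN_ok hR hm1 J o R) (a := o)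
      (self_mem_ball hR o R) (self_mem_ball hR o R) ht.1
    refine htw.trans ?_
    have iD : Integrable D (volume.restrict (Set.Ico a t)) :=
      integrable_of_abs_le hDm (C := 4) fun y => by rw [abs_of_nonneg (hD0 y)]; exact hD4 y
    have ie : Integrable e (volume.restrict (Set.Ico a t)) := integrable_of_abs_le hem heC
    have i1 : Integrable (fun y => kc * D y + (kc * δ + B1 * (η + Δ) + F))
        (volume.restrict (Set.Ico a t)) := (iD.const_mul kc).add (integrable_const _)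
    have hle := integral_mono_of_nonneg (μ := volume.restrict (Set.Ico a t))
      (f := fun y => ∑ s ∈ (runN G d n J o R).A ∪ (runN G d m J o R).A,
        if lo s.2 ≤ y ∧ y < lo s.2 + wid s.2 then
          1 / wid s.2 * ∫ ω, ∫ z, ((runN G d n J o R).inc G ((runN G d n J o R).st G ω y) o s z -
            (runN G d m J o R).inc G ((runN G d m J o R).st G ω y) o s z) ^ 2
              ∂unifR ∂iidU (V × (ℤ × Bool))
        else 0)
      (g := fun y => (kc * D y + (kc * δ + B1 * (η + Δ) + F)) + B1 * e y)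
      (ae_of_all _ fun y => sum_nonneg fun s _ => ?_) (i1.add (ie.const_mul B1)) ?_
    rotate_left
    · split_ifs
      · exact mul_nonneg (one_div_nonneg.2 (wid_pos s.2).le)
          (integral_nonneg fun ω => integral_nonneg fun _ => sq_nonneg _)
      · exact le_rfl
    · filter_upwards [ae_restrict_mem measurableSet_Ico] with y hy
      have hyb : y ≤ b := hy.2.le.trans ht.2
      refine (rate_le hR hn hm (hka.trans hy.1)).trans ((hdrift y hy.1 (hyb.trans hb2)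
        (hyb.trans hbJ)).trans (le_of_eq ?_))
      simp only [hD, he, hΔ]
      ring
    rw [integral_add i1 (ie.const_mul B1), integral_add (iD.const_mul kc) (integrable_const _),
      integral_const_mul, integral_const_mul, integral_const, measureReal_restrict_apply_univ,
      Real.volume_real_Ico_of_le ht.1, smul_eq_mul] at hle
    have hIt : ∫ y in Set.Ico a t, e y ≤ I := by
      refine le_trans (setIntegral_mono_set ?_ (ae_of_all _ fun y => sq_nonneg _)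
        (Set.Ico_subset_Ico hka (ht.2.trans hbJ)).eventuallyLE) hI
      have : IsFiniteMeasure (volume.restrict (Set.Ico ((1 / 2 : ℝ) ^ k) (1 + J))) :=
        isFiniteMeasure_restrict.2 measure_Ico_lt_top.ne
      exact integrable_of_abs_le hem heC
    have hl : (t - a) * (kc * δ + B1 * (η + Δ) + F) ≤ w * (kc * δ + B1 * (η + Δ) + F) :=
      mul_le_mul_of_nonneg_right (by linarith [ht.2]) (by positivity)
    have hl2 := mul_le_mul_of_nonneg_left hIt hB10
    show (∫ ω, ((runN G d n J o R).m G ω a o - (runN G d m J o R).m G ω a o) ^ 2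
      ∂iidU (V × (ℤ × Bool))) + _ ≤ _
    have hDa : D a = ∫ ω, ((runN G d n J o R).m G ω a o - (runN G d m J o R).m G ω a o) ^ 2
      ∂iidU (V × (ℤ × Bool)) := rfl
    rw [← hDa]
    linarith
  · have hI0 : 0 ≤ I := le_trans (integral_nonneg fun t => sq_nonneg _) hI
    have : 0 ≤ δ := by positivity
    have := hD0 a
    rw [mul_comm]
    refine mul_le_mul_of_nonneg_right (Real.exp_le_exp.2 ?_) (by positivity)
    exact mul_le_mul_of_nonneg_left hw hkc0

/-- The windows together. -/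
lemma evolution (hR : Reg G d) {K γ η I : ℝ} {g0 : V} {q N0 : ℕ} (hK : 0 ≤ K) (hγ : 0 < γ)
    (hγ1 : γ ≤ 1) (hη : 0 ≤ η) (Nf : ℕ → ℕ) (hn : k + 4 ≤ n) (hm : k + 4 ≤ m)
    (hdrift : ∀ j, j ≤ k → ∀ t : ℝ, (1 / 2) ^ j ≤ t → t ≤ ((J : ℝ) + 2) * (1 / 2) ^ j →
      t ≤ 1 + J →
      ∑ b ∈ ball G o R, ∫ ω, phi G (runN G d n J o R) (runN G d m J o R) t o b ω
          ∂iidU (V × (ℤ × Bool)) ≤
        K * Real.sqrt q * driftA γ j (Nf j) * (sqDist G d n m J R t o + (1 / 8) ^ (4 * q)) +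
          K * Real.sqrt q * ((N0 : ℝ) + 1) ^ 4 *
            (η + (meanLr G d n J g0 o R t - meanLr G d m J g0 o R t) ^ 2 +
              (thN d n - thN d m) ^ 2) +
          K * farF γ j N0)
    (hI : ∫ t in Set.Ico ((1 / 2 : ℝ) ^ k) (1 + J),
      (meanLr G d n J g0 o R t - meanLr G d m J g0 o R t) ^ 2 ≤ I) :
    sqDist G d n m J R (1 + J) o ≤
      Real.exp (∑ j ∈ range (k + 1),
          K * Real.sqrt q * driftA γ j (Nf j) * (((J : ℝ) + 1) * (1 / 2) ^ j)) *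
        (sqDist G d n m J R ((1 / 2) ^ k) o +
          (∑ j ∈ range (k + 1),
            K * Real.sqrt q * driftA γ j (Nf j) * (((J : ℝ) + 1) * (1 / 2) ^ j)) * (1 / 8) ^ (4 * q) +
          ∑ j ∈ range (k + 1), (K * Real.sqrt q * ((N0 : ℝ) + 1) ^ 4 *
              (((J : ℝ) + 1) * (1 / 2) ^ j * (η + (thN d n - thN d m) ^ 2) + I) +
            K * farF γ j N0 * (((J : ℝ) + 1) * (1 / 2) ^ j))) := by
  have hI0 : 0 ≤ I := le_trans (integral_nonneg fun t => sq_nonneg _) hI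
  set x : ℕ → ℝ := fun j => K * Real.sqrt q * driftA γ j (Nf j) * (((J : ℝ) + 1) * (1 / 2) ^ j) with hx
  set y : ℕ → ℝ := fun j => K * Real.sqrt q * ((N0 : ℝ) + 1) ^ 4 *
      (((J : ℝ) + 1) * (1 / 2) ^ j * (η + (thN d n - thN d m) ^ 2) + I) +
    K * farF γ j N0 * (((J : ℝ) + 1) * (1 / 2) ^ j) with hy
  set δ : ℝ := (1 / 8) ^ (4 * q) with hδ
  have hx0 : ∀ j, 0 ≤ x j := fun j =>
    mul_nonneg (mul_nonneg (by positivity) (driftA_nonneg hγ j _)) (by positivity)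
  have hy0 : ∀ j, 0 ≤ y j := fun j => by
    have := farF_nonneg hγ hγ1 j N0
    simp only [hy]
    positivity
  have hwin : ∀ j, j ≤ k → ∀ b : ℝ, (1 / 2) ^ j ≤ b → b ≤ ((J : ℝ) + 2) * (1 / 2) ^ j → b ≤ 1 + J →
      b - (1 / 2) ^ j ≤ ((J : ℝ) + 1) * (1 / 2) ^ j →
      sqDist G d n m J R b o ≤
        Real.exp (x j) * (sqDist G d n m J R ((1 / 2) ^ j) o + x j * δ + y j) := by
    intro j hj b h1 h2 h3 h4
    refine (window_le hR hK hγ hγ1 hη hn hm (hdrift j hj) hI hj h1 h2 h3 h4).trans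
      (le_of_eq ?_)
    simp only [hx, hy, hδ]
    ring
  suffices h : ∀ i, i ≤ k → sqDist G d n m J R (1 + J) o ≤ Real.exp (∑ j ∈ range (i + 1), x j) *
      (sqDist G d n m J R ((1 / 2) ^ i) o + (∑ j ∈ range (i + 1), x j) * δ +
        ∑ j ∈ range (i + 1), y j) from h k le_rfl
  intro i
  induction i with
  | zero =>
    intro _
    simp only [zero_add, sum_range_one]
    have hJ : (0 : ℝ) ≤ J := Nat.cast_nonneg J
    refine hwin 0 (Nat.zero_le k) _ ?_ ?_ le_rfl ?_ <;> simp <;> linarith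
  | succ i ih =>
    intro hi
    have hJ : (0 : ℝ) ≤ J := Nat.cast_nonneg J
    have hp : 0 < (1 / 2 : ℝ) ^ i := by positivity
    have hp1 : (1 / 2 : ℝ) ^ i ≤ 1 := pow_le_one₀ (by norm_num) (by norm_num)
    have e : (1 / 2 : ℝ) ^ (i + 1) = (1 / 2) ^ i / 2 := by rw [pow_succ]; ring
    have hs := hwin (i + 1) hi ((1 / 2) ^ i) (by linarith) (by rw [e]; nlinarith) (by linarith)
      (by rw [e]; nlinarith)
    refine (ih (by omega)).trans ?_
    rw [sum_range_succ x (i + 1), sum_range_succ y (i + 1), Real.exp_add]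
    set S := ∑ j ∈ range (i + 1), x j
    set E := ∑ j ∈ range (i + 1), y j
    set D := sqDist G d n m J R ((1 / 2) ^ (i + 1)) o
    have hD : 0 ≤ D := sqDist_nonneg n m J R _ o
    have hS : 0 ≤ S := sum_nonneg fun j _ => hx0 j
    have hE : 0 ≤ E := sum_nonneg fun j _ => hy0 j
    have h1 : 1 ≤ Real.exp (x (i + 1)) := Real.one_le_exp (hx0 _)
    have h2 : 0 ≤ S * δ + E := add_nonneg (mul_nonneg hS (by positivity)) hE
    rw [mul_assoc]
    refine mul_le_mul_of_nonneg_left ?_ (Real.exp_pos _).le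
    have h3 := le_mul_of_one_le_left h2 h1
    linarith

/-- Choice of the parameters. -/
lemma exists_param (C ε : ℝ) (hC : 0 ≤ C) (hε : 0 < ε) : ∃ q : ℕ, 1 ≤ q ∧
    Real.exp (C * Real.sqrt q) * (C * Real.sqrt q * (1 / 8) ^ (4 * q)) ≤ ε := by
  obtain ⟨M, hM⟩ := exists_nat_ge (max (2 * C + 1) (1 / ε))
  have hM1 : 2 * C + 1 ≤ (M : ℝ) := (le_max_left _ _).trans hM
  have hM2 : 1 / ε ≤ (M : ℝ) := (le_max_right _ _).trans hM
  have hM0 : (1 : ℝ) ≤ M := by linarith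
  refine ⟨M * M, Nat.one_le_iff_ne_zero.2 (by
    have : 1 ≤ M := by exact_mod_cast hM0
    positivity), ?_⟩
  rw [Nat.cast_mul, Real.sqrt_mul_self (by positivity)]
  have h1 : C * M ≤ Real.exp (C * M) := by linarith [Real.add_one_le_exp (C * M)]
  have h2 : (1 / 8 : ℝ) ^ (4 * (M * M)) ≤ Real.exp (-((M : ℝ) * M)) := by
    have h8 : (1 / 8 : ℝ) ≤ Real.exp (-1) := by
      rw [show (-1 : ℝ) = -1 / 2 + -1 / 2 by norm_num, Real.exp_add]
      nlinarith [Real.add_one_le_exp (-1 / 2 : ℝ)]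
    refine (pow_le_pow_of_le_one (by norm_num) (by norm_num)
      (Nat.le_mul_of_pos_left (M * M) (by norm_num : 0 < 4))).trans ?_
    refine (pow_le_pow_left₀ (by norm_num) h8 _).trans (le_of_eq ?_)
    rw [← Real.exp_nat_mul]
    push_cast
    ring_nf
  calc Real.exp (C * M) * (C * M * (1 / 8) ^ (4 * (M * M)))
      ≤ Real.exp (C * M) * (Real.exp (C * M) * Real.exp (-((M : ℝ) * M))) :=
        mul_le_mul_of_nonneg_left (mul_le_mul h1 h2 (by positivity) (Real.exp_pos _).le)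
          (Real.exp_pos _).le
    _ = Real.exp (C * M + (C * M + -((M : ℝ) * M))) := by rw [Real.exp_add, Real.exp_add]
    _ ≤ Real.exp (-M) := by
        rw [Real.exp_le_exp]
        nlinarith
    _ ≤ ε := by
        rw [Real.exp_neg, inv_le_comm₀ (Real.exp_pos _) hε, ← one_div]
        linarith [Real.add_one_le_exp (M : ℝ)]

lemma tendsto_farF {γ : ℝ} (hγ : 0 < γ) (hγ1 : γ ≤ 1) (j : ℕ) :
    Filter.Tendsto (fun N0 => farF γ j N0) Filter.atTop (nhds 0) := by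
  have h0 : 0 < γ * rt j := mul_pos hγ (rt_pos j)
  have h1 : γ * rt j ≤ 1 := mul_le_one₀ hγ1 (rt_pos j).le (rt_le_one j)
  have h := ((tendsto_pow_atTop_nhds_zero_of_lt_one (sub_nonneg.2 h1) (by linarith)).comp
    (Filter.tendsto_sub_atTop_nat (depth j + 3))).div_const (γ * rt j)
  rw [zero_div] at h
  refine h.congr fun N0 => ?_
  simp [farF, Function.comp, Nat.sub_sub]

lemma err_le {K γ τ Δ sq : ℝ} {N0 : ℕ} (hK : 0 ≤ K) (hγ : 0 < γ) (hγ1 : γ ≤ 1) (hsq : 0 ≤ sq)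
    (hτ : 0 ≤ τ) (hΔ0 : 0 ≤ Δ) (hΔ : Δ ≤ τ) :
    ∑ j ∈ range (k + 1), (K * sq * ((N0 : ℝ) + 1) ^ 4 *
      (((J : ℝ) + 1) * (1 / 2) ^ j * (τ + Δ) + τ) +
      K * farF γ j N0 * (((J : ℝ) + 1) * (1 / 2) ^ j)) ≤
      K * sq * ((N0 : ℝ) + 1) ^ 4 * ((4 * ((J : ℝ) + 1) + ((k : ℝ) + 1)) * τ) +
        K * ((J : ℝ) + 1) * ∑ j ∈ range (k + 1), farF γ j N0 := by
  rw [sum_add_distrib, ← mul_sum, sum_add_distrib, ← sum_mul, ← mul_sum, sum_const, card_range,
    nsmul_eq_mul, mul_sum (range (k + 1)) _ (K * ((J : ℝ) + 1))]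
  refine add_le_add (mul_le_mul_of_nonneg_left ?_ (by positivity)) (sum_le_sum fun j _ => ?_)
  · have hg2 := sum_geom_le (show (0 : ℝ) ≤ 1 / 2 by norm_num) (by norm_num) (k + 1)
    have h1 : ((J : ℝ) + 1) * (∑ j ∈ range (k + 1), (1 / 2 : ℝ) ^ j) * (τ + Δ) ≤
        ((J : ℝ) + 1) * (1 / (1 - 1 / 2)) * (2 * τ) :=
      mul_le_mul (mul_le_mul_of_nonneg_left hg2 (by positivity)) (by linarith) (by positivity)
        (by norm_num; positivity)
    push_cast
    linarith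
  · have hp : ((1 : ℝ) / 2) ^ j ≤ 1 := pow_le_one₀ (by norm_num) (by norm_num)
    calc K * farF γ j N0 * (((J : ℝ) + 1) * (1 / 2) ^ j)
        ≤ K * farF γ j N0 * (((J : ℝ) + 1) * 1) :=
          mul_le_mul_of_nonneg_left (mul_le_mul_of_nonneg_left hp (by positivity))
            (mul_nonneg hK (farF_nonneg hγ hγ1 j N0))
      _ = _ := by ring

/-- For every number of levels, the runs are a Cauchy sequence in the coupling index. -/
theorem cauchy (hR : Reg G d) (J : ℕ) {ε : ℝ} (hε : 0 < ε) :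
    ∃ N : ℕ, ∀ n m : ℕ, N ≤ n → N ≤ m → ∃ R0 : ℕ, ∀ R : ℕ, R0 ≤ R → ∀ o : V,
      ∫ ω, dsq G (runN G d n J o R) (runN G d m J o R) (1 + J) o ω
        ∂iidU (V × (ℤ × Bool)) ≤ ε := by
  classical
  rcases isEmpty_or_nonempty V with hV | hV
  · exact ⟨0, fun n m _ _ => ⟨0, fun R _ o => isEmptyElim o⟩⟩
  obtain ⟨o⟩ := hV
  obtain ⟨g0, hg⟩ : ∃ g, G.Adj g o := by
    have h : (G.neighborSet o).Nonempty := by
      rw [← Set.ncard_pos (hR.finite o), hR.deg]
      have := hR.three; omega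
    obtain ⟨g, hg⟩ := h
    exact ⟨g, (SimpleGraph.mem_neighborSet G o g).1 hg |>.symm⟩
  obtain ⟨r, hr0, hr1, hr⟩ := abs_U_le d J
  have hb : SideBound G d J r := ⟨hr0, hr1, fun P hP hθ hA => hr hR P hP hθ hA⟩
  obtain ⟨KU, hKU0, hKU⟩ := mom_abs_U d J
  have hU : MomU G d J KU := ⟨hKU0, fun P hP a b c => hKU hR P hP a b c⟩
  obtain ⟨KR, γ, hKR0, hγ, hγ20, hKR⟩ := mom_Rw d
  have hM : MomR G d KR γ := ⟨hKR0, hγ, hγ20, fun P hP => hKR hR P hP⟩
  obtain ⟨K, hK, hdrift⟩ := drift_le hR hb hU hM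
  obtain ⟨Ki, hKi0, hKi'⟩ := info_pm_le d
  have hKi := @hKi' V G hR
  have hγ1 : γ ≤ 1 := hγ20.trans (by norm_num)
  obtain ⟨Nf, S0, hS0, hsum⟩ := exists_cutoff hγ
  set C : ℝ := K * ((J : ℝ) + 1) * S0 with hC
  have hC0 : 0 ≤ C := by positivity
  obtain ⟨q, hq, hqε⟩ := exists_param C (ε / 4) hC0 (by positivity)
  set E : ℝ := Real.exp (C * Real.sqrt q) with hE
  have hE0 : 0 < E := Real.exp_pos _
  obtain ⟨k, hk⟩ : ∃ k : ℕ, E * (4 * Ki * rt k) ≤ ε / 4 := by
    have hc1 : Real.sqrt (1 / 2 : ℝ) < 1 := by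
      rw [Real.sqrt_lt' one_pos]; norm_num
    obtain ⟨k, hk⟩ := exists_pow_lt_of_lt_one
      (show 0 < ε / 4 / (E * (4 * Ki) + 1) by positivity) hc1
    refine ⟨k, ?_⟩
    rw [← rt_eq_pow, lt_div_iff₀ (by positivity)] at hk
    nlinarith [rt_pos k]
  obtain ⟨N0, hN0⟩ : ∃ N0 : ℕ, E * (K * ((J : ℝ) + 1) * ∑ j ∈ range (k + 1), farF γ j N0) ≤ ε / 4 := by
    have h := ((tendsto_finsetSum (range (k + 1)) fun j _ => tendsto_farF hγ hγ1 j).const_mul
      (K * ((J : ℝ) + 1))).const_mul E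
    simp only [sum_const_zero, mul_zero] at h
    exact (h.eventually (eventually_le_nhds (show (0 : ℝ) < ε / 4 by positivity))).exists
  set B : ℝ := E * (K * Real.sqrt q * ((N0 : ℝ) + 1) ^ 4) with hB
  have hB0 : 0 ≤ B := by positivity
  set τ : ℝ := ε / 4 / (B * (4 * ((J : ℝ) + 1) + ((k : ℝ) + 1)) + 1) with hτ
  have hτ0 : 0 < τ := by positivity
  obtain ⟨N1, hN1⟩ := mean_cauchy hR J k hg hτ0
  obtain ⟨N2, hN2⟩ := exists_pow_lt_of_lt_one hτ0 (show (1 / 2 : ℝ) < 1 by norm_num)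
  refine ⟨max (k + 4) (max N1 N2), fun n m hn hm => ?_⟩
  have hkn : k + 4 ≤ n := le_trans (le_max_left _ _) hn
  have hkm : k + 4 ≤ m := le_trans (le_max_left _ _) hm
  have hn1 : 1 ≤ n := by omega
  have hm1 : 1 ≤ m := by omega
  obtain ⟨Rn, hRn⟩ := exists_stable hR J hn1 hτ0
  obtain ⟨Rm, hRm⟩ := exists_stable hR J hm1 hτ0
  refine ⟨N0 + depth k + max Rn Rm + 4 + N1, fun R hRR o' => ?_⟩
  show sqDist G d n m J R (1 + J) o' ≤ ε
  rw [sqDist_eq hR hn1 hm1 R (1 + J) o' o]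
  have hI := hN1 n m R (le_trans (le_trans (le_max_left _ _) (le_max_right _ _)) hn)
    (le_trans (le_trans (le_max_left _ _) (le_max_right _ _)) hm) (by omega)
  have hΔ : (thN d n - thN d m) ^ 2 ≤ τ :=
    (thN_sub_sq_le hR (le_trans (le_trans (le_max_right _ _) (le_max_right _ _)) hn)
      (le_trans (le_trans (le_max_right _ _) (le_max_right _ _)) hm)).trans hN2.le
  have hev := evolution (q := q) (N0 := N0) hR hK hγ hγ1 hτ0.le Nf hkn hkm
    (fun j hj t h1 h2 h3 => hdrift n m R (max Rn Rm) τ o g0 j q (Nf j) N0 t (by omega) (by omega)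
      (hRn _ (le_max_left _ _)) (hRm _ (le_max_right _ _)) hg hq h1 h2 h3
      (by have := depth_mono hj; omega)) hI
  refine hev.trans ?_
  set Sx := ∑ j ∈ range (k + 1),
    K * Real.sqrt q * driftA γ j (Nf j) * (((J : ℝ) + 1) * (1 / 2) ^ j) with hSx
  have hx : Sx ≤ C * Real.sqrt q := by
    have h := mul_le_mul_of_nonneg_left (hsum (k + 1))
      (show 0 ≤ K * Real.sqrt q * ((J : ℝ) + 1) by positivity)
    rw [mul_sum] at h
    refine le_trans (le_of_eq ?_) (h.trans (le_of_eq (by rw [hC]; ring)))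
    exact sum_congr rfl fun j _ => by ring
  have hD := sqDist_le_sqrt (J := J) hR hKi hn1 hm1 R (t := (1 / 2) ^ k) (by positivity) o
  rw [← rt] at hD
  have hErr := err_le (k := k) (J := J) (N0 := N0) hK hγ hγ1 (show 0 ≤ Real.sqrt q from Real.sqrt_nonneg _)
    hτ0.le (sq_nonneg (thN d n - thN d m)) hΔ
  have hBτ : B * ((4 * ((J : ℝ) + 1) + ((k : ℝ) + 1)) * τ) ≤ ε / 4 := by
    have hpos : 0 ≤ B * (4 * ((J : ℝ) + 1) + ((k : ℝ) + 1)) := by positivity
    have e : (B * (4 * ((J : ℝ) + 1) + ((k : ℝ) + 1)) + 1) * τ = ε / 4 := by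
      rw [hτ]; field_simp
    nlinarith
  have hSx0 : 0 ≤ Sx := sum_nonneg fun j _ =>
    mul_nonneg (mul_nonneg (by positivity) (driftA_nonneg hγ j _)) (by positivity)
  have hinner : 0 ≤ sqDist G d n m J R ((1 / 2) ^ k) o := sqDist_nonneg n m J R _ o
  calc _ ≤ E * (4 * Ki * rt k + C * Real.sqrt q * (1 / 8) ^ (4 * q) +
        (K * Real.sqrt q * ((N0 : ℝ) + 1) ^ 4 * ((4 * ((J : ℝ) + 1) + ((k : ℝ) + 1)) * τ) +
          K * ((J : ℝ) + 1) * ∑ j ∈ range (k + 1), farF γ j N0)) := by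
        refine mul_le_mul (Real.exp_le_exp.2 hx)
          (add_le_add (add_le_add hD (mul_le_mul_of_nonneg_right hx (by positivity))) hErr)
          (add_nonneg (add_nonneg hinner (mul_nonneg hSx0 (by positivity)))
            (sum_nonneg fun j _ => ?_)) hE0.le
        have := farF_nonneg hγ hγ1 j N0
        positivity
    _ ≤ _ := by
        rw [hB] at hBτ
        linarith

end Vale.Agent.P161.Crit
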