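import Vale.Agent.P161.Crit.Pointwise
import Vale.Agent.P161.Automorphism

/-!
# P161, critical point: change of centre and invariance of expectations
-/

open MeasureTheory SimpleGraph Finset

namespace Vale.Agent.P161.Crit

variable {V : Type*} {G : SimpleGraph V} {d : ℕ}

lemma Run.U_map (P : Run V) (hG : G.Connected) (g : G ≃g G) (ω : V × (ℤ × Bool) → ℝ) (t : ℝ)
    (p c : V) : (P.map g).U G t (g p) (g c) (actC g ω) = P.U G t p c ω := by
  simp only [Run.U, st_map hG]
  exact cav_map hG g _ p c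

lemma Run.pth_map (P : Run V) (hG : G.Connected) (g : G ≃g G) (ω : V × (ℤ × Bool) → ℝ) (t : ℝ)
    (w : ℕ → V) (l : ℕ) : (P.map g).pth G t (fun i => g (w i)) l (actC g ω) = P.pth G t w l ω := by
  simp only [Run.pth, st_map hG]
  exact pthW_map hG g _ w l

lemma dlr_map (P Q : Run V) (hG : G.Connected) (g : G ≃g G) (ω : V × (ℤ × Bool) → ℝ) (t : ℝ)
    (p c : V) : dlr G (P.map g) (Q.map g) t (g p) (g c) (actC g ω) = dlr G P Q t p c ω := by
  simp only [dlr, Run.U_map _ hG]
  rfl

lemma dsq_map (P Q : Run V) (hG : G.Connected) (g : G ≃g G) (ω : V × (ℤ × Bool) → ℝ) (t : ℝ)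
    (v : V) : dsq G (P.map g) (Q.map g) t (g v) (actC g ω) = dsq G P Q t v ω := by
  simp only [dsq, m_map hG]

lemma runN_lev {n J : ℕ} {o : V} {R : ℕ} : ∀ s ∈ (runN G d n J o R).A, s.2 < (J : ℤ) :=
  fun _ hs => (mem_Ico.1 (mem_product.1 hs).2).2

lemma pairOk_runN (hR : Reg G d) {n m : ℕ} (hn : 1 ≤ n) (hm : 1 ≤ m) (J : ℕ) (o o' : V)
    (R R' : ℕ) : PairOk G d J (runN G d n J o R) (runN G d m J o' R') :=
  ⟨hR, runN_ok hR hn J o R, runN_ok hR hm J o' R', (thN_spec hR hn).2.2.2.1.le,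
    (thN_spec hR hm).2.2.2.1.le, runN_lev, runN_lev⟩

/-- The magnetisation hardly depends on a centre that is far enough. -/
def Stable (G : SimpleGraph V) (d J n R0 : ℕ) (η : ℝ) : Prop :=
  ∀ (a o o' : V) (R R' : ℕ), G.dist o a + R0 ≤ R → G.dist o' a + R0 ≤ R' → ∀ t ≤ 1 + (J : ℝ),
    ∫ ω, |(runN G d n J o R).m G ω t a - (runN G d n J o' R').m G ω t a|
      ∂iidU (V × (ℤ × Bool)) ≤ η

/-- A bound `r < 1` on every side of the runs with levels below `J`. -/
def SideBound (G : SimpleGraph V) (d J : ℕ) (r : ℝ) : Prop :=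
  0 ≤ r ∧ r < 1 ∧ ∀ P : Run V, P.Ok G → P.θ ^ 2 * ((d : ℝ) - 1) ≤ 1 →
    (∀ s ∈ P.A, s.2 < (J : ℤ)) →
    ∀ (t : ℝ) (p c : V) (ω : V × (ℤ × Bool) → ℝ), |P.U G t p c ω| ≤ r

/-- The Lipschitz constant of the damping exponent. -/
noncomputable def lrC (r : ℝ) : ℝ := 2 / (1 - r ^ 2) * 2049

lemma lrC_nonneg {r : ℝ} (h0 : 0 ≤ r) (h1 : r < 1) : 0 ≤ lrC r := by
  have : 0 < 1 - r ^ 2 := by nlinarith
  rw [lrC]; positivity

variable (hR : Reg G d) {n m J R0 R : ℕ} {η r : ℝ} {o : V} (hn : 1 ≤ n) (hm : 1 ≤ m)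
  (hb : SideBound G d J r)
include hR hn hm hb

lemma abs_dlr_runN {o' : V} {R' : ℕ} {p c : V} (hpc : G.Adj p c) (hp : G.dist o p ≤ R)
    (hc : G.dist o c ≤ R) (hp' : G.dist o' p ≤ R') (hc' : G.dist o' c ≤ R') (t : ℝ)
    (ω : V × (ℤ × Bool) → ℝ) :
    |dlr G (runN G d n J o R) (runN G d m J o' R') t p c ω| ≤ lrC r *
      ((|(runN G d n J o R).U G t p c ω| + |(runN G d m J o' R').U G t p c ω|) *
          (|(runN G d n J o R).m G ω t c - (runN G d m J o' R').m G ω t c| +
            |(runN G d n J o R).m G ω t p - (runN G d m J o' R').m G ω t p|) +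
        |thN d n - thN d m|) := by
  have h := pairOk_runN hR hn hm J o o' R R'
  exact abs_dlr_le hb.2.1 h hpc ((mem_ball hR).2 hp) ((mem_ball hR).2 hc) ((mem_ball hR).2 hp')
    ((mem_ball hR).2 hc') t ω (hb.2.2 _ h.fst h.fst_le h.fst_lev t p c ω)
    (hb.2.2 _ h.snd h.snd_le h.snd_lev t p c ω)

omit hm in
/-- The damping exponent hardly depends on the centre. -/
lemma integral_dlr_centre (hS : Stable G d J n R0 η) {o' : V} {R' : ℕ} {p c : V} (hpc : G.Adj p c)
    (hp : G.dist o p + R0 ≤ R) (hc : G.dist o c + R0 ≤ R) (hp' : G.dist o' p + R0 ≤ R')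
    (hc' : G.dist o' c + R0 ≤ R') {t : ℝ} (ht : t ≤ 1 + J) :
    Integrable (fun ω => |dlr G (runN G d n J o R) (runN G d n J o' R') t p c ω|)
        (iidU (V × (ℤ × Bool))) ∧
      ∫ ω, |dlr G (runN G d n J o R) (runN G d n J o' R') t p c ω| ∂iidU (V × (ℤ × Bool)) ≤
        4 * lrC r * η := by
  set P := runN G d n J o R
  set Q := runN G d n J o' R'
  have hP : P.Ok G := runN_ok hR hn J o R
  have hQ : Q.Ok G := runN_ok hR hn J o' R'
  have hC := lrC_nonneg hb.1 hb.2.1
  have key : ∀ ω, |dlr G P Q t p c ω| ≤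
      2 * lrC r * (|P.m G ω t c - Q.m G ω t c| + |P.m G ω t p - Q.m G ω t p|) := fun ω => by
    refine (abs_dlr_runN hR hn hn hb hpc (by omega) (by omega) (by omega) (by omega) t ω).trans ?_
    have h2 : |P.U G t p c ω| + |Q.U G t p c ω| ≤ 2 := by
      linarith [hP.abs_U t p c ω, hQ.abs_U t p c ω]
    rw [sub_self, abs_zero, add_zero, mul_comm 2 (lrC r), mul_assoc]
    exact mul_le_mul_of_nonneg_left (mul_le_mul_of_nonneg_right h2 (by positivity)) hC
  have i1 : ∀ v, Integrable (fun ω => |P.m G ω t v - Q.m G ω t v|) (iidU (V × (ℤ × Bool))) :=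
    fun v => integrable_of_abs_le ((measurable_m_at hP t v).sub (measurable_m_at hQ t v)).norm
      (C := 2) fun ω => by
        rw [abs_abs]
        linarith [abs_sub (P.m G ω t v) (Q.m G ω t v), hP.abs_m_le ω t v, hQ.abs_m_le ω t v]
  have i2 : Integrable (fun ω => |dlr G P Q t p c ω|) (iidU (V × (ℤ × Bool))) :=
    integrable_of_abs_le (measurable_dlr hP hQ t p c).norm (C := 8 * lrC r) fun ω => by
      rw [abs_abs]
      refine (key ω).trans ?_
      nlinarith [abs_sub (P.m G ω t c) (Q.m G ω t c), hP.abs_m_le ω t c, hQ.abs_m_le ω t c,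
        abs_sub (P.m G ω t p) (Q.m G ω t p), hP.abs_m_le ω t p, hQ.abs_m_le ω t p]
  refine ⟨i2, ?_⟩
  calc ∫ ω, |dlr G P Q t p c ω| ∂iidU (V × (ℤ × Bool))
      ≤ ∫ ω, 2 * lrC r * (|P.m G ω t c - Q.m G ω t c| + |P.m G ω t p - Q.m G ω t p|)
          ∂iidU (V × (ℤ × Bool)) := integral_mono i2 (((i1 c).add (i1 p)).const_mul _) key
    _ = 2 * lrC r * ((∫ ω, |P.m G ω t c - Q.m G ω t c| ∂iidU (V × (ℤ × Bool))) +
          ∫ ω, |P.m G ω t p - Q.m G ω t p| ∂iidU (V × (ℤ × Bool))) := by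
        rw [integral_const_mul, integral_add (i1 c) (i1 p)]
    _ ≤ _ := by
        nlinarith [hS c o o' R R' hc hc' t ht, hS p o o' R R' hp hp' t ht]

omit hm in
/-- The damping along a geodesic hardly depends on the centre. -/
lemma integral_pth_centre (hS : Stable G d J n R0 η) {o' : V} {R' : ℕ} {w : ℕ → V} {l : ℕ}
    (hw : IsGeo G w l) (h : ∀ i ≤ l, G.dist o (w i) + R0 ≤ R)
    (h' : ∀ i ≤ l, G.dist o' (w i) + R0 ≤ R') {t : ℝ} (ht : t ≤ 1 + J) :
    ∫ ω, |(runN G d n J o R).pth G t w l ω - (runN G d n J o' R').pth G t w l ω|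
        ∂iidU (V × (ℤ × Bool)) ≤ l * (4 * lrC r * η) := by
  set P := runN G d n J o R
  set Q := runN G d n J o' R'
  have hP : P.Ok G := runN_ok hR hn J o R
  have hQ : Q.Ok G := runN_ok hR hn J o' R'
  have hi : ∀ i ∈ range l, Integrable (fun ω => |dlr G P Q t (w i) (w (i + 1)) ω|)
      (iidU (V × (ℤ × Bool))) ∧ ∫ ω, |dlr G P Q t (w i) (w (i + 1)) ω|
      ∂iidU (V × (ℤ × Bool)) ≤ 4 * lrC r * η := fun i hi => by
    rw [mem_range] at hi
    exact integral_dlr_centre hR hn hb hS (hw.1 i hi) (h i hi.le) (h (i + 1) hi) (h' i hi.le)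
      (h' (i + 1) hi) ht
  calc ∫ ω, |P.pth G t w l ω - Q.pth G t w l ω| ∂iidU (V × (ℤ × Bool))
      ≤ ∫ ω, ∑ i ∈ range l, |dlr G P Q t (w i) (w (i + 1)) ω| ∂iidU (V × (ℤ × Bool)) :=
        integral_mono_of_nonneg (ae_of_all _ fun ω => abs_nonneg _)
          (integrable_finsetSum _ fun i h => (hi i h).1)
          (ae_of_all _ fun ω => (abs_pth_sub hP hQ t w l ω).trans (abs_sum_le_sum_abs _ _))
    _ = ∑ i ∈ range l, ∫ ω, |dlr G P Q t (w i) (w (i + 1)) ω| ∂iidU (V × (ℤ × Bool)) :=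
        integral_finsetSum _ fun i h => (hi i h).1
    _ ≤ _ := by
        refine (sum_le_sum fun i h => (hi i h).2).trans (le_of_eq ?_)
        simp

omit hb in
/-- The squared distance hardly depends on the centre. -/
lemma integral_dsq_centre (hSn : Stable G d J n R0 η) (hSm : Stable G d J m R0 η) {o' a : V}
    {R' : ℕ} (h : G.dist o a + R0 ≤ R) (h' : G.dist o' a + R0 ≤ R') {t : ℝ} (ht : t ≤ 1 + J) :
    ∫ ω, |dsq G (runN G d n J o R) (runN G d m J o R) t a ω -
        dsq G (runN G d n J o' R') (runN G d m J o' R') t a ω| ∂iidU (V × (ℤ × Bool)) ≤ 8 * η := by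
  set P := runN G d n J o R
  set Q := runN G d m J o R
  set P' := runN G d n J o' R'
  set Q' := runN G d m J o' R'
  have hP : P.Ok G := runN_ok hR hn J o R
  have hQ : Q.Ok G := runN_ok hR hm J o R
  have hP' : P'.Ok G := runN_ok hR hn J o' R'
  have hQ' : Q'.Ok G := runN_ok hR hm J o' R'
  have i1 : ∀ {A B : Run V}, A.Ok G → B.Ok G →
      Integrable (fun ω => |A.m G ω t a - B.m G ω t a|) (iidU (V × (ℤ × Bool))) :=
    fun {A B} hA hB => integrable_of_abs_le
      ((measurable_m_at hA t a).sub (measurable_m_at hB t a)).norm (C := 2) fun ω => by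
        rw [abs_abs]
        linarith [abs_sub (A.m G ω t a) (B.m G ω t a), hA.abs_m_le ω t a, hB.abs_m_le ω t a]
  calc ∫ ω, |dsq G P Q t a ω - dsq G P' Q' t a ω| ∂iidU (V × (ℤ × Bool))
      ≤ ∫ ω, 4 * (|P.m G ω t a - P'.m G ω t a| + |Q.m G ω t a - Q'.m G ω t a|)
          ∂iidU (V × (ℤ × Bool)) := by
        refine integral_mono_of_nonneg (ae_of_all _ fun ω => abs_nonneg _)
          (((i1 hP hP').add (i1 hQ hQ')).const_mul 4) (ae_of_all _ fun ω => ?_)
        simp only [dsq]
        rw [sq_sub_sq, abs_mul]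
        refine mul_le_mul ?_ ?_ (abs_nonneg _) (by norm_num)
        · linarith [abs_add_le (P.m G ω t a - Q.m G ω t a) (P'.m G ω t a - Q'.m G ω t a),
            abs_sub (P.m G ω t a) (Q.m G ω t a), abs_sub (P'.m G ω t a) (Q'.m G ω t a),
            hP.abs_m_le ω t a, hQ.abs_m_le ω t a, hP'.abs_m_le ω t a, hQ'.abs_m_le ω t a]
        · refine le_trans (le_of_eq ?_) (abs_sub _ _)
          congr 1
          ring
    _ = 4 * ((∫ ω, |P.m G ω t a - P'.m G ω t a| ∂iidU (V × (ℤ × Bool))) +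
          ∫ ω, |Q.m G ω t a - Q'.m G ω t a| ∂iidU (V × (ℤ × Bool))) := by
        rw [integral_const_mul, integral_add (i1 hP hP') (i1 hQ hQ')]
    _ ≤ _ := by linarith [hSn a o o' R R' h h' t ht, hSm a o o' R R' h h' t ht]

end Vale.Agent.P161.Crit

namespace Vale.Agent.P161.Crit

variable {V : Type*} {G : SimpleGraph V} {d : ℕ}

lemma pthW_shift (θ : ℝ) (B : Finset V) (W : V → Bool → ℝ) (w : ℕ → V) (a b : ℕ) :
    pthW G θ B W w (a + b) = pthW G θ B W w a * pthW G θ B W (fun k => w (a + k)) b := by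
  rw [pthW, pthW, pthW, prod_range_add]
  rfl

/-- The average over the edges at the centre of the damping of the runs with index `k`. -/
noncomputable def rbar (G : SimpleGraph V) (d k J R : ℕ) (t : ℝ) (h : ℕ) (o : V)
    (ω : V × (ℤ × Bool) → ℝ) : ℝ :=
  1 / (d : ℝ) * ∑ g ∈ kid G (ball G o R) o o,
    Rw G d (thN d k) (ball G o R) ((runN G d k J o R).st G ω t) h o g

/-- The mean of the squared distance at the centre against the averaged damping. -/
noncomputable def Phi (G : SimpleGraph V) (d n m J R : ℕ) (t : ℝ) (h : ℕ) (o : V) : ℝ :=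
  ∫ ω, dsq G (runN G d n J o R) (runN G d m J o R) t o ω *
    (rbar G d n J R t h o ω + rbar G d m J R t h o ω) ∂iidU (V × (ℤ × Bool))

variable (hR : Reg G d) {n m k J R0 R : ℕ} {η r : ℝ} {o : V} (hn : 1 ≤ n) (hm : 1 ≤ m)
  (hk : 1 ≤ k)
include hR hk

lemma rbar_mem (t : ℝ) (h : ℕ) (o : V) (ω : V × (ℤ × Bool) → ℝ) :
    0 ≤ rbar G d k J R t h o ω ∧ rbar G d k J R t h o ω ≤ 1 := by
  have hP := runN_ok hR hk J o R
  have hW := hP.abs_lt
  have hd : (0 : ℝ) < d := by exact_mod_cast (by have := hR.three; omega : 0 < d)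
  have hp := (runN G d k J o R).st_pos (G := G) ω t
  refine ⟨mul_nonneg (by positivity) (sum_nonneg fun g _ => Rw_nonneg hR hW hp h o g), ?_⟩
  rw [rbar, one_div_mul_eq_div, div_le_one hd]
  refine (sum_le_sum fun g hg => Rw_le_one hR hW hp (mem_kid.1 hg).2.1 h).trans ?_
  rw [sum_const, nsmul_one]
  exact_mod_cast kid_card_le (by have := hR.three; omega) hR.deg o o

lemma rbar_anti (t : ℝ) {h h' : ℕ} (hh : h ≤ h') (o : V) (ω : V × (ℤ × Bool) → ℝ) :
    rbar G d k J R t h' o ω ≤ rbar G d k J R t h o ω := by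
  have hd : (0 : ℝ) < d := by exact_mod_cast (by have := hR.three; omega : 0 < d)
  have hW := (runN_ok hR hk J o R).abs_lt
  refine mul_le_mul_of_nonneg_left (sum_le_sum fun g hg => ?_) (by positivity)
  exact antitone_nat_of_succ_le (f := fun i => Rw G d (thN d k) (ball G o R)
      ((runN G d k J o R).st G ω t) i o g)
    (fun i => Rw_anti hR hW ((runN G d k J o R).st_pos ω t) i o g (mem_kid.1 hg).2.1) hh

lemma measurable_rbar (t : ℝ) (h : ℕ) (o : V) : Measurable (rbar G d k J R t h o) :=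
  (Finset.measurable_fun_sum _ fun g _ =>
    measurable_Rw (measurable_st_at (runN_ok hR hk J o R) t) _ _ h o g).const_mul _

/-- The damping from the centre, averaged over a sphere. -/
lemma sum_sphere_pth {h : ℕ} (hh : h + 1 ≤ R) (t : ℝ) (o : V) (ω : V × (ℤ × Bool) → ℝ) :
    ∑ x ∈ sphere G o (h + 1), (runN G d k J o R).pth G t (geo G o x) (h + 1) ω =
      (d : ℝ) * ((d : ℝ) - 1) ^ h * rbar G d k J R t h o ω := by
  classical
  have hd : (d : ℝ) ≠ 0 := by exact_mod_cast (by have := hR.three; omega : d ≠ 0)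
  have hf : (sphere G o (h + 1)).filter (· ∈ ball G o R) = sphere G o (h + 1) :=
    filter_true_of_mem fun x hx => (mem_ball hR).2 (by rw [(mem_sphere hR).1 hx]; omega)
  have := sum_sphere_pthW (W := (runN G d k J o R).st G ω t) (θ := thN d k) hR (connected_ball hR o R)
    (self_mem_ball hR o R) h
  rw [hf] at this
  refine this.trans ?_
  simp only [rbar]
  field_simp

include hn hm

omit hk in
lemma Phi_anti (t : ℝ) {h h' : ℕ} (hh : h ≤ h') (o : V) :
    Phi G d n m J R t h' o ≤ Phi G d n m J R t h o := by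
  have hP := runN_ok hR hn J o R
  have hQ := runN_ok hR hm J o R
  have hi : ∀ i, Integrable (fun ω => dsq G (runN G d n J o R) (runN G d m J o R) t o ω *
      (rbar G d n J R t i o ω + rbar G d m J R t i o ω)) (iidU (V × (ℤ × Bool))) := fun i =>
    integrable_of_abs_le ((measurable_dsq hP hQ t o).mul
      ((measurable_rbar hR hn t i o).add (measurable_rbar hR hm t i o))) (C := 8) fun ω => by
      obtain ⟨a0, a1⟩ := rbar_mem (J := J) (R := R) hR hn t i o ω
      obtain ⟨b0, b1⟩ := rbar_mem (J := J) (R := R) hR hm t i o ω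
      have h4 := dsq_le_four hP hQ t o ω
      have h0 : 0 ≤ dsq G (runN G d n J o R) (runN G d m J o R) t o ω := sq_nonneg _
      rw [abs_of_nonneg (mul_nonneg h0 (add_nonneg a0 b0))]
      refine (mul_le_mul h4 (add_le_add a1 b1) (add_nonneg a0 b0) (by norm_num)).trans ?_
      norm_num
  refine integral_mono (hi h') (hi h) fun ω => ?_
  exact mul_le_mul_of_nonneg_left (add_le_add (rbar_anti hR hn t hh o ω) (rbar_anti hR hm t hh o ω))
    (sq_nonneg _)

omit hk in
/-- The squared distance at one end of a pair against the damping along it only depends on the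
distance of the pair. -/
lemma integral_dsq_pth_eq {k : ℕ} (hk : 1 ≤ k) {a x a' x' : V} {l : ℕ} (h : G.dist a x = l)
    (h' : G.dist a' x' = l) (t : ℝ) :
    ∫ ω, dsq G (runN G d n J a R) (runN G d m J a R) t a ω *
        (runN G d k J a R).pth G t (geo G a x) l ω ∂iidU (V × (ℤ × Bool)) =
      ∫ ω, dsq G (runN G d n J a' R) (runN G d m J a' R) t a' ω *
        (runN G d k J a' R).pth G t (geo G a' x') l ω ∂iidU (V × (ℤ × Bool)) := by
  have hT := hR.tree
  obtain ⟨g, hga, hgx⟩ := exists_iso_pair hT (by have := hR.three; omega) hR.deg l a x a' x' h h'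
  have hg : IsGeo G (geo G a x) l := h ▸ isGeo_geo hT a x
  refine Eq.trans ?_ (integral_actC g ((measurable_dsq (runN_ok hR hn J a' R)
    (runN_ok hR hm J a' R) t a').mul (measurable_pth (runN_ok hR hk J a' R) t _ _)))
  refine integral_congr_ae (ae_of_all _ fun ω => ?_)
  have e1 := dsq_map (runN G d n J a R) (runN G d m J a R) hT.connected g ω t a
  have e2 := (runN G d k J a R).pth_map hT.connected g ω t (geo G a x) l
  simp only [runN_map hR, hga] at e1 e2
  simp only [Pi.mul_apply]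
  rw [e1]
  congr 1
  refine e2.symm.trans (pthW_congr fun i hi => ?_)
  have := (hg.map hT.connected g).eq_geo hT hi
  simp only [geo_zero hT, hga] at this
  rw [this]
  congr 1
  rw [← h, geo_end, hgx]

omit hk in
lemma integral_dsq_pth_le_Phi {k : ℕ} (hk' : k = n ∨ k = m) {a x : V} {h : ℕ}
    (hx : G.dist a x = h + 1) (hh : h + 1 ≤ R) (t : ℝ) (o : V) :
    ∫ ω, dsq G (runN G d n J a R) (runN G d m J a R) t a ω *
        (runN G d k J a R).pth G t (geo G a x) (h + 1) ω ∂iidU (V × (ℤ × Bool)) ≤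
      Phi G d n m J R t h o := by
  have hk : 1 ≤ k := by rcases hk' with rfl | rfl <;> assumption
  have hP := runN_ok hR hn J o R
  have hQ := runN_ok hR hm J o R
  have hK := runN_ok hR hk J o R
  set D := dsq G (runN G d n J o R) (runN G d m J o R) t o
  have hD : ∀ ω, 0 ≤ D ω ∧ D ω ≤ 4 := fun ω => ⟨sq_nonneg _, dsq_le_four hP hQ t o ω⟩
  have hDm : Measurable D := measurable_dsq hP hQ t o
  have hi : ∀ {F : (V × (ℤ × Bool) → ℝ) → ℝ}, Measurable F → (∀ ω, 0 ≤ F ω ∧ F ω ≤ 2) →
      Integrable (fun ω => D ω * F ω) (iidU (V × (ℤ × Bool))) := fun {F} hF hb =>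
    integrable_of_abs_le (hDm.mul hF) (C := 4 * 2) fun ω => by
      rw [abs_of_nonneg (mul_nonneg (hD ω).1 (hb ω).1)]
      exact mul_le_mul (hD ω).2 (hb ω).2 (hb ω).1 (by norm_num)
  have hs : ∀ y ∈ sphere G o (h + 1), ∫ ω, D ω * (runN G d k J o R).pth G t (geo G o y) (h + 1) ω
      ∂iidU (V × (ℤ × Bool)) = ∫ ω, dsq G (runN G d n J a R) (runN G d m J a R) t a ω *
        (runN G d k J a R).pth G t (geo G a x) (h + 1) ω ∂iidU (V × (ℤ × Bool)) := fun y hy =>
    integral_dsq_pth_eq hR hn hm hk ((mem_sphere hR).1 hy) hx t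
  have hip : ∀ y, Integrable (fun ω => D ω * (runN G d k J o R).pth G t (geo G o y) (h + 1) ω)
      (iidU (V × (ℤ × Bool))) := fun y => hi (measurable_pth hK t _ _) fun ω =>
    ⟨(pth_mem_unit hK t _ _ ω).1, (pth_mem_unit hK t _ _ ω).2.trans one_le_two⟩
  have hsum := sum_congr rfl hs
  rw [← integral_finsetSum _ fun y _ => hip y, sum_const, card_sphere hR, nsmul_eq_mul] at hsum
  simp only [← mul_sum, sum_sphere_pth hR hk hh t o] at hsum
  have hr : ∀ ω, D ω * ((d : ℝ) * ((d : ℝ) - 1) ^ h * rbar G d k J R t h o ω) =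
      (d : ℝ) * ((d : ℝ) - 1) ^ h * (D ω * rbar G d k J R t h o ω) := fun ω => by ring
  simp only [hr, integral_const_mul] at hsum
  have h3 := hR.three
  rw [Nat.cast_mul, Nat.cast_pow, Nat.cast_sub (by omega : 1 ≤ d), Nat.cast_one] at hsum
  have hb0 := hR.two_le
  rw [← mul_left_cancel₀ (by positivity) hsum]
  refine integral_mono (hi (measurable_rbar hR hk t h o) fun ω => ⟨(rbar_mem hR hk t h o ω).1,
    (rbar_mem hR hk t h o ω).2.trans one_le_two⟩) (hi
      ((measurable_rbar hR hn t h o).add (measurable_rbar hR hm t h o)) fun ω => ?_) fun ω => ?_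
  · obtain ⟨a0, a1⟩ := rbar_mem (J := J) (R := R) hR hn t h o ω
    obtain ⟨b0, b1⟩ := rbar_mem (J := J) (R := R) hR hm t h o ω
    exact ⟨add_nonneg a0 b0, by linarith⟩
  · refine mul_le_mul_of_nonneg_left ?_ (hD ω).1
    have a0 := (rbar_mem (J := J) (R := R) hR hn t h o ω).1
    have b0 := (rbar_mem (J := J) (R := R) hR hm t h o ω).1
    rcases hk' with rfl | rfl <;> simp only [Pi.add_apply] <;> linarith

omit hk in
/-- The squared distance at a vertex of a geodesic against the damping along it. -/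
lemma integral_dsq_pth_le (hb : SideBound G d J r) (hSn : Stable G d J n R0 η)
    (hSm : Stable G d J m R0 η) {k : ℕ} (hk' : k = n ∨ k = m) {w : ℕ → V} {l i : ℕ}
    (hw : IsGeo G w l) (hl : 1 ≤ l) (hi : i ≤ l) (hlR : l + R0 ≤ R)
    (hwo : ∀ j ≤ l, G.dist o (w j) + R0 ≤ R) {t : ℝ} (ht : t ≤ 1 + J) (o₁ : V) :
    ∫ ω, dsq G (runN G d n J o R) (runN G d m J o R) t (w i) ω *
        (runN G d k J o R).pth G t w l ω ∂iidU (V × (ℤ × Bool)) ≤
      8 * η + 4 * (l * (4 * lrC r * η)) + 1 / (1 - r ^ 2) * Phi G d n m J R t ((l - 1) / 2) o₁ := by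
  have hT := hR.tree
  have hk : 1 ≤ k := by rcases hk' with rfl | rfl <;> assumption
  have hSk : Stable G d J k R0 η := by rcases hk' with rfl | rfl <;> assumption
  set v := w i with hv
  have hwv : ∀ j ≤ l, G.dist v (w j) + R0 ≤ R := fun j hj => by
    rcases le_total i j with h | h
    · rw [hv, hw.dist_eq hT h hj]; omega
    · rw [hv, SimpleGraph.dist_comm, hw.dist_eq hT h hi]; omega
  have hP := runN_ok hR hn J o R
  have hQ := runN_ok hR hm J o R
  have hK := runN_ok hR hk J o R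
  have hP' := runN_ok hR hn J v R
  have hQ' := runN_ok hR hm J v R
  have hK' := runN_ok hR hk J v R
  set D := dsq G (runN G d n J o R) (runN G d m J o R) t v
  set D' := dsq G (runN G d n J v R) (runN G d m J v R) t v
  set X := (runN G d k J o R).pth G t w l
  set X' := (runN G d k J v R).pth G t w l
  have hD : ∀ ω, 0 ≤ D' ω ∧ D' ω ≤ 4 := fun ω => ⟨sq_nonneg _, dsq_le_four hP' hQ' t v ω⟩
  have hX : ∀ ω, 0 ≤ X ω ∧ X ω ≤ 1 := pth_mem_unit hK t w l
  have hr := hb.2.1
  have hc : 0 < 1 - r ^ 2 := by nlinarith [hb.1]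
  -- the damping from `v` to the farther end
  obtain ⟨x, L, hxd, hL, hX'⟩ : ∃ x L, G.dist v x = L + 1 ∧ (l - 1) / 2 ≤ L ∧ L + 1 ≤ l ∧
      ∀ ω, X' ω ≤ 1 / (1 - r ^ 2) * (runN G d k J v R).pth G t (geo G v x) (L + 1) ω := by
    have h1 : 1 ≤ 1 / (1 - r ^ 2) := (one_le_div hc).2 (by linarith [sq_nonneg r])
    rcases le_total i (l - i) with h | h
    · have hs := hw.shift hT (k := i) hi
      obtain ⟨L, hL⟩ : ∃ L, l - i = L + 1 := ⟨l - i - 1, by omega⟩
      rw [hL] at hs
      refine ⟨w (i + (L + 1)), L, ?_, by omega, by omega, fun ω => ?_⟩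
      · simpa [hv] using hs.2 (L + 1) le_rfl
      · have hp := (runN G d k J v R).st_pos (G := G) ω t
        have hle : X' ω ≤ (runN G d k J v R).pth G t (fun j => w (i + j)) (L + 1) ω := by
          simp only [X', Run.pth]
          rw [show l = i + (L + 1) by omega, pthW_shift]
          exact mul_le_of_le_one_left (pthW_mem_unit hK'.abs_lt hp _ _).1
            (pthW_mem_unit hK'.abs_lt hp _ _).2
        refine (hle.trans (le_of_eq ?_)).trans
          (le_mul_of_one_le_left (pth_mem_unit hK' t _ _ ω).1 h1)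
        exact pthW_congr fun j hj => by rw [hs.eq_geo hT hj]; simp [hv]
    · obtain ⟨L, hL⟩ : ∃ L, i = L + 1 := ⟨i - 1, by omega⟩
      have hrev := (hw.of_le hi).reverse hT
      refine ⟨w 0, L, ?_, by omega, by omega, fun ω => ?_⟩
      · simpa [hv, ← hL] using hrev.2 i le_rfl
      · have hp := (runN G d k J v R).st_pos (G := G) ω t
        have hmem : ∀ j ≤ l, w j ∈ ball G v R := fun j hj =>
          (mem_ball hR).2 (by have := hwv j hj; omega)
        have hsym := pthW_symm (G := G) hT hK'.abs_lt (thN_spec hR hk).2.1.ne' hp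
          (connected_ball hR v R) i w (hw.of_le hi) (hmem 0 (by omega)) (hmem i hi)
        have hu : ∀ y, |mag G (thN d k) (ball G v R) ((runN G d k J v R).st G ω t) y| ≤ r := fun y =>
          hb.2.2 _ hK' (thN_spec hR hk).2.2.2.1.le runN_lev t y y ω
        obtain ⟨hr0, hr1⟩ := pthW_mem_unit (G := G) (θ := thN d k) (B := ball G v R)
          hK'.abs_lt hp (fun j => w (i - j)) i
        have hle : X' ω ≤ 1 / (1 - r ^ 2) *
            (runN G d k J v R).pth G t (fun j => w (i - j)) i ω := by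
          refine (pthW_anti hK'.abs_lt hp w hi).trans ?_
          have h2 : mag G (thN d k) (ball G v R) ((runN G d k J v R).st G ω t) (w 0) ^ 2 ≤ r ^ 2 := by
            rw [← sq_abs]; exact pow_le_pow_left₀ (abs_nonneg _) (hu _) 2
          have h3 := (pthW_mem_unit (G := G) (θ := thN d k) (B := ball G v R) hK'.abs_lt hp w i).1
          show pthW G (thN d k) (ball G v R) ((runN G d k J v R).st G ω t) w i ≤ 1 / (1 - r ^ 2) *
            pthW G (thN d k) (ball G v R) ((runN G d k J v R).st G ω t) (fun j => w (i - j)) i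
          rw [one_div_mul_eq_div, le_div_iff₀ hc]
          change (1 - mag G (thN d k) _ _ _ ^ 2) * pthW G (thN d k) _ _ _ _ = (1 - mag G (thN d k) _ _ _ ^ 2) * pthW G (thN d k) _ _ _ _ at hsym
          nlinarith [mul_le_mul_of_nonneg_left (sub_le_sub_left h2 1) h3, mul_le_of_le_one_left hr0
            (sub_le_self 1 (sq_nonneg (mag G (thN d k) (ball G v R)
              ((runN G d k J v R).st G ω t) (w i))))]
        refine hle.trans (mul_le_mul_of_nonneg_left (le_of_eq ?_) (by positivity))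
        rw [← hL]
        exact pthW_congr fun j hj => by rw [hrev.eq_geo hT hj]; simp [hv]
  obtain ⟨hL1, hX'⟩ := hX'
  have hmain := integral_dsq_pth_le_Phi (J := J) (R := R) hR hn hm hk' hxd (by omega) t o₁
  have i1 : Integrable (fun ω => |D ω - D' ω|) (iidU (V × (ℤ × Bool))) :=
    integrable_of_abs_le ((measurable_dsq hP hQ t v).sub (measurable_dsq hP' hQ' t v)).norm
      (C := 8) fun ω => by
        rw [abs_abs]
        have := dsq_le_four hP hQ t v ω
        have h0 : 0 ≤ D ω := sq_nonneg _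
        rw [abs_le]; constructor <;> linarith [hD ω]
  have i2 : Integrable (fun ω => |X ω - X' ω|) (iidU (V × (ℤ × Bool))) :=
    integrable_of_abs_le ((measurable_pth hK t w l).sub (measurable_pth hK' t w l)).norm
      (C := 2) fun ω => by
        rw [abs_abs]
        have := pth_mem_unit hK' t w l ω
        rw [abs_le]; constructor <;> linarith [hX ω]
  have i3 : Integrable (fun ω => D' ω * (runN G d k J v R).pth G t (geo G v x) (L + 1) ω)
      (iidU (V × (ℤ × Bool))) :=
    integrable_of_abs_le ((measurable_dsq hP' hQ' t v).mul (measurable_pth hK' t _ _))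
      (C := 4 * 1) fun ω => by
        have := pth_mem_unit hK' t (geo G v x) (L + 1) ω
        rw [abs_of_nonneg (mul_nonneg (hD ω).1 this.1)]
        exact mul_le_mul (hD ω).2 this.2 this.1 (by norm_num)
  have key : ∀ ω, D ω * X ω ≤ |D ω - D' ω| + 4 * |X ω - X' ω| +
      1 / (1 - r ^ 2) * (D' ω * (runN G d k J v R).pth G t (geo G v x) (L + 1) ω) := fun ω => by
    have e1 : (D ω - D' ω) * X ω ≤ |D ω - D' ω| :=
      (mul_le_mul_of_nonneg_right (le_abs_self _) (hX ω).1).trans
        (mul_le_of_le_one_right (abs_nonneg _) (hX ω).2)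
    have e2 : D' ω * (X ω - X' ω) ≤ 4 * |X ω - X' ω| :=
      mul_le_mul_of_nonneg (hD ω).2 (le_abs_self _) (hD ω).1 (abs_nonneg _)
    have e3 := mul_le_mul_of_nonneg_left (hX' ω) (hD ω).1
    linarith
  calc ∫ ω, D ω * X ω ∂iidU (V × (ℤ × Bool))
      ≤ ∫ ω, (|D ω - D' ω| + 4 * |X ω - X' ω| +
          1 / (1 - r ^ 2) * (D' ω * (runN G d k J v R).pth G t (geo G v x) (L + 1) ω))
          ∂iidU (V × (ℤ × Bool)) :=
        integral_mono_of_nonneg (ae_of_all _ fun ω => mul_nonneg (sq_nonneg _) (hX ω).1)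
          ((i1.add (i2.const_mul 4)).add (i3.const_mul _)) (ae_of_all _ key)
    _ = (∫ ω, |D ω - D' ω| ∂iidU (V × (ℤ × Bool))) +
          4 * (∫ ω, |X ω - X' ω| ∂iidU (V × (ℤ × Bool))) + 1 / (1 - r ^ 2) *
          ∫ ω, D' ω * (runN G d k J v R).pth G t (geo G v x) (L + 1) ω ∂iidU (V × (ℤ × Bool)) := by
        have i12 : Integrable (fun ω => |D ω - D' ω| + 4 * |X ω - X' ω|)
            (iidU (V × (ℤ × Bool))) := i1.add (i2.const_mul 4)
        rw [integral_add i12 (i3.const_mul _), integral_add i1 (i2.const_mul 4),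
          integral_const_mul, integral_const_mul]
    _ ≤ _ := by
        refine add_le_add (add_le_add ?_ ?_) (mul_le_mul_of_nonneg_left
          (hmain.trans (Phi_anti hR hn hm t hL o₁)) (by positivity))
        · exact integral_dsq_centre hR hn hm hSn hSm (hwo i hi) (hwv i hi) ht
        · exact mul_le_mul_of_nonneg_left
            (integral_pth_centre hR hk hb hSk hw hwo hwv ht) (by norm_num)

end Vale.Agent.P161.Crit
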