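import Vale.Agent.P161.Crit.Jump
import Vale.Agent.P161.Crit.StaticInfo

/-!
# P161, critical point: recovery of the spins and the law of the output
-/

open MeasureTheory SimpleGraph Finset

namespace Vale.Agent.P161.Crit

variable {V : Type*} {G : SimpleGraph V} {d : ℕ}

/-! ### Recovery -/

/-- Pieces whose informations sum to `I` give information at least `I / (1 + I)`. -/
lemma info_pprod_ge {ι κ : Type*} {fl : (ι → ℝ) → ι → ℝ}
    (hfl : MeasurePreserving fl (iidU ι) (iidU ι)) {K K' : Finset κ} (hK : K' ⊆ K)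
    {fk : κ → Bool → (ι → ℝ) → ℝ} {Dk : κ → Finset ι}
    (hf : ∀ k ∈ K, IsPiece fl (Dk k) (fk k)) (hd : (K : Set κ).PairwiseDisjoint Dk) :
    (∑ k ∈ K', info (fk k)) / (1 + ∑ k ∈ K', info (fk k)) ≤ info (pprod K fk) := by
  classical
  obtain ⟨I, hI⟩ : ∃ I, I = ∑ k ∈ K', info (fk k) := ⟨_, rfl⟩
  rw [← hI]
  have hI0 : 0 ≤ I := hI ▸ sum_nonneg fun k hk => info_nonneg (hf k (hK hk))
  let η : κ → (ι → ℝ) → ℝ := fun k ω => if k ∈ K' then pmag (fk k) ω else 0
  have habs : ∀ k ∈ K, ∀ ω, |η k ω| ≤ 1 := fun k hk ω => by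
    simp only [η]
    split_ifs
    · exact (abs_magOf fun s => (hf k hk).pos s ω).le
    · simp
  have hme : ∀ k ∈ K, Measurable (η k) := fun k hk => by
    by_cases h : k ∈ K' <;> simp only [η, h, if_true, if_false]
    · exact (((hf k hk).meas true).sub ((hf k hk).meas false)).div
        (((hf k hk).meas true).add ((hf k hk).meas false))
    · exact measurable_const
  have hdep : ∀ k ∈ K, DependsOn (η k) (Dk k : Set ι) := fun k hk x y h => by
    simp only [η, pmag, magOf, (hf k hk).dep true h, (hf k hk).dep false h]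
  have hfl' : ∀ k ∈ K, ∀ ω, η k (fl ω) = -η k ω := fun k hk ω => by
    simp only [η, pmag, magOf, (hf k hk).flip, Bool.not_true, Bool.not_false]
    split_ifs
    · rw [← neg_div, neg_sub, add_comm (fk k false ω)]
    · simp
  have h1 : ∀ k ∈ K, ∫ ω, fk k true ω * η k ω ∂iidU ι = if k ∈ K' then info (fk k) else 0 := by
    intro k hk
    by_cases hk' : k ∈ K'
    · have hm := hme k hk
      have hb := habs k hk
      have hF := hfl' k hk
      simp only [η, hk', if_true] at hm hb hF ⊢
      have hflip := integral_piece_flip hfl (hf k hk) hm (-1) (fun ω => by rw [hF]; ring) false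
      rw [Bool.not_false] at hflip
      have e : ∀ ω, fk k true ω * pmag (fk k) ω - fk k false ω * pmag (fk k) ω =
          2 * (bar (fk k) ω * pmag (fk k) ω ^ 2) := fun ω => by
        have ht := (hf k hk).pos true ω
        have hf' := (hf k hk).pos false ω
        simp only [bar, pmag, magOf]
        field_simp
      have := integral_congr_ae (μ := iidU ι) (ae_of_all _ e)
      rw [integral_sub (integrable_piece_mul (hf k hk) hm hb true)
        (integrable_piece_mul (hf k hk) hm hb false), integral_const_mul, hflip] at this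
      simp only [info]
      linarith
    · simp [η, hk']
  have h2 : ∀ k ∈ K, ∫ ω, fk k true ω * η k ω ^ 2 ∂iidU ι =
      if k ∈ K' then info (fk k) else 0 := by
    intro k hk
    by_cases hk' : k ∈ K'
    · have hm := (hme k hk).pow_const 2
      have hb : ∀ ω, |η k ω ^ 2| ≤ 1 := fun ω => by
        rw [abs_pow]; exact pow_le_one₀ (abs_nonneg _) (habs k hk ω)
      rw [← integral_bar_eq hfl (hf k hk) hm hb fun ω => by rw [hfl' k hk ω, neg_sq]]
      simp only [η, hk', if_true, info]
    · simp [η, hk']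
  have hsum : ∀ {φ : κ → ℝ}, (∀ k ∈ K, φ k = if k ∈ K' then info (fk k) else 0) →
      ∑ k ∈ K, φ k = I := fun {φ} h => by
    rw [sum_congr rfl h, ← sum_filter, filter_mem_eq_inter, inter_eq_right.2 hK, hI]
  obtain ⟨hA, hB⟩ := sum_moments hf hd hme (C := 1) habs hdep
  rw [hsum h1] at hA hB
  rw [hsum h2] at hB
  have hp := isPiece_pprod hfl hf hd
  have hm : Measurable fun ω => ∑ k ∈ K, η k ω := Finset.measurable_fun_sum _ hme
  have hb : ∀ ω, |∑ k ∈ K, η k ω| ≤ ∑ _k ∈ K, (1 : ℝ) := fun ω =>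
    (abs_sum_le_sum_abs _ _).trans (sum_le_sum fun k hk => habs k hk ω)
  have hodd : ∀ ω, (∑ k ∈ K, η k (fl ω)) = -∑ k ∈ K, η k ω := fun ω => by
    rw [← sum_neg_distrib]; exact sum_congr rfl fun k hk => hfl' k hk ω
  have hfalse := integral_piece_flip hfl hp hm (-1) (fun ω => by rw [hodd]; ring) false
  rw [Bool.not_false, hA] at hfalse
  have hbar := integral_bar_eq hfl hp (hm.pow_const 2) (C := (∑ _k ∈ K, (1 : ℝ)) ^ 2)
    (fun ω => by rw [abs_pow]; exact pow_le_pow_left₀ (abs_nonneg _) (hb ω) 2)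
    (fun ω => by rw [hodd, neg_sq])
  refine le_trans ?_ (test_le_info hp hm hb (1 / (1 + I)))
  rw [hA, hfalse, hbar]
  refine le_trans (le_of_eq ?_) (sub_le_sub_left (mul_le_mul_of_nonneg_left hB (sq_nonneg _)) _)
  field_simp
  ring

/-- A statistic of the state at a fixed time, in the observation model. -/
lemma integral_st {P : Run V} (hP : P.Ok G) {o : V} (ho : o ∈ P.B) (t : ℝ)
    {F : (V → Bool → ℝ) → ℝ} (hF : Measurable F) {C : ℝ} (hC : ∀ W, |F W| ≤ C) :
    ∫ ω, F (P.st G ω t) ∂iidU (V × (ℤ × Bool)) =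
      ∫ ω, evid G P.θ P.B o (P.obs ω t) * F (P.obs ω t) ∂iidU (V × (ℤ × Bool)) :=
  exactness hP ho (L := fun _ => t) measurable_const (fun _ _ _ => rfl) (F := fun _ W => F W)
    (hF.comp measurable_snd) (fun _ W => hC W) fun _ _ _ _ => rfl

/-- After the windows of `J` levels every spin of the volume is known up to `24 / (J + 24)`. -/
lemma msq_ge (hR : Reg G d) (J n R : ℕ) (hn : 1 ≤ n) (o : V) {v : V}
    (hv : v ∈ (runN G d n J o R).B) :
    1 - 24 / ((J : ℝ) + 24) ≤
      ∫ ω, (runN G d n J o R).m G ω (1 + J) v ^ 2 ∂iidU (V × (ℤ × Bool)) := by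
  classical
  obtain ⟨P, hP'⟩ : ∃ P, P = runN G d n J o R := ⟨_, rfl⟩
  rw [← hP'] at hv ⊢
  have hP : P.Ok G := hP' ▸ runN_ok hR hn J o R
  let F : (V → Bool → ℝ) → ℝ := fun W => clY (mag G P.θ P.B W v) ^ 2
  have hF : Measurable F := (continuous_clY.measurable.comp (measurable_mag G P.θ P.B v)).pow_const 2
  have hF1 : ∀ W, |F W| ≤ 1 := fun W => by
    simp only [F, abs_pow]
    exact pow_le_one₀ (abs_nonneg _) (abs_clY _)
  have eq : ∫ ω, P.m G ω (1 + J) v ^ 2 ∂iidU (V × (ℤ × Bool)) =
      info (P.pm G (1 + J) v v) := by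
    calc ∫ ω, P.m G ω (1 + J) v ^ 2 ∂iidU (V × (ℤ × Bool))
        = ∫ ω, F (P.st G ω (1 + J)) ∂iidU (V × (ℤ × Bool)) :=
          integral_congr_ae (ae_of_all _ fun ω => by
            simp only [F, clY_of_abs_le (abs_mag hP.abs_θ.le (P.st_pos (G := G) ω _) v).le]
            rfl)
      _ = ∫ ω, evid G P.θ P.B v (P.obs ω (1 + J)) * F (P.obs ω (1 + J))
            ∂iidU (V × (ℤ × Bool)) := integral_st hP hv _ hF hF1
      _ = _ := integral_congr_ae (ae_of_all _ fun ω => by
            simp only [F, clY_of_abs_le (abs_mag hP.abs_θ.le (P.obs_pos ω _) v).le, pmag_pm]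
            rfl)
  let g : ℤ ↪ (V × ℤ) ⊕ V :=
    ⟨fun i => Sum.inl (v, i), fun i j h => by simpa using h⟩
  have hA : P.A = P.B ×ˢ Finset.Ico (-(n : ℤ)) (J : ℤ) := hP' ▸ rfl
  have hsub : (Finset.Ico (0 : ℤ) J).map g ⊆ P.parts G v v := by
    intro k hk
    obtain ⟨i, hi, rfl⟩ := mem_map.1 hk
    rw [Finset.mem_Ico] at hi
    refine Finset.inl_mem_disjSum.2 (mem_filter.2 ⟨?_, rfl⟩)
    rw [hA]
    exact mem_product.2 ⟨hv, Finset.mem_Ico.2 ⟨by omega, hi.2⟩⟩
  have key := info_pprod_ge measurePreserving_flipZ hsub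
    (hP.isPiece_part (1 + J) (p := v) (c := v)) hP.partD_disjoint
  have hI : ∀ i ∈ Finset.Ico (0 : ℤ) J, info (P.part G (1 + J) v (g i)) = 1 / 24 := by
    intro i hi
    rw [Finset.mem_Ico] at hi
    show info (slotPiece (1 + (J : ℝ)) (v, i)) = 1 / 24
    have hw : wid i = 1 := if_neg (not_lt.2 hi.1)
    rw [info_slotPiece_full, hw]
    simp only [lo, hw, if_neg (not_lt.2 hi.1)]
    have : (i : ℝ) + 1 ≤ (J : ℝ) := by exact_mod_cast hi.2
    linarith
  rw [← hP.pm_eq _ hv (Or.inl rfl), ← eq, sum_map, sum_congr rfl hI, sum_const, Int.card_Ico,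
    sub_zero, Int.toNat_natCast, nsmul_eq_mul] at key
  refine le_trans (le_of_eq ?_) key
  field_simp
  ring

/-- With many blocks the root is known almost surely. -/
theorem recovery (hR : Reg G d) (J n R : ℕ) (hn : 1 ≤ n) (o : V) :
    1 - 24 / ((J : ℝ) + 24) ≤
      ∫ ω, (runN G d n J o R).m G ω (1 + J) o ^ 2 ∂iidU (V × (ℤ × Bool)) :=
  msq_ge hR J n R hn o (self_mem_ball hR o R)

/-! ### Additional blocks -/

/-- A present slot of a level below `J` is used before the time `1 + J`. -/
lemma time_lt_of_level {ω : V × (ℤ × Bool) → ℝ} {s : V × ℤ} {J : ℕ} (hs : s.2 < (J : ℤ))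
    (hp : present ω s) : time ω s < 1 + J := by
  have h : lo s.2 + wid s.2 ≤ 1 + (J : ℝ) := by
    simp only [lo, wid]
    split_ifs with h
    · have := zpow_le_one_of_nonpos₀ (one_le_two (α := ℝ)) (show s.2 + 1 ≤ 0 by omega)
      rw [zpow_add_one₀ two_ne_zero] at this
      have : (0 : ℝ) ≤ J := Nat.cast_nonneg J
      linarith
    · have : (s.2 : ℝ) + 1 ≤ (J : ℝ) := by exact_mod_cast hs
      linarith
  refine lt_of_lt_of_le ?_ h
  have := wid_pos s.2
  have hp' : clZ (ω (s.1, (s.2, true))) < 1 / 2 := hp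
  simp only [time]
  nlinarith

/-- Two runs with the same volume, whose slots differ only from time `T` on, agree up to `T`. -/
lemma st_eq_of_agree {P P' : Run V} (hP : P.Ok G) (hP' : P'.Ok G) (hθ : P'.θ = P.θ)
    (hB : P'.B = P.B) (ω : V × (ℤ × Bool) → ℝ) {T : ℝ}
    (h : ∀ r ≤ T, live P'.A ω r = live P.A ω r) :
    ∀ (k : ℕ) (r : ℝ), r ≤ T → (live P.A ω r).card ≤ k → P'.st G ω r = P.st G ω r := by
  intro k
  induction k with
  | zero =>
    intro r hr hc
    rw [Run.st, Run.st, h r hr]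
    refine wts_congr fun q hq => ?_
    rw [card_eq_zero.1 (Nat.le_zero.1 hc)] at hq
    exact absurd hq (notMem_empty q)
  | succ k ih =>
    intro r hr hc
    rw [Run.st, Run.st, h r hr]
    refine wts_congr fun q hq => ?_
    obtain ⟨hqA, -, hqr⟩ := mem_live.1 hq
    have hqA' : q ∈ P'.A := (mem_live.1 (show q ∈ live P'.A ω r by rw [h r hr]; exact hq)).1
    have hlt : (live P.A ω (time ω q)).card < (live P.A ω r).card :=
      card_lt_card ((ssubset_iff_of_subset fun u hu => mem_live.2
        ⟨(mem_live.1 hu).1, (mem_live.1 hu).2.1, (mem_live.1 hu).2.2.trans hqr⟩).2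
          ⟨q, hq, notMem_live_time _ _ _⟩)
    rw [Run.yS_eq hP' ω hqA', Run.yS_eq hP ω hqA, Run.m, Run.m,
      ih _ (hqr.le.trans hr) (by omega), hθ, hB]

/-- Additional blocks move the magnetisation little. -/
theorem block_step (hR : Reg G d) {J J' : ℕ} (hJ : J ≤ J') (n R : ℕ) (hn : 1 ≤ n) (o : V) :
    ∫ ω, ((runN G d n J' o R).m G ω (1 + J') o - (runN G d n J o R).m G ω (1 + J) o) ^ 2
        ∂iidU (V × (ℤ × Bool)) ≤
      1 - ∫ ω, (runN G d n J o R).m G ω (1 + J) o ^ 2 ∂iidU (V × (ℤ × Bool)) := by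
  classical
  obtain ⟨P, hPd⟩ : ∃ P, P = runN G d n J o R := ⟨_, rfl⟩
  obtain ⟨P', hPd'⟩ : ∃ P, P = runN G d n J' o R := ⟨_, rfl⟩
  rw [← hPd, ← hPd']
  have hP : P.Ok G := hPd ▸ runN_ok hR hn J o R
  have hP' : P'.Ok G := hPd' ▸ runN_ok hR hn J' o R
  let Z : Run V := ⟨P.θ, P.B, ∅⟩
  have hZ : Z.Ok G := ⟨hP.tree, hP.nonneg, hP.lt_one, hP.conn, by simp [Z]⟩
  have hθ : P'.θ = P.θ := by rw [hPd, hPd']; rfl
  have hB : P'.B = P.B := by rw [hPd, hPd']; rfl
  have ho : o ∈ P.B := hPd ▸ self_mem_ball hR o R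
  have hA : ∀ s, s ∈ P.A ↔ s ∈ P'.A ∧ s.2 < (J : ℤ) := fun s => by
    rw [hPd, hPd']
    simp only [runN, fullRun, mem_product, Finset.mem_Ico]
    constructor
    · rintro ⟨h1, h2, h3⟩
      exact ⟨⟨h1, h2, by omega⟩, h3⟩
    · rintro ⟨⟨h1, h2, -⟩, h3⟩
      exact ⟨h1, h2, h3⟩
  have hT : (1 : ℝ) + J ≤ 1 + J' := by
    have : (J : ℝ) ≤ J' := by exact_mod_cast hJ
    linarith
  have hlive : ∀ ω, ∀ r ≤ (1 : ℝ) + J, live P'.A ω r = live P.A ω r := fun ω r hr => by
    ext q
    simp only [mem_live, hA]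
    refine ⟨fun ⟨h1, h2, h3⟩ => ⟨⟨h1, ?_⟩, h2, h3⟩, fun ⟨⟨h1, _⟩, h2, h3⟩ => ⟨h1, h2, h3⟩⟩
    by_contra hlt
    have h0 : ¬ q.2 < 0 := by omega
    have e : lo q.2 = 1 + (q.2 : ℝ) := if_neg h0
    have : (J : ℝ) ≤ (q.2 : ℝ) := by exact_mod_cast not_lt.1 hlt
    linarith [lo_le_time ω q]
  have hm0 : ∀ ω, P'.m G ω (1 + J) o = P.m G ω (1 + J) o := fun ω => by
    rw [Run.m, Run.m, st_eq_of_agree hP hP' hθ hB ω (hlive ω) _ _ le_rfl le_rfl, hθ, hB]
  have hfreeze : ∀ ω, P.m G ω (1 + J') o = P.m G ω (1 + J) o := fun ω => by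
    have e : live P.A ω (1 + (J' : ℝ)) = live P.A ω (1 + J) := by
      ext q
      simp only [mem_live]
      exact ⟨fun ⟨h1, h2, _⟩ => ⟨h1, h2, time_lt_of_level ((hA q).1 h1).2 h2⟩,
        fun ⟨h1, h2, h3⟩ => ⟨h1, h2, h3.trans_le hT⟩⟩
    rw [Run.m, Run.m, Run.st, Run.st, e]
  have hz : ∀ ω r, Z.m G ω r o = 0 := fun ω r => Run.m_eq_zero hZ ω r ho (by simp [Z])
  have h1 := two_run hP' hP (a := o) (hB ▸ ho) ho hT
  have h2 := two_run hP' hZ (a := o) (hB ▸ ho) ho hT
  simp only [hfreeze, hm0, sub_self, ne_eq, OfNat.ofNat_ne_zero, not_false_eq_true, zero_pow,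
    integral_zero, zero_add] at h1
  simp only [hz, sub_zero, hm0] at h2
  have hunion : P'.A ∪ P.A = P'.A ∪ Z.A := by
    simp only [Z, union_empty]
    exact union_eq_left.2 fun q hq => ((hA q).1 hq).1
  rw [hunion] at h1
  have hsum : ∀ s ∈ P'.A ∪ Z.A, ∀ ω : V × (ℤ × Bool) → ℝ,
      (if present ω s ∧ (1 : ℝ) + J ≤ time ω s ∧ time ω s < 1 + J' then
        ∫ x, (P'.inc G (P'.st G ω (time ω s)) o s x -
          P.inc G (P.st G ω (time ω s)) o s x) ^ 2 ∂unifR else 0) =
      if present ω s ∧ (1 : ℝ) + J ≤ time ω s ∧ time ω s < 1 + J' then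
        ∫ x, (P'.inc G (P'.st G ω (time ω s)) o s x -
          Z.inc G (Z.st G ω (time ω s)) o s x) ^ 2 ∂unifR else 0 := fun s _ ω => by
    split_ifs with h
    · have hs : s ∉ P.A := fun hs => absurd h.2.1 (not_le.2 (time_lt_of_level ((hA s).1 hs).2 h.1))
      simp [Run.inc, hs, Z]
    · rfl
  rw [sum_congr rfl fun s hs => integral_congr_ae (ae_of_all _ (hsum s hs))] at h1
  have hle : ∫ ω, P'.m G ω (1 + J') o ^ 2 ∂iidU (V × (ℤ × Bool)) ≤
      ∫ _ω, (1 : ℝ) ∂iidU (V × (ℤ × Bool)) := by
    refine integral_mono (integrable_of_abs_le ((measurable_m_comp hP' o measurable_const).pow_const 2)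
      (C := 1) fun ω => ?_) (integrable_const _) fun ω => ?_
    · rw [abs_pow]; exact pow_le_one₀ (abs_nonneg _) (Run.abs_m hP' ω _ o).le
    · exact (sq_le_one_iff_abs_le_one _).2 (Run.abs_m hP' ω _ o).le
  simp only [integral_const, probReal_univ, one_smul] at hle
  linarith

/-! ### Cylinders -/

open scoped Classical in
/-- Weights restricted to the spins `η` on `D`. -/
noncomputable def indW (D : Finset V) (η : V → Bool) (W : V → Bool → ℝ) : V → Bool → ℝ :=
  fun v σ => if v ∈ D ∧ σ ≠ η v then 0 else W v σ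

lemma abs_indW_le (D : Finset V) (η : V → Bool) {W : V → Bool → ℝ} (hW : ∀ v σ, 0 ≤ W v σ)
    (v : V) (σ : Bool) : |indW D η W v σ| ≤ W v σ := by
  simp only [indW]
  split_ifs
  · simpa using hW v σ
  · rw [abs_of_nonneg (hW v σ)]

lemma indW_bump (D : Finset V) (η : V → Bool) (W : V → Bool → ℝ) (s : V × ℤ) (y : ℝ) :
    indW D η (bump W s y) = bump (indW D η W) s y := by
  funext v σ
  by_cases h : v ∈ D ∧ σ ≠ η v <;> by_cases h' : v = s.1 <;> simp_all [indW, bump]

lemma measurable_indW {α : Type*} [MeasurableSpace α] {W : α → V → Bool → ℝ} (hW : Measurable W)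
    (D : Finset V) (η : V → Bool) : Measurable fun a => indW D η (W a) := by
  refine measurable_pi_lambda _ fun v => measurable_pi_lambda _ fun σ => ?_
  by_cases h : v ∈ D ∧ σ ≠ η v
  · exact (funext fun a => if_pos h : (fun a => indW D η (W a) v σ) = fun _ => 0) ▸ measurable_const
  · exact (funext fun a => if_neg h : (fun a => indW D η (W a) v σ) = fun a => W a v σ) ▸
      (measurable_weight_apply v σ).comp hW

lemma abs_pull_le_pull {θ : ℝ} (hθ : |θ| ≤ 1) {f g : Bool → ℝ} (h : ∀ r, |f r| ≤ g r) (s : Bool) :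
    |pull θ f s| ≤ pull θ g s := by
  obtain ⟨h1, h2⟩ := abs_le.1 hθ
  have hs : |θ * sgn s| ≤ 1 := by rwa [abs_mul, abs_sgn, mul_one]
  obtain ⟨h3, h4⟩ := abs_le.1 hs
  simp only [pull]
  refine (abs_add_le _ _).trans (add_le_add ?_ ?_)
  · rw [abs_mul, abs_of_nonneg (by linarith : 0 ≤ (1 + θ * sgn s) / 2)]
    exact mul_le_mul_of_nonneg_left (h true) (by linarith)
  · rw [abs_mul, abs_of_nonneg (by linarith : 0 ≤ (1 - θ * sgn s) / 2)]
    exact mul_le_mul_of_nonneg_left (h false) (by linarith)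

lemma abs_msg_le {θ : ℝ} (hθ : |θ| ≤ 1) {B : Finset V} {a b : V → Bool → ℝ}
    (h : ∀ v r, |a v r| ≤ b v r) (p c : V) (r : Bool) :
    |msg G θ B a p c r| ≤ msg G θ B b p c r := by
  have : ∀ n p c r, |msgN G θ B a n p c r| ≤ msgN G θ B b n p c r := by
    intro n
    induction n with
    | zero => exact fun p c r => h c r
    | succ n ih =>
      intro p c r
      simp only [msgN, abs_mul, abs_prod]
      exact mul_le_mul (h c r) (prod_le_prod (fun _ _ => abs_nonneg _) fun g _ =>
        abs_pull_le_pull hθ (ih c g) r) (prod_nonneg fun _ _ => abs_nonneg _)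
        ((abs_nonneg _).trans (h c r))
  exact this _ p c r

/-- Fixing one more spin. -/
lemma indW_step (hT : G.IsTree) {θ : ℝ} (hθ : |θ| ≤ 1) {B : Finset V}
    (hB : (G.induce (B : Set V)).Connected) {W : V → Bool → ℝ} (hW : ∀ x r, 0 < W x r) {o v : V}
    (ho : o ∈ B) (hv : v ∈ B) [DecidableEq V] {S : Finset V} (hvS : v ∉ S) (η : V → Bool) :
    |evid G θ B o (indW (insert v S) η W) -
        (1 + sgn (η v) * mag G θ B W v) / 2 * evid G θ B o (indW S η W)| ≤
      evid G θ B o W * ((1 - mag G θ B W v ^ 2) / 2) := by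
  rw [evid_root hT hB (indW (insert v S) η W) ho hv, evid_root hT hB (indW S η W) ho hv,
    evid_root hT hB W ho hv]
  obtain ⟨Q, hQ⟩ : ∃ Q : Bool → ℝ, ∀ r, Q r = msg G θ B W v v r := ⟨_, fun _ => rfl⟩
  obtain ⟨R, hR⟩ : ∃ R : Bool → ℝ, ∀ r, R r = msg G θ B (indW S η W) v v r := ⟨_, fun _ => rfl⟩
  have hnew : ∀ r, msg G θ B (indW (insert v S) η W) v v r = if r = η v then R r else 0 := by
    intro r
    rw [hR r, msg_eq hT hv (Or.inl rfl), msg_eq hT hv (Or.inl rfl)]
    have e : ∀ g ∈ kid G B v v, msg G θ B (indW (insert v S) η W) v g =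
        msg G θ B (indW S η W) v g := fun g hg => msg_root_off hT (fun x hx => by
      funext r; simp [indW, hx]) hg
    rw [prod_congr rfl fun g hg => by rw [e g hg]]
    by_cases hr : r = η v <;> simp [indW, hvS, hr]
  have hQ0 : ∀ r, 0 < Q r := fun r => hQ r ▸ msg_pos hθ hW v v r
  have hRQ : ∀ r, |R r| ≤ Q r := fun r => by
    rw [hR r, hQ r]; exact abs_msg_le hθ (abs_indW_le S η fun x r => (hW x r).le) v v r
  have hm : mag G θ B W v = (Q true - Q false) / (Q true + Q false) := by
    rw [hQ, hQ]; rfl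
  simp only [evid, hnew, ← hQ, ← hR, hm]
  obtain ⟨a1, a2⟩ := abs_le.1 (hRQ true)
  obtain ⟨b1, b2⟩ := abs_le.1 (hRQ false)
  have hs : 0 < Q true + Q false := by linarith [hQ0 true, hQ0 false]
  have e1 : (1 + 1 * ((Q true - Q false) / (Q true + Q false))) / 2 = Q true / (Q true + Q false) := by
    field_simp; ring
  have e2 : (1 + -1 * ((Q true - Q false) / (Q true + Q false))) / 2 =
      Q false / (Q true + Q false) := by field_simp; ring
  have e3 : (Q true + Q false) / 2 * ((1 - ((Q true - Q false) / (Q true + Q false)) ^ 2) / 2) =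
      Q true * Q false / (Q true + Q false) := by field_simp; ring
  rw [e3]
  cases η v <;> simp only [sgn, if_true, Bool.false_eq_true, if_false, Bool.true_eq_false, e1, e2,
    add_zero, zero_add]
  · rw [show R false / 2 - Q false / (Q true + Q false) * ((R true + R false) / 2) =
      (Q true * R false - Q false * R true) / 2 / (Q true + Q false) by field_simp; ring, abs_div,
      abs_of_pos hs, div_le_div_iff_of_pos_right hs, abs_le]
    constructor <;> nlinarith [hQ0 true, hQ0 false]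
  · rw [show R true / 2 - Q true / (Q true + Q false) * ((R true + R false) / 2) =
      (Q false * R true - Q true * R false) / 2 / (Q true + Q false) by field_simp; ring, abs_div,
      abs_of_pos hs, div_le_div_iff_of_pos_right hs, abs_le]
    constructor <;> nlinarith [hQ0 true, hQ0 false]

/-- The product of the marginals against a cylinder, for fixed weights. -/
lemma indW_telescope (hT : G.IsTree) {θ : ℝ} (hθ : |θ| ≤ 1) {B : Finset V}
    (hB : (G.induce (B : Set V)).Connected) {W : V → Bool → ℝ} (hW : ∀ x r, 0 < W x r) {o : V}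
    (ho : o ∈ B) (η : V → Bool) {S : Finset V} (hS : S ⊆ B) :
    |evid G θ B o (indW S η W) -
        evid G θ B o W * ∏ v ∈ S, (1 + sgn (η v) * mag G θ B W v) / 2| ≤
      evid G θ B o W * ∑ v ∈ S, (1 - mag G θ B W v ^ 2) / 2 := by
  classical
  induction S using Finset.induction_on with
  | empty =>
    have : indW (∅ : Finset V) η W = W := by funext x r; simp [indW]
    simp [this]
  | insert v S hvS ih =>
    obtain ⟨hv, hS'⟩ := insert_subset_iff.1 hS
    have h1 := indW_step hT hθ hB hW ho hv hvS η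
    have h2 := ih hS'
    rw [prod_insert hvS, sum_insert hvS]
    have hm := abs_le.1 (abs_mag (G := G) (B := B) hθ hW v).le
    obtain ⟨q, hq⟩ : ∃ q, q = (1 + sgn (η v) * mag G θ B W v) / 2 := ⟨_, rfl⟩
    rw [← hq] at h1 ⊢
    have hq01 : 0 ≤ q ∧ q ≤ 1 := by
      rw [hq]
      cases η v <;> simp [sgn] <;> constructor <;> linarith
    calc _ = |(evid G θ B o (indW (insert v S) η W) - q * evid G θ B o (indW S η W)) +
          q * (evid G θ B o (indW S η W) -
            evid G θ B o W * ∏ v ∈ S, (1 + sgn (η v) * mag G θ B W v) / 2)| := by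
          congr 1; ring
      _ ≤ _ := (abs_add_le _ _).trans (by
          rw [abs_mul, abs_of_nonneg hq01.1, mul_add]
          exact add_le_add h1 ((mul_le_of_le_one_left (abs_nonneg _) hq01.2).trans h2))

/-- The evidence of the cylinder weights is the cylinder probability of the free measure. -/
lemma evid_indW_one (hT : G.IsTree) (θ : ℝ) (η : V → Bool) :
    ∀ (k : ℕ) (D : Finset V), D.card = k → (G.induce (D : Set V)).Connected → ∀ c ∈ D,
      evid G θ D c (indW D η fun _ _ => 1) = 1 / 2 * ∏ e ∈ edgesIn G D, edgeFactor θ η e := by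
  classical
  intro k
  induction k using Nat.strong_induction_on with
  | _ k ih =>
    intro D hk hD c hc
    by_cases hone : D ⊆ {c}
    · have e : D = {c} := subset_antisymm hone (singleton_subset_iff.2 hc)
      subst e
      have hkid : kid G ({c} : Finset V) c c = ∅ := eq_empty_of_forall_notMem fun g hg => by
        obtain ⟨h1, -, h3⟩ := mem_kid.1 hg
        exact h3 (mem_singleton.1 h1)
      have he : edgesIn G ({c} : Finset V) = ∅ := by
        ext e
        induction e using Sym2.ind with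
        | _ a b =>
          simp only [edgesIn, mem_filter, mem_sym2_iff, Sym2.mem_iff, forall_eq_or_imp, forall_eq,
            mem_singleton, mem_edgeSet, notMem_empty, iff_false, not_and]
          rintro ⟨rfl, rfl⟩ h
          exact h.ne rfl
      rw [he, evid, msg_eq hT hc (Or.inl rfl), msg_eq hT hc (Or.inl rfl), hkid]
      simp only [prod_empty, mul_one, indW, mem_singleton, true_and]
      cases η c <;> norm_num
    · obtain ⟨w, hwD, hwc, hconn, p, hp, hpw, hadj, hleaf⟩ :=
        exists_leaf hT (connected_singleton c) hD (singleton_subset_iff.2 hc) hone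
      obtain ⟨D', hD', hwD', hins⟩ : ∃ D', D' = D.erase w ∧ w ∉ D' ∧ insert w D' = D :=
        ⟨_, rfl, notMem_erase w D, Finset.insert_erase hwD⟩
      have hpD' : p ∈ D' := hD' ▸ mem_erase.2 ⟨hpw, hp⟩
      have hconn' : (G.induce (D' : Set V)).Connected := hD' ▸ hconn
      obtain ⟨a', ha'⟩ : ∃ a', a' = indW D' η fun _ _ => (1 : ℝ) := ⟨_, rfl⟩
      have hextend : evid G θ D p a' = evid G θ D' p a' := by
        have e := msg_extend (θ := θ) (a := a') hT (hD' ▸ erase_subset w D) hconn'
          (fun x hx s => by simp [ha', indW, hx]) (D.card + 1) p p hpD' (Or.inl rfl) (by simp)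
        simp only [evid, e]
      have hIH := ih D'.card (hk ▸ hD' ▸ card_erase_lt_of_mem hwD) D' rfl hconn' p hpD'
      have hkw : kid G D w w = {p} := by
        ext g
        simp only [mem_kid, mem_singleton]
        exact ⟨fun ⟨h1, h2, _⟩ => hleaf g h1 h2.symm, fun h => h ▸ ⟨hp, hadj.symm, hpw⟩⟩
      have hkp : kid G D p w = ∅ := eq_empty_of_forall_notMem fun g hg => by
        obtain ⟨h1, h2, h3⟩ := mem_kid.1 hg
        exact h3 (hleaf g h1 h2.symm)
      have hM : ∀ r, r ≠ η p → msg G θ D a' w p r = 0 := fun r hr => by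
        rw [msg_eq hT hp (Or.inr hadj.symm), ha']
        simp [indW, hpD', hr]
      have hw1 : ∀ r, msg G θ D a' p w r = 1 := fun r => by
        rw [msg_eq hT hwD (Or.inr hadj), hkp, ha']
        simp [indW, hwD']
      have hroot : ∀ r, msg G θ D a' p p r = msg G θ D a' w p r := fun r => by
        rw [msg_eq hT hp (Or.inl rfl), msg_eq hT hp (Or.inr hadj.symm), kid_insert hadj hwD,
          prod_insert (fun h => (mem_kid.1 h).2.2 rfl), pull, hw1, hw1]
        ring
      have hoff : msg G θ D (indW D η fun _ _ => 1) w p = msg G θ D a' w p :=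
        msg_root_off hT (fun x hx => by
          funext r
          simp [ha', indW, hD', hx]) (by rw [hkw]; exact mem_singleton_self p)
      rw [evid_root hT hD _ hc hwD, evid, msg_eq hT hwD (Or.inl rfl), msg_eq hT hwD (Or.inl rfl),
        hkw, prod_singleton, prod_singleton, hoff, ← hins, prod_edges_insert hwD' hpD' hadj
          (fun x hx => hleaf x (hD' ▸ hx |> mem_of_mem_erase)), hins]
      rw [← ha'] at hIH
      rw [mul_left_comm (1 / 2 : ℝ), ← hIH, ← hextend]
      simp only [evid, hroot, pull]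
      cases hη : η p <;> cases hη' : η w <;>
        simp [indW, hwD, hη', hM true, hM false, hη, sgn] <;> ring

open scoped Classical in
/-- Uniform observations leave the cylinder evidence unchanged in the mean. -/
lemma integral_evid_indW (hT : G.IsTree) (θ : ℝ) (hθ : |θ| ≤ 1) {B : Finset V}
    (hB : (G.induce (B : Set V)).Connected) {o : V} (ho : o ∈ B) (D : Finset V) (η : V → Bool)
    (t : ℝ) : ∀ S : Finset (V × ℤ), (∀ s ∈ S, s.1 ∈ B) →
      ∫ ω, evid G θ B o (indW D η (wts (live S ω t) fun q => xi (zc ω q)))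
        ∂iidU (V × (ℤ × Bool)) = evid G θ B o (indW D η fun _ _ => 1) := by
  intro S
  induction S using Finset.induction_on with
  | empty =>
    intro _
    have : ∀ ω : V × (ℤ × Bool) → ℝ, wts (live ∅ ω t) (fun q => xi (zc ω q)) = fun _ _ => 1 :=
      fun ω => by funext v σ; simp [wts, live]
    simp [this]
  | insert s S hsS ih =>
    intro hSB
    obtain ⟨hs, hS⟩ := (Finset.forall_mem_insert _ _ _).1 hSB
    have mW : ∀ S : Finset (V × ℤ), Measurable fun ω : V × (ℤ × Bool) → ℝ =>
        wts (live S ω t) fun q => xi (zc ω q) := fun S =>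
      measurable_wts_live S measurable_id measurable_const fun q =>
        continuous_xi.measurable.comp (measurable_zc q)
    have bW : ∀ S : Finset (V × ℤ), ∀ ω : V × (ℤ × Bool) → ℝ, ∀ v σ,
        |indW D η (wts (live S ω t) fun q => xi (zc ω q)) v σ| ≤ 2 ^ S.card := fun S ω v σ =>
      (abs_indW_le D η (fun x r => (wts_pos _ _ x r).le) v σ).trans
        ((le_abs_self _).trans (abs_wts S _ (live_subset _ _ _) _ v σ))
    have hins : ∀ ω : V × (ℤ × Bool) → ℝ,
        evid G θ B o (indW D η (wts (live (insert s S) ω t) fun q => xi (zc ω q))) =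
          evid G θ B o (indW D η (wts (live S ω t) fun q => xi (zc ω q))) +
            if present ω s ∧ time ω s < t then eps s.2 * xi (zc ω s) *
              evid G θ B o (tilt (indW D η (wts (live S ω t) fun q => xi (zc ω q))) s.1) else 0 := by
      intro ω
      split_ifs with h
      · rw [wts_insert (S := live S ω t) (fun h' => hsS (mem_live.1 h').1) (fun q => by
            simp only [mem_live, mem_insert]
            constructor
            · rintro ⟨rfl | hq, h'⟩
              · exact Or.inl rfl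
              · exact Or.inr ⟨hq, h'⟩
            · rintro (rfl | ⟨hq, h'⟩)
              · exact ⟨Or.inl rfl, h⟩
              · exact ⟨Or.inr hq, h'⟩), indW_bump,
          evid_bump_linear hT hB _ ho hs, clY_of_abs_le (abs_xi _)]
      · have : live (insert s S) ω t = live S ω t := by
          ext q
          simp only [mem_live, mem_insert]
          constructor
          · rintro ⟨rfl | hq, h'⟩
            · exact absurd h' h
            · exact ⟨hq, h'⟩
          · exact fun ⟨hq, h'⟩ => ⟨Or.inr hq, h'⟩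
        rw [this, add_zero]
    obtain ⟨K, hK⟩ := exists_evid_bound G hθ B (2 ^ S.card)
    have mT : Measurable fun ω : V × (ℤ × Bool) → ℝ =>
        evid G θ B o (tilt (indW D η (wts (live S ω t) fun q => xi (zc ω q))) s.1) := by
      refine (measurable_evid G θ B o).comp
        (measurable_pi_lambda _ fun v => measurable_pi_lambda _ fun σ => ?_)
      have := (measurable_weight_apply v σ).comp (measurable_indW (mW S) D η)
      by_cases hv : v = s.1 <;> simp only [tilt, hv, if_true, if_false]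
      · exact (hv ▸ this).const_mul _
      · exact this
    have bT : ∀ ω : V × (ℤ × Bool) → ℝ,
        |evid G θ B o (tilt (indW D η (wts (live S ω t) fun q => xi (zc ω q))) s.1)| ≤ K :=
      fun ω => hK o _ fun v σ => by
        simp only [tilt]
        split_ifs
        · rw [abs_mul, abs_sgn, one_mul]; exact bW S ω v σ
        · exact bW S ω v σ
    have m2 : Measurable fun ω : V × (ℤ × Bool) → ℝ => if present ω s ∧ time ω s < t then
        eps s.2 * xi (zc ω s) *
          evid G θ B o (tilt (indW D η (wts (live S ω t) fun q => xi (zc ω q))) s.1) else 0 :=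
      Measurable.ite (measurableSet_liveSlot t s)
        ((measurable_const.mul (continuous_xi.measurable.comp (measurable_zc s))).mul mT)
        measurable_const
    have b2 : ∀ ω : V × (ℤ × Bool) → ℝ, |if present ω s ∧ time ω s < t then
        eps s.2 * xi (zc ω s) *
          evid G θ B o (tilt (indW D η (wts (live S ω t) fun q => xi (zc ω q))) s.1) else 0| ≤
        1 / 2 * K := fun ω => by
      have hK0 : 0 ≤ K := (abs_nonneg _).trans (bT ω)
      split_ifs
      · rw [abs_mul]
        exact mul_le_mul (abs_eps_mul (abs_xi _)) (bT ω) (abs_nonneg _) (by norm_num)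
      · simpa using hK0
    obtain ⟨K', hK'⟩ := exists_evid_bound G hθ B (2 ^ S.card)
    have i0 : Integrable (fun ω => evid G θ B o (indW D η (wts (live S ω t) fun q => xi (zc ω q))))
        (iidU (V × (ℤ × Bool))) :=
      integrable_of_abs_le ((measurable_evid G θ B o).comp (measurable_indW (mW S) D η))
        fun ω => hK' o _ (bW S ω)
    simp only [hins]
    rw [integral_add i0 (integrable_of_abs_le m2 b2), ih hS,
      integral_eq_zero_update (s.1, (s.2, false)) m2 b2 fun ω => ?_, add_zero]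
    have e : ∀ x, wts (live S (Function.update ω (s.1, (s.2, false)) x) t)
        (fun q => xi (zc (Function.update ω (s.1, (s.2, false)) x) q)) =
        wts (live S ω t) fun q => xi (zc ω q) := fun x => by
      rw [(timeEq_update ω s x).live_eq]
      exact wts_congr fun q hq => by
        rw [zc_update_ne ω (fun h : q = s => hsS (h ▸ (mem_live.1 hq).1))]
    simp only [e, zc_update, (timeEq_update ω s _).present_iff, (timeEq_update ω s _).time_eq]
    by_cases h : present ω s ∧ time ω s < t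
    · simp only [h, and_self, if_true, integral_mul_const, integral_const_mul, integral_xi.1,
        mul_zero, zero_mul]
    · simp [h]

/-- The product of the final marginals approximates the cylinder probabilities. -/
theorem cylinder_approx (hR : Reg G d) (J n R : ℕ) (hn : 1 ≤ n) (o : V) (D : Finset V)
    (hD : (G.induce (D : Set V)).Connected) (hsub : D ⊆ ball G o R) (η : V → Bool) :
    |(∫ ω, ∏ v ∈ D, (1 + sgn (η v) * (runN G d n J o R).m G ω (1 + J) v) / 2
        ∂iidU (V × (ℤ × Bool))) -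
      1 / 2 * ∏ e ∈ edgesIn G D, edgeFactor (thN d n) η e| ≤
      D.card * Real.sqrt (24 / ((J : ℝ) + 24)) := by
  classical
  have hb : ∀ v ∈ D, 1 - 24 / ((J : ℝ) + 24) ≤
      ∫ ω, (runN G d n J o R).m G ω (1 + J) v ^ 2 ∂iidU (V × (ℤ × Bool)) :=
    fun v hv => msq_ge hR J n R hn o (hsub hv)
  obtain ⟨P, hPd⟩ : ∃ P, P = runN G d n J o R := ⟨_, rfl⟩
  have hθd : thN d n = P.θ := by rw [hPd]; rfl
  have hsub' : D ⊆ P.B := hPd ▸ hsub
  have ho : o ∈ P.B := hPd ▸ self_mem_ball hR o R
  have hP : P.Ok G := hPd ▸ runN_ok hR hn J o R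
  rw [← hPd] at hb ⊢
  rw [hθd]
  obtain ⟨⟨c, hc⟩⟩ := hD.nonempty
  obtain ⟨t, ht⟩ : ∃ t, t = 1 + (J : ℝ) := ⟨_, rfl⟩
  rw [← ht] at hb ⊢
  obtain ⟨K, hK⟩ := exists_evid_bound G hP.abs_θ.le P.B (2 ^ P.A.card)
  have hobs : ∀ ω : V × (ℤ × Bool) → ℝ, ∀ v σ, |P.obs ω t v σ| ≤ 2 ^ P.A.card := fun ω v σ =>
    abs_wts P.A _ (live_subset _ _ _) _ v σ
  have mobs : Measurable fun ω : V × (ℤ × Bool) → ℝ => P.obs ω t :=
    measurable_obs_pi P measurable_id measurable_const
  have hcl : ∀ ω v, clY (mag G P.θ P.B (P.obs ω t) v) = mag G P.θ P.B (P.obs ω t) v := fun ω v =>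
    clY_of_abs_le (abs_mag hP.abs_θ.le (P.obs_pos ω t) v).le
  have hcl' : ∀ ω v, clY (P.m G ω t v) = P.m G ω t v := fun ω v =>
    clY_of_abs_le (Run.abs_m hP ω t v).le
  -- both quantities in the observation model
  let F : (V → Bool → ℝ) → ℝ := fun W =>
    ∏ v ∈ D, (1 + sgn (η v) * clY (mag G P.θ P.B W v)) / 2
  let H : (V → Bool → ℝ) → ℝ := fun W => ∑ v ∈ D, (1 - clY (mag G P.θ P.B W v) ^ 2) / 2
  have mmag : ∀ v, Measurable fun W : V → Bool → ℝ => clY (mag G P.θ P.B W v) := fun v =>
    continuous_clY.measurable.comp (measurable_mag G P.θ P.B v)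
  have hF : Measurable F := Finset.measurable_fun_prod _ fun v _ =>
    ((measurable_const.add ((mmag v).const_mul _)).div_const 2)
  have hH : Measurable H := Finset.measurable_fun_sum _ fun v _ =>
    ((measurable_const.sub ((mmag v).pow_const 2)).div_const 2)
  have hF1 : ∀ W, |F W| ≤ 1 := fun W => by
    simp only [F, abs_prod]
    refine prod_le_one (fun _ _ => abs_nonneg _) fun v _ => ?_
    rw [abs_le]
    obtain ⟨h1, h2⟩ := abs_le.1 (abs_clY (mag G P.θ P.B W v))
    cases η v <;> simp [sgn] <;> constructor <;> linarith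
  have hH1 : ∀ W, |H W| ≤ D.card := fun W => by
    refine (abs_sum_le_sum_abs _ _).trans ((sum_le_sum fun v _ => ?_).trans (by simp : (∑ _v ∈ D, (1 : ℝ)) ≤ _))
    have h2 : clY (mag G P.θ P.B W v) ^ 2 ≤ 1 := (sq_le_one_iff_abs_le_one _).2 (abs_clY _)
    rw [abs_le]
    constructor <;> nlinarith [sq_nonneg (clY (mag G P.θ P.B W v))]
  have hprob : 1 / 2 * ∏ e ∈ edgesIn G D, edgeFactor P.θ η e =
      evid G P.θ P.B o (indW D η fun _ _ => 1) := by
    rw [evid_root hP.tree hP.conn _ ho (hsub' hc), ← evid_indW_one hP.tree P.θ η D.card D rfl hD c hc]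
    have e := msg_extend (θ := P.θ) (a := indW D η fun _ _ => 1) hP.tree hsub' hD
      (fun x hx s => by simp [indW, hx]) (P.B.card + 1) c c hc (Or.inl rfl) (by simp)
    simp only [evid, e]
  have hmean : ∫ ω, evid G P.θ P.B o (indW D η (P.obs ω t)) ∂iidU (V × (ℤ × Bool)) =
      evid G P.θ P.B o (indW D η fun _ _ => 1) :=
    integral_evid_indW hP.tree P.θ hP.abs_θ.le hP.conn ho D η t P.A hP.sub
  have e1 : ∫ ω, ∏ v ∈ D, (1 + sgn (η v) * P.m G ω t v) / 2 ∂iidU (V × (ℤ × Bool)) =
      ∫ ω, evid G P.θ P.B o (P.obs ω t) * F (P.obs ω t) ∂iidU (V × (ℤ × Bool)) := by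
    rw [← integral_st hP ho t hF hF1]
    refine integral_congr_ae (ae_of_all _ fun ω => prod_congr rfl fun v _ => ?_)
    rw [show mag G P.θ P.B (P.st G ω t) v = P.m G ω t v from rfl, hcl']
  have e2 : ∫ ω, evid G P.θ P.B o (P.obs ω t) * H (P.obs ω t) ∂iidU (V × (ℤ × Bool)) =
      ∑ v ∈ D, (1 - ∫ ω, P.m G ω t v ^ 2 ∂iidU (V × (ℤ × Bool))) / 2 := by
    rw [← integral_st hP ho t hH hH1]
    have hi : ∀ v, Integrable (fun ω => P.m G ω t v ^ 2) (iidU (V × (ℤ × Bool))) := fun v =>
      integrable_of_abs_le ((measurable_m_comp hP v measurable_const).pow_const 2) (C := 1)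
        fun ω => by rw [abs_pow]; exact pow_le_one₀ (abs_nonneg _) (Run.abs_m hP ω _ v).le
    have e : ∀ ω, H (P.st G ω t) = ∑ v ∈ D, (1 - P.m G ω t v ^ 2) / 2 := fun ω =>
      sum_congr rfl fun v _ => by
        rw [show mag G P.θ P.B (P.st G ω t) v = P.m G ω t v from rfl, hcl']
    simp only [e]
    have i4 : ∀ v ∈ D, Integrable (fun ω => (1 - P.m G ω t v ^ 2) / 2) (iidU (V × (ℤ × Bool))) :=
      fun v _ => ((integrable_const 1).sub (hi v)).div_const 2
    rw [integral_finsetSum _ i4]
    exact sum_congr rfl fun v _ => by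
      rw [integral_div, integral_sub (integrable_const 1) (hi v), integral_const, probReal_univ,
        one_smul]
  have me : Measurable fun ω : V × (ℤ × Bool) → ℝ => evid G P.θ P.B o (P.obs ω t) :=
    (measurable_evid G P.θ P.B o).comp mobs
  have i1 : Integrable (fun ω => evid G P.θ P.B o (P.obs ω t) * F (P.obs ω t))
      (iidU (V × (ℤ × Bool))) :=
    integrable_of_abs_le (me.mul (hF.comp mobs)) (C := K * 1) fun ω => by
      rw [abs_mul]
      exact mul_le_mul (hK o _ (hobs ω)) (hF1 _) (abs_nonneg _)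
        ((abs_nonneg _).trans (hK o _ (hobs ω)))
  have i2 : Integrable (fun ω => evid G P.θ P.B o (indW D η (P.obs ω t)))
      (iidU (V × (ℤ × Bool))) :=
    integrable_of_abs_le ((measurable_evid G P.θ P.B o).comp (measurable_indW mobs D η)) (C := K)
      fun ω => hK o _ fun v σ => (abs_indW_le D η (fun x r => (P.obs_pos ω t x r).le) v σ).trans
        ((le_abs_self _).trans (hobs ω v σ))
  have i3 : Integrable (fun ω => evid G P.θ P.B o (P.obs ω t) * H (P.obs ω t))
      (iidU (V × (ℤ × Bool))) :=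
    integrable_of_abs_le (me.mul (hH.comp mobs)) (C := K * D.card) fun ω => by
      rw [abs_mul]
      exact mul_le_mul (hK o _ (hobs ω)) (hH1 _) (abs_nonneg _)
        ((abs_nonneg _).trans (hK o _ (hobs ω)))
  rw [e1, hprob, ← hmean, ← integral_sub i1 i2]
  refine (abs_integral_le_integral_abs).trans ((integral_mono (i1.sub i2).abs i3 fun ω => ?_).trans ?_)
  · simp only [Pi.sub_apply, F, H, hcl]
    rw [abs_sub_comm]
    exact indW_telescope hP.tree hP.abs_θ.le hP.conn (P.obs_pos ω t) ho η hsub'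
  · rw [e2]
    have h24 : 24 / ((J : ℝ) + 24) ≤ Real.sqrt (24 / ((J : ℝ) + 24)) := by
      refine Real.le_sqrt_of_sq_le ?_
      have h0 : (0 : ℝ) ≤ 24 / ((J : ℝ) + 24) := by positivity
      have h1 : 24 / ((J : ℝ) + 24) ≤ 1 := by
        rw [div_le_one (by positivity)]; linarith [Nat.cast_nonneg (α := ℝ) J]
      nlinarith
    refine (sum_le_sum fun v hv => (?_ : _ ≤ Real.sqrt (24 / ((J : ℝ) + 24)))).trans (le_of_eq (by simp))
    have := hb v hv
    have : 0 ≤ Real.sqrt (24 / ((J : ℝ) + 24)) := Real.sqrt_nonneg _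
    linarith

end Vale.Agent.P161.Crit
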