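import Vale.Agent.P161.Crit.Crude
import Vale.Agent.P161.Crit.Evolution
import Vale.Agent.P161.Crit.Law
import Vale.Agent.P161.Main

/-!
# P161, critical point: the factor map at the critical coupling

The magnetisations `fS j v` of the runs centred at the evaluated vertex converge almost surely to
signs, and the signs are exactly equivariant.
-/

open MeasureTheory SimpleGraph Finset Filter
open scoped Topology

namespace Vale.Agent.P161.Crit

variable {V : Type*} {G : SimpleGraph V} {d : ℕ}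

/-- The number of levels of the `j`-th run. -/
def levels (j : ℕ) : ℕ := 24 * 16 ^ j

lemma levels_mono {i j : ℕ} (h : i ≤ j) : levels i ≤ levels j :=
  Nat.mul_le_mul_left _ (pow_le_pow_right₀ (by norm_num) h)

lemma levels_err (j : ℕ) : 24 / ((levels j : ℝ) + 24) ≤ (1 / 16) ^ j := by
  rw [div_pow, one_pow, div_le_div_iff₀ (by positivity) (by positivity), one_mul, levels]
  push_cast
  linarith

lemma quarter_sq (j : ℕ) : ((1 : ℝ) / 16) ^ j = (1 / 4) ^ j * (1 / 4) ^ j := by
  rw [← mul_pow]; norm_num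

/-- Parameters making consecutive runs close. -/
structure Sched (G : SimpleGraph V) (d : ℕ) where
  n : ℕ → ℕ
  R : ℕ → ℕ
  le_n : ∀ j, j + 1 ≤ n j
  crude : ∀ (j : ℕ) (a o o' : V) (S S' r : ℕ), R j ≤ r + j → G.dist o a + r ≤ S →
    G.dist o' a + r ≤ S' →
      ∫ ω, ((runN G d (n j) (levels j) o S).m G ω (1 + levels j) a -
          (runN G d (n j) (levels j) o' S').m G ω (1 + levels j) a) ^ 2
        ∂iidU (V × (ℤ × Bool)) ≤ (1 / 16) ^ j
  le_R : ∀ j, j ≤ R j
  step : ∀ j, ∃ R0 : ℕ, ∀ S : ℕ, R0 ≤ S → ∀ o : V,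
    ∫ ω, dsq G (runN G d (n j) (levels j) o S) (runN G d (n (j + 1)) (levels j) o S) (1 + levels j) o ω
      ∂iidU (V × (ℤ × Bool)) ≤ (1 / 16) ^ j

lemma exists_sched (hR : Reg G d) : Nonempty (Sched G d) := by
  choose N hN using fun i : ℕ =>
    cauchy hR (levels i) (ε := (1 / 16 : ℝ) ^ i) (by positivity)
  let n : ℕ → ℕ := fun j => j + 1 + ∑ i ∈ range (j + 1), N i
  have hn : ∀ j, 1 ≤ n j := fun j => by simp only [n]; omega
  have hcr : ∀ j, ∃ m : ℕ, ∀ (a o o' : V) (S S' r : ℕ), m ≤ r → G.dist o a + r ≤ S →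
      G.dist o' a + r ≤ S' →
        ∫ ω, ((runN G d (n j) (levels j) o S).m G ω (1 + levels j) a -
            (runN G d (n j) (levels j) o' S').m G ω (1 + levels j) a) ^ 2
          ∂iidU (V × (ℤ × Bool)) ≤ (1 / 16) ^ j := by
    intro j
    obtain ⟨K, κ, hK, hκ0, hκ1, h⟩ := Crit.crude d (n j) (levels j) (hn j)
    obtain ⟨m, hm⟩ := eventually_atTop.1
      (((tendsto_pow_atTop_nhds_zero_of_lt_one hκ0 hκ1).const_mul K).eventually
        (eventually_le_nhds (show K * 0 < (1 / 16 : ℝ) ^ j by simp)))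
    exact ⟨m, fun a o o' S S' r hr h1 h2 => (h hR a o o' S S' r h1 h2 _ le_rfl).trans (hm r hr)⟩
  choose m hm using hcr
  exact ⟨{
    n := n
    R := fun j => j + m j
    le_n := fun j => by simp only [n]; omega
    crude := fun j a o o' S S' r hr => hm j a o o' S S' r (by omega)
    le_R := fun j => by omega
    step := fun j => hN j (n j) (n (j + 1))
      (le_trans (single_le_sum (f := N) (fun _ _ => Nat.zero_le _)
        (mem_range.2 (Nat.lt_succ_self j))) (Nat.le_add_left _ _))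
      (le_trans (single_le_sum (f := N) (fun _ _ => Nat.zero_le _)
        (mem_range.2 (by omega : j < j + 1 + 1))) (Nat.le_add_left _ _)) }⟩

/-- The magnetisation of `v` in the `j`-th run, centred at `v`. -/
noncomputable def Sched.fS (s : Sched G d) (j : ℕ) (v : V) (ω : V × (ℤ × Bool) → ℝ) : ℝ :=
  (runN G d (s.n j) (levels j) v (s.R j)).m G ω (1 + levels j) v

/-- The limiting magnetisation. -/
noncomputable def Sched.lim (s : Sched G d) (v : V) (ω : V × (ℤ × Bool) → ℝ) : ℝ :=
  limsup (fun j => s.fS j v ω) atTop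

variable (hR : Reg G d) (s : Sched G d)
include hR

lemma Sched.ok (j k : ℕ) (o : V) (S : ℕ) : (runN G d (s.n j) k o S).Ok G :=
  runN_ok hR (le_trans (Nat.le_add_left 1 j) (s.le_n j)) k o S

lemma Sched.measurable_fS (j : ℕ) (v : V) : Measurable (s.fS j v) :=
  measurable_m_comp (s.ok hR j _ v _) v measurable_const

lemma Sched.abs_fS (j : ℕ) (v : V) (ω : V × (ℤ × Bool) → ℝ) : |s.fS j v ω| ≤ 1 :=
  (Run.abs_m (s.ok hR j _ v _) ω _ v).le

lemma Sched.measurable_lim (v : V) : Measurable (s.lim v) :=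
  Measurable.limsup fun j => s.measurable_fS hR j v

lemma Sched.fS_map (g : G ≃g G) (j : ℕ) (v : V) (ω : V × (ℤ × Bool) → ℝ) :
    s.fS j (g v) (actC g ω) = s.fS j v ω := by
  rw [Sched.fS, Sched.fS, ← runN_map hR g, m_map hR.tree.connected]

lemma Sched.lim_map (g : G ≃g G) (v : V) (ω : V × (ℤ × Bool) → ℝ) :
    s.lim (g v) (actC g ω) = s.lim v ω := by
  simp only [Sched.lim, s.fS_map hR g]

omit hR in
lemma integral_abs_le_of_sq {f : (V × (ℤ × Bool) → ℝ) → ℝ} (hf : Measurable f) {C : ℝ}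
    (hC : ∀ ω, |f ω| ≤ C) {j : ℕ} {c : ℝ}
    (h : ∫ ω, f ω ^ 2 ∂iidU (V × (ℤ × Bool)) ≤ c * (1 / 16) ^ j) :
    ∫ ω, |f ω| ∂iidU (V × (ℤ × Bool)) ≤ (1 + c) * (1 / 4) ^ j := by
  have hp : (0 : ℝ) < (1 / 4) ^ j := by positivity
  refine (integral_abs_le_delta_add hf hC hp).trans ?_
  rw [add_mul, one_mul]
  refine add_le_add le_rfl ?_
  rw [div_le_iff₀ hp, mul_assoc, ← quarter_sq]
  exact h

lemma Sched.integral_abs_step (j : ℕ) (v : V) :
    ∫ ω, |s.fS (j + 1) v ω - s.fS j v ω| ∂iidU (V × (ℤ × Bool)) ≤ 17 * (1 / 4) ^ j := by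
  obtain ⟨R0, h0⟩ := s.step j
  obtain ⟨S, hS⟩ : ∃ S, S = s.R j + s.R (j + 1) + R0 := ⟨_, rfl⟩
  have hd : G.dist v v = 0 := SimpleGraph.dist_self
  obtain ⟨A, hA⟩ : ∃ A, A = fun ω => (runN G d (s.n j) (levels j) v S).m G ω (1 + levels j) v :=
    ⟨_, rfl⟩
  obtain ⟨B, hB⟩ : ∃ B, B =
      fun ω => (runN G d (s.n (j + 1)) (levels j) v S).m G ω (1 + levels j) v := ⟨_, rfl⟩
  obtain ⟨C, hC⟩ : ∃ C, C = fun ω =>
      (runN G d (s.n (j + 1)) (levels (j + 1)) v S).m G ω (1 + levels (j + 1)) v := ⟨_, rfl⟩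
  have h1 : ∫ ω, (s.fS j v ω - A ω) ^ 2 ∂iidU (V × (ℤ × Bool)) ≤ (1 / 16) ^ j := hA ▸
    s.crude j v v v (s.R j) S (s.R j) (by omega) (by omega) (by omega)
  have h2 : ∫ ω, (A ω - B ω) ^ 2 ∂iidU (V × (ℤ × Bool)) ≤ (1 / 16) ^ j := by
    rw [hA, hB]
    exact h0 S (by omega) v
  have h3 : ∫ ω, (C ω - B ω) ^ 2 ∂iidU (V × (ℤ × Bool)) ≤ (1 / 16) ^ j := by
    have hn : 1 ≤ s.n (j + 1) := le_trans (Nat.le_add_left 1 (j + 1)) (s.le_n (j + 1))
    have e := block_step hR (levels_mono (Nat.le_succ j)) (s.n (j + 1)) S hn v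
    have e' := msq_ge hR (levels j) (s.n (j + 1)) S hn v
      (v := v) (self_mem_ball hR v S)
    rw [hB, hC]
    have := levels_err j
    linarith
  have h4 : ∫ ω, (s.fS (j + 1) v ω - C ω) ^ 2 ∂iidU (V × (ℤ × Bool)) ≤ (1 / 16) ^ j :=
    (hC ▸ s.crude (j + 1) v v v (s.R (j + 1)) S (s.R (j + 1)) (by omega) (by omega) (by omega) :
      ∫ ω, (s.fS (j + 1) v ω - C ω) ^ 2 ∂iidU (V × (ℤ × Bool)) ≤ (1 / 16) ^ (j + 1)).trans
      (pow_le_pow_of_le_one (by norm_num) (by norm_num) (Nat.le_succ j))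
  have mA : Measurable A := hA ▸ measurable_m_comp (s.ok hR j _ v _) v measurable_const
  have mB : Measurable B := hB ▸ measurable_m_comp (s.ok hR (j + 1) _ v _) v measurable_const
  have mC : Measurable C := hC ▸ measurable_m_comp (s.ok hR (j + 1) _ v _) v measurable_const
  have bA : ∀ ω, |A ω| ≤ 1 := fun ω => hA ▸ (Run.abs_m (s.ok hR j _ v _) ω _ v).le
  have bB : ∀ ω, |B ω| ≤ 1 := fun ω => hB ▸ (Run.abs_m (s.ok hR (j + 1) _ v _) ω _ v).le
  have bC : ∀ ω, |C ω| ≤ 1 := fun ω => hC ▸ (Run.abs_m (s.ok hR (j + 1) _ v _) ω _ v).le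
  have hi : ∀ {f g : (V × (ℤ × Bool) → ℝ) → ℝ}, Measurable f → Measurable g →
      (∀ ω, |f ω| ≤ 1) → (∀ ω, |g ω| ≤ 1) →
      Integrable (fun ω => (f ω - g ω) ^ 2) (iidU (V × (ℤ × Bool))) := fun {f g} hf hg bf bg =>
    integrable_of_abs_le ((hf.sub hg).pow_const 2) (C := 2 ^ 2) fun ω => by
      rw [abs_pow]
      exact pow_le_pow_left₀ (abs_nonneg _) ((abs_sub _ _).trans (by linarith [bf ω, bg ω])) 2
  have mf := fun i => s.measurable_fS hR i v
  have bf := fun i => s.abs_fS hR i v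
  refine (integral_abs_le_of_sq (f := fun ω => s.fS (j + 1) v ω - s.fS j v ω)
    ((mf _).sub (mf _)) (C := 2) (fun ω => ?_) (j := j) (c := 16) ?_).trans
    (le_of_eq (by norm_num))
  · exact (abs_sub _ _).trans (by linarith [bf j ω, bf (j + 1) ω])
  have i1 := hi (mf j) mA (bf j) bA
  have i2 := hi mA mB bA bB
  have i3 := hi mC mB bC bB
  have i4 := hi (mf (j + 1)) mC (bf (j + 1)) bC
  calc ∫ ω, (s.fS (j + 1) v ω - s.fS j v ω) ^ 2 ∂iidU (V × (ℤ × Bool))
      ≤ ∫ ω, 4 * (((s.fS j v ω - A ω) ^ 2 + (A ω - B ω) ^ 2) +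
          ((C ω - B ω) ^ 2 + (s.fS (j + 1) v ω - C ω) ^ 2)) ∂iidU (V × (ℤ × Bool)) :=
        integral_mono (hi (mf _) (mf _) (bf _) (bf _)) (((i1.add i2).add (i3.add i4)).const_mul 4)
          fun ω => by
            nlinarith [sq_nonneg (s.fS (j + 1) v ω - C ω - (C ω - B ω)),
              sq_nonneg (s.fS j v ω - A ω - (A ω - B ω)),
              sq_nonneg (s.fS (j + 1) v ω - B ω + (s.fS j v ω - B ω))]
    _ = 4 * (((∫ ω, (s.fS j v ω - A ω) ^ 2 ∂iidU (V × (ℤ × Bool))) +
          ∫ ω, (A ω - B ω) ^ 2 ∂iidU (V × (ℤ × Bool))) +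
          ((∫ ω, (C ω - B ω) ^ 2 ∂iidU (V × (ℤ × Bool))) +
            ∫ ω, (s.fS (j + 1) v ω - C ω) ^ 2 ∂iidU (V × (ℤ × Bool)))) := by
        rw [integral_const_mul, integral_add, integral_add i1 i2, integral_add i3 i4]
        · exact i1.add i2
        · exact i3.add i4
    _ ≤ 16 * (1 / 16) ^ j := by linarith

lemma Sched.ae_tendsto (v : V) :
    ∀ᵐ ω ∂iidU (V × (ℤ × Bool)), Tendsto (fun j => s.fS j v ω) atTop (𝓝 (s.lim v ω)) := by
  have hm : ∀ j, Measurable fun ω => |s.fS (j + 1) v ω - s.fS j v ω| := fun j =>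
    ((s.measurable_fS hR (j + 1) v).sub (s.measurable_fS hR j v)).norm
  have hfin : (∑' j : ℕ, ∫⁻ ω, ENNReal.ofReal |s.fS (j + 1) v ω - s.fS j v ω|
      ∂iidU (V × (ℤ × Bool))) ≠ ⊤ := by
    refine ne_top_of_le_ne_top ?_ (ENNReal.tsum_le_tsum fun j => ?_)
      (b := ∑' j : ℕ, ENNReal.ofReal (17 * (1 / 4) ^ j))
    · rw [← ENNReal.ofReal_tsum_of_nonneg (fun j => by positivity)
        ((summable_geometric_of_lt_one (by norm_num) (by norm_num)).mul_left 17)]
      exact ENNReal.ofReal_ne_top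
    · rw [← ofReal_integral_eq_lintegral_ofReal
        (integrable_of_abs_le (hm j) (C := 1 + 1) fun ω => by
          rw [abs_abs]
          exact (abs_sub _ _).trans (add_le_add (s.abs_fS hR _ v ω) (s.abs_fS hR _ v ω)))
        (ae_of_all _ fun ω => abs_nonneg _)]
      exact ENNReal.ofReal_le_ofReal (s.integral_abs_step hR j v)
  rw [← lintegral_tsum fun j => (hm j).ennreal_ofReal.aemeasurable] at hfin
  filter_upwards [ae_lt_top (Measurable.tsum fun j => (hm j).ennreal_ofReal) hfin] with ω hω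
  have hs : Summable fun j => dist (s.fS j v ω) (s.fS (j + 1) v ω) := by
    refine (ENNReal.summable_toReal hω.ne).congr fun j => ?_
    rw [ENNReal.toReal_ofReal (abs_nonneg _), Real.dist_eq, abs_sub_comm]
  obtain ⟨l, hl⟩ := cauchySeq_tendsto_of_complete (cauchySeq_of_summable_dist hs)
  rwa [Sched.lim, hl.limsup_eq]

lemma Sched.ae_sign (v : V) :
    ∀ᵐ ω ∂iidU (V × (ℤ × Bool)), s.lim v ω = sgn (decide (0 < s.lim v ω)) := by
  have hm := fun j => s.measurable_fS hR j v
  have hb := fun j => s.abs_fS hR j v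
  have hint : ∀ j, Integrable (fun ω => s.fS j v ω ^ 2) (iidU (V × (ℤ × Bool))) := fun j =>
    integrable_of_abs_le ((hm j).pow_const 2) (C := 1) fun ω => by
      rw [abs_pow]; exact pow_le_one₀ (abs_nonneg _) (hb j ω)
  have h1 : Tendsto (fun j => ∫ ω, s.fS j v ω ^ 2 ∂iidU (V × (ℤ × Bool))) atTop
      (𝓝 (∫ ω, s.lim v ω ^ 2 ∂iidU (V × (ℤ × Bool)))) := by
    refine tendsto_integral_of_dominated_convergence (fun _ => 1)
      (fun j => ((hm j).pow_const 2).aestronglyMeasurable) (integrable_const _)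
      (fun j => ae_of_all _ fun ω => ?_) ?_
    · rw [Real.norm_eq_abs, abs_pow]; exact pow_le_one₀ (abs_nonneg _) (hb j ω)
    · filter_upwards [s.ae_tendsto hR v] with ω hω
      exact hω.pow 2
  have h2 : Tendsto (fun j => ∫ ω, s.fS j v ω ^ 2 ∂iidU (V × (ℤ × Bool))) atTop (𝓝 1) := by
    refine tendsto_of_tendsto_of_tendsto_of_le_of_le
      (g := fun j : ℕ => 1 - (1 / 16 : ℝ) ^ j) (h := fun _ => (1 : ℝ)) ?_ tendsto_const_nhds
      (fun j => ?_) fun j => ?_
    · simpa using (tendsto_pow_atTop_nhds_zero_of_lt_one (by norm_num : (0 : ℝ) ≤ 1 / 16)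
        (by norm_num)).const_sub 1
    · have := msq_ge hR (levels j) (s.n j) (s.R j) (le_trans (Nat.le_add_left 1 j) (s.le_n j)) v
        (v := v) (self_mem_ball hR v (s.R j))
      have := levels_err j
      simp only [Sched.fS]
      linarith
    · refine (integral_mono (hint j) (integrable_const (1 : ℝ)) fun ω => ?_).trans (by simp)
      exact (sq_le_one_iff_abs_le_one _).2 (hb j ω)
  have hle : ∀ᵐ ω ∂iidU (V × (ℤ × Bool)), s.lim v ω ^ 2 ≤ 1 := by
    filter_upwards [s.ae_tendsto hR v] with ω hω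
    exact le_of_tendsto' (hω.pow 2) fun j => (sq_le_one_iff_abs_le_one _).2 (hb j ω)
  have hi : Integrable (fun ω => 1 - s.lim v ω ^ 2) (iidU (V × (ℤ × Bool))) :=
    (integrable_const 1).sub (Integrable.of_bound ((s.measurable_lim hR v).pow_const 2).aestronglyMeasurable 1
      (hle.mono fun ω hω => by rw [Real.norm_eq_abs, abs_of_nonneg (sq_nonneg _)]; exact hω))
  have h0 : ∫ ω, (1 - s.lim v ω ^ 2) ∂iidU (V × (ℤ × Bool)) = 0 := by
    rw [integral_sub (integrable_const 1) ((integrable_const (1 : ℝ)).sub hi |>.congr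
      (ae_of_all _ fun ω => by simp)), tendsto_nhds_unique h1 h2]
    simp
  filter_upwards [(integral_eq_zero_iff_of_nonneg_ae (hle.mono fun ω hω => sub_nonneg.2 hω) hi).1 h0]
    with ω hω
  simp only [Pi.zero_apply, sub_eq_zero] at hω
  rcases sq_eq_one_iff.1 hω.symm with e | e <;> simp [e, sgn]

omit hR in
lemma abs_prod_sub_prod_le {κ : Type*} (D : Finset κ) (a b : κ → ℝ)
    (ha : ∀ k ∈ D, |a k| ≤ 1) (hb : ∀ k ∈ D, |b k| ≤ 1) :
    |∏ k ∈ D, a k - ∏ k ∈ D, b k| ≤ ∑ k ∈ D, |a k - b k| := by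
  classical
  induction D using Finset.induction_on with
  | empty => simp
  | insert k D hk ih =>
    rw [prod_insert hk, prod_insert hk, sum_insert hk,
      show a k * ∏ i ∈ D, a i - b k * ∏ i ∈ D, b i =
        (a k - b k) * ∏ i ∈ D, a i + b k * (∏ i ∈ D, a i - ∏ i ∈ D, b i) by ring]
    refine (abs_add_le _ _).trans (add_le_add ?_ ?_)
    · rw [abs_mul, abs_prod]
      exact mul_le_of_le_one_right (abs_nonneg _) (prod_le_one (fun i _ => abs_nonneg _)
        fun i hi => ha i (mem_insert_of_mem hi))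
    · rw [abs_mul]
      exact (mul_le_of_le_one_left (abs_nonneg _) (hb k (mem_insert_self k D))).trans
        (ih (fun i hi => ha i (mem_insert_of_mem hi)) fun i hi => hb i (mem_insert_of_mem hi))

lemma Sched.tendsto_cylinder (D : Finset V) (hD : (G.induce (D : Set V)).Connected) (η : V → Bool) :
    Tendsto (fun j => ∫ ω, ∏ v ∈ D, (1 + sgn (η v) * s.fS j v ω) / 2 ∂iidU (V × (ℤ × Bool))) atTop
      (𝓝 (1 / 2 * ∏ e ∈ edgesIn G D, edgeFactor (1 / Real.sqrt ((d : ℝ) - 1)) η e)) := by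
  obtain ⟨⟨o, ho⟩⟩ := hD.nonempty
  have hm := fun j v => s.measurable_fS hR j v
  have hb := fun j v => s.abs_fS hR j v
  have hprob : Tendsto (fun j => 1 / 2 * ∏ e ∈ edgesIn G D, edgeFactor (thN d (s.n j)) η e) atTop
      (𝓝 (1 / 2 * ∏ e ∈ edgesIn G D, edgeFactor (1 / Real.sqrt ((d : ℝ) - 1)) η e)) := by
    refine Tendsto.const_mul _ (tendsto_finsetProd _ fun e _ => ?_)
    have hth : Tendsto (fun j => thN d (s.n j)) atTop (𝓝 (1 / Real.sqrt ((d : ℝ) - 1))) := by
      have h0 := (tendsto_pow_atTop_nhds_zero_of_lt_one (by norm_num : (0 : ℝ) ≤ 1 / 2)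
        (by norm_num)).comp (tendsto_atTop_mono (fun j => le_trans (Nat.le_add_right j 1) (s.le_n j))
          tendsto_id)
      simpa [thN] using (h0.const_sub 1).const_mul (1 / Real.sqrt ((d : ℝ) - 1))
    induction e using Sym2.ind with
    | _ a b =>
      simp only [edgeFactor_mk]
      exact (((hth.mul_const _).mul_const _).const_add 1).div_const 2
  have hdiff : Tendsto (fun j => (∫ ω, ∏ v ∈ D, (1 + sgn (η v) * s.fS j v ω) / 2
      ∂iidU (V × (ℤ × Bool))) - 1 / 2 * ∏ e ∈ edgesIn G D, edgeFactor (thN d (s.n j)) η e)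
      atTop (𝓝 0) := by
    refine squeeze_zero_norm' ?_ (a := fun j : ℕ => ((D.card : ℝ) * 2) * (1 / 4) ^ j) ?_
    · filter_upwards [eventually_ge_atTop (D.sup fun v => G.dist o v)] with j hj
      have hdist : ∀ v ∈ D, G.dist o v ≤ j := fun v hv =>
        (Finset.le_sup (f := fun v => G.dist o v) hv).trans hj
      let h : V → (V × (ℤ × Bool) → ℝ) → ℝ := fun v ω =>
        (runN G d (s.n j) (levels j) o (s.R j)).m G ω (1 + levels j) v
      have mh : ∀ v, Measurable (h v) := fun v =>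
        measurable_m_comp (s.ok hR j _ o _) v measurable_const
      have bh : ∀ v ω, |h v ω| ≤ 1 := fun v ω => (Run.abs_m (s.ok hR j _ o _) ω _ v).le
      have hfac : ∀ (x : ℝ) (b : Bool), |x| ≤ 1 → |(1 + sgn b * x) / 2| ≤ 1 := fun x b hx => by
        obtain ⟨h1, h2⟩ := abs_le.1 hx
        rw [abs_le]
        cases b <;> simp [sgn] <;> constructor <;> linarith
      have hpi : ∀ (f : V → (V × (ℤ × Bool) → ℝ) → ℝ), (∀ v, Measurable (f v)) →
          (∀ v ω, |f v ω| ≤ 1) → Integrable (fun ω => ∏ v ∈ D, (1 + sgn (η v) * f v ω) / 2)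
            (iidU (V × (ℤ × Bool))) := fun f hf bf =>
        integrable_of_abs_le (Finset.measurable_fun_prod _ fun v _ =>
          (measurable_const.add ((hf v).const_mul _)).div_const 2) (C := 1) fun ω => by
            rw [abs_prod]
            exact prod_le_one (fun v _ => abs_nonneg _) fun v _ => hfac _ _ (bf v ω)
      have habs : ∀ v, Integrable (fun ω => |s.fS j v ω - h v ω|) (iidU (V × (ℤ × Bool))) := fun v =>
        (integrable_of_abs_le ((hm j v).sub (mh v)) (C := 1 + 1) fun ω =>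
          (abs_sub _ _).trans (add_le_add (hb j v ω) (bh v ω))).abs
      have hchange : |(∫ ω, ∏ v ∈ D, (1 + sgn (η v) * s.fS j v ω) / 2 ∂iidU (V × (ℤ × Bool))) -
          ∫ ω, ∏ v ∈ D, (1 + sgn (η v) * h v ω) / 2 ∂iidU (V × (ℤ × Bool))| ≤
          (D.card : ℝ) * (1 / 4) ^ j := by
        rw [← integral_sub (hpi _ (hm j) (hb j)) (hpi _ mh bh)]
        refine abs_integral_le_integral_abs.trans ?_
        calc _ ≤ ∫ ω, ∑ v ∈ D, |s.fS j v ω - h v ω| / 2 ∂iidU (V × (ℤ × Bool)) := by
              refine integral_mono ((hpi _ (hm j) (hb j)).sub (hpi _ mh bh)).abs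
                (integrable_finsetSum _ fun v _ => (habs v).div_const 2) fun ω => ?_
              refine (abs_prod_sub_prod_le D _ _ (fun v _ => hfac _ _ (hb j v ω))
                fun v _ => hfac _ _ (bh v ω)).trans (sum_le_sum fun v _ => le_of_eq ?_)
              rw [← sub_div, add_sub_add_left_eq_sub, ← mul_sub, abs_div, abs_mul, abs_sgn, one_mul,
                abs_two]
          _ ≤ ∑ _v ∈ D, (1 / 4) ^ j := by
              rw [integral_finsetSum _ fun v _ => (habs v).div_const 2]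
              refine sum_le_sum fun v hv => ?_
              rw [integral_div, div_le_iff₀ two_pos]
              have h2 : ∫ ω, (s.fS j v ω - h v ω) ^ 2 ∂iidU (V × (ℤ × Bool)) ≤ 1 * (1 / 16) ^ j := by
                rw [one_mul]
                exact s.crude j v v o (s.R j) (s.R j) (s.R j - G.dist o v)
                  (by have := hdist v hv; omega) (by simp)
                  (by have := hdist v hv; have := s.le_R j; omega)
              exact (integral_abs_le_of_sq ((hm j v).sub (mh v)) (C := 1 + 1)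
                (fun ω => (abs_sub _ _).trans (add_le_add (hb j v ω) (bh v ω))) h2).trans
                (le_of_eq (by ring))
          _ = _ := by rw [sum_const, nsmul_eq_mul]
      have hcyl := cylinder_approx hR (levels j) (s.n j) (s.R j)
        (le_trans (Nat.le_add_left 1 j) (s.le_n j)) o D hD
        (fun v hv => (mem_ball hR).2 ((hdist v hv).trans (s.le_R j))) η
      have hsq : Real.sqrt (24 / ((levels j : ℝ) + 24)) ≤ (1 / 4) ^ j := by
        refine (Real.sqrt_le_sqrt (levels_err j)).trans (le_of_eq ?_)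
        rw [quarter_sq, Real.sqrt_mul_self (by positivity)]
      have := mul_le_mul_of_nonneg_left hsq (Nat.cast_nonneg (α := ℝ) D.card)
      rw [Real.norm_eq_abs]
      refine (abs_sub_le _ (∫ ω, ∏ v ∈ D, (1 + sgn (η v) * h v ω) / 2
        ∂iidU (V × (ℤ × Bool))) _).trans ?_
      linarith
    · simpa using (tendsto_pow_atTop_nhds_zero_of_lt_one (by norm_num : (0 : ℝ) ≤ 1 / 4)
        (by norm_num)).const_mul ((D.card : ℝ) * 2)
  simpa using hdiff.add hprob

omit hR

/-- The free Ising measure is a factor of IID at `θ ^ 2 (d - 1) = 1`. -/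
theorem isFactorOfIID_critical {V : Type*} {G : SimpleGraph V} {d : ℕ} (hd : 3 ≤ d) (hT : G.IsTree)
    (hdeg : ∀ v, (G.neighborSet v).ncard = d) {μ : Measure (V → Bool)}
    (hμ : IsFreeIsing G (1 / Real.sqrt ((d : ℝ) - 1)) μ) : IsFactorOfIID G μ := by
  classical
  have hR : Reg G d := ⟨hT, hdeg, hd⟩
  haveI : Countable V := countable_of_tree hT hR.finite
  obtain ⟨s⟩ := exists_sched hR
  let Φ0 : (V × (ℤ × Bool) → ℝ) → V → Bool := fun w v => decide (0 < s.lim v w)
  have hΦ0 : Measurable Φ0 := by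
    refine measurable_pi_lambda _ fun v => measurable_to_bool ?_
    have : (fun w => Φ0 w v) ⁻¹' {true} = {w | 0 < s.lim v w} := by ext w; simp [Φ0]
    rw [this]
    exact measurableSet_lt measurable_const (s.measurable_lim hR v)
  -- the law of the output
  have hlaw : (iidU (V × (ℤ × Bool))).map Φ0 = μ := by
    refine isFreeIsing_unique hT hR.finite
      ⟨Measure.isProbabilityMeasure_map hΦ0.aemeasurable, fun D hD η => ?_⟩ hμ
    have hmsD : MeasurableSet {σ : V → Bool | ∀ v ∈ D, σ v = η v} := by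
      have : {σ : V → Bool | ∀ v ∈ D, σ v = η v} = Set.pi (D : Set V) fun v => {η v} := by ext; simp
      rw [this]
      exact MeasurableSet.pi D.countable_toSet fun _ _ => measurableSet_singleton _
    obtain ⟨E, hE⟩ : ∃ E, E = Φ0 ⁻¹' {σ : V → Bool | ∀ v ∈ D, σ v = η v} := ⟨_, rfl⟩
    have hEm : MeasurableSet E := hE ▸ hΦ0 hmsD
    have hind : ∀ᵐ w ∂iidU (V × (ℤ × Bool)),
        E.indicator 1 w = ∏ v ∈ D, (1 + sgn (η v) * s.lim v w) / 2 := by
      filter_upwards [(Finset.eventually_all D).2 fun v _ => s.ae_sign hR v] with w hw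
      by_cases h : w ∈ E
      · rw [Set.indicator_of_mem h, prod_eq_one fun v hv => ?_]
        · rfl
        · rw [hE] at h
          have e : Φ0 w v = η v := h v hv
          rw [hw v hv]
          simp only [Φ0] at e
          rw [e]
          cases η v <;> simp [sgn]
      · rw [Set.indicator_of_notMem h]
        rw [hE] at h
        simp only [Set.mem_preimage, Set.mem_ofPred_eq, not_forall] at h
        obtain ⟨v, hv, hne⟩ := h
        refine (prod_eq_zero hv ?_).symm
        rw [hw v hv]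
        simp only [Φ0] at hne
        revert hne
        cases decide (0 < s.lim v w) <;> cases η v <;> simp [sgn]
    have hmb := fun j v => s.measurable_fS hR j v
    have hlim : Tendsto (fun j => ∫ w, ∏ v ∈ D, (1 + sgn (η v) * s.fS j v w) / 2
        ∂iidU (V × (ℤ × Bool))) atTop (𝓝 (∫ w, E.indicator 1 w ∂iidU (V × (ℤ × Bool)))) := by
      rw [integral_congr_ae hind]
      refine tendsto_integral_of_dominated_convergence (fun _ => 1)
        (fun j => (Finset.measurable_fun_prod _ fun v _ =>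
          (measurable_const.add ((hmb j v).const_mul _)).div_const 2).aestronglyMeasurable)
        (integrable_const _) (fun j => ae_of_all _ fun w => ?_) ?_
      · rw [Real.norm_eq_abs, abs_prod]
        refine prod_le_one (fun v _ => abs_nonneg _) fun v _ => ?_
        obtain ⟨h1, h2⟩ := abs_le.1 (s.abs_fS hR j v w)
        rw [abs_le]
        cases η v <;> simp [sgn] <;> constructor <;> linarith
      · filter_upwards [(Finset.eventually_all D).2 fun v _ => s.ae_tendsto hR v] with w hw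
        exact tendsto_finsetProd _ fun v hv => (((hw v hv).const_mul _).const_add 1).div_const 2
    rw [Measure.map_apply hΦ0 hmsD, ← hE,
      ← tendsto_nhds_unique hlim (s.tendsto_cylinder hR D hD η), integral_indicator_one hEm,
      measureReal_def, ENNReal.ofReal_toReal (measure_ne_top _ _)]
  -- transport from one uniform label per vertex
  obtain ⟨f, hf, hfmap⟩ := Measure.exists_measurable_map_eq (iidU (ℤ × Bool))
  let U2W : (V → unitInterval) → V × (ℤ × Bool) → ℝ := fun U t => f (U t.1) t.2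
  have hU2W : Measurable U2W :=
    measurable_pi_lambda _ fun t =>
      (measurable_pi_apply t.2).comp (hf.comp (measurable_pi_apply t.1))
  have hU2Wmap : (Measure.infinitePi fun _ : V => (volume : Measure unitInterval)).map U2W =
      iidU (V × (ℤ × Bool)) := by
    have e1 : U2W = (MeasurableEquiv.curry V (ℤ × Bool) ℝ).symm ∘ fun U v => f (U v) := by
      funext U t; rfl
    have hfv : Measurable (fun (U : V → unitInterval) v => f (U v)) :=
      measurable_pi_lambda _ fun v => hf.comp (measurable_pi_apply v)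
    rw [e1, ← Measure.map_map (MeasurableEquiv.curry V (ℤ × Bool) ℝ).symm.measurable hfv,
      Measure.infinitePi_map_pi _ (fun _ => hf)]
    simp only [hfmap]
    exact Measure.infinitePi_map_curry_symm (fun (_ : V) (_ : ℤ × Bool) => unifR)
  refine ⟨Φ0 ∘ U2W, hΦ0.comp hU2W, ?_, fun g => ae_of_all _ fun U => ?_⟩
  · rw [← Measure.map_map hΦ0 hU2W, hU2Wmap, hlaw]
  · funext x
    obtain ⟨v, rfl⟩ : ∃ v, g v = x := ⟨g.symm x, by simp⟩
    simp only [Function.comp_apply, RelIso.symm_apply_apply, Φ0]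
    have e : U2W (fun v => U (g.symm v)) = actC g (U2W U) := rfl
    rw [e, s.lim_map hR g]

end Vale.Agent.P161.Crit
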