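import Vale.Agent.P161.Crit.Static
import Vale.Agent.P161.Crit.Sphere
import Mathlib.Analysis.SpecialFunctions.Log.Basic
import Mathlib.Analysis.SpecialFunctions.Sqrt

/-!
# P161, critical point: the increments of two runs compared
-/

open MeasureTheory SimpleGraph Finset

namespace Vale.Agent.P161.Crit

variable {V : Type*} {G : SimpleGraph V} {d : ℕ}

/-- The coupling of the run with index `n`. -/
noncomputable def thN (d n : ℕ) : ℝ := 1 / Real.sqrt ((d : ℝ) - 1) * (1 - (1 / 2) ^ n)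

/-- The run on `B` with the levels `-n ≤ i < J`. -/
noncomputable def fullRun (θ : ℝ) (B : Finset V) (n J : ℕ) : Run V :=
  ⟨θ, B, B ×ˢ Finset.Ico (-(n : ℤ)) (J : ℤ)⟩

/-- The run with index `n` on the ball of radius `R` around `o`. -/
noncomputable def runN (G : SimpleGraph V) (d n J : ℕ) (o : V) (R : ℕ) : Run V :=
  fullRun (thN d n) (ball G o R) n J

/-- Minus the logarithm of the damping factor. -/
noncomputable def lr (θ x : ℝ) : ℝ := Real.log (1 - θ ^ 2 * x ^ 2) - Real.log (1 - x ^ 2)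

lemma lr_nonneg {θ x : ℝ} (hθ : |θ| < 1) (hx : |x| < 1) : 0 ≤ lr θ x := by
  have h1 : θ ^ 2 ≤ 1 := ((sq_lt_one_iff_abs_lt_one θ).2 hθ).le
  have h2 : 0 < 1 - x ^ 2 := sub_pos.2 ((sq_lt_one_iff_abs_lt_one x).2 hx)
  rw [lr, sub_nonneg]
  exact Real.log_le_log h2 (by nlinarith [mul_le_mul_of_nonneg_right h1 (sq_nonneg x)])

lemma exp_neg_lr {θ x : ℝ} (hθ : |θ| < 1) (hx : |x| < 1) : Real.exp (-lr θ x) = damp θ x := by
  have h1 := one_sub_sq_pos hθ hx.le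
  have h2 : 0 < 1 - x ^ 2 := sub_pos.2 ((sq_lt_one_iff_abs_lt_one x).2 hx)
  rw [lr, neg_sub, Real.exp_sub, Real.exp_log h1, Real.exp_log h2]
  rfl

lemma pthW_eq_exp {θ : ℝ} (hθ : |θ| < 1) {B : Finset V} {W : V → Bool → ℝ}
    (hW : ∀ v s, 0 < W v s) (w : ℕ → V) (n : ℕ) :
    pthW G θ B W w n =
      Real.exp (-∑ i ∈ range n, lr θ (cav G θ B W (w i) (w (i + 1)))) := by
  rw [pthW, ← sum_neg_distrib, Real.exp_sum]
  exact prod_congr rfl fun i _ => (exp_neg_lr hθ (abs_cav hθ.le hW _ _)).symm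

lemma abs_log_sub {a b c : ℝ} (hc : 0 < c) (ha : c ≤ a) (hb : c ≤ b) :
    |Real.log a - Real.log b| ≤ |a - b| / c := by
  have key : ∀ a b : ℝ, c ≤ a → c ≤ b → Real.log a - Real.log b ≤ |a - b| / c := by
    intro a b ha hb
    have hb0 : 0 < b := lt_of_lt_of_le hc hb
    rw [← Real.log_div (lt_of_lt_of_le hc ha).ne' hb0.ne']
    refine (Real.log_le_sub_one_of_pos (div_pos (lt_of_lt_of_le hc ha) hb0)).trans ?_
    rw [div_sub_one hb0.ne']
    calc (a - b) / b ≤ |a - b| / b := div_le_div_of_nonneg_right (le_abs_self _) hb0.le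
      _ ≤ |a - b| / c := div_le_div_of_nonneg_left (abs_nonneg _) hc hb
  rw [abs_le']
  refine ⟨key a b ha hb, ?_⟩
  rw [neg_sub, abs_sub_comm]
  exact key b a hb ha

lemma abs_lr_sub {θ θ' x x' r : ℝ} (hr : r < 1) (h0 : 0 ≤ θ) (h1 : θ ≤ 1) (h0' : 0 ≤ θ')
    (h1' : θ' ≤ 1) (hx : |x| ≤ r) (hx' : |x'| ≤ r) :
    |lr θ x - lr θ' x'| ≤ 2 / (1 - r ^ 2) * ((|x| + |x'|) * |x - x'| + |θ - θ'|) := by
  have hr0 : 0 ≤ r := (abs_nonneg x).trans hx
  have hc : 0 < 1 - r ^ 2 := by nlinarith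
  have hsq : ∀ y : ℝ, |y| ≤ r → y ^ 2 ≤ r ^ 2 := fun y hy => by
    rw [← sq_abs]; exact pow_le_pow_left₀ (abs_nonneg y) hy 2
  have hden : ∀ (θ y : ℝ), 0 ≤ θ → θ ≤ 1 → |y| ≤ r → 1 - r ^ 2 ≤ 1 - θ ^ 2 * y ^ 2 := by
    intro θ y a b hy
    have e1 : θ ^ 2 ≤ 1 := by nlinarith
    nlinarith [mul_le_mul e1 (hsq y hy) (sq_nonneg y) zero_le_one]
  have s1 : |x ^ 2 - x' ^ 2| ≤ (|x| + |x'|) * |x - x'| := by
    rw [sq_sub_sq, abs_mul]
    exact mul_le_mul_of_nonneg_right (abs_add_le _ _) (abs_nonneg _)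
  have a1 := abs_log_sub hc (by linarith [hsq x hx] : 1 - r ^ 2 ≤ 1 - x ^ 2)
    (by linarith [hsq x' hx'] : 1 - r ^ 2 ≤ 1 - x' ^ 2)
  have a2 := abs_log_sub hc (hden θ x h0 h1 hx) (hden θ' x' h0' h1' hx')
  have s2 : |1 - θ ^ 2 * x ^ 2 - (1 - θ' ^ 2 * x' ^ 2)| ≤
      (|x| + |x'|) * |x - x'| + 2 * |θ - θ'| := by
    rw [show 1 - θ ^ 2 * x ^ 2 - (1 - θ' ^ 2 * x' ^ 2) =
      θ ^ 2 * (x' ^ 2 - x ^ 2) + (θ' + θ) * (θ' - θ) * x' ^ 2 by ring]
    refine (abs_add_le _ _).trans (add_le_add ?_ ?_)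
    · rw [abs_mul, abs_of_nonneg (sq_nonneg θ), abs_sub_comm]
      refine le_trans (mul_le_of_le_one_left (abs_nonneg _) ?_) s1
      nlinarith
    · rw [abs_mul, abs_mul, abs_of_nonneg (by linarith : 0 ≤ θ' + θ), abs_sub_comm θ',
        abs_of_nonneg (sq_nonneg x')]
      have : x' ^ 2 ≤ 1 := (hsq x' hx').trans (by nlinarith)
      calc (θ' + θ) * |θ - θ'| * x' ^ 2 ≤ (θ' + θ) * |θ - θ'| * 1 :=
            mul_le_mul_of_nonneg_left this (by positivity)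
        _ ≤ 2 * |θ - θ'| := by
            rw [mul_one]; exact mul_le_mul_of_nonneg_right (by linarith) (abs_nonneg _)
  rw [lr, lr, sub_sub_sub_comm]
  refine (abs_sub _ _).trans ((add_le_add a2 a1).trans ?_)
  rw [← add_div, div_mul_eq_mul_div]
  refine div_le_div_of_nonneg_right ?_ hc.le
  have e : |1 - x ^ 2 - (1 - x' ^ 2)| = |x ^ 2 - x' ^ 2| := by
    rw [show 1 - x ^ 2 - (1 - x' ^ 2) = -(x ^ 2 - x' ^ 2) by ring, abs_neg]
  rw [e]
  linarith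

lemma abs_exp_neg_sub {A B : ℝ} :
    |Real.exp (-A) - Real.exp (-B)| ≤ (Real.exp (-A) + Real.exp (-B)) * |A - B| := by
  have key : ∀ A B : ℝ, A ≤ B →
      |Real.exp (-A) - Real.exp (-B)| ≤ (Real.exp (-A) + Real.exp (-B)) * |A - B| := by
    intro A B h
    have e : Real.exp (-B) ≤ Real.exp (-A) := Real.exp_le_exp.2 (by linarith)
    rw [abs_of_nonneg (sub_nonneg.2 e), abs_sub_comm, abs_of_nonneg (sub_nonneg.2 h)]
    have h2 := Real.add_one_le_exp (A - B)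
    have e2 : Real.exp (-B) = Real.exp (-A) * Real.exp (A - B) := by
      rw [← Real.exp_add]; ring_nf
    nlinarith [Real.exp_pos (-A), Real.exp_pos (-B), mul_nonneg (Real.exp_pos (-B)).le
      (sub_nonneg.2 h), mul_le_mul_of_nonneg_left h2 (Real.exp_pos (-A)).le]
  rcases le_total A B with h | h
  · exact key A B h
  · rw [abs_sub_comm, abs_sub_comm A, add_comm]; exact key B A h

lemma abs_exp_neg_sub_of_nonneg {A B : ℝ} (hA : 0 ≤ A) (hB : 0 ≤ B) :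
    |Real.exp (-A) - Real.exp (-B)| ≤ |A - B| := by
  rcases le_total A B with h | h
  · have e2 : Real.exp (-B) = Real.exp (-A) * Real.exp (A - B) := by
      rw [← Real.exp_add]; ring_nf
    have h2 := Real.add_one_le_exp (A - B)
    have h3 : Real.exp (-A) ≤ 1 := Real.exp_le_one_iff.2 (by linarith)
    rw [abs_of_nonneg (sub_nonneg.2 (Real.exp_le_exp.2 (by linarith))), abs_sub_comm,
      abs_of_nonneg (sub_nonneg.2 h)]
    nlinarith [Real.exp_pos (-A)]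
  · have e2 : Real.exp (-A) = Real.exp (-B) * Real.exp (B - A) := by
      rw [← Real.exp_add]; ring_nf
    have h2 := Real.add_one_le_exp (B - A)
    have h3 : Real.exp (-B) ≤ 1 := Real.exp_le_one_iff.2 (by linarith)
    rw [abs_of_nonpos (sub_nonpos.2 (Real.exp_le_exp.2 (by linarith))),
      abs_of_nonneg (sub_nonneg.2 h)]
    nlinarith [Real.exp_pos (-B)]

/-- A side magnetisation is controlled by the two endpoint magnetisations and the coupling. -/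
lemma abs_side_sub₂ {θ θ' x x' m m' : ℝ} (h0 : 0 ≤ θ) (hθ : θ < 1) (h0' : 0 ≤ θ') (hθ' : θ' < 1)
    (hx : |x| ≤ 1) (hx' : |x'| ≤ 1) (hm : |m| ≤ 1) (hm' : |m'| ≤ 1) :
    (1 - θ) ^ 3 * |x - x'| ≤
      |offset θ x + resp θ x * m - (offset θ' x' + resp θ' x' * m')| + |m - m'| +
        4 * |θ - θ'| / (1 - θ') := by
  have key : |offset θ' x' + resp θ' x' * m' - (offset θ x' + resp θ x' * m')| ≤
      4 * |θ - θ'| / (1 - θ') := by
    have hz : |θ' * x' * m'| ≤ θ' := by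
      rw [abs_mul, abs_mul, abs_of_nonneg h0']
      calc θ' * |x'| * |m'| ≤ θ' * 1 * 1 :=
            mul_le_mul (mul_le_mul_of_nonneg_left hx' h0') hm' (abs_nonneg _) (by positivity)
        _ = θ' := by ring
    have hx2 : x' ^ 2 ≤ 1 := (sq_le_one_iff_abs_le_one x').2 hx'
    have d1 := one_sub_sq_pos (abs_lt.2 ⟨by linarith, hθ⟩) hx'
    have d2 := one_sub_sq_pos (abs_lt.2 ⟨by linarith, hθ'⟩) hx'
    have e : offset θ' x' + resp θ' x' * m' - (offset θ x' + resp θ x' * m') =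
        (θ - θ') * (1 - x' ^ 2) * ((θ + θ') * x' - m' * (1 + θ * θ' * x' ^ 2)) /
          ((1 - θ ^ 2 * x' ^ 2) * (1 - θ' ^ 2 * x' ^ 2)) := by
      rw [offset, offset, resp, resp, div_mul_eq_mul_div, div_mul_eq_mul_div, ← add_div, ← add_div,
        div_sub_div _ _ d2.ne' d1.ne', div_eq_div_iff (mul_pos d2 d1).ne' (mul_pos d1 d2).ne']
      ring
    have hn : |(θ + θ') * x' - m' * (1 + θ * θ' * x' ^ 2)| ≤ 4 := by
      refine (abs_sub _ _).trans ?_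
      have a1 : |(θ + θ') * x'| ≤ 2 := by
        rw [abs_mul, abs_of_nonneg (by linarith : 0 ≤ θ + θ')]
        nlinarith [abs_nonneg x']
      have a2 : |m' * (1 + θ * θ' * x' ^ 2)| ≤ 2 := by
        have h3 : 0 ≤ θ * θ' * x' ^ 2 := by positivity
        have h4 : θ * θ' * x' ^ 2 ≤ 1 := by
          calc θ * θ' * x' ^ 2 ≤ 1 * 1 * 1 := by gcongr
            _ = 1 := by ring
        rw [abs_mul, abs_of_nonneg (by linarith : (0 : ℝ) ≤ 1 + θ * θ' * x' ^ 2)]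
        nlinarith [abs_nonneg m']
      linarith
    have hden : (1 - x' ^ 2) * (1 - θ') ≤ (1 - θ ^ 2 * x' ^ 2) * (1 - θ' ^ 2 * x' ^ 2) := by
      refine mul_le_mul ?_ ?_ (by linarith) d1.le
      · nlinarith [mul_nonneg (sq_nonneg x') (show 0 ≤ 1 - θ ^ 2 by nlinarith)]
      · nlinarith [mul_le_mul_of_nonneg_left hx2 (sq_nonneg θ')]
    rw [e, abs_div, abs_of_pos (mul_pos d1 d2), div_le_div_iff₀ (mul_pos d1 d2) (by linarith),
      abs_mul, abs_mul, abs_of_nonneg (by linarith : 0 ≤ 1 - x' ^ 2)]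
    calc |θ - θ'| * (1 - x' ^ 2) * |(θ + θ') * x' - m' * (1 + θ * θ' * x' ^ 2)| * (1 - θ')
        ≤ |θ - θ'| * (1 - x' ^ 2) * 4 * (1 - θ') :=
          mul_le_mul_of_nonneg_right (mul_le_mul_of_nonneg_left hn
            (mul_nonneg (abs_nonneg _) (by linarith))) (by linarith)
      _ = 4 * |θ - θ'| * ((1 - x' ^ 2) * (1 - θ')) := by ring
      _ ≤ _ := mul_le_mul_of_nonneg_left hden (by positivity)
  have h := abs_side_sub (m' := m') h0 hθ hx hx' hm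
  have hm1 : θ * |m - m'| ≤ |m - m'| := mul_le_of_le_one_left (abs_nonneg _) hθ.le
  have := abs_sub_le (offset θ x + resp θ x * m) (offset θ' x' + resp θ' x' * m')
    (offset θ x' + resp θ x' * m')
  linarith

/-- The variance bound for the difference of two increments. -/
lemma integral_inc_sub_le {P₁ P₂ : Run V} (h₁ : P₁.Ok G) (h₂ : P₂.Ok G) {W₁ W₂ : V → Bool → ℝ}
    (hW₁ : ∀ v r, 0 < W₁ v r) (hW₂ : ∀ v r, 0 < W₂ v r) {a : V} (ha₁ : a ∈ P₁.B) (ha₂ : a ∈ P₂.B)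
    {s : V × ℤ} (hs₁ : s ∈ P₁.A) (hs₂ : s ∈ P₂.A) :
    ∫ x, (P₁.inc G W₁ a s x - P₂.inc G W₂ a s x) ^ 2 ∂unifR ≤
      eps s.2 ^ 2 * (8 * (cov G P₁.θ P₁.B W₁ s.1 a - cov G P₂.θ P₂.B W₂ s.1 a) ^ 2 +
        32 * cov G P₂.θ P₂.B W₂ s.1 a ^ 2 *
          (mag G P₁.θ P₁.B W₁ s.1 - mag G P₂.θ P₂.B W₂ s.1) ^ 2) := by
  obtain ⟨e0, e1, -⟩ := eps_mem s.2
  set ε := eps s.2 with hε
  set μ₁ := mag G P₁.θ P₁.B W₁ s.1 with hμ₁
  set μ₂ := mag G P₂.θ P₂.B W₂ s.1 with hμ₂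
  have b1 : |μ₁| < 1 := abs_mag h₁.abs_lt.le hW₁ _
  have b2 : |μ₂| < 1 := abs_mag h₂.abs_lt.le hW₂ _
  have hbias : ∀ μ : ℝ, |μ| < 1 → |ε * μ| ≤ 1 / 2 := fun μ hμ => by
    rw [abs_mul, abs_of_pos e0]
    exact le_trans (mul_le_of_le_one_right e0.le hμ.le) e1
  have hpt : ∀ x, |P₁.inc G W₁ a s x - P₂.inc G W₂ a s x| ≤
      ε * (2 * |cov G P₁.θ P₁.B W₁ s.1 a - cov G P₂.θ P₂.B W₂ s.1 a| +
        4 * |cov G P₂.θ P₂.B W₂ s.1 a| * |μ₁ - μ₂|) := by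
    intro x
    set y₁ := chQ (ε * μ₁) x with hy₁
    set y₂ := chQ (ε * μ₂) x with hy₂
    have c1 : |y₁| ≤ 1 := abs_chQ (lt_of_le_of_lt (hbias _ b1) (by norm_num)) x
    have c2 : |y₂| ≤ 1 := abs_chQ (lt_of_le_of_lt (hbias _ b2) (by norm_num)) x
    have q1 : |ε * clY y₁| < 1 := by
      rw [abs_mul, abs_of_pos e0]; linarith [mul_le_of_le_one_right e0.le (abs_clY y₁)]
    have q2 : |ε * clY y₂| < 1 := by
      rw [abs_mul, abs_of_pos e0]; linarith [mul_le_of_le_one_right e0.le (abs_clY y₂)]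
    simp only [Run.inc, if_pos hs₁, if_pos hs₂, ← hε, ← hμ₁, ← hμ₂, ← hy₁, ← hy₂]
    rw [mag_bump_sub h₁.tree h₁.abs_lt hW₁ h₁.conn (h₁.sub s hs₁) ha₁ q1,
      mag_bump_sub h₂.tree h₂.abs_lt hW₂ h₂.conn (h₂.sub s hs₂) ha₂ q2, ← hμ₁, ← hμ₂,
      clY_of_abs_le c1, clY_of_abs_le c2]
    have half : ∀ μ y : ℝ, |μ| < 1 → |y| ≤ 1 → 1 / 2 ≤ 1 + μ * (ε * y) := fun μ y hμ hy => by
      have : |μ * (ε * y)| ≤ 1 / 2 := by
        rw [abs_mul, abs_mul, abs_of_pos e0]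
        calc |μ| * (ε * |y|) ≤ 1 * (1 / 2 * 1) := by gcongr
          _ = 1 / 2 := by norm_num
      linarith [(abs_le.1 this).1]
    have d1 := half μ₁ y₁ b1 c1
    have d2 := half μ₂ y₂ b2 c2
    have p1 : |ε * y₁ / (1 + μ₁ * (ε * y₁))| ≤ 2 * ε := by
      rw [abs_div, abs_of_pos (by linarith : 0 < 1 + μ₁ * (ε * y₁)), div_le_iff₀ (by linarith),
        abs_mul, abs_of_pos e0]
      nlinarith [abs_nonneg y₁]
    have hy : |y₁ - y₂| ≤ ε * |μ₁ - μ₂| := by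
      refine (abs_chQ_sub (hbias _ b1) (hbias _ b2) x x).trans (le_of_eq ?_)
      rw [sub_self, abs_zero, mul_zero, zero_add, ← mul_sub, abs_mul, abs_of_pos e0]
    have p2 : |ε * y₁ / (1 + μ₁ * (ε * y₁)) - ε * y₂ / (1 + μ₂ * (ε * y₂))| ≤
        4 * ε * |μ₁ - μ₂| := by
      rw [div_sub_div _ _ (by linarith) (by linarith),
        show ε * y₁ * (1 + μ₂ * (ε * y₂)) - (1 + μ₁ * (ε * y₁)) * (ε * y₂) =
          ε * (y₁ - y₂) + ε * ε * (y₁ * y₂) * (μ₂ - μ₁) by ring,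
        abs_div, abs_of_pos (mul_pos (by linarith : 0 < 1 + μ₁ * (ε * y₁)) (by linarith)),
        div_le_iff₀ (mul_pos (by linarith) (by linarith))]
      have n1 : |ε * (y₁ - y₂) + ε * ε * (y₁ * y₂) * (μ₂ - μ₁)| ≤ ε * |μ₁ - μ₂| := by
        refine (abs_add_le _ _).trans ?_
        rw [abs_mul, abs_of_pos e0, abs_mul, abs_mul, abs_mul, abs_of_pos e0, abs_mul,
          abs_sub_comm μ₂]
        have : |y₁| * |y₂| ≤ 1 := mul_le_one₀ c1 (abs_nonneg _) c2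
        calc ε * |y₁ - y₂| + ε * ε * (|y₁| * |y₂|) * |μ₁ - μ₂|
            ≤ ε * (ε * |μ₁ - μ₂|) + ε * ε * 1 * |μ₁ - μ₂| := by gcongr
          _ ≤ _ := by nlinarith [mul_nonneg (mul_nonneg e0.le (sub_nonneg.2 e1)) (abs_nonneg (μ₁ - μ₂))]
      refine n1.trans ?_
      have : 1 ≤ 4 * ((1 + μ₁ * (ε * y₁)) * (1 + μ₂ * (ε * y₂))) := by nlinarith
      nlinarith [mul_le_mul_of_nonneg_left this (mul_nonneg e0.le (abs_nonneg (μ₁ - μ₂)))]
    generalize cov G P₁.θ P₁.B W₁ s.1 a = A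
    generalize cov G P₂.θ P₂.B W₂ s.1 a = B
    generalize ε * y₁ / (1 + μ₁ * (ε * y₁)) = F₁ at p1 p2 ⊢
    generalize ε * y₂ / (1 + μ₂ * (ε * y₂)) = F₂ at p2 ⊢
    rw [show A * F₁ - B * F₂ = (A - B) * F₁ + B * (F₁ - F₂) by ring]
    refine (abs_add_le _ _).trans ?_
    rw [abs_mul, abs_mul]
    have := mul_le_mul_of_nonneg_left p1 (abs_nonneg (A - B))
    have := mul_le_mul_of_nonneg_left p2 (abs_nonneg B)
    linarith
  set K := ε ^ 2 * (8 * (cov G P₁.θ P₁.B W₁ s.1 a - cov G P₂.θ P₂.B W₂ s.1 a) ^ 2 +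
    32 * cov G P₂.θ P₂.B W₂ s.1 a ^ 2 * (μ₁ - μ₂) ^ 2) with hK
  have hsq : ∀ x, (P₁.inc G W₁ a s x - P₂.inc G W₂ a s x) ^ 2 ≤ K := by
    intro x
    rw [← sq_abs]
    refine (pow_le_pow_left₀ (abs_nonneg _) (hpt x) 2).trans ?_
    rw [hK, mul_pow, ← sq_abs (cov G P₁.θ P₁.B W₁ s.1 a - _), ← sq_abs (cov G P₂.θ P₂.B W₂ s.1 a),
      ← sq_abs (μ₁ - μ₂)]
    refine mul_le_mul_of_nonneg_left ?_ (sq_nonneg _)
    nlinarith [sq_nonneg (2 * |cov G P₁.θ P₁.B W₁ s.1 a - cov G P₂.θ P₂.B W₂ s.1 a| -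
      4 * |cov G P₂.θ P₂.B W₂ s.1 a| * |μ₁ - μ₂|)]
  refine (le_abs_self _).trans (abs_integral_le_of_bound fun x => ?_)
  rw [abs_of_nonneg (sq_nonneg _)]
  exact hsq x

lemma cov_mem_unit {θ : ℝ} (h0 : 0 ≤ θ) (hθ : θ < 1) {B : Finset V} {W : V → Bool → ℝ}
    (hW : ∀ v r, 0 < W v r) (b a : V) :
    0 ≤ cov G θ B W b a ∧ cov G θ B W b a ≤ θ ^ G.dist b a := by
  have ha : |θ| < 1 := abs_lt.2 ⟨by linarith, hθ⟩
  obtain ⟨p0, p1⟩ := pthW_mem_unit (G := G) (B := B) ha hW (geo G b a) (G.dist b a)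
  have hm : mag G θ B W b ^ 2 ≤ 1 := (sq_le_one_iff_abs_le_one _).2 (abs_mag ha.le hW b).le
  have hp : 0 ≤ θ ^ G.dist b a := pow_nonneg h0 _
  refine ⟨mul_nonneg (by linarith) (mul_nonneg hp p0), ?_⟩
  calc cov G θ B W b a ≤ 1 * (θ ^ G.dist b a * 1) :=
        mul_le_mul (by nlinarith [sq_nonneg (mag G θ B W b)])
          (mul_le_mul_of_nonneg_left p1 hp) (mul_nonneg hp p0) zero_le_one
    _ = _ := by ring

/-- The variance bound when only the second run uses the slot. -/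
lemma integral_inc_sub_le' {P₁ P₂ : Run V} (h₂ : P₂.Ok G) {W₁ W₂ : V → Bool → ℝ}
    (hW₂ : ∀ v r, 0 < W₂ v r) {a : V} (ha₂ : a ∈ P₂.B)
    {s : V × ℤ} (hs₁ : s ∉ P₁.A) (hs₂ : s ∈ P₂.A) :
    ∫ x, (P₁.inc G W₁ a s x - P₂.inc G W₂ a s x) ^ 2 ∂unifR ≤
      eps s.2 ^ 2 * (4 * cov G P₂.θ P₂.B W₂ s.1 a ^ 2) := by
  obtain ⟨e0, e1, -⟩ := eps_mem s.2
  refine (le_abs_self _).trans (abs_integral_le_of_bound fun x => ?_)
  rw [abs_of_nonneg (sq_nonneg _), Run.inc, if_neg hs₁, Run.inc, if_pos hs₂, zero_sub, neg_sq]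
  set μ := mag G P₂.θ P₂.B W₂ s.1 with hμ
  set y := chQ (eps s.2 * μ) x
  have b2 : |μ| < 1 := abs_mag h₂.abs_lt.le hW₂ _
  have hy : |y| ≤ 1 := abs_chQ (by
    rw [abs_mul, abs_of_pos e0]; nlinarith [abs_nonneg μ]) x
  have hq : |eps s.2 * clY y| ≤ eps s.2 := by
    rw [abs_mul, abs_of_pos e0]; exact mul_le_of_le_one_right e0.le (abs_clY y)
  rw [mag_bump_sub h₂.tree h₂.abs_lt hW₂ h₂.conn (h₂.sub s hs₂) ha₂ (lt_of_le_of_lt hq (by linarith)),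
    mul_pow, ← hμ, show eps s.2 ^ 2 * (4 * cov G P₂.θ P₂.B W₂ s.1 a ^ 2) =
      cov G P₂.θ P₂.B W₂ s.1 a ^ 2 * (2 * eps s.2) ^ 2 by ring]
  refine mul_le_mul_of_nonneg_left ?_ (sq_nonneg _)
  rw [← sq_abs]
  refine pow_le_pow_left₀ (abs_nonneg _) ?_ 2
  have hd : 1 / 2 ≤ 1 + μ * (eps s.2 * clY y) := by
    have : |μ * (eps s.2 * clY y)| ≤ 1 / 2 := by
      rw [abs_mul]
      calc |μ| * |eps s.2 * clY y| ≤ 1 * (1 / 2) := by gcongr; linarith
        _ = 1 / 2 := by norm_num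
    linarith [(abs_le.1 this).1]
  rw [abs_div, abs_of_pos (by linarith : 0 < 1 + μ * (eps s.2 * clY y)), div_le_iff₀ (by linarith)]
  nlinarith

lemma window_unique {i k : ℤ} {r : ℝ} (hi : lo i ≤ r ∧ r < lo i + wid i)
    (hk : lo k ≤ r ∧ r < lo k + wid k) : i = k := by
  have key : ∀ i k : ℤ, i < k → lo i + wid i ≤ lo k := by
    intro i k hik
    have hik' : i + 1 ≤ k := hik
    by_cases hk0 : k < 0
    · rw [lo, wid, if_pos (by omega), if_pos (by omega), lo, if_pos hk0, ← two_mul,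
        show (2 : ℝ) * 2 ^ i = 2 ^ (i + 1) by rw [zpow_add_one₀ two_ne_zero]; ring]
      exact zpow_le_zpow_right₀ one_le_two hik'
    · rw [lo, wid, lo, if_neg hk0]
      by_cases hi0 : i < 0
      · rw [if_pos hi0, if_pos hi0, ← two_mul,
          show (2 : ℝ) * 2 ^ i = 2 ^ (i + 1) by rw [zpow_add_one₀ two_ne_zero]; ring]
        have h1 : (2 : ℝ) ^ (i + 1) ≤ 1 := zpow_le_one_of_nonpos₀ one_le_two (by omega)
        have h2 : (0 : ℝ) ≤ k := by exact_mod_cast Int.not_lt.1 hk0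
        linarith
      · rw [if_neg hi0, if_neg hi0]
        have : (i : ℝ) + 1 ≤ k := by exact_mod_cast hik'
        linarith
  rcases lt_trichotomy i k with h | h | h
  · linarith [key i k h]
  · exact h
  · linarith [key k i h]

open scoped Classical in
/-- At every time only one level is active. -/
lemma sum_window_le {A : Finset (V × ℤ)} {B : Finset V} (hA : ∀ s ∈ A, s.1 ∈ B) {f : V → ℝ}
    (hf : ∀ b, 0 ≤ f b) (r : ℝ) :
    ∑ s ∈ A, (if lo s.2 ≤ r ∧ r < lo s.2 + wid s.2 then f s.1 else 0) ≤ ∑ b ∈ B, f b := by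
  rw [← sum_filter]
  have hinj : Set.InjOn (Prod.fst : V × ℤ → V) (A.filter fun s => lo s.2 ≤ r ∧ r < lo s.2 + wid s.2) := by
    intro s hs s' hs' h
    simp only [coe_filter, Set.mem_ofPred_eq] at hs hs'
    exact Prod.ext h (window_unique hs.2 hs'.2)
  rw [← sum_image hinj]
  refine sum_le_sum_of_subset_of_nonneg (fun b hb => ?_) fun b _ _ => hf b
  obtain ⟨s, hs, rfl⟩ := mem_image.1 hb
  exact hA s (mem_filter.1 hs).1

/-- The coupling `(d-1) ^ (-1/2)` is approached from below. -/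
lemma thN_spec (hR : Reg G d) {n : ℕ} (hn : 1 ≤ n) :
    1 / (2 * Real.sqrt ((d : ℝ) - 1)) ≤ thN d n ∧ 0 < thN d n ∧ thN d n < 1 ∧
      thN d n ^ 2 * ((d : ℝ) - 1) < 1 ∧ 1 - thN d n ^ 2 * ((d : ℝ) - 1) ≤ 2 * (1 / 2) ^ n ∧
      thN d n ≤ 1 / Real.sqrt ((d : ℝ) - 1) := by
  have hb := hR.two_le
  set b := (d : ℝ) - 1 with hbdef
  have hs : 0 < Real.sqrt b := Real.sqrt_pos.2 (by linarith)
  have hsq : Real.sqrt b ^ 2 = b := Real.sq_sqrt (by linarith)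
  have hs1 : 1 < Real.sqrt b := by nlinarith
  have hh : ((1 : ℝ) / 2) ^ n ≤ 1 / 2 := pow_le_of_le_one (by norm_num) (by norm_num) (by omega)
  have hh0 : 0 < ((1 : ℝ) / 2) ^ n := by positivity
  have e : thN d n ^ 2 * b = (1 - (1 / 2) ^ n) ^ 2 := by
    rw [thN, ← hbdef, mul_pow, div_pow, one_pow, hsq]
    field_simp
  refine ⟨?_, mul_pos (by positivity) (by linarith), ?_, ?_, ?_, ?_⟩
  · rw [thN, ← hbdef, show 1 / (2 * Real.sqrt b) = 1 / Real.sqrt b * (1 / 2) by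
      rw [div_mul_div_comm, one_mul, mul_comm]]
    exact mul_le_mul_of_nonneg_left (by linarith) (by positivity)
  · calc thN d n ≤ 1 / Real.sqrt b * 1 := mul_le_mul_of_nonneg_left (by linarith) (by positivity)
      _ < 1 := by rw [mul_one, div_lt_one hs]; exact hs1
  · rw [e]; nlinarith
  · rw [e]; nlinarith
  · exact mul_le_of_le_one_right (by positivity) (by linarith)

lemma fullRun_ok (hR : Reg G d) {θ : ℝ} (h0 : 0 ≤ θ) (h1 : θ < 1) {B : Finset V}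
    (hB : (G.induce (B : Set V)).Connected) (n J : ℕ) : (fullRun θ B n J).Ok G :=
  ⟨hR.tree, h0, h1, hB, fun _ hs => (mem_product.1 hs).1⟩

lemma runN_ok (hR : Reg G d) {n : ℕ} (hn : 1 ≤ n) (J : ℕ) (o : V) (R : ℕ) :
    (runN G d n J o R).Ok G :=
  fullRun_ok hR (thN_spec hR hn).2.1.le (thN_spec hR hn).2.2.1 (connected_ball hR o R) n J

end Vale.Agent.P161.Crit
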