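import Vale.Agent.P161.Crit.Evid
import Mathlib.MeasureTheory.Function.StronglyMeasurable.Basic

/-!
# P161, critical point: measurability of the sampler and generic facts on slot times
-/

open MeasureTheory SimpleGraph Finset

namespace Vale.Agent.P161.Crit

variable {V : Type*} {G : SimpleGraph V} {P : Run V} {θ : ℝ} {B : Finset V}

lemma measurable_weight_apply (c : V) (r : Bool) :
    Measurable fun W : V → Bool → ℝ => W c r :=
  (measurable_pi_apply r).comp (measurable_pi_apply c)

lemma measurable_msg (G : SimpleGraph V) (θ : ℝ) (B : Finset V) (p c : V) (r : Bool) :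
    Measurable fun W : V → Bool → ℝ => msg G θ B W p c r := by
  have : ∀ n p c r, Measurable fun W : V → Bool → ℝ => msgN G θ B W n p c r := by
    intro n
    induction n with
    | zero => exact fun p c r => measurable_weight_apply c r
    | succ n ih =>
      exact fun p c r => (measurable_weight_apply c r).mul (Finset.measurable_prod _ fun g _ =>
        (measurable_const.mul (ih c g true)).add (measurable_const.mul (ih c g false)))
  exact this _ p c r

lemma measurable_mag (G : SimpleGraph V) (θ : ℝ) (B : Finset V) (c : V) :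
    Measurable fun W : V → Bool → ℝ => mag G θ B W c :=
  ((measurable_msg G θ B c c true).sub (measurable_msg G θ B c c false)).div
    ((measurable_msg G θ B c c true).add (measurable_msg G θ B c c false))

lemma measurable_evid (G : SimpleGraph V) (θ : ℝ) (B : Finset V) (o : V) :
    Measurable fun W : V → Bool → ℝ => evid G θ B o W :=
  ((measurable_msg G θ B o o true).add (measurable_msg G θ B o o false)).div_const 2

lemma abs_pull_le (hθ : |θ| ≤ 1) {f : Bool → ℝ} {K : ℝ} (hf : ∀ r, |f r| ≤ K) (r : Bool) :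
    |pull θ f r| ≤ K := by
  obtain ⟨h1, h2⟩ := abs_le.1 hθ
  obtain ⟨a1, a2⟩ := abs_le.1 (hf true)
  obtain ⟨b1, b2⟩ := abs_le.1 (hf false)
  cases r <;> simp only [pull, sgn, if_true, Bool.false_eq_true, if_false] <;> rw [abs_le] <;>
    constructor <;> nlinarith

lemma exists_evid_bound (G : SimpleGraph V) (hθ : |θ| ≤ 1) (B : Finset V) (M : ℝ) :
    ∃ K, ∀ (o : V) (W : V → Bool → ℝ), (∀ x r, |W x r| ≤ M) → |evid G θ B o W| ≤ K := by
  classical
  have : ∀ n, ∃ K, ∀ W : V → Bool → ℝ, (∀ x r, |W x r| ≤ M) →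
      ∀ p c r, |msgN G θ B W n p c r| ≤ K := by
    intro n
    induction n with
    | zero => exact ⟨M, fun W h p c r => h c r⟩
    | succ n ih =>
      obtain ⟨K, hK⟩ := ih
      refine ⟨|M| * max 1 K ^ B.card, fun W h p c r => ?_⟩
      show |_ * _| ≤ _
      rw [abs_mul, Finset.abs_prod]
      refine mul_le_mul ((h c r).trans (le_abs_self M)) ?_
        (prod_nonneg fun _ _ => abs_nonneg _) (abs_nonneg _)
      refine (prod_le_prod (fun _ _ => abs_nonneg _) fun g _ =>
        (abs_pull_le hθ (hK W h c g) r).trans (le_max_right 1 K)).trans ?_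
      rw [prod_const]
      exact pow_le_pow_right₀ (le_max_left _ _) (card_le_card (filter_subset _ _))
  obtain ⟨K, hK⟩ := this B.card
  refine ⟨K, fun o W h => ?_⟩
  obtain ⟨a1, a2⟩ := abs_le.1 (hK W h o o true)
  obtain ⟨b1, b2⟩ := abs_le.1 (hK W h o o false)
  rw [evid, msg, abs_le]
  constructor <;> linarith

lemma measurable_time (s : V × ℤ) : Measurable fun ω : V × (ℤ × Bool) → ℝ => time ω s :=
  measurable_const.add (measurable_const.mul
    (continuous_clZ.measurable.comp (measurable_pi_apply _)))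

lemma measurableSet_present (s : V × ℤ) :
    MeasurableSet {ω : V × (ℤ × Bool) → ℝ | present ω s} :=
  measurableSet_lt (continuous_clZ.measurable.comp (measurable_pi_apply _)) measurable_const

lemma measurable_zc (s : V × ℤ) : Measurable fun ω : V × (ℤ × Bool) → ℝ => zc ω s :=
  measurable_pi_apply _

lemma measurable_qW (i : ℤ) (σ : Bool) : Measurable fun y => qW i y σ :=
  measurable_const.add (measurable_const.mul continuous_clY.measurable)

lemma measurable_wts_live (A : Finset (V × ℤ)) {α : Type*} [MeasurableSpace α]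
    {f : α → V × (ℤ × Bool) → ℝ} {T : α → ℝ} {y : α → V × ℤ → ℝ} (hf : Measurable f)
    (hT : Measurable T) (hy : ∀ q, Measurable fun a => y a q) :
    Measurable fun a => wts (live A (f a) (T a)) (y a) := by
  classical
  refine measurable_pi_lambda _ fun v => measurable_pi_lambda _ fun σ => ?_
  simp only [wts, live, filter_filter, prod_filter]
  refine Finset.measurable_prod _ fun q _ =>
    Measurable.ite ?_ ((measurable_qW q.2 σ).comp (hy q)) measurable_const
  have h1 : MeasurableSet {a | present (f a) q} := hf (measurableSet_present q)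
  have h2 : MeasurableSet {a | time (f a) q < T a} :=
    measurableSet_lt ((measurable_time q).comp hf) hT
  by_cases hq : q.1 = v
  · simp only [hq, and_true]
    exact h1.inter h2
  · simp [hq]

lemma measurable_yN (P : Run V) (G : SimpleGraph V) :
    ∀ n q, Measurable fun ω : V × (ℤ × Bool) → ℝ => P.yN G ω n q := by
  intro n
  induction n with
  | zero =>
    intro q
    simp only [Run.yN]
    exact measurable_const
  | succ n ih =>
    intro q
    simp only [Run.yN]
    exact continuous_chQ.measurable.comp ((measurable_const.mul ((measurable_mag _ _ _ _).comp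
      (measurable_wts_live P.A measurable_id (measurable_time q) ih))).prodMk (measurable_zc q))

lemma measurable_st_pi (P : Run V) (G : SimpleGraph V) {α : Type*} [MeasurableSpace α]
    {f : α → V × (ℤ × Bool) → ℝ} {T : α → ℝ} (hf : Measurable f) (hT : Measurable T) :
    Measurable fun a => P.st G (f a) (T a) :=
  measurable_wts_live P.A hf hT fun q => (measurable_yN P G _ q).comp hf

lemma measurable_obs_pi (P : Run V) {α : Type*} [MeasurableSpace α]
    {f : α → V × (ℤ × Bool) → ℝ} {T : α → ℝ} (hf : Measurable f) (hT : Measurable T) :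
    Measurable fun a => P.obs (f a) (T a) :=
  measurable_wts_live P.A hf hT fun q => continuous_xi.measurable.comp ((measurable_zc q).comp hf)

lemma Run.measurable_st (hP : P.Ok G) (v : V) (σ : Bool) :
    Measurable fun p : (V × (ℤ × Bool) → ℝ) × ℝ => P.st G p.1 p.2 v σ :=
  have _ := hP
  (measurable_weight_apply v σ).comp (measurable_st_pi P G measurable_fst measurable_snd)

lemma Run.measurable_m (hP : P.Ok G) (v : V) :
    Measurable fun p : (V × (ℤ × Bool) → ℝ) × ℝ => P.m G p.1 p.2 v :=
  have _ := hP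
  (measurable_mag _ _ _ v).comp (measurable_st_pi P G measurable_fst measurable_snd)

lemma measurable_m_comp (hP : P.Ok G) (v : V) {T : (V × (ℤ × Bool) → ℝ) → ℝ} (hT : Measurable T) :
    Measurable fun ω => P.m G ω (T ω) v :=
  Measurable.comp (g := fun p : (V × (ℤ × Bool) → ℝ) × ℝ => P.m G p.1 p.2 v)
    (f := fun ω => (ω, T ω)) (Run.measurable_m hP v) (measurable_id.prodMk hT)

lemma measurable_bump (s : V × ℤ) :
    Measurable fun p : (V → Bool → ℝ) × ℝ => bump p.1 s p.2 := by
  refine measurable_pi_lambda _ fun v => measurable_pi_lambda _ fun σ => ?_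
  have h : Measurable fun p : (V → Bool → ℝ) × ℝ => p.1 v σ :=
    (measurable_weight_apply v σ).comp measurable_fst
  by_cases hv : v = s.1
  · simp only [bump, hv, if_true]
    subst hv
    exact h.mul ((measurable_qW s.2 σ).comp measurable_snd)
  · simp only [bump, hv, if_false]
    exact h

lemma measurable_inc (P : Run V) (G : SimpleGraph V) (a : V) (s : V × ℤ) :
    Measurable fun p : (V → Bool → ℝ) × ℝ => P.inc G p.1 a s p.2 := by
  classical
  unfold Run.inc
  by_cases hs : s ∈ P.A
  · simp only [hs, if_true]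
    exact ((measurable_mag _ _ _ a).comp ((measurable_bump s).comp (measurable_fst.prodMk
      (continuous_chQ.measurable.comp ((measurable_const.mul
        ((measurable_mag _ _ _ s.1).comp measurable_fst)).prodMk measurable_snd))))).sub
      ((measurable_mag _ _ _ a).comp measurable_fst)
  · simp only [hs, if_false]
    exact measurable_const

/-! ### Time labels -/

/-- The two samples have the same time labels. -/
def TimeEq (ω ω' : V × (ℤ × Bool) → ℝ) : Prop := ∀ v i, ω (v, (i, true)) = ω' (v, (i, true))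

lemma TimeEq.time_eq {ω ω' : V × (ℤ × Bool) → ℝ} (h : TimeEq ω ω') (s : V × ℤ) :
    time ω s = time ω' s := by
  unfold time
  rw [h s.1 s.2]

lemma TimeEq.present_iff {ω ω' : V × (ℤ × Bool) → ℝ} (h : TimeEq ω ω') (s : V × ℤ) :
    present ω s ↔ present ω' s := by
  unfold present
  rw [h s.1 s.2]

lemma TimeEq.live_eq {ω ω' : V × (ℤ × Bool) → ℝ} (h : TimeEq ω ω') (A : Finset (V × ℤ)) (t : ℝ) :
    live A ω t = live A ω' t := by
  ext q
  simp only [mem_live, h.present_iff, h.time_eq]

lemma timeEq_update [DecidableEq (V × (ℤ × Bool))] (ω : V × (ℤ × Bool) → ℝ) (s : V × ℤ) (x : ℝ) :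
    TimeEq (Function.update ω (s.1, (s.2, false)) x) ω := fun v i =>
  Function.update_of_ne (by simp) _ _

lemma zc_update [DecidableEq (V × (ℤ × Bool))] (ω : V × (ℤ × Bool) → ℝ) (s : V × ℤ) (x : ℝ) :
    zc (Function.update ω (s.1, (s.2, false)) x) s = x :=
  Function.update_self _ _ _

lemma zc_update_ne [DecidableEq (V × (ℤ × Bool))] (ω : V × (ℤ × Bool) → ℝ) {s q : V × ℤ}
    (h : q ≠ s) (x : ℝ) : zc (Function.update ω (s.1, (s.2, false)) x) q = zc ω q :=
  Function.update_of_ne (fun e => h (by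
    simp only [Prod.mk.injEq, and_true] at e
    exact Prod.ext e.1 e.2)) _ _

lemma integral_eq_zero_update [DecidableEq (V × (ℤ × Bool))] (τ : V × (ℤ × Bool))
    {f : (V × (ℤ × Bool) → ℝ) → ℝ} (hf : Measurable f) {C : ℝ} (hC : ∀ ω, |f ω| ≤ C)
    (h : ∀ ω, ∫ x, f (Function.update ω τ x) ∂unifR = 0) :
    ∫ ω, f ω ∂iidU (V × (ℤ × Bool)) = 0 := by
  rw [integral_update τ hf hC]
  simp [h]

lemma unifR_singleton (c : ℝ) : ∀ᵐ x ∂unifR, x ≠ c := by
  rw [ae_iff]
  simp [unifR]

lemma ae_no_tie (A : Finset (V × ℤ)) : ∀ᵐ ω ∂iidU (V × (ℤ × Bool)),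
    ∀ s ∈ A, ∀ q ∈ A, present ω s → present ω q → time ω s = time ω q → s = q := by
  classical
  refine (Finset.eventually_all A).2 fun s _ => (Finset.eventually_all A).2 fun q _ => ?_
  by_cases hsq : s = q
  · exact ae_of_all _ fun _ _ _ _ => hsq
  let S : Set (V × (ℤ × Bool) → ℝ) := {ω | time ω s = time ω q}
  have hS : MeasurableSet S := measurableSet_eq_fun (measurable_time s) (measurable_time q)
  have key : ∫ ω, S.indicator (1 : (V × (ℤ × Bool) → ℝ) → ℝ) ω ∂iidU (V × (ℤ × Bool)) = 0 := by
    refine integral_eq_zero_update (s.1, (s.2, true)) (measurable_one.indicator hS) (C := 1)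
      (fun ω => by by_cases h : ω ∈ S <;> simp [h]) fun ω => ?_
    refine integral_eq_zero_of_ae ?_
    filter_upwards [unifR_singleton ((time ω q - lo s.2) / (2 * wid s.2)), ae_unifR_mem]
      with x hx hx'
    refine Set.indicator_of_notMem (fun hmem => hx ?_) _
    have hne : (q.1, (q.2, true)) ≠ (s.1, (s.2, true)) := fun e => hsq (by
      simp only [Prod.mk.injEq, and_true] at e
      exact Prod.ext e.1.symm e.2.symm)
    have e : time (Function.update ω (s.1, (s.2, true)) x) q = time ω q := by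
      unfold time
      rw [Function.update_of_ne hne]
    have h1 : time (Function.update ω (s.1, (s.2, true)) x) s = time ω q := Eq.trans hmem e
    rw [time, Function.update_self, clZ_of_mem hx'.1 hx'.2] at h1
    rw [← h1, add_sub_cancel_left, mul_div_cancel_left₀]
    exact (mul_pos two_pos (wid_pos s.2)).ne'
  rw [integral_indicator_one hS, measureReal_eq_zero_iff] at key
  exact (measure_eq_zero_iff_ae_notMem.1 key).mono fun ω h _ _ e => absurd e h

/-! ### Windows -/

open scoped Classical in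
/-- The slots used at times in `[t₀, t)`. -/
noncomputable def win (A : Finset (V × ℤ)) (ω : V × (ℤ × Bool) → ℝ) (t₀ t : ℝ) :
    Finset (V × ℤ) :=
  (live A ω t).filter fun s => t₀ ≤ time ω s

lemma mem_win {A : Finset (V × ℤ)} {ω : V × (ℤ × Bool) → ℝ} {t₀ t : ℝ} {q : V × ℤ} :
    q ∈ win A ω t₀ t ↔ q ∈ A ∧ present ω q ∧ t₀ ≤ time ω q ∧ time ω q < t := by
  classical
  simp only [win, mem_filter, mem_live]
  tauto

lemma TimeEq.win_eq {ω ω' : V × (ℤ × Bool) → ℝ} (h : TimeEq ω ω') (A : Finset (V × ℤ)) (t₀ t : ℝ) :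
    win A ω t₀ t = win A ω' t₀ t := by
  ext q
  simp only [mem_win, h.present_iff, h.time_eq]

lemma card_win_le (A : Finset (V × ℤ)) (ω : V × (ℤ × Bool) → ℝ) (t₀ t : ℝ) :
    (win A ω t₀ t).card ≤ A.card :=
  card_le_card fun _ hq => (mem_win.1 hq).1

/-- The samples in which `s` is the last of the `k + 1` slots of the window. -/
def lastSet (A : Finset (V × ℤ)) (L : (V × (ℤ × Bool) → ℝ) → ℝ) (t₀ : ℝ) (k : ℕ) (s : V × ℤ) :
    Set (V × (ℤ × Bool) → ℝ) :=
  {ω | s ∈ win A ω t₀ (L ω) ∧ (win A ω t₀ (L ω)).card = k + 1 ∧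
    (win A ω t₀ (time ω s)).card = k}

lemma measurable_card_win (A : Finset (V × ℤ)) (t₀ : ℝ) {L : (V × (ℤ × Bool) → ℝ) → ℝ}
    (hL : Measurable L) : Measurable fun ω => (win A ω t₀ (L ω)).card := by
  classical
  simp only [win, live, filter_filter, card_filter]
  exact Finset.measurable_sum _ fun q _ => Measurable.ite
    (((measurableSet_present q).inter (measurableSet_lt (measurable_time q) hL)).inter
      (measurableSet_le measurable_const (measurable_time q))) measurable_const measurable_const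

lemma measurableSet_lastSet (A : Finset (V × ℤ)) (t₀ : ℝ) (k : ℕ) (s : V × ℤ)
    {L : (V × (ℤ × Bool) → ℝ) → ℝ} (hL : Measurable L) : MeasurableSet (lastSet A L t₀ k s) := by
  have h1 : MeasurableSet {ω : V × (ℤ × Bool) → ℝ | s ∈ win A ω t₀ (L ω)} := by
    simp only [mem_win]
    exact (MeasurableSet.const _).inter ((measurableSet_present s).inter
      ((measurableSet_le measurable_const (measurable_time s)).inter
        (measurableSet_lt (measurable_time s) hL)))
  exact h1.inter ((measurable_card_win A t₀ hL (measurableSet_singleton (k + 1))).inter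
    (measurable_card_win A t₀ (measurable_time s) (measurableSet_singleton k)))

lemma lastSet_iff {A : Finset (V × ℤ)} {L : (V × (ℤ × Bool) → ℝ) → ℝ} {t₀ : ℝ} {k : ℕ}
    {s : V × ℤ} (hLu : ∀ ω ω', TimeEq ω ω' → L ω = L ω') {ω ω' : V × (ℤ × Bool) → ℝ}
    (h : TimeEq ω ω') : ω ∈ lastSet A L t₀ k s ↔ ω' ∈ lastSet A L t₀ k s := by
  simp only [lastSet, Set.mem_ofPred_eq, h.win_eq, hLu ω ω' h, h.time_eq]

lemma mem_live_of_last {A A' : Finset (V × ℤ)} (hA : A' ⊆ A)
    {L : (V × (ℤ × Bool) → ℝ) → ℝ} {t₀ : ℝ} {k : ℕ} {s : V × ℤ} {ω : V × (ℤ × Bool) → ℝ}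
    (hω : ω ∈ lastSet A L t₀ k s) (q : V × ℤ) :
    q ∈ live A' ω (L ω) ↔ (q = s ∧ s ∈ A') ∨ q ∈ live A' ω (time ω s) := by
  classical
  obtain ⟨h1, h2, h3⟩ := hω
  obtain ⟨-, hp, ht0, htL⟩ := mem_win.1 h1
  have he : win A ω t₀ (time ω s) = (win A ω t₀ (L ω)).erase s :=
    eq_of_subset_of_card_le (fun u hu => by
      obtain ⟨hu1, hu2, hu3, hu4⟩ := mem_win.1 hu
      exact mem_erase.2 ⟨fun e => (lt_irrefl (time ω s)) (e ▸ hu4),
        mem_win.2 ⟨hu1, hu2, hu3, hu4.trans htL⟩⟩)
      (by rw [card_erase_of_mem h1, h2, h3, Nat.add_sub_cancel])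
  constructor
  · intro hq
    obtain ⟨hqA, hqp, hqL⟩ := mem_live.1 hq
    by_cases e : q = s
    · exact Or.inl ⟨e, e ▸ hqA⟩
    · refine Or.inr (mem_live.2 ⟨hqA, hqp, ?_⟩)
      by_cases hc : t₀ ≤ time ω q
      · have : q ∈ win A ω t₀ (time ω s) := by
          rw [he]
          exact mem_erase.2 ⟨e, mem_win.2 ⟨hA hqA, hqp, hc, hqL⟩⟩
        exact (mem_win.1 this).2.2.2
      · exact (not_le.1 hc).trans_le ht0
  · rintro (⟨rfl, hsA⟩ | hq)
    · exact mem_live.2 ⟨hsA, hp, htL⟩
    · exact mem_live.2 ⟨(mem_live.1 hq).1, (mem_live.1 hq).2.1, (mem_live.1 hq).2.2.trans htL⟩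

lemma integral_split (A : Finset (V × ℤ)) (t₀ : ℝ) {L : (V × (ℤ × Bool) → ℝ) → ℝ}
    (hL : Measurable L) {k : ℕ} {f : (V × (ℤ × Bool) → ℝ) → ℝ} (hf : Measurable f) {C : ℝ}
    (hC : ∀ ω, |f ω| ≤ C) (hsupp : ∀ ω, k + 1 < (win A ω t₀ (L ω)).card → f ω = 0)
    (hsmall : ∫ ω, {ω | (win A ω t₀ (L ω)).card ≤ k}.indicator f ω ∂iidU (V × (ℤ × Bool)) = 0)
    (hlast : ∀ s ∈ A,
      ∫ ω, (lastSet A L t₀ k s).indicator f ω ∂iidU (V × (ℤ × Bool)) = 0) :
    ∫ ω, f ω ∂iidU (V × (ℤ × Bool)) = 0 := by
  classical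
  have hint := integrable_of_abs_le (m := iidU (V × (ℤ × Bool))) hf hC
  have hm : MeasurableSet {ω : V × (ℤ × Bool) → ℝ | (win A ω t₀ (L ω)).card ≤ k} :=
    measurable_card_win A t₀ hL (measurableSet_Iic (a := k))
  have key : f =ᵐ[iidU (V × (ℤ × Bool))] fun ω =>
      {ω | (win A ω t₀ (L ω)).card ≤ k}.indicator f ω +
        ∑ s ∈ A, (lastSet A L t₀ k s).indicator f ω := by
    filter_upwards [ae_no_tie A] with ω hω
    rcases Nat.lt_trichotomy (win A ω t₀ (L ω)).card (k + 1) with h | h | h
    · rw [Set.indicator_of_mem (show ω ∈ {ω | (win A ω t₀ (L ω)).card ≤ k} from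
        Nat.le_of_lt_succ h), Finset.sum_eq_zero, add_zero]
      exact fun s _ => Set.indicator_of_notMem (fun h' => h.ne h'.2.1) _
    · rw [Set.indicator_of_notMem (fun h' => by simp only [Set.mem_ofPred_eq] at h'; omega),
        zero_add]
      obtain ⟨s, hs, hmax⟩ := exists_max_image (win A ω t₀ (L ω)) (time ω)
        (card_pos.1 (by omega))
      obtain ⟨hsA, hsp, hs0, hsL⟩ := mem_win.1 hs
      have hlt : ∀ q ∈ win A ω t₀ (L ω), q ≠ s → time ω q < time ω s := fun q hq hne =>
        (hmax q hq).lt_of_ne fun e => hne (hω q (mem_win.1 hq).1 s hsA (mem_win.1 hq).2.1 hsp e)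
      have hmem : ω ∈ lastSet A L t₀ k s := by
        refine ⟨hs, h, ?_⟩
        have : win A ω t₀ (time ω s) = (win A ω t₀ (L ω)).erase s := by
          ext q
          refine ⟨fun hq => ?_, fun hq => ?_⟩
          · obtain ⟨h1, h2, h3, h4⟩ := mem_win.1 hq
            exact mem_erase.2 ⟨fun e => lt_irrefl (time ω s) (e ▸ h4),
              mem_win.2 ⟨h1, h2, h3, h4.trans hsL⟩⟩
          · obtain ⟨hne, hq'⟩ := mem_erase.1 hq
            obtain ⟨h1, h2, h3, -⟩ := mem_win.1 hq'
            exact mem_win.2 ⟨h1, h2, h3, hlt q hq' hne⟩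
        rw [this, card_erase_of_mem hs, h, Nat.add_sub_cancel]
      rw [Finset.sum_eq_single s, Set.indicator_of_mem hmem]
      · refine fun q _ hne => Set.indicator_of_notMem (fun hq => ?_) _
        obtain ⟨hq1, -, hq3⟩ := hq
        have hsub : win A ω t₀ (time ω q) ⊆ ((win A ω t₀ (L ω)).erase q).erase s := by
          intro u hu
          obtain ⟨h1, h2, h3, h4⟩ := mem_win.1 hu
          refine mem_erase.2 ⟨fun e => ?_, mem_erase.2 ⟨fun e => lt_irrefl (time ω q) (e ▸ h4),
            mem_win.2 ⟨h1, h2, h3, h4.trans (mem_win.1 hq1).2.2.2⟩⟩⟩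
          exact lt_asymm (hlt q hq1 hne) (e ▸ h4)
        have h5 := card_le_card hsub
        rw [card_erase_of_mem (mem_erase.2 ⟨Ne.symm hne, hs⟩), card_erase_of_mem hq1, h, hq3] at h5
        have : 1 < (win A ω t₀ (L ω)).card := one_lt_card.2 ⟨q, hq1, s, hs, hne⟩
        omega
      · exact fun h' => absurd hsA h'
    · rw [hsupp ω h]
      simp [Set.indicator_apply, hsupp ω h]
  rw [integral_congr_ae key, integral_add (hint.indicator hm)
    (integrable_finsetSum _ fun s _ => hint.indicator (measurableSet_lastSet A t₀ k s hL)),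
    hsmall, integral_finsetSum _ fun s _ => hint.indicator (measurableSet_lastSet A t₀ k s hL),
    Finset.sum_eq_zero hlast, add_zero]

end Vale.Agent.P161.Crit
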