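import Vale.Agent.P161.Automorphism
import Vale.Agent.P161.Crit.Edge

/-!
# P161, critical point: messages on a finite tree

`B` is a finite vertex set and `a` gives positive site weights. For an edge from `p` to `c`,
`msg p c` is the pair of weights of the part of `B` on the side of `c`; `msg c c` is the whole of `B`
seen from `c`.
-/

open SimpleGraph Finset

namespace Vale.Agent.P161.Crit

variable {V : Type*} (G : SimpleGraph V) (θ : ℝ) (B : Finset V)

open scoped Classical in
/-- The neighbours of `c` in `B` other than `p`. -/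
noncomputable def kid (p c : V) : Finset V := B.filter fun g => G.Adj c g ∧ g ≠ p

/-- The part of `B` closer to `c` than to `p`. -/
noncomputable def far (p c : V) : Finset V := B.filter fun x => G.dist x c < G.dist x p

/-- Transport a pair of weights along one edge. -/
noncomputable def pull (f : Bool → ℝ) (s : Bool) : ℝ :=
  (1 + θ * sgn s) / 2 * f true + (1 - θ * sgn s) / 2 * f false

/-- The magnetisation of a pair of weights. -/
noncomputable def magOf (f : Bool → ℝ) : ℝ := (f true - f false) / (f true + f false)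

/-- The messages, computed with `n` rounds. -/
noncomputable def msgN (a : V → Bool → ℝ) : ℕ → V → V → Bool → ℝ
  | 0, _, c, s => a c s
  | n + 1, p, c, s => a c s * ∏ g ∈ kid G B p c, pull θ (msgN a n c g) s

/-- The messages. -/
noncomputable def msg (a : V → Bool → ℝ) (p c : V) : Bool → ℝ := msgN G θ B a B.card p c

/-- The magnetisation of `c` on its side of the edge from `p`. -/
noncomputable def cav (a : V → Bool → ℝ) (p c : V) : ℝ := magOf (msg G θ B a p c)

/-- The magnetisation of `c`. -/
noncomputable def mag (a : V → Bool → ℝ) (c : V) : ℝ := cav G θ B a c c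

variable {G θ B} {a a' : V → Bool → ℝ} {p c g : V}

lemma mem_kid : g ∈ kid G B p c ↔ g ∈ B ∧ G.Adj c g ∧ g ≠ p := by
  classical
  simp [kid]

lemma mem_far {x : V} : x ∈ far G B p c ↔ x ∈ B ∧ G.dist x c < G.dist x p := by
  simp [far]

lemma kid_insert [DecidableEq V] (hadj : G.Adj c g) (hg : g ∈ B) :
    kid G B c c = insert g (kid G B g c) := by
  ext x
  simp only [mem_kid, Finset.mem_insert]
  constructor
  · rintro ⟨hx, hcx, -⟩
    by_cases e : x = g
    · exact Or.inl e
    · exact Or.inr ⟨hx, hcx, e⟩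
  · rintro (rfl | ⟨hx, hcx, -⟩)
    · exact ⟨hg, hadj, hadj.ne'⟩
    · exact ⟨hx, hcx, hcx.ne'⟩

lemma pull_pos (hθ : |θ| ≤ 1) {f : Bool → ℝ} (hf : ∀ s, 0 < f s) (s : Bool) : 0 < pull θ f s := by
  obtain ⟨h1, h2⟩ := abs_le.1 hθ
  have ht := hf true
  have hf' := hf false
  cases s <;> simp only [pull, sgn, if_true, if_false, Bool.false_eq_true] <;>
    rcases lt_or_ge θ 0 with h | h <;> nlinarith

lemma msgN_pos (hθ : |θ| ≤ 1) (ha : ∀ x s, 0 < a x s) :
    ∀ n p c s, 0 < msgN G θ B a n p c s := by
  intro n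
  induction n with
  | zero => exact fun p c s => ha c s
  | succ n ih => exact fun p c s => mul_pos (ha c s) (prod_pos fun g _ => pull_pos hθ (ih c g) s)

lemma msg_pos (hθ : |θ| ≤ 1) (ha : ∀ x s, 0 < a x s) (p c : V) (s : Bool) :
    0 < msg G θ B a p c s := msgN_pos hθ ha _ p c s

lemma abs_magOf {f : Bool → ℝ} (hf : ∀ s, 0 < f s) : |magOf f| < 1 := by
  have := hf true
  have := hf false
  rw [magOf, abs_div, abs_of_pos (by linarith : 0 < f true + f false), div_lt_one (by linarith),
    abs_lt]
  constructor <;> linarith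

lemma abs_cav (hθ : |θ| ≤ 1) (ha : ∀ x s, 0 < a x s) (p c : V) : |cav G θ B a p c| < 1 :=
  abs_magOf (msg_pos hθ ha p c)

lemma abs_mag (hθ : |θ| ≤ 1) (ha : ∀ x s, 0 < a x s) (c : V) : |mag G θ B a c| < 1 :=
  abs_cav hθ ha c c

variable (hT : G.IsTree)
include hT

lemma far_subset (hg : g ∈ kid G B p c) (hcp : p = c ∨ G.Adj p c) (hc : c ∈ B) :
    far G B c g ⊂ B ∧ (p ≠ c → far G B c g ⊂ far G B p c) := by
  obtain ⟨hgB, hadj, hgp⟩ := mem_kid.1 hg
  have hc' : c ∉ far G B c g := fun h => by
    have := (mem_far.1 h).2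
    simp at this
  refine ⟨(ssubset_iff_of_subset (filter_subset _ _)).2 ⟨c, hc, hc'⟩, fun hne => ?_⟩
  have hpc : G.Adj p c := hcp.resolve_left hne
  refine (ssubset_iff_of_subset fun x hx => ?_).2 ⟨c, mem_far.2 ⟨hc, ?_⟩, hc'⟩
  · obtain ⟨hxB, hlt⟩ := mem_far.1 hx
    refine mem_far.2 ⟨hxB, ?_⟩
    have e : G.dist x c = G.dist x g + 1 := by
      rcases hT.dist_eq_dist_add_one_of_adj x hadj with h | h <;> omega
    by_contra hcon
    rcases hT.dist_eq_dist_add_one_of_adj x hpc with h | h
    · omega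
    · exact hgp (closer_unique hT hadj hpc.symm e h)
  · rw [SimpleGraph.dist_self]
    exact hT.connected.pos_dist_of_ne hpc.ne'

lemma msgN_stable : ∀ n, ∀ p c : V, c ∈ B → G.Adj p c → (far G B p c).card ≤ n + 1 →
    msgN G θ B a (n + 1) p c = msgN G θ B a n p c := by
  intro n
  induction n with
  | zero =>
    intro p c hc hpc hcard
    funext s
    have : kid G B p c = ∅ := by
      refine eq_empty_of_forall_notMem fun g hg => ?_
      have h2 := card_lt_card ((far_subset hT hg (Or.inr hpc) hc).2 hpc.ne)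
      have h3 : g ∈ far G B c g := mem_far.2 ⟨(mem_kid.1 hg).1, by
        rw [SimpleGraph.dist_self]; exact hT.connected.pos_dist_of_ne (mem_kid.1 hg).2.1.ne'⟩
      have := card_pos.2 ⟨g, h3⟩
      omega
    simp [msgN, this]
  | succ n ih =>
    intro p c hc hpc hcard
    funext s
    show a c s * _ = a c s * _
    congr 1
    refine prod_congr rfl fun g hg => ?_
    have h2 := card_lt_card ((far_subset hT hg (Or.inr hpc) hc).2 hpc.ne)
    rw [ih c g (mem_kid.1 hg).1 (mem_kid.1 hg).2.1 (by omega)]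

/-- The defining equation of the messages. -/
lemma msg_eq (hc : c ∈ B) (hcp : p = c ∨ G.Adj p c) (s : Bool) :
    msg G θ B a p c s = a c s * ∏ g ∈ kid G B p c, pull θ (msg G θ B a c g) s := by
  obtain ⟨k, hk⟩ : ∃ k, B.card = k + 1 := ⟨B.card - 1, by have := card_pos.2 ⟨c, hc⟩; omega⟩
  rw [msg, hk]
  show a c s * _ = _
  congr 1
  refine prod_congr rfl fun g hg => ?_
  have h1 := card_lt_card (far_subset hT hg hcp hc).1
  rw [msg, hk, msgN_stable hT k c g (mem_kid.1 hg).1 (mem_kid.1 hg).2.1 (by omega)]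

/-- The weights on the side of `c` depend only on the site weights there. -/
lemma msg_congr : ∀ n, ∀ p c : V, c ∈ B → G.Adj p c → (far G B p c).card ≤ n →
    (∀ x ∈ far G B p c, a x = a' x) → msg G θ B a p c = msg G θ B a' p c := by
  intro n
  induction n with
  | zero =>
    intro p c hc hpc hcard
    have : c ∈ far G B p c := mem_far.2 ⟨hc, by
      rw [SimpleGraph.dist_self]; exact hT.connected.pos_dist_of_ne hpc.ne'⟩
    have := card_pos.2 ⟨c, this⟩
    omega
  | succ n ih =>
    intro p c hc hpc hcard h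
    funext s
    rw [msg_eq hT hc (Or.inr hpc), msg_eq hT hc (Or.inr hpc),
      h c (mem_far.2 ⟨hc, by
        rw [SimpleGraph.dist_self]; exact hT.connected.pos_dist_of_ne hpc.ne'⟩)]
    congr 1
    refine prod_congr rfl fun g hg => ?_
    have h2 := (far_subset hT hg (Or.inr hpc) hc).2 hpc.ne
    have := card_lt_card h2
    rw [ih c g (mem_kid.1 hg).1 (mem_kid.1 hg).2.1 (by omega) fun x hx => h x (h2.subset hx)]

lemma cav_congr (hc : c ∈ B) (hpc : G.Adj p c) (h : ∀ x ∈ far G B p c, a x = a' x) :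
    cav G θ B a p c = cav G θ B a' p c := by
  rw [cav, cav, msg_congr hT _ p c hc hpc le_rfl h]

/-- Across an edge the two side magnetisations give the magnetisation. -/
lemma mag_eq_edgeMag (hθ : |θ| < 1) (ha : ∀ x s, 0 < a x s) (hc : c ∈ B) (hg : g ∈ B)
    (hadj : G.Adj c g) :
    mag G θ B a c = edgeMag θ (cav G θ B a g c) (cav G θ B a c g) := by
  classical
  have e : ∀ s, msg G θ B a c c s = msg G θ B a g c s * pull θ (msg G θ B a c g) s := fun s => by
    rw [msg_eq hT hc (Or.inl rfl), msg_eq hT hc (Or.inr hadj.symm), kid_insert hadj hg,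
      prod_insert (fun h => (mem_kid.1 h).2.2 rfl)]
    ring
  rw [mag, cav, magOf, e, e]
  have f0 := msg_pos (G := G) (θ := θ) (B := B) hθ.le ha g c true
  have f1 := msg_pos (G := G) (θ := θ) (B := B) hθ.le ha g c false
  have g0 := msg_pos (G := G) (θ := θ) (B := B) hθ.le ha c g true
  have g1 := msg_pos (G := G) (θ := θ) (B := B) hθ.le ha c g false
  simp only [edgeMag, cav, magOf, pull, sgn, if_true, Bool.false_eq_true, if_false]
  generalize msg G θ B a g c true = A at *
  generalize msg G θ B a g c false = A' at *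
  generalize msg G θ B a c g true = C at *
  generalize msg G θ B a c g false = C' at *
  have h1 : A + A' ≠ 0 := by linarith
  have h2 : C + C' ≠ 0 := by linarith
  have e2 : θ * ((A - A') / (A + A')) * ((C - C') / (C + C')) =
      θ * (A - A') * (C - C') / ((A + A') * (C + C')) := by field_simp
  rw [e2, one_add_div (mul_ne_zero h1 h2), mul_div_assoc', div_add_div _ _ h1 h2,
    div_div_div_cancel_right₀ (mul_ne_zero h1 h2)]
  rw [show A * ((1 + θ * 1) / 2 * C + (1 - θ * 1) / 2 * C') -
        A' * ((1 + θ * -1) / 2 * C + (1 - θ * -1) / 2 * C') =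
      ((A - A') * (C + C') + θ * (C - C') * (A + A')) / 2 by ring,
    show A * ((1 + θ * 1) / 2 * C + (1 - θ * 1) / 2 * C') +
        A' * ((1 + θ * -1) / 2 * C + (1 - θ * -1) / 2 * C') =
      ((A + A') * (C + C') + θ * (A - A') * (C - C')) / 2 by ring,
    div_div_div_cancel_right₀ two_ne_zero]
  congr 1; ring

/-- The magnetisation of the endpoint as an affine function of the other one. -/
lemma mag_affine (hθ : |θ| < 1) (ha : ∀ x s, 0 < a x s) (hc : c ∈ B) (hg : g ∈ B)
    (hadj : G.Adj c g) :
    mag G θ B a c = offset θ (cav G θ B a g c) + resp θ (cav G θ B a g c) * mag G θ B a g := by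
  rw [mag_eq_edgeMag hT hθ ha hc hg hadj, mag_eq_edgeMag hT hθ ha hg hc hadj.symm]
  exact edgeMag_eq hθ (abs_cav hθ.le ha _ _).le (abs_cav hθ.le ha _ _).le

/-- Symmetry of the edge covariance. -/
lemma var_resp_symm (hθ : |θ| < 1) (ha : ∀ x s, 0 < a x s) (hc : c ∈ B) (hg : g ∈ B)
    (hadj : G.Adj c g) :
    (1 - mag G θ B a g ^ 2) * resp θ (cav G θ B a g c) =
      (1 - mag G θ B a c ^ 2) * resp θ (cav G θ B a c g) := by
  rw [mag_eq_edgeMag hT hθ ha hc hg hadj, mag_eq_edgeMag hT hθ ha hg hc hadj.symm]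
  exact var_resp_comm hθ (abs_cav hθ.le ha _ _).le (abs_cav hθ.le ha _ _).le

end Vale.Agent.P161.Crit
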