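import Vale.Agent.P161.Crit.Path
import Mathlib.Topology.Algebra.Monoid
import Mathlib.Topology.Algebra.GroupWithZero
import Mathlib.Analysis.Real.Sqrt

/-!
# P161, critical point: properties of the messages
-/

open SimpleGraph Finset

namespace Vale.Agent.P161.Crit

variable {V : Type*} {G : SimpleGraph V} {θ θ' : ℝ} {B B' : Finset V} {a : V → Bool → ℝ} {p c : V}

lemma pull_not (θ : ℝ) (f : Bool → ℝ) (s : Bool) :
    pull θ (fun r => f (!r)) s = pull θ f (!s) := by
  cases s <;> simp [pull, sgn] <;> ring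

/-- Reflecting all the weights reflects the messages. -/
lemma msgN_not (a : V → Bool → ℝ) : ∀ n p c s,
    msgN G θ B (fun v r => a v (!r)) n p c s = msgN G θ B a n p c (!s) := by
  intro n
  induction n with
  | zero => intros; rfl
  | succ n ih =>
    intro p c s
    show a c (!s) * _ = a c (!s) * _
    congr 1
    refine prod_congr rfl fun g _ => ?_
    rw [show msgN G θ B (fun v r => a v (!r)) n c g = fun r => msgN G θ B a n c g (!r) from
      funext (ih c g), pull_not]

lemma msg_not (a : V → Bool → ℝ) (p c : V) (s : Bool) :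
    msg G θ B (fun v r => a v (!r)) p c s = msg G θ B a p c (!s) := msgN_not a _ p c s

lemma cav_not (a : V → Bool → ℝ) (p c : V) :
    cav G θ B (fun v r => a v (!r)) p c = -cav G θ B a p c := by
  simp only [cav, magOf, msg_not, Bool.not_true, Bool.not_false]
  rw [← neg_div, add_comm (msg G θ B a p c true)]
  ring

lemma mag_not (a : V → Bool → ℝ) (c : V) :
    mag G θ B (fun v r => a v (!r)) c = -mag G θ B a c := cav_not a c c

lemma cav_sq_not (a : V → Bool → ℝ) (p c : V) :
    cav G θ B (fun v r => a v (!r)) p c ^ 2 = cav G θ B a p c ^ 2 := by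
  rw [cav_not, neg_sq]

lemma kid_map (_hG : G.Connected) (g : G ≃g G) (p c : V) :
    kid G (B.map g.toEquiv.toEmbedding) (g p) (g c) = (kid G B p c).map g.toEquiv.toEmbedding := by
  ext x
  simp only [mem_kid, Finset.mem_map, Equiv.coe_toEmbedding, RelIso.coe_fn_toEquiv]
  constructor
  · rintro ⟨⟨y, hy, rfl⟩, hadj, hne⟩
    exact ⟨y, ⟨hy, g.map_rel_iff.1 hadj, fun e => hne (congrArg g e)⟩, rfl⟩
  · rintro ⟨y, ⟨hy, hadj, hne⟩, rfl⟩
    exact ⟨⟨y, hy, rfl⟩, g.map_rel_iff.2 hadj, fun e => hne (g.injective e)⟩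

/-- Messages commute with automorphisms. -/
lemma msgN_map (hG : G.Connected) (g : G ≃g G) (a : V → Bool → ℝ) : ∀ n p c,
    msgN G θ (B.map g.toEquiv.toEmbedding) (fun v => a (g.symm v)) n (g p) (g c) =
      msgN G θ B a n p c := by
  intro n
  induction n with
  | zero => intro p c; funext s; simp [msgN]
  | succ n ih =>
    intro p c
    funext s
    simp only [msgN, kid_map hG, prod_map, Equiv.coe_toEmbedding, RelIso.coe_fn_toEquiv,
      RelIso.symm_apply_apply, ih]

lemma msg_map (hG : G.Connected) (g : G ≃g G) (a : V → Bool → ℝ) (p c : V) :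
    msg G θ (B.map g.toEquiv.toEmbedding) (fun v => a (g.symm v)) (g p) (g c) =
      msg G θ B a p c := by
  rw [msg, card_map, msgN_map hG]
  rfl

lemma cav_map (hG : G.Connected) (g : G ≃g G) (a : V → Bool → ℝ) (p c : V) :
    cav G θ (B.map g.toEquiv.toEmbedding) (fun v => a (g.symm v)) (g p) (g c) =
      cav G θ B a p c := by rw [cav, cav, msg_map hG]

lemma pthW_map (hG : G.Connected) (g : G ≃g G) (a : V → Bool → ℝ) (w : ℕ → V) (n : ℕ) :
    pthW G θ (B.map g.toEquiv.toEmbedding) (fun v => a (g.symm v)) (fun i => g (w i)) n =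
      pthW G θ B a w n := by
  simp only [pthW, cav_map hG]

lemma msgN_continuous (a : ℝ → V → Bool → ℝ) (ha : ∀ v s, Continuous fun x => a x v s) :
    ∀ n p c s, Continuous fun x : ℝ => msgN G x B (a x) n p c s := by
  intro n
  induction n with
  | zero => exact fun p c s => ha c s
  | succ n ih =>
    intro p c s
    refine (ha c s).mul (continuous_finsetProd _ fun g _ => ?_)
    simp only [pull]
    exact (((continuous_const.add (continuous_id.mul continuous_const)).div_const _).mul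
      (ih c g true)).add (((continuous_const.sub (continuous_id.mul continuous_const)).div_const _).mul
      (ih c g false))

/-- A bound `K` on the ratio of the two weights at every site bounds the ratio of the messages. -/
lemma msgN_ratio (hθ : |θ| < 1) (ha : ∀ x s, 0 < a x s) {K : ℝ} (hK : 1 ≤ K)
    (h : ∀ x s, a x s ≤ K * a x (!s)) {N : ℕ} (hdeg : ∀ p c, (kid G B p c).card ≤ N) :
    ∀ n p c s, msgN G θ B a n p c s ≤
      K * ((1 + |θ|) / (1 - |θ|)) ^ N * msgN G θ B a n p c (!s) := by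
  have h0 : (0 : ℝ) < 1 - |θ| := by linarith
  have hL : 1 ≤ (1 + |θ|) / (1 - |θ|) := by rw [le_div_iff₀ h0]; linarith [abs_nonneg θ]
  have hpull : ∀ f : Bool → ℝ, (∀ r, 0 < f r) → ∀ s,
      pull θ f s ≤ (1 + |θ|) / (1 - |θ|) * pull θ f (!s) := by
    intro f hf s
    rw [div_mul_eq_mul_div, le_div_iff₀ h0]
    have e1 := mul_pos (sub_pos.2 (lt_of_le_of_lt (le_abs_self θ) hθ)) (hf true)
    have ht := hf true
    have hf' := hf false
    cases s <;> rcases le_total 0 θ with hs | hs <;>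
      simp only [pull, sgn, if_true, if_false, Bool.false_eq_true, Bool.not_true, Bool.not_false,
        abs_of_nonneg, abs_of_nonpos, hs] <;>
      nlinarith [mul_nonneg (abs_nonneg θ) ht.le, mul_nonneg (abs_nonneg θ) hf'.le,
        mul_self_nonneg θ]
  intro n
  induction n with
  | zero =>
    intro p c s
    refine (h c s).trans (mul_le_mul_of_nonneg_right ?_ (ha c _).le)
    exact le_mul_of_one_le_right (by linarith) (one_le_pow₀ hL)
  | succ n ih =>
    intro p c s
    simp only [msgN]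
    have hpos := fun g => pull_pos (θ := θ) hθ.le (msgN_pos (G := G) (B := B) hθ.le ha n c g)
    calc a c s * ∏ g ∈ kid G B p c, pull θ (msgN G θ B a n c g) s
        ≤ K * a c (!s) * ∏ g ∈ kid G B p c,
            ((1 + |θ|) / (1 - |θ|) * pull θ (msgN G θ B a n c g) (!s)) := by
          refine mul_le_mul (h c s) (prod_le_prod (fun g _ => (hpos g s).le) fun g _ =>
            hpull _ (msgN_pos hθ.le ha n c g) s) (prod_nonneg fun g _ => (hpos g s).le)
            (mul_nonneg (by linarith) (ha c _).le)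
      _ = K * ((1 + |θ|) / (1 - |θ|)) ^ (kid G B p c).card *
            (a c (!s) * ∏ g ∈ kid G B p c, pull θ (msgN G θ B a n c g) (!s)) := by
          rw [prod_mul_distrib, prod_const]; ring
      _ ≤ _ := by
          refine mul_le_mul_of_nonneg_right
            (mul_le_mul_of_nonneg_left (pow_le_pow_right₀ hL (hdeg p c)) (by linarith))
            (mul_nonneg (ha c _).le (prod_nonneg fun g _ => (hpos g _).le))

lemma abs_magOf_le {f : Bool → ℝ} (hf : ∀ s, 0 < f s) {K : ℝ} (hK : 1 ≤ K)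
    (h : ∀ s, f s ≤ K * f (!s)) : |magOf f| ≤ (K - 1) / (K + 1) := by
  have h1 := h true
  have h2 := h false
  have := hf true
  have := hf false
  simp only [Bool.not_true, Bool.not_false] at h1 h2
  rw [magOf, abs_div, abs_of_pos (by linarith : 0 < f true + f false),
    div_le_div_iff₀ (by linarith) (by linarith)]
  rcases abs_cases (f true - f false) with ⟨e, -⟩ | ⟨e, -⟩ <;> rw [e] <;> nlinarith

lemma abs_cav_le (hθ : |θ| < 1) (ha : ∀ x s, 0 < a x s) {K : ℝ} (hK : 1 ≤ K)
    (h : ∀ x s, a x s ≤ K * a x (!s)) {N : ℕ} (hdeg : ∀ p c, (kid G B p c).card ≤ N) (p c : V) :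
    |cav G θ B a p c| ≤ (K * ((1 + |θ|) / (1 - |θ|)) ^ N - 1) /
      (K * ((1 + |θ|) / (1 - |θ|)) ^ N + 1) := by
  have h0 : (0 : ℝ) < 1 - |θ| := by linarith
  have hL : 1 ≤ (1 + |θ|) / (1 - |θ|) := by rw [le_div_iff₀ h0]; linarith [abs_nonneg θ]
  refine abs_magOf_le (msg_pos hθ.le ha p c) ?_ fun s => msgN_ratio hθ ha hK h hdeg _ p c s
  nlinarith [one_le_pow₀ (n := N) hL]

lemma kid_card_le {d : ℕ} (hd : 0 < d) (hdeg : ∀ v, (G.neighborSet v).ncard = d) (p c : V) :
    (kid G B p c).card ≤ d := by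
  rw [← hdeg c, ← Set.ncard_coe_finset]
  exact Set.ncard_le_ncard (fun g hg => (mem_kid.1 hg).2.1)
    (Set.finite_of_ncard_pos (by rw [hdeg]; exact hd))

lemma kid_card_le_of_adj {d : ℕ} (hd : 0 < d) (hdeg : ∀ v, (G.neighborSet v).ncard = d) {p c : V}
    (h : G.Adj p c) : (kid G B p c).card + 1 ≤ d := by
  classical
  have hp : p ∉ kid G B p c := fun hp => (mem_kid.1 hp).2.2 rfl
  rw [← card_insert_of_notMem hp, ← hdeg c, ← Set.ncard_coe_finset]
  refine Set.ncard_le_ncard (fun g hg => ?_) (Set.finite_of_ncard_pos (by rw [hdeg]; exact hd))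
  rcases Finset.mem_insert.1 (Finset.mem_coe.1 hg) with rfl | hg
  · exact h.symm
  · exact (mem_kid.1 hg).2.1

variable (hT : G.IsTree)
include hT

/-- Vertices carrying trivial weights outside a connected set can be deleted. -/
lemma msg_outside (hB : (G.induce (B : Set V)).Connected)
    (h1 : ∀ x ∉ B, ∀ s, a x s = 1) :
    ∀ n, ∀ p c : V, c ∈ B' → c ∉ B → G.Adj p c → (p ∈ B ∨ ∀ x ∈ far G B' p c, x ∉ B) →
      (far G B' p c).card ≤ n → ∀ s, msg G θ B' a p c s = 1 := by
  classical
  intro n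
  induction n with
  | zero =>
    intro p c hc _ hpc _ hcard
    have : c ∈ far G B' p c := mem_far.2 ⟨hc, by
      rw [SimpleGraph.dist_self]; exact hT.connected.pos_dist_of_ne hpc.ne'⟩
    have := card_pos.2 ⟨c, this⟩
    omega
  | succ n ih =>
    intro p c hc hcB hpc hor hcard s
    have hout : ∀ x ∈ far G B' p c, x ∉ B := by
      rcases hor with hp | hor
      · intro x hx hxB
        rcases hT.dist_eq_dist_add_one_of_adj x hpc with h | h
        · exact hcB (closer_mem hT hB hxB hp hpc h)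
        · have := (mem_far.1 hx).2
          omega
      · exact hor
    rw [msg_eq hT hc (Or.inr hpc), h1 c hcB, one_mul]
    refine prod_eq_one fun g hg => ?_
    obtain ⟨hgB, hadj, hgp⟩ := mem_kid.1 hg
    have h2 := (far_subset hT hg (Or.inr hpc) hc).2 hpc.ne
    have := card_lt_card h2
    have hg1 : g ∈ far G B' c g := mem_far.2 ⟨hgB, by
      rw [SimpleGraph.dist_self]; exact hT.connected.pos_dist_of_ne hadj.ne'⟩
    have e := ih c g hgB (hout g (h2.subset hg1)) hadj (Or.inr fun x hx => hout x (h2.subset hx))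
      (by omega)
    rw [pull, e, e]
    ring

open scoped Classical in
lemma msg_extend (hBB : B ⊆ B') (hB : (G.induce (B : Set V)).Connected)
    (h1 : ∀ x ∉ B, ∀ s, a x s = 1) :
    ∀ n, ∀ p c : V, c ∈ B → (p = c ∨ G.Adj p c) → (if p = c then B'.card + 1 else (far G B' p c).card) ≤ n →
      ∀ s, msg G θ B' a p c s = msg G θ B a p c s := by
  classical
  intro n
  induction n with
  | zero =>
    intro p c hc hpc hcard
    split_ifs at hcard with e
    · omega
    · have : c ∈ far G B' p c := mem_far.2 ⟨hBB hc, by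
        rw [SimpleGraph.dist_self]; exact hT.connected.pos_dist_of_ne (hpc.resolve_left e).ne'⟩
      have := card_pos.2 ⟨c, this⟩
      omega
  | succ n ih =>
    intro p c hc hcp hcard s
    rw [msg_eq hT (hBB hc) hcp, msg_eq hT hc hcp]
    congr 1
    have hsub : kid G B p c ⊆ kid G B' p c := fun g hg => by
      obtain ⟨hgB, h2, h3⟩ := mem_kid.1 hg
      exact mem_kid.2 ⟨hBB hgB, h2, h3⟩
    rw [← prod_sdiff hsub, prod_eq_one fun g hg => ?_, one_mul]
    · refine prod_congr rfl fun g hg => ?_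
      have hadj := (mem_kid.1 hg).2.1
      have hh : ∀ r, msg G θ B' a c g r = msg G θ B a c g r := by
        refine ih c g (mem_kid.1 hg).1 (Or.inr hadj) ?_
        rw [if_neg hadj.ne]
        have h2 := far_subset hT (hsub hg) hcp (hBB hc)
        split_ifs at hcard with e
        · have := card_lt_card h2.1; omega
        · have := card_lt_card (h2.2 e); omega
      rw [pull, pull, hh, hh]
    · rw [Finset.mem_sdiff, mem_kid, mem_kid] at hg
      obtain ⟨⟨hgB', hadj, hgp⟩, hn⟩ := hg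
      have hgB : g ∉ B := fun h => hn ⟨h, hadj, hgp⟩
      have e := msg_outside (θ := θ) hT hB h1 _ c g hgB' hgB hadj (Or.inl hc) le_rfl
      rw [pull, e, e]
      ring

lemma cav_extend (hBB : B ⊆ B') (hB : (G.induce (B : Set V)).Connected)
    (h1 : ∀ x ∉ B, ∀ s, a x s = 1) (hc : c ∈ B) (hcp : p = c ∨ G.Adj p c) :
    cav G θ B' a p c = cav G θ B a p c := by
  have h := msg_extend (θ := θ) hT hBB hB h1 _ p c hc hcp le_rfl
  rw [cav, cav, magOf, magOf, h, h]

omit hT

lemma abs_damp_sub {x y r : ℝ} (hθ : |θ| < 1) (hr : r < 1) (hx : |x| ≤ r) (hy : |y| ≤ r) :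
    |damp θ x - damp θ y| ≤ 1 / (1 - θ ^ 2) ^ 2 * |x ^ 2 - y ^ 2| := by
  have hx1 : |x| ≤ 1 := by linarith
  have hy1 : |y| ≤ 1 := by linarith
  have h1 := one_sub_sq_pos hθ hx1
  have h2 := one_sub_sq_pos hθ hy1
  have h0 : 0 < 1 - θ ^ 2 := sub_pos.2 ((sq_lt_one_iff_abs_lt_one θ).2 hθ)
  have e : damp θ x - damp θ y =
      (1 - θ ^ 2) * (y ^ 2 - x ^ 2) / ((1 - θ ^ 2 * x ^ 2) * (1 - θ ^ 2 * y ^ 2)) := by
    rw [damp, damp, div_sub_div _ _ h1.ne' h2.ne']; ring
  have hx2 : x ^ 2 ≤ 1 := (sq_le_one_iff_abs_le_one x).2 hx1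
  have hy2 : y ^ 2 ≤ 1 := (sq_le_one_iff_abs_le_one y).2 hy1
  have hden : (1 - θ ^ 2) ^ 2 ≤ (1 - θ ^ 2 * x ^ 2) * (1 - θ ^ 2 * y ^ 2) := by
    rw [sq]
    exact mul_le_mul (by nlinarith [sq_nonneg θ]) (by nlinarith [sq_nonneg θ]) h0.le h1.le
  rw [e, abs_div, abs_mul, abs_of_pos h0, abs_of_pos (mul_pos h1 h2), abs_sub_comm,
    div_le_iff₀ (mul_pos h1 h2), one_div_mul_eq_div, div_mul_eq_mul_div, le_div_iff₀ (pow_pos h0 2)]
  calc (1 - θ ^ 2) * |x ^ 2 - y ^ 2| * (1 - θ ^ 2) ^ 2
      ≤ 1 * |x ^ 2 - y ^ 2| * ((1 - θ ^ 2 * x ^ 2) * (1 - θ ^ 2 * y ^ 2)) := by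
        refine mul_le_mul (mul_le_mul_of_nonneg_right (by nlinarith [sq_nonneg θ]) (abs_nonneg _))
          hden (by positivity) (by positivity)
    _ = _ := by ring

end Vale.Agent.P161.Crit
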