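import Vale.Agent.P161.Crit.Msg
import Vale.Agent.P161.Smoothing

/-!
# P161, critical point: the continuous-time sampler in a finite volume

A slot `(v, i)` has two labels in `V × (ℤ × Bool) → ℝ`: the one at `true` decides whether and when
the slot is used, the one at `false` is its innovation.
-/

open MeasureTheory SimpleGraph Finset

namespace Vale.Agent.P161.Crit

variable {V : Type*}

/-- The start of the window of level `i`: `2 ^ i` below level `0` and `1 + i` from level `0` on. -/
noncomputable def lo (i : ℤ) : ℝ := if i < 0 then (2 : ℝ) ^ i else 1 + i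

/-- The width of the window of level `i`. -/
noncomputable def wid (i : ℤ) : ℝ := if i < 0 then (2 : ℝ) ^ i else 1

/-- The strength of a slot of level `i`. -/
noncomputable def eps (i : ℤ) : ℝ := Real.sqrt (wid i) / 2

/-- Whether a slot is used. -/
def present (ω : V × (ℤ × Bool) → ℝ) (s : V × ℤ) : Prop := clZ (ω (s.1, (s.2, true))) < 1 / 2

/-- The time of a slot. -/
noncomputable def time (ω : V × (ℤ × Bool) → ℝ) (s : V × ℤ) : ℝ :=
  lo s.2 + 2 * wid s.2 * clZ (ω (s.1, (s.2, true)))

/-- The innovation of a slot. -/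
def zc (ω : V × (ℤ × Bool) → ℝ) (s : V × ℤ) : ℝ := ω (s.1, (s.2, false))

open scoped Classical in
/-- The slots of `A` used strictly before `t`. -/
noncomputable def live (A : Finset (V × ℤ)) (ω : V × (ℤ × Bool) → ℝ) (t : ℝ) : Finset (V × ℤ) :=
  A.filter fun s => present ω s ∧ time ω s < t

/-- The weight of one observation. -/
noncomputable def qW (i : ℤ) (y : ℝ) (σ : Bool) : ℝ := 1 + eps i * sgn σ * clY y

open scoped Classical in
/-- The site weights of the observations `y` in the slots `S`. -/
noncomputable def wts (S : Finset (V × ℤ)) (y : V × ℤ → ℝ) (v : V) (σ : Bool) : ℝ :=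
  ∏ s ∈ S.filter (fun s => s.1 = v), qW s.2 (y s) σ

open scoped Classical in
/-- Multiply the weights by one more observation. -/
noncomputable def bump (W : V → Bool → ℝ) (s : V × ℤ) (y : ℝ) : V → Bool → ℝ :=
  fun v σ => if v = s.1 then W v σ * qW s.2 y σ else W v σ

/-- The normalised evidence of the weights. -/
noncomputable def evid (G : SimpleGraph V) (θ : ℝ) (B : Finset V) (o : V) (W : V → Bool → ℝ) : ℝ :=
  (msg G θ B W o o true + msg G θ B W o o false) / 2

/-- A finite-volume run: coupling, vertex set and slots. -/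
structure Run (V : Type*) where
  θ : ℝ
  B : Finset V
  A : Finset (V × ℤ)

/-- Admissible runs: the coupling is in `[0, 1)` and the slots lie in the connected volume. -/
structure Run.Ok (P : Run V) (G : SimpleGraph V) : Prop where
  tree : G.IsTree
  nonneg : 0 ≤ P.θ
  lt_one : P.θ < 1
  conn : (G.induce (P.B : Set V)).Connected
  sub : ∀ s ∈ P.A, s.1 ∈ P.B

/-- The observations, computed with `n` rounds. -/
noncomputable def Run.yN (P : Run V) (G : SimpleGraph V) (ω : V × (ℤ × Bool) → ℝ) :
    ℕ → V × ℤ → ℝ
  | 0, _ => 0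
  | n + 1, s => chQ (eps s.2 *
      mag G P.θ P.B (wts (live P.A ω (time ω s)) (P.yN G ω n)) s.1) (zc ω s)

/-- The observations of the run. -/
noncomputable def Run.yS (P : Run V) (G : SimpleGraph V) (ω : V × (ℤ × Bool) → ℝ) : V × ℤ → ℝ :=
  P.yN G ω P.A.card

/-- The state at time `t`. -/
noncomputable def Run.st (P : Run V) (G : SimpleGraph V) (ω : V × (ℤ × Bool) → ℝ) (t : ℝ) :
    V → Bool → ℝ :=
  wts (live P.A ω t) (P.yS G ω)

/-- The observation model at time `t`, with uniform observations. -/
noncomputable def Run.obs (P : Run V) (ω : V × (ℤ × Bool) → ℝ) (t : ℝ) : V → Bool → ℝ :=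
  wts (live P.A ω t) (fun s => xi (zc ω s))

/-- The magnetisation in the state at time `t`. -/
noncomputable def Run.m (P : Run V) (G : SimpleGraph V) (ω : V × (ℤ × Bool) → ℝ) (t : ℝ) (v : V) : ℝ :=
  mag G P.θ P.B (P.st G ω t) v

open scoped Classical in
/-- The increment of the magnetisation at `a` when slot `s` is used in the state `W`. -/
noncomputable def Run.inc (P : Run V) (G : SimpleGraph V) (W : V → Bool → ℝ) (a : V)
    (s : V × ℤ) (x : ℝ) : ℝ :=
  if s ∈ P.A then
    mag G P.θ P.B (bump W s (chQ (eps s.2 * mag G P.θ P.B W s.1) x)) a - mag G P.θ P.B W a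
  else 0

/-- The same labels with every innovation reflected. -/
noncomputable def flipZ (ω : V × (ℤ × Bool) → ℝ) : V × (ℤ × Bool) → ℝ :=
  fun t => if t.2.2 then ω t else 1 - ω t

end Vale.Agent.P161.Crit
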