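import Vale.Agent.P161.Crit.Msg
import Vale.Agent.P161.Crit.Process

/-!
# P161, critical point: responses along geodesics
-/

open SimpleGraph Finset

namespace Vale.Agent.P161.Crit

variable {V : Type*} {G : SimpleGraph V}

/-- `w` is a geodesic of length `n`. -/
def IsGeo (G : SimpleGraph V) (w : ℕ → V) (n : ℕ) : Prop :=
  (∀ i < n, G.Adj (w i) (w (i + 1))) ∧ ∀ i ≤ n, G.dist (w 0) (w i) = i

/-- The geodesic from `b` to `a`, constant after its end. -/
noncomputable def geo (G : SimpleGraph V) (b a : V) (i : ℕ) : V :=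
  (par G b)^[G.dist b a - i] a

lemma dist_map_le (hG : G.Connected) (g : G ≃g G) (x y : V) :
    G.dist (g x) (g y) ≤ G.dist x y := by
  obtain ⟨w, hw⟩ := hG.exists_walk_length_eq_dist x y
  have h := dist_le (w.map g.toHom)
  rw [Walk.length_map, hw] at h
  exact h

lemma dist_map (hG : G.Connected) (g : G ≃g G) (x y : V) :
    G.dist (g x) (g y) = G.dist x y :=
  le_antisymm (dist_map_le hG g x y) (by simpa using dist_map_le hG g.symm (g x) (g y))

variable {w w' : ℕ → V} {n : ℕ}

lemma IsGeo.of_le {m : ℕ} (h : IsGeo G w n) (hm : m ≤ n) : IsGeo G w m :=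
  ⟨fun i hi => h.1 i (by omega), fun i hi => h.2 i (by omega)⟩

lemma IsGeo.map (hG : G.Connected) (g : G ≃g G) (h : IsGeo G w n) :
    IsGeo G (fun i => g (w i)) n :=
  ⟨fun i hi => g.map_rel_iff.2 (h.1 i hi), fun i hi => by rw [dist_map hG, h.2 i hi]⟩

variable (hT : G.IsTree)
include hT

lemma dist_iterate_par (b a : V) : ∀ k, k ≤ G.dist b a →
    G.dist b ((par G b)^[k] a) = G.dist b a - k := by
  intro k
  induction k with
  | zero => simp
  | succ k ih =>
    intro hk
    have h := ih (by omega)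
    have hne : (par G b)^[k] a ≠ b := fun e => by rw [e, SimpleGraph.dist_self] at h; omega
    rw [Function.iterate_succ_apply']
    have := (par_spec hT hne).2
    omega

lemma geo_zero (b a : V) : geo G b a 0 = b := by
  have := dist_iterate_par hT b a (G.dist b a) le_rfl
  rw [Nat.sub_self, hT.connected.dist_eq_zero_iff] at this
  exact this.symm

omit hT in
lemma geo_end (b a : V) : geo G b a (G.dist b a) = a := by simp [geo]

lemma isGeo_geo (b a : V) : IsGeo G (geo G b a) (G.dist b a) := by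
  refine ⟨fun i hi => ?_, fun i hi => ?_⟩
  · have e : G.dist b a - i = (G.dist b a - (i + 1)) + 1 := by omega
    have h := dist_iterate_par hT b a (G.dist b a - (i + 1)) (by omega)
    have hne : (par G b)^[G.dist b a - (i + 1)] a ≠ b := fun e' => by
      rw [e', SimpleGraph.dist_self] at h; omega
    simp only [geo]
    rw [e, Function.iterate_succ_apply']
    exact (par_spec hT hne).1.symm
  · rw [geo_zero hT b a]
    simp only [geo]
    rw [dist_iterate_par hT b a _ (by omega)]
    omega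

lemma IsGeo.dist_eq (h : IsGeo G w n) {i j : ℕ} (hij : i ≤ j) (hj : j ≤ n) :
    G.dist (w i) (w j) = j - i := by
  have hu : ∀ k, i + k ≤ n → G.dist (w i) (w (i + k)) ≤ k := by
    intro k
    induction k with
    | zero => simp
    | succ k ih =>
      intro hk
      have h1 : G.dist (w (i + k)) (w (i + (k + 1))) = 1 := dist_eq_one_iff_adj.2 (h.1 _ (by omega))
      have h2 : G.dist (w i) (w (i + (k + 1))) ≤
          G.dist (w i) (w (i + k)) + G.dist (w (i + k)) (w (i + (k + 1))) :=
        hT.connected.dist_triangle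
      have := ih (by omega)
      omega
  have h1 := hu (j - i) (by omega)
  rw [show i + (j - i) = j by omega] at h1
  have h2 : G.dist (w 0) (w j) ≤ G.dist (w 0) (w i) + G.dist (w i) (w j) :=
    hT.connected.dist_triangle
  rw [h.2 i (by omega), h.2 j hj] at h2
  omega

lemma IsGeo.eq_of_ends (h : IsGeo G w n) (h' : IsGeo G w' n) (h0 : w 0 = w' 0) (hn : w n = w' n)
    {i : ℕ} (hi : i ≤ n) : w i = w' i := by
  suffices ∀ k, k ≤ n → w (n - k) = w' (n - k) by
    have := this (n - i) (by omega)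
    rwa [show n - (n - i) = i by omega] at this
  intro k
  induction k with
  | zero => intro _; simpa using hn
  | succ k ih =>
    intro hk
    have e := ih (by omega)
    have a1 := (h.1 (n - (k + 1)) (by omega)).symm
    have a2 := (h'.1 (n - (k + 1)) (by omega)).symm
    rw [show n - (k + 1) + 1 = n - k by omega] at a1 a2
    rw [← e] at a2
    refine closer_unique hT (u := w 0) a1 a2 ?_ ?_
    · rw [h.2 _ (by omega), h.2 _ (by omega)]; omega
    · rw [h.2 _ (by omega), h0, h'.2 _ (by omega)]; omega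

lemma IsGeo.eq_geo (h : IsGeo G w n) {i : ℕ} (hi : i ≤ n) : w i = geo G (w 0) (w n) i := by
  have e : G.dist (w 0) (w n) = n := h.2 n le_rfl
  have hg := isGeo_geo hT (w 0) (w n)
  rw [e] at hg
  refine h.eq_of_ends hT hg (geo_zero hT _ _).symm ?_ hi
  simp [geo, e]

lemma IsGeo.reverse (h : IsGeo G w n) : IsGeo G (fun i => w (n - i)) n := by
  refine ⟨fun i hi => ?_, fun i hi => ?_⟩
  · have := (h.1 (n - (i + 1)) (by omega)).symm
    rwa [show n - (i + 1) + 1 = n - i by omega] at this
  · show G.dist (w (n - 0)) (w (n - i)) = i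
    rw [SimpleGraph.dist_comm, h.dist_eq hT (by omega) (by omega)]
    omega

lemma IsGeo.shift (h : IsGeo G w n) {k : ℕ} (hk : k ≤ n) : IsGeo G (fun i => w (k + i)) (n - k) := by
  refine ⟨fun i hi => ?_, fun i hi => ?_⟩
  · exact h.1 (k + i) (by omega)
  · show G.dist (w (k + 0)) (w (k + i)) = i
    rw [h.dist_eq hT (by omega) (by omega)]
    omega

/-- A connected vertex set contains the geodesics between its points. -/
lemma IsGeo.mem {B : Finset V} (hB : (G.induce (B : Set V)).Connected) (h : IsGeo G w n)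
    (h0 : w 0 ∈ B) (hn : w n ∈ B) {i : ℕ} (hi : i ≤ n) : w i ∈ B := by
  suffices ∀ k, k ≤ n → w (n - k) ∈ B by
    have := this (n - i) (by omega)
    rwa [show n - (n - i) = i by omega] at this
  intro k
  induction k with
  | zero => intro _; simpa using hn
  | succ k ih =>
    intro hk
    have a1 := (h.1 (n - (k + 1)) (by omega)).symm
    rw [show n - (k + 1) + 1 = n - k by omega] at a1
    refine closer_mem hT hB (u := w 0) h0 (ih (by omega)) a1 ?_
    rw [h.2 _ (by omega), h.2 _ (by omega)]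
    omega

omit hT

/-- The damping factor of one edge. -/
noncomputable def damp (θ x : ℝ) : ℝ := (1 - x ^ 2) / (1 - θ ^ 2 * x ^ 2)

/-- The product of the damping factors along `w`, every side taken away from `w 0`. -/
noncomputable def pthW (G : SimpleGraph V) (θ : ℝ) (B : Finset V) (W : V → Bool → ℝ) (w : ℕ → V)
    (n : ℕ) : ℝ :=
  ∏ i ∈ range n, damp θ (cav G θ B W (w i) (w (i + 1)))

variable {θ x : ℝ}

lemma resp_eq_damp : resp θ x = θ * damp θ x := by rw [resp, damp, mul_div_assoc]

lemma damp_nonneg (hθ : |θ| < 1) (hx : |x| ≤ 1) : 0 ≤ damp θ x :=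
  div_nonneg (by have := (sq_le_one_iff_abs_le_one x).2 hx; linarith) (one_sub_sq_pos hθ hx).le

lemma damp_le_one (hθ : |θ| < 1) (hx : |x| ≤ 1) : damp θ x ≤ 1 := by
  rw [damp, div_le_one (one_sub_sq_pos hθ hx)]
  have h1 : θ ^ 2 ≤ 1 := ((sq_lt_one_iff_abs_lt_one θ).2 hθ).le
  nlinarith [mul_le_mul_of_nonneg_right h1 (sq_nonneg x)]

lemma damp_le_damped (hθ : |θ| < 1) (hθ2 : θ ^ 2 ≤ 1 / 2) (hx : |x| ≤ 1) :
    damp θ x ≤ 1 - x ^ 2 / 2 := by
  rw [damp, div_le_iff₀ (one_sub_sq_pos hθ hx)]
  nlinarith [mul_nonneg (sq_nonneg x) (sub_nonneg.2 hθ2), mul_nonneg (sq_nonneg θ) (pow_nonneg (sq_nonneg x) 2)]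

variable {B : Finset V} {W : V → Bool → ℝ}

lemma pthW_mem_unit (hθ : |θ| < 1) (hW : ∀ v s, 0 < W v s) (w : ℕ → V) (n : ℕ) :
    0 ≤ pthW G θ B W w n ∧ pthW G θ B W w n ≤ 1 :=
  ⟨prod_nonneg fun _ _ => damp_nonneg hθ (abs_cav hθ.le hW _ _).le,
    prod_le_one (fun _ _ => damp_nonneg hθ (abs_cav hθ.le hW _ _).le)
      fun _ _ => damp_le_one hθ (abs_cav hθ.le hW _ _).le⟩

lemma pthW_anti (hθ : |θ| < 1) (hW : ∀ v s, 0 < W v s) (w : ℕ → V) {m : ℕ} (hm : m ≤ n) :
    pthW G θ B W w n ≤ pthW G θ B W w m := by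
  obtain ⟨k, rfl⟩ := Nat.exists_eq_add_of_le hm
  rw [pthW, pthW, prod_range_add]
  exact mul_le_of_le_one_right (prod_nonneg fun _ _ => damp_nonneg hθ (abs_cav hθ.le hW _ _).le)
    (prod_le_one (fun _ _ => damp_nonneg hθ (abs_cav hθ.le hW _ _).le)
      fun _ _ => damp_le_one hθ (abs_cav hθ.le hW _ _).le)

lemma pthW_congr {w' : ℕ → V} (h : ∀ i ≤ n, w i = w' i) :
    pthW G θ B W w n = pthW G θ B W w' n :=
  prod_congr rfl fun i hi => by
    rw [h i (mem_range.1 hi).le, h (i + 1) (mem_range.1 hi)]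

include hT

/-- Changing the weights at the start of a geodesic moves the magnetisations along it linearly. -/
lemma mag_sub_along (hθ : |θ| < 1) {W' : V → Bool → ℝ} (hW : ∀ v s, 0 < W v s)
    (hW' : ∀ v s, 0 < W' v s) (hB : (G.induce (B : Set V)).Connected) :
    ∀ (n : ℕ) (w : ℕ → V), IsGeo G w n → w 0 ∈ B → w n ∈ B → (∀ v ≠ w 0, W v = W' v) →
      mag G θ B W' (w n) - mag G θ B W (w n) =
        (mag G θ B W' (w 0) - mag G θ B W (w 0)) * θ ^ n * pthW G θ B W w n := by
  intro n
  induction n with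
  | zero => intro w _ _ _ _; simp [pthW]
  | succ n ih =>
    intro w hw h0 hn hWW
    have hn' : w n ∈ B := hw.mem hT hB h0 hn (by omega)
    have hadj : G.Adj (w (n + 1)) (w n) := (hw.1 n (by omega)).symm
    have hc : cav G θ B W (w n) (w (n + 1)) = cav G θ B W' (w n) (w (n + 1)) := by
      refine cav_congr hT hn hadj.symm fun v hv => hWW v fun e => ?_
      have h2 := (mem_far.1 hv).2
      rw [e, hw.2 _ (by omega), hw.2 _ (by omega)] at h2
      omega
    rw [mag_affine hT hθ hW' hn hn' hadj, mag_affine hT hθ hW hn hn' hadj, ← hc, resp_eq_damp,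
      pthW, prod_range_succ, ← pthW, pow_succ]
    have := ih w (hw.of_le (by omega)) h0 hn' hWW
    linear_combination (θ * damp θ (cav G θ B W (w n) (w (n + 1)))) * this

/-- The symmetry of the response between two points. -/
lemma pthW_symm (hθ : |θ| < 1) (hθ0 : θ ≠ 0) (hW : ∀ v s, 0 < W v s)
    (hB : (G.induce (B : Set V)).Connected) :
    ∀ (n : ℕ) (w : ℕ → V), IsGeo G w n → w 0 ∈ B → w n ∈ B →
      (1 - mag G θ B W (w 0) ^ 2) * pthW G θ B W w n =
        (1 - mag G θ B W (w n) ^ 2) * pthW G θ B W (fun i => w (n - i)) n := by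
  intro n
  induction n with
  | zero => intro w _ _ _; simp [pthW]
  | succ n ih =>
    intro w hw h0 hn
    have hn' : w n ∈ B := hw.mem hT hB h0 hn (by omega)
    have hadj : G.Adj (w (n + 1)) (w n) := (hw.1 n (by omega)).symm
    have e := var_resp_symm hT hθ hW hn hn' hadj
    rw [resp_eq_damp, resp_eq_damp] at e
    have e' : (1 - mag G θ B W (w n) ^ 2) * damp θ (cav G θ B W (w n) (w (n + 1))) =
        (1 - mag G θ B W (w (n + 1)) ^ 2) * damp θ (cav G θ B W (w (n + 1)) (w n)) :=
      mul_left_cancel₀ hθ0 (by linear_combination e)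
    have := ih w (hw.of_le (by omega)) h0 hn'
    have es : pthW G θ B W (fun i => w (n + 1 - i)) (n + 1) =
        damp θ (cav G θ B W (w (n + 1)) (w n)) * pthW G θ B W (fun i => w (n - i)) n := by
      rw [pthW, prod_range_succ', mul_comm]
      congr 1
      exact prod_congr rfl fun i _ => by
        rw [show n + 1 - (i + 1) = n - i by omega, show n + 1 - (i + 1 + 1) = n - (i + 1) by omega]
    rw [es, pthW, prod_range_succ, ← pthW]
    linear_combination damp θ (cav G θ B W (w n) (w (n + 1))) * this +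
      pthW G θ B W (fun i => w (n - i)) n * e'

omit hT

variable (G θ B W) in
/-- The response `C_ab = D_b θ^n pth` between two points. -/
noncomputable def cov (b a : V) : ℝ :=
  (1 - mag G θ B W b ^ 2) * (θ ^ G.dist b a * pthW G θ B W (geo G b a) (G.dist b a))

include hT

lemma cov_symm (hθ : |θ| < 1) (hθ0 : θ ≠ 0) (hW : ∀ v s, 0 < W v s)
    (hB : (G.induce (B : Set V)).Connected) {a b : V} (ha : a ∈ B) (hb : b ∈ B) :
    cov G θ B W b a = cov G θ B W a b := by
  have hg := isGeo_geo hT b a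
  have h0 := geo_zero hT b a
  have hn := geo_end (G := G) b a
  have e := pthW_symm hT hθ hθ0 hW hB _ _ hg (by rw [h0]; exact hb) (by rw [hn]; exact ha)
  rw [h0, hn] at e
  have hr : ∀ i ≤ G.dist b a, geo G b a (G.dist b a - i) = geo G a b i := by
    intro i hi
    rw [(hg.reverse hT).eq_geo hT hi]
    simp [h0, hn]
  rw [cov, cov, ← pthW_congr (w := fun i => geo G b a (G.dist b a - i)) (w' := geo G a b)
    (n := G.dist a b) (fun i hi => hr i (by rwa [SimpleGraph.dist_comm] at hi)),
    SimpleGraph.dist_comm (u := a)]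
  linear_combination θ ^ G.dist b a * e

lemma mag_bump (hθ : |θ| < 1) (hW : ∀ v s, 0 < W v s) {s : V × ℤ} (hs : s.1 ∈ B) {y : ℝ}
    (hy : |eps s.2 * clY y| < 1) :
    mag G θ B (bump W s y) s.1 - mag G θ B W s.1 =
      (1 - mag G θ B W s.1 ^ 2) *
        (eps s.2 * clY y / (1 + mag G θ B W s.1 * (eps s.2 * clY y))) := by
  classical
  have e : ∀ r, msg G θ B (bump W s y) s.1 s.1 r = msg G θ B W s.1 s.1 r * qW s.2 y r := fun r => by
    rw [msg_eq hT hs (Or.inl rfl), msg_eq hT hs (Or.inl rfl)]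
    have hk : ∀ g ∈ kid G B s.1 s.1, msg G θ B (bump W s y) s.1 g = msg G θ B W s.1 g := fun g hg => by
      refine msg_congr hT _ _ _ (mem_kid.1 hg).1 (mem_kid.1 hg).2.1 le_rfl fun v hv => ?_
      have : v ≠ s.1 := fun e => by
        have := (mem_far.1 hv).2
        rw [e, SimpleGraph.dist_self] at this
        omega
      funext r
      simp [bump, this]
    rw [prod_congr rfl fun g hg => by rw [hk g hg]]
    simp [bump]
    ring
  have h1 := abs_mag (G := G) (B := B) hθ.le hW s.1
  have hm : |mag G θ B W s.1 * (eps s.2 * clY y)| < 1 := by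
    rw [abs_mul]
    calc |mag G θ B W s.1| * |eps s.2 * clY y| ≤ 1 * |eps s.2 * clY y| :=
          mul_le_mul_of_nonneg_right h1.le (abs_nonneg _)
      _ < 1 := by rw [one_mul]; exact hy
  have h2 : 0 < 1 + mag G θ B W s.1 * (eps s.2 * clY y) := by linarith [(abs_lt.1 hm).1]
  have f0 := msg_pos (G := G) (θ := θ) (B := B) hθ.le hW s.1 s.1 true
  have f1 := msg_pos (G := G) (θ := θ) (B := B) hθ.le hW s.1 s.1 false
  revert h2
  rw [mag, mag, cav, cav, magOf, magOf, e, e]
  simp only [qW, sgn, if_true, Bool.false_eq_true, if_false, mul_one, mul_neg]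
  generalize msg G θ B W s.1 s.1 true = p at *
  generalize msg G θ B W s.1 s.1 false = q at *
  generalize eps s.2 = ε at *
  generalize clY y = η at *
  intro h2
  have hpq : p + q ≠ 0 := by linarith
  have hden : p * (1 + ε * η) + q * (1 + -ε * η) ≠ 0 := by
    obtain ⟨ha, hb⟩ := abs_lt.1 hy
    nlinarith [mul_pos f0 (show 0 < 1 + ε * η by linarith), mul_pos f1 (show 0 < 1 + -ε * η by linarith)]
  have h3 : 1 + (p - q) / (p + q) * (ε * η) = (p + q + (p - q) * (ε * η)) / (p + q) := by
    field_simp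
  rw [h3] at h2 ⊢
  have h4 : p + q + (p - q) * (ε * η) ≠ 0 := by
    intro h; rw [h, zero_div] at h2; exact lt_irrefl _ h2
  rw [show p * (1 + ε * η) - q * (1 + -ε * η) = p - q + (p + q) * (ε * η) by ring,
    show p * (1 + ε * η) + q * (1 + -ε * η) = p + q + (p - q) * (ε * η) by ring,
    div_div_eq_mul_div, div_pow, one_sub_div (pow_ne_zero 2 hpq),
    div_sub_div _ _ h4 hpq, div_mul_div_comm,
    div_eq_div_iff (mul_ne_zero h4 hpq) (mul_ne_zero (pow_ne_zero 2 hpq) h4)]
  ring

lemma mag_bump_sub (hθ : |θ| < 1) (hW : ∀ v s, 0 < W v s) (hB : (G.induce (B : Set V)).Connected)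
    {s : V × ℤ} (hs : s.1 ∈ B) {a : V} (ha : a ∈ B) {y : ℝ} (hy : |eps s.2 * clY y| < 1) :
    mag G θ B (bump W s y) a - mag G θ B W a =
      cov G θ B W s.1 a * (eps s.2 * clY y / (1 + mag G θ B W s.1 * (eps s.2 * clY y))) := by
  classical
  have hpos : ∀ v r, 0 < bump W s y v r := fun v r => by
    obtain ⟨ha, hb⟩ := abs_lt.1 hy
    simp only [bump]
    split_ifs
    · refine mul_pos (hW v r) ?_
      cases r <;> simp [qW, sgn] <;> linarith
    · exact hW v r
  have h0 := geo_zero hT s.1 a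
  have hn := geo_end (G := G) s.1 a
  have := mag_sub_along hT hθ hW hpos hB _ _ (isGeo_geo hT s.1 a) (by rw [h0]; exact hs)
    (by rw [hn]; exact ha) (fun v hv => by
      rw [h0] at hv
      funext r
      simp [bump, hv])
  rw [h0, hn] at this
  rw [this, mag_bump hT hθ hW hs hy, cov]
  ring

end Vale.Agent.P161.Crit
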