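import Vale.Agent.P161.Crit.Msg
import Vale.Agent.P161.Smoothing
import Mathlib.Analysis.SpecialFunctions.Log.Basic
import Mathlib.Analysis.SpecialFunctions.Trigonometric.Series
import Mathlib.Analysis.SpecialFunctions.Trigonometric.DerivHyp

/-!
# P161, critical point: independent observation pieces

A piece is a pair of likelihoods of one spin, a function of finitely many uniform labels, symmetric
under a reflection `fl` of the labels.
-/

open MeasureTheory Finset

namespace Vale.Agent.P161.Crit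

variable {ι κ : Type*}

/-- An observation piece supported on the labels in `D`. -/
structure IsPiece (fl : (ι → ℝ) → ι → ℝ) (D : Finset ι) (f : Bool → (ι → ℝ) → ℝ) : Prop where
  pos : ∀ s ω, 0 < f s ω
  meas : ∀ s, Measurable (f s)
  bdd : ∃ C, ∀ s ω, f s ω ≤ C
  low : ∃ c, 0 < c ∧ ∀ s ω, c ≤ f s ω
  dep : ∀ s, DependsOn (f s) (D : Set ι)
  norm : ∀ s, ∫ ω, f s ω ∂iidU ι = 1
  flip : ∀ s ω, f s (fl ω) = f (!s) ω

/-- The symmetrised likelihood. -/
noncomputable def bar (f : Bool → (ι → ℝ) → ℝ) (ω : ι → ℝ) : ℝ := (f true ω + f false ω) / 2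

/-- The magnetisation of a piece. -/
noncomputable def pmag (f : Bool → (ι → ℝ) → ℝ) (ω : ι → ℝ) : ℝ := magOf fun s => f s ω

/-- Half the log-likelihood ratio. -/
noncomputable def pfield (f : Bool → (ι → ℝ) → ℝ) (ω : ι → ℝ) : ℝ :=
  Real.log (f true ω / f false ω) / 2

/-- The information in a piece. -/
noncomputable def info (f : Bool → (ι → ℝ) → ℝ) : ℝ := ∫ ω, bar f ω * pmag f ω ^ 2 ∂iidU ι

/-- The exponential moment of the field given the spin `+`. -/
noncomputable def expMom (f : Bool → (ι → ℝ) → ℝ) (μ : ℝ) : ℝ :=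
  ∫ ω, f true ω * Real.exp (μ * pfield f ω) ∂iidU ι

/-- The product of pieces. -/
noncomputable def pprod (K : Finset κ) (f : κ → Bool → (ι → ℝ) → ℝ) (s : Bool) (ω : ι → ℝ) : ℝ :=
  ∏ k ∈ K, f k s ω

/-- A piece seen through one edge. -/
noncomputable def ppull (θ : ℝ) (f : Bool → (ι → ℝ) → ℝ) (s : Bool) (ω : ι → ℝ) : ℝ :=
  pull θ (fun r => f r ω) s

variable {fl : (ι → ℝ) → ι → ℝ} {f : Bool → (ι → ℝ) → ℝ} {D : Finset ι} {K : Finset κ}
  {fk : κ → Bool → (ι → ℝ) → ℝ} {Dk : κ → Finset ι} {θ : ℝ}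

/-- Functions of disjoint sets of labels are independent. -/
lemma integral_mul_of_disjoint {ι : Type*} [DecidableEq ι] {f g : (ι → ℝ) → ℝ} {A B : Finset ι}
    (hf : Measurable f) (hg : Measurable g) (hfA : DependsOn f (A : Set ι))
    (hgB : DependsOn g (B : Set ι)) (hAB : Disjoint A B) :
    ∫ ω, f ω * g ω ∂iidU ι = (∫ ω, f ω ∂iidU ι) * ∫ ω, g ω ∂iidU ι := by
  conv_lhs => rw [← map_merge A]
  rw [integral_map (f := fun ω => f ω * g ω) (measurable_merge A).aemeasurable
    (hf.mul hg).aestronglyMeasurable, ← integral_prod_mul f g]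
  refine integral_congr_ae (ae_of_all _ fun p => ?_)
  obtain ⟨z, u⟩ := p
  have e1 : f (merge A (z, u)) = f z := hfA fun i hi => by simp [merge, Finset.mem_coe.1 hi]
  have e2 : g (merge A (z, u)) = g u := hgB fun i hi => by
    simp [merge, Finset.disjoint_right.1 hAB (Finset.mem_coe.1 hi)]
  simp only [e1, e2]

/-- Functions of pairwise disjoint sets of labels are independent. -/
lemma integral_prod_of_disjoint {ι κ : Type*} {K : Finset κ} {F : κ → (ι → ℝ) → ℝ} {D : κ → Finset ι}
    (hm : ∀ k ∈ K, Measurable (F k)) (hdep : ∀ k ∈ K, DependsOn (F k) (D k : Set ι))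
    (hd : (K : Set κ).PairwiseDisjoint D) :
    ∫ ω, ∏ k ∈ K, F k ω ∂iidU ι = ∏ k ∈ K, ∫ ω, F k ω ∂iidU ι := by
  classical
  induction K using Finset.induction_on with
  | empty => simp
  | insert a K ha ih =>
    simp only [prod_insert ha]
    have h1 : DependsOn (fun ω => ∏ k ∈ K, F k ω) (K.biUnion D : Set ι) := fun x y h =>
      prod_congr rfl fun k hk => hdep k (mem_insert_of_mem hk) fun i hi =>
        h i (Finset.mem_coe.2 (mem_biUnion.2 ⟨k, hk, hi⟩))
    have h2 : Disjoint (D a) (K.biUnion D) := (disjoint_biUnion_right _ _ _).2 fun k hk =>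
      hd (by simp) (by simp [hk]) fun e => ha (e ▸ hk)
    rw [integral_mul_of_disjoint (hm a (mem_insert_self _ _))
        (Finset.measurable_fun_prod _ fun k hk => hm k (mem_insert_of_mem hk))
        (hdep a (mem_insert_self _ _)) h1 h2,
      ih (fun k hk => hm k (mem_insert_of_mem hk)) (fun k hk => hdep k (mem_insert_of_mem hk))
        (hd.subset (coe_subset.2 (subset_insert a K)))]

lemma integrable_piece_mul (hf : IsPiece fl D f) {e : (ι → ℝ) → ℝ} (he : Measurable e) {C : ℝ}
    (hC : ∀ ω, |e ω| ≤ C) (s : Bool) : Integrable (fun ω => f s ω * e ω) (iidU ι) := by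
  obtain ⟨M, hM⟩ := hf.bdd
  refine integrable_of_abs_le ((hf.meas s).mul he) (C := M * C) fun ω => ?_
  rw [abs_mul, abs_of_pos (hf.pos s ω)]
  exact mul_le_mul (hM s ω) (hC ω) (abs_nonneg _) ((hf.pos s ω).le.trans (hM s ω))

lemma integral_piece_flip (hfl : MeasurePreserving fl (iidU ι) (iidU ι)) (hf : IsPiece fl D f)
    {e : (ι → ℝ) → ℝ} (he : Measurable e) (σ : ℝ) (heq : ∀ ω, e (fl ω) = σ * e ω) (s : Bool) :
    ∫ ω, f s ω * e ω ∂iidU ι = σ * ∫ ω, f (!s) ω * e ω ∂iidU ι := by
  conv_lhs => rw [← hfl.map_eq]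
  rw [integral_map (f := fun ω => f s ω * e ω) hfl.measurable.aemeasurable
    ((hf.meas s).mul he).aestronglyMeasurable, ← integral_const_mul]
  refine integral_congr_ae (ae_of_all _ fun ω => ?_)
  simp only [hf.flip, heq]
  ring

lemma integral_bar_eq (hfl : MeasurePreserving fl (iidU ι) (iidU ι)) (hf : IsPiece fl D f)
    {e : (ι → ℝ) → ℝ} (he : Measurable e) {C : ℝ} (hC : ∀ ω, |e ω| ≤ C)
    (heven : ∀ ω, e (fl ω) = e ω) :
    ∫ ω, bar f ω * e ω ∂iidU ι = ∫ ω, f true ω * e ω ∂iidU ι := by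
  have h := integral_piece_flip hfl hf he 1 (fun ω => by rw [heven, one_mul]) false
  rw [Bool.not_false, one_mul] at h
  have e1 : ∀ ω, bar f ω * e ω = (f true ω * e ω + f false ω * e ω) / 2 := fun ω => by
    rw [bar]; ring
  simp only [e1]
  rw [integral_div, integral_add (integrable_piece_mul hf he hC true)
    (integrable_piece_mul hf he hC false), h]
  ring

lemma IsPiece.measurable_bar (hf : IsPiece fl D f) : Measurable (bar f) :=
  ((hf.meas true).add (hf.meas false)).div_const 2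

lemma IsPiece.measurable_pmag (hf : IsPiece fl D f) : Measurable (pmag f) :=
  ((hf.meas true).sub (hf.meas false)).div ((hf.meas true).add (hf.meas false))

lemma IsPiece.abs_pmag (hf : IsPiece fl D f) (ω : ι → ℝ) : |pmag f ω| < 1 :=
  abs_magOf fun s => hf.pos s ω

lemma IsPiece.pmag_flip (hf : IsPiece fl D f) (ω : ι → ℝ) : pmag f (fl ω) = -pmag f ω := by
  simp only [pmag, magOf, hf.flip, Bool.not_true, Bool.not_false]
  rw [← neg_div, neg_sub, add_comm]

lemma IsPiece.measurable_pfield (hf : IsPiece fl D f) : Measurable (pfield f) :=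
  (Real.measurable_log.comp ((hf.meas true).div (hf.meas false))).div_const 2

lemma IsPiece.pfield_flip (hf : IsPiece fl D f) (ω : ι → ℝ) : pfield f (fl ω) = -pfield f ω := by
  simp only [pfield, hf.flip, Bool.not_true, Bool.not_false]
  rw [← inv_div (f true ω), Real.log_inv, neg_div]

lemma IsPiece.exists_pfield_bound (hf : IsPiece fl D f) : ∃ L, ∀ ω, |pfield f ω| ≤ L := by
  obtain ⟨C, hC⟩ := hf.bdd
  obtain ⟨c, hc, hcf⟩ := hf.low
  refine ⟨(|Real.log c| + |Real.log C|) + (|Real.log c| + |Real.log C|), fun ω => ?_⟩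
  have key : ∀ s, |Real.log (f s ω)| ≤ |Real.log c| + |Real.log C| := fun s => by
    have h1 := Real.log_le_log hc (hcf s ω)
    have h2 := Real.log_le_log (hf.pos s ω) (hC s ω)
    rw [abs_le]
    constructor
    · linarith [neg_abs_le (Real.log c), abs_nonneg (Real.log C)]
    · linarith [le_abs_self (Real.log C), abs_nonneg (Real.log c)]
  rw [pfield, Real.log_div (hf.pos true ω).ne' (hf.pos false ω).ne', abs_div, abs_two]
  have h3 := abs_sub (Real.log (f true ω)) (Real.log (f false ω))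
  have := key true
  have := key false
  have := abs_nonneg (Real.log (f true ω) - Real.log (f false ω))
  linarith

lemma IsPiece.integral_bar (hfl : MeasurePreserving fl (iidU ι) (iidU ι)) (hf : IsPiece fl D f) :
    ∫ ω, bar f ω ∂iidU ι = 1 := by
  have h := integral_bar_eq hfl hf (e := fun _ => 1) measurable_const (C := 1) (fun _ => by simp)
    fun _ => rfl
  simpa [hf.norm true] using h

lemma IsPiece.integral_even (hfl : MeasurePreserving fl (iidU ι) (iidU ι)) (hf : IsPiece fl D f)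
    {e : (ι → ℝ) → ℝ} (he : Measurable e) {C : ℝ} (hC : ∀ ω, |e ω| ≤ C)
    (heven : ∀ ω, e (fl ω) = e ω) (s : Bool) :
    ∫ ω, f s ω * e ω ∂iidU ι = ∫ ω, bar f ω * e ω ∂iidU ι := by
  rw [integral_bar_eq hfl hf he hC heven]
  cases s
  · rw [integral_piece_flip hfl hf he 1 (fun ω => by rw [heven, one_mul]) false, Bool.not_false,
      one_mul]
  · rfl

lemma integral_pprod_prod (hf : ∀ k ∈ K, IsPiece fl (Dk k) (fk k))
    (hd : (K : Set κ).PairwiseDisjoint Dk) (φ : κ → (ι → ℝ) → ℝ) (hm : ∀ k ∈ K, Measurable (φ k))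
    (hdep : ∀ k ∈ K, DependsOn (φ k) (Dk k : Set ι)) (s : Bool) :
    ∫ ω, pprod K fk s ω * ∏ k ∈ K, φ k ω ∂iidU ι =
      ∏ k ∈ K, ∫ ω, fk k s ω * φ k ω ∂iidU ι := by
  simp only [pprod, ← prod_mul_distrib]
  refine integral_prod_of_disjoint (F := fun k ω => fk k s ω * φ k ω)
    (fun k hk => ((hf k hk).meas s).mul (hm k hk)) (fun k hk x y h => ?_) hd
  simp only [(hf k hk).dep s h, hdep k hk h]

lemma IsPiece.dep_pmag (hf : IsPiece fl D f) : DependsOn (pmag f) (D : Set ι) := fun x y h => by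
  simp only [pmag, magOf, hf.dep true h, hf.dep false h]

lemma IsPiece.bar_mul_pmag (hf : IsPiece fl D f) (ω : ι → ℝ) :
    bar f ω * pmag f ω = (f true ω - f false ω) / 2 := by
  have := hf.pos true ω
  have := hf.pos false ω
  rw [bar, pmag, magOf]
  field_simp

lemma IsPiece.integral_pmag (hfl : MeasurePreserving fl (iidU ι) (iidU ι)) (hf : IsPiece fl D f)
    (s : Bool) : ∫ ω, f s ω * pmag f ω ∂iidU ι = sgn s * info f := by
  have hb : ∀ ω, |pmag f ω| ≤ 1 := fun ω => (hf.abs_pmag ω).le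
  have hfl' := integral_piece_flip hfl hf hf.measurable_pmag (-1)
    (fun ω => by rw [hf.pmag_flip, neg_one_mul]) false
  rw [Bool.not_false] at hfl'
  have e : ∀ ω, bar f ω * pmag f ω ^ 2 =
      (f true ω * pmag f ω - f false ω * pmag f ω) / 2 := fun ω => by
    rw [sq, ← mul_assoc, hf.bar_mul_pmag]; ring
  have hI : info f = ∫ ω, f true ω * pmag f ω ∂iidU ι := by
    simp only [info, e]
    rw [integral_div, integral_sub (integrable_piece_mul hf hf.measurable_pmag hb true)
      (integrable_piece_mul hf hf.measurable_pmag hb false), hfl']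
    ring
  cases s
  · rw [hfl', hI]; simp [sgn]
  · rw [hI]; simp [sgn]

lemma abs_sinh_le (a : ℝ) : |Real.sinh a| ≤ |a| * Real.exp |a| := by
  suffices key : ∀ b, 0 ≤ b → Real.sinh b ≤ b * Real.exp b by
    rcases le_total 0 a with h | h
    · rw [abs_of_nonneg (Real.sinh_nonneg_iff.2 h), abs_of_nonneg h]; exact key a h
    · rw [abs_of_nonpos (Real.sinh_nonpos_iff.2 h), abs_of_nonpos h, ← Real.sinh_neg]
      exact key (-a) (by linarith)
  intro b hb
  have h1 := Real.add_one_le_exp (-b)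
  have h2 : Real.exp b * Real.exp (-b) = 1 := by rw [← Real.exp_add, add_neg_cancel, Real.exp_zero]
  have h3 := mul_le_mul_of_nonneg_left h1 (Real.exp_pos b).le
  have h4 := mul_le_mul_of_nonneg_left (Real.one_le_exp hb) hb
  rw [Real.sinh_eq]
  nlinarith

lemma cosh_sub_one_le (a : ℝ) : Real.cosh a - 1 ≤ a ^ 2 * Real.exp |a| := by
  have h1 := abs_sinh_le (a / 2)
  have h2 : Real.cosh a - 1 = 2 * Real.sinh (a / 2) ^ 2 := by
    have := Real.cosh_two_mul (a / 2)
    rw [show 2 * (a / 2) = a by ring] at this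
    rw [this, Real.cosh_sq]; ring
  have h3 := pow_le_pow_left₀ (abs_nonneg _) h1 2
  rw [sq_abs, mul_pow, ← Real.exp_nat_mul, sq_abs, abs_div, abs_two,
    show ((2 : ℕ) : ℝ) * (|a| / 2) = |a| by push_cast; ring] at h3
  have h4 : 0 ≤ a ^ 2 * Real.exp |a| := by positivity
  rw [h2]
  nlinarith

lemma cosh_le_exp_abs (a : ℝ) : Real.cosh a ≤ Real.exp |a| ∧ Real.exp |a| ≤ 2 * Real.cosh a := by
  rw [← Real.cosh_abs, Real.cosh_eq]
  have h1 := Real.exp_le_exp.2 (show -|a| ≤ |a| by linarith [abs_nonneg a])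
  have h2 := Real.exp_pos (-|a|)
  constructor <;> linarith

/-- The inverse hyperbolic tangent. -/
noncomputable def athU (u : ℝ) : ℝ := (Real.log (1 + u) - Real.log (1 - u)) / 2

lemma athU_neg (u : ℝ) : athU (-u) = -athU u := by
  simp only [athU, sub_neg_eq_add, ← sub_eq_add_neg]; ring

lemma IsPiece.pfield_eq (hf : IsPiece fl D f) (ω : ι → ℝ) : pfield f ω = athU (pmag f ω) := by
  have h1 := hf.pos true ω
  have h2 := hf.pos false ω
  have e1 : 1 + pmag f ω = 2 * f true ω / (f true ω + f false ω) := by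
    rw [pmag, magOf]; field_simp; ring
  have e2 : 1 - pmag f ω = 2 * f false ω / (f true ω + f false ω) := by
    rw [pmag, magOf]; field_simp; ring
  rw [pfield, athU, e1, e2, ← Real.log_div (by positivity) (by positivity)]
  congr 2
  field_simp

lemma athU_bounds {u : ℝ} (h0 : 0 ≤ u) (h1 : u < 1) :
    u ≤ athU u ∧ athU u ≤ u / (1 - u) ∧
      ∀ θ : ℝ, 0 ≤ θ → θ ≤ 1 → 0 ≤ athU (θ * u) ∧ athU (θ * u) ≤ θ * athU u := by
  have hs : ∀ x : ℝ, |x| < 1 → HasSum (fun k : ℕ => (2 : ℝ) * (1 / (2 * (k : ℝ) + 1)) * x ^ (2 * k + 1))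
      (2 * athU x) := fun x hx => by
    have := Real.hasSum_log_sub_log_of_abs_lt_one hx
    simpa [athU, mul_div_cancel₀] using this
  have hu := hs u (by rwa [abs_of_nonneg h0])
  refine ⟨?_, ?_, fun θ hθ0 hθ1 => ?_⟩
  · have h2 := sum_le_hasSum {0} (fun k _ => by positivity) hu
    simp at h2
    linarith
  · rw [athU, ← Real.log_div (by linarith) (by linarith), div_le_iff₀ two_pos]
    refine (Real.log_le_sub_one_of_pos (div_pos (by linarith) (by linarith))).trans (le_of_eq ?_)
    field_simp [show (1 : ℝ) - u ≠ 0 by linarith]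
    ring
  · have hθu : 0 ≤ θ * u := mul_nonneg hθ0 h0
    have hv := hs (θ * u) (by
      rw [abs_of_nonneg hθu]; exact lt_of_le_of_lt (mul_le_of_le_one_left h0 hθ1) h1)
    refine ⟨by linarith [hv.nonneg fun k => by positivity], ?_⟩
    have hw := hu.mul_left θ
    have := hasSum_le (fun k => ?_) hv hw
    · linarith
    · rw [mul_pow, pow_succ θ]
      have : θ ^ (2 * k) ≤ 1 := pow_le_one₀ hθ0 hθ1
      nlinarith [mul_nonneg (mul_nonneg (show (0 : ℝ) ≤ 2 * (1 / (2 * (k : ℝ) + 1)) by positivity)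
        (pow_nonneg h0 (2 * k + 1))) hθ0]

lemma abs_athU {u : ℝ} (h1 : |u| < 1) :
    |u| ≤ |athU u| ∧ |athU u| ≤ |u| / (1 - |u|) ∧ 0 ≤ u * athU u ∧
      ∀ θ : ℝ, 0 ≤ θ → θ ≤ 1 → |athU (θ * u)| ≤ θ * |athU u| := by
  rcases le_total 0 u with h | h
  · obtain ⟨a, b, c⟩ := athU_bounds h (by rwa [abs_of_nonneg h] at h1)
    rw [abs_of_nonneg h, abs_of_nonneg (h.trans a)]
    refine ⟨a, b, mul_nonneg h (h.trans a), fun θ h0 h2 => ?_⟩
    rw [abs_of_nonneg (c θ h0 h2).1]; exact (c θ h0 h2).2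
  · obtain ⟨a, b, c⟩ := athU_bounds (u := -u) (by linarith) (by rwa [abs_of_nonpos h] at h1)
    rw [athU_neg] at a b
    rw [abs_of_nonpos h, abs_of_nonpos (by linarith : athU u ≤ 0)]
    refine ⟨a, b, by nlinarith, fun θ h0 h2 => ?_⟩
    have h3 := c θ h0 h2
    rw [mul_neg, athU_neg, athU_neg] at h3
    rw [abs_of_nonpos (by linarith)]
    linarith

/-- The exponential moment, written with reflection-invariant statistics. -/
lemma expMom_eq_bar (hfl : MeasurePreserving fl (iidU ι) (iidU ι)) (hf : IsPiece fl D f) (μ : ℝ) :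
    expMom f μ = ∫ ω, bar f ω *
      (Real.cosh (μ * pfield f ω) + pmag f ω * Real.sinh (μ * pfield f ω)) ∂iidU ι := by
  obtain ⟨L, hL⟩ := hf.exists_pfield_bound
  set h := pfield f with hh
  set u := pmag f with hu
  have hmh : Measurable h := hf.measurable_pfield
  have hc : Measurable fun ω => Real.cosh (μ * h ω) :=
    Real.continuous_cosh.measurable.comp (hmh.const_mul μ)
  have hs : Measurable fun ω => Real.sinh (μ * h ω) :=
    Real.continuous_sinh.measurable.comp (hmh.const_mul μ)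
  have hb : ∀ ω, Real.exp |μ * h ω| ≤ Real.exp (|μ| * L) := fun ω => by
    rw [Real.exp_le_exp, abs_mul]; exact mul_le_mul_of_nonneg_left (hL ω) (abs_nonneg μ)
  have hcb : ∀ ω, |Real.cosh (μ * h ω)| ≤ Real.exp (|μ| * L) := fun ω => by
    rw [abs_of_pos (Real.cosh_pos _)]; exact (cosh_le_exp_abs _).1.trans (hb ω)
  have hsb : ∀ ω, |Real.sinh (μ * h ω)| ≤ Real.exp (|μ| * L) := fun ω => by
    refine le_trans ?_ (hb ω)
    rw [Real.abs_sinh]
    exact ((Real.sinh_lt_cosh _).le).trans ((cosh_le_exp_abs _).1.trans (by rw [abs_abs]))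
  have hus : Measurable fun ω => u ω * Real.sinh (μ * h ω) := hf.measurable_pmag.mul hs
  have husb : ∀ ω, |u ω * Real.sinh (μ * h ω)| ≤ Real.exp (|μ| * L) := fun ω => by
    rw [abs_mul]
    exact le_trans (mul_le_of_le_one_left (abs_nonneg _) (hf.abs_pmag ω).le) (hsb ω)
  have e : ∀ ω, f true ω * Real.exp (μ * h ω) =
      f true ω * Real.cosh (μ * h ω) + f true ω * Real.sinh (μ * h ω) := fun ω => by
    rw [← mul_add, Real.cosh_add_sinh]
  have e2 : ∀ ω, bar f ω * (u ω * Real.sinh (μ * h ω)) =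
      (f true ω * Real.sinh (μ * h ω) - f false ω * Real.sinh (μ * h ω)) / 2 := fun ω => by
    rw [← mul_assoc, hu, hf.bar_mul_pmag]; ring
  have hflip := integral_piece_flip hfl hf hs (-1)
    (fun ω => by rw [hh, hf.pfield_flip, mul_neg, Real.sinh_neg, neg_one_mul]) false
  rw [Bool.not_false] at hflip
  have hbi : ∀ {g : (ι → ℝ) → ℝ}, Measurable g → (∀ ω, |g ω| ≤ Real.exp (|μ| * L)) →
      Integrable (fun ω => bar f ω * g ω) (iidU ι) := fun {g} hg hgb => by
    refine (((integrable_piece_mul hf hg hgb true).add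
      (integrable_piece_mul hf hg hgb false)).div_const 2).congr (ae_of_all _ fun ω => ?_)
    simp only [Pi.add_apply, bar]; ring
  simp only [expMom, ← hh, e, mul_add]
  rw [integral_add (integrable_piece_mul hf hc hcb true) (integrable_piece_mul hf hs hsb true),
    integral_add (hbi hc hcb) (hbi hus husb),
    hf.integral_even hfl hc hcb (fun ω => by rw [hh, hf.pfield_flip, mul_neg, Real.cosh_neg]) true]
  congr 1
  simp only [e2]
  rw [integral_div, integral_sub (integrable_piece_mul hf hs hsb true)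
    (integrable_piece_mul hf hs hsb false), hflip]
  ring

lemma IsPiece.integrable_bar_mul (hf : IsPiece fl D f) {e : (ι → ℝ) → ℝ} (he : Measurable e) {C : ℝ}
    (hC : ∀ ω, |e ω| ≤ C) : Integrable (fun ω => bar f ω * e ω) (iidU ι) := by
  refine (((integrable_piece_mul hf he hC true).add
    (integrable_piece_mul hf he hC false)).div_const 2).congr (ae_of_all _ fun ω => ?_)
  simp only [Pi.add_apply, bar]; ring

lemma IsPiece.bar_pos (hf : IsPiece fl D f) (ω : ι → ℝ) : 0 < bar f ω := by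
  have := hf.pos true ω
  have := hf.pos false ω
  rw [bar]; linarith

lemma IsPiece.exists_expMom_integrable (hf : IsPiece fl D f) (μ : ℝ) :
    Integrable (fun ω => bar f ω *
      (Real.cosh (μ * pfield f ω) + pmag f ω * Real.sinh (μ * pfield f ω))) (iidU ι) := by
  obtain ⟨L, hL⟩ := hf.exists_pfield_bound
  refine hf.integrable_bar_mul ((Real.continuous_cosh.measurable.comp
    (hf.measurable_pfield.const_mul μ)).add (hf.measurable_pmag.mul
      (Real.continuous_sinh.measurable.comp (hf.measurable_pfield.const_mul μ))))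
    (C := 2 * Real.exp (|μ| * L)) fun ω => ?_
  have hb : Real.exp |μ * pfield f ω| ≤ Real.exp (|μ| * L) := by
    rw [Real.exp_le_exp, abs_mul]; exact mul_le_mul_of_nonneg_left (hL ω) (abs_nonneg μ)
  have h1 : |Real.cosh (μ * pfield f ω)| ≤ Real.exp (|μ| * L) := by
    rw [abs_of_pos (Real.cosh_pos _)]; exact (cosh_le_exp_abs _).1.trans hb
  have h2 : |Real.sinh (μ * pfield f ω)| ≤ Real.exp (|μ| * L) := by
    rw [Real.abs_sinh]
    exact ((Real.sinh_lt_cosh _).le).trans ((cosh_le_exp_abs _).1.trans (by rw [abs_abs]; exact hb))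
  refine (abs_add_le _ _).trans ?_
  rw [abs_mul]
  have := mul_le_of_le_one_left (abs_nonneg (Real.sinh (μ * pfield f ω))) (hf.abs_pmag ω).le
  linarith

/-- The bound on the exponential moment from a bound on the field. -/
lemma expMom_le_of_small (hfl : MeasurePreserving fl (iidU ι) (iidU ι)) (hf : IsPiece fl D f)
    {μ r L : ℝ} (hr : r < 1) (hu : ∀ ω, |pmag f ω| ≤ r) (hμ : 0 ≤ μ) (hL : μ * r / (1 - r) ≤ L) :
    expMom f μ ≤ Real.exp ((μ ^ 2 / (1 - r) ^ 2 + μ / (1 - r)) * Real.exp L * info f) := by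
  have h1r : 0 < 1 - r := by linarith
  set A : ℝ := (μ ^ 2 / (1 - r) ^ 2 + μ / (1 - r)) * Real.exp L with hA
  have hpt : ∀ ω, Real.cosh (μ * pfield f ω) + pmag f ω * Real.sinh (μ * pfield f ω) ≤
      1 + A * pmag f ω ^ 2 := by
    intro ω
    set u := pmag f ω
    obtain ⟨-, ha, -, -⟩ := abs_athU (hf.abs_pmag ω)
    rw [hf.pfield_eq]
    set a := μ * athU u with ha'
    have hab : |a| ≤ μ * |u| / (1 - r) := by
      rw [ha', abs_mul, abs_of_nonneg hμ, mul_div_assoc]
      refine mul_le_mul_of_nonneg_left (ha.trans ?_) hμ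
      exact div_le_div_of_nonneg_left (abs_nonneg u) h1r (by linarith [hu ω])
    have haL : Real.exp |a| ≤ Real.exp L := Real.exp_le_exp.2 (le_trans hab (le_trans
      (div_le_div_of_nonneg_right (mul_le_mul_of_nonneg_left (hu ω) hμ) h1r.le) hL))
    have t1 := (cosh_sub_one_le a).trans (mul_le_mul
      (show a ^ 2 ≤ (μ * |u| / (1 - r)) ^ 2 by rw [← sq_abs]; exact pow_le_pow_left₀ (abs_nonneg a) hab 2)
      haL (Real.exp_pos _).le (sq_nonneg _))
    have t2 : u * Real.sinh a ≤ |u| * (μ * |u| / (1 - r) * Real.exp L) := by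
      refine (le_abs_self _).trans ?_
      rw [abs_mul]
      exact mul_le_mul_of_nonneg_left ((abs_sinh_le a).trans (mul_le_mul hab haL (Real.exp_pos _).le
        ((abs_nonneg a).trans hab))) (abs_nonneg u)
    have e : A * u ^ 2 = (μ * |u| / (1 - r)) ^ 2 * Real.exp L +
        |u| * (μ * |u| / (1 - r) * Real.exp L) := by
      rw [hA, ← sq_abs u]; field_simp
    linarith
  have hb : ∀ ω, |pmag f ω ^ 2| ≤ 1 := fun ω => by
    rw [abs_pow]; exact pow_le_one₀ (abs_nonneg _) (hf.abs_pmag ω).le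
  have i1 : Integrable (fun ω => bar f ω) (iidU ι) := by
    simpa using hf.integrable_bar_mul (e := fun _ => 1) measurable_const (C := 1) fun _ => by simp
  have i2 := hf.integrable_bar_mul (hf.measurable_pmag.pow_const 2) hb
  rw [expMom_eq_bar hfl hf]
  refine le_trans ?_ (Real.add_one_le_exp _)
  refine (integral_mono (hf.exists_expMom_integrable μ) (i1.add (i2.const_mul A)) fun ω => ?_).trans ?_
  · have := mul_le_mul_of_nonneg_left (hpt ω) (hf.bar_pos ω).le
    simp only [Pi.add_apply]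
    linarith
  · simp only [Pi.add_apply]
    rw [integral_add i1 (i2.const_mul A), hf.integral_bar hfl, integral_const_mul, add_comm]
    rfl

open scoped Classical in
lemma isPiece_pprod (hfl : MeasurePreserving fl (iidU ι) (iidU ι))
    (hf : ∀ k ∈ K, IsPiece fl (Dk k) (fk k)) (hd : (K : Set κ).PairwiseDisjoint Dk) :
    IsPiece fl (K.biUnion Dk) (pprod K fk) := by
  refine ⟨fun s ω => prod_pos fun k hk => (hf k hk).pos s ω,
    fun s => Finset.measurable_fun_prod _ fun k hk => (hf k hk).meas s, ?_, ?_, fun s x y h => ?_,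
    fun s => ?_, fun s ω => prod_congr rfl fun k hk => (hf k hk).flip s ω⟩
  · have hb := fun k hk => (hf k hk).bdd
    choose! C hC using hb
    exact ⟨∏ k ∈ K, C k, fun s ω =>
      prod_le_prod (fun k hk => ((hf k hk).pos s ω).le) fun k hk => hC k hk s ω⟩
  · have hb := fun k hk => (hf k hk).low
    choose! c hc hcf using hb
    exact ⟨∏ k ∈ K, c k, prod_pos hc, fun s ω =>
      prod_le_prod (fun k hk => (hc k hk).le) fun k hk => hcf k hk s ω⟩
  · exact prod_congr rfl fun k hk => (hf k hk).dep s fun i hi =>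
      h i (Finset.mem_coe.2 (mem_biUnion.2 ⟨k, hk, hi⟩))
  · simp only [pprod]
    rw [integral_prod_of_disjoint (F := fun k ω => fk k s ω) (fun k hk => (hf k hk).meas s)
      (fun k hk => (hf k hk).dep s) hd]
    exact prod_eq_one fun k hk => (hf k hk).norm s

lemma isPiece_ppull (hθ : |θ| < 1) (hfl : MeasurePreserving fl (iidU ι) (iidU ι))
    (hf : IsPiece fl D f) : IsPiece fl D (ppull θ f) := by
  obtain ⟨h1, h2⟩ := abs_lt.1 hθ
  have hm : ∀ s, Measurable (ppull θ f s) := fun s =>
    ((hf.meas true).const_mul _).add ((hf.meas false).const_mul _)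
  have hcoef : ∀ s, 0 ≤ (1 + θ * sgn s) / 2 ∧ 0 ≤ (1 - θ * sgn s) / 2 := fun s => by
    cases s <;> simp only [sgn, if_true, Bool.false_eq_true, if_false] <;> constructor <;> linarith
  refine ⟨fun s ω => pull_pos hθ.le (fun r => hf.pos r ω) s, hm, ?_, ?_, fun s x y h => ?_,
    fun s => ?_, fun s ω => ?_⟩
  · obtain ⟨C, hC⟩ := hf.bdd
    refine ⟨C, fun s ω => ?_⟩
    simp only [ppull, pull]
    have := mul_le_mul_of_nonneg_left (hC true ω) (hcoef s).1
    have := mul_le_mul_of_nonneg_left (hC false ω) (hcoef s).2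
    linarith
  · obtain ⟨c, hc, hcf⟩ := hf.low
    refine ⟨c, hc, fun s ω => ?_⟩
    simp only [ppull, pull]
    have := mul_le_mul_of_nonneg_left (hcf true ω) (hcoef s).1
    have := mul_le_mul_of_nonneg_left (hcf false ω) (hcoef s).2
    linarith
  · simp only [ppull, pull, hf.dep true h, hf.dep false h]
  · have hi : ∀ r, Integrable (f r) (iidU ι) := fun r => by
      simpa using integrable_piece_mul hf (e := fun _ => 1) measurable_const (C := 1) (fun _ => by simp) r
    simp only [ppull, pull]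
    rw [integral_add ((hi true).const_mul _) ((hi false).const_mul _), integral_const_mul,
      integral_const_mul, hf.norm, hf.norm]
    ring
  · simp only [ppull, pull, hf.flip, Bool.not_true, Bool.not_false]
    cases s <;> simp [sgn] <;> ring

/-- Reflection-invariant statistics of different pieces are independent given the spin. -/
lemma integral_pprod_mul (hfl : MeasurePreserving fl (iidU ι) (iidU ι))
    (hf : ∀ k ∈ K, IsPiece fl (Dk k) (fk k)) (hd : (K : Set κ).PairwiseDisjoint Dk)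
    (φ : κ → (ι → ℝ) → ℝ) (hm : ∀ k ∈ K, Measurable (φ k))
    (hb : ∀ k ∈ K, ∃ C, ∀ ω, |φ k ω| ≤ C) (hdep : ∀ k ∈ K, DependsOn (φ k) (Dk k : Set ι))
    (hinv : ∀ k ∈ K, ∀ ω, φ k (fl ω) = φ k ω) (s : Bool) :
    ∫ ω, pprod K fk s ω * ∏ k ∈ K, φ k ω ∂iidU ι =
      ∏ k ∈ K, ∫ ω, bar (fk k) ω * φ k ω ∂iidU ι := by
  rw [integral_pprod_prod hf hd φ hm hdep s]
  refine prod_congr rfl fun k hk => ?_
  obtain ⟨C, hC⟩ := hb k hk
  exact (hf k hk).integral_even hfl (hm k hk) hC (hinv k hk) s

lemma integral_bar_pprod_mul (hfl : MeasurePreserving fl (iidU ι) (iidU ι))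
    (hf : ∀ k ∈ K, IsPiece fl (Dk k) (fk k)) (hd : (K : Set κ).PairwiseDisjoint Dk)
    (φ : κ → (ι → ℝ) → ℝ) (hm : ∀ k ∈ K, Measurable (φ k))
    (hb : ∀ k ∈ K, ∃ C, ∀ ω, |φ k ω| ≤ C) (hdep : ∀ k ∈ K, DependsOn (φ k) (Dk k : Set ι))
    (hinv : ∀ k ∈ K, ∀ ω, φ k (fl ω) = φ k ω) :
    ∫ ω, bar (pprod K fk) ω * ∏ k ∈ K, φ k ω ∂iidU ι =
      ∏ k ∈ K, ∫ ω, bar (fk k) ω * φ k ω ∂iidU ι := by
  classical
  have hP := isPiece_pprod hfl hf hd
  have hpm : Measurable fun ω => ∏ k ∈ K, φ k ω := Finset.measurable_fun_prod _ hm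
  choose! C hC using hb
  have hpb : ∀ ω, |∏ k ∈ K, φ k ω| ≤ ∏ k ∈ K, C k := fun ω => by
    rw [abs_prod]; exact prod_le_prod (fun k _ => abs_nonneg _) fun k hk => hC k hk ω
  rw [← hP.integral_even hfl hpm hpb (fun ω => prod_congr rfl fun k hk => hinv k hk ω) true]
  exact integral_pprod_mul hfl hf hd φ hm (fun k hk => ⟨C k, hC k hk⟩) hdep hinv true

lemma info_nonneg (hf : IsPiece fl D f) : 0 ≤ info f := by
  exact integral_nonneg fun ω => mul_nonneg (hf.bar_pos ω).le (sq_nonneg _)

lemma info_le_one (hf : IsPiece fl D f) : info f ≤ 1 := by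
  have hi : ∀ s, Integrable (f s) (iidU ι) := fun r => by
    simpa using integrable_piece_mul hf (e := fun _ => 1) measurable_const (C := 1) (fun _ => by simp) r
  refine (integral_mono (hf.integrable_bar_mul (hf.measurable_pmag.pow_const 2) (C := 1) fun ω => ?_)
    (((hi true).add (hi false)).div_const 2) fun ω => ?_).trans_eq ?_
  · rw [abs_pow]; exact pow_le_one₀ (abs_nonneg _) (hf.abs_pmag ω).le
  · simp only [Pi.add_apply]
    exact mul_le_of_le_one_right (hf.bar_pos ω).le
      ((sq_le_one_iff_abs_le_one _).2 (hf.abs_pmag ω).le)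
  · simp only [Pi.add_apply]
    rw [integral_div, integral_add (hi true) (hi false), hf.norm, hf.norm]
    norm_num

lemma info_ppull (hθ : |θ| < 1) (hf : IsPiece fl D f) : info (ppull θ f) = θ ^ 2 * info f := by
  have := hθ
  simp only [info]
  rw [← integral_const_mul]
  refine integral_congr_ae (ae_of_all _ fun ω => ?_)
  have h1 := hf.pos true ω
  have h2 := hf.pos false ω
  have e1 : bar (ppull θ f) ω = bar f ω := by
    simp only [bar, ppull, pull, sgn, if_true, Bool.false_eq_true, if_false]; ring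
  have e2 : pmag (ppull θ f) ω = θ * pmag f ω := by
    simp only [pmag, magOf, ppull, pull, sgn, if_true, Bool.false_eq_true, if_false]
    rw [← mul_div_assoc]
    congr 1 <;> ring
  show bar (ppull θ f) ω * pmag (ppull θ f) ω ^ 2 = _
  rw [e1, e2]; ring

lemma prod_one_sub_info_le (hfl : MeasurePreserving fl (iidU ι) (iidU ι))
    (hf : ∀ k ∈ K, IsPiece fl (Dk k) (fk k)) (hd : (K : Set κ).PairwiseDisjoint Dk) :
    ∏ k ∈ K, (1 - info (fk k)) ≤ 1 - info (pprod K fk) := by
  classical
  induction K using Finset.induction_on with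
  | empty => simp [info, pprod, bar, pmag, magOf]
  | insert a K ha ih =>
    have hfK : ∀ k ∈ K, IsPiece fl (Dk k) (fk k) := fun k hk => hf k (mem_insert_of_mem hk)
    have hdK := hd.subset (coe_subset.2 (subset_insert a K))
    have hA := hf a (mem_insert_self _ _)
    have hB := isPiece_pprod hfl hfK hdK
    have hP := isPiece_pprod hfl hf hd
    rw [prod_insert ha]
    refine le_trans (mul_le_mul_of_nonneg_left (ih hfK hdK) (sub_nonneg.2 (info_le_one hA))) ?_
    set F := fk a with hF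
    set Q := pprod K fk with hQ
    set W := pprod (insert a K) fk with hW
    have hWe : ∀ s ω, W s ω = F s ω * Q s ω := fun s ω => by simp [hW, hQ, hF, pprod, prod_insert ha]
    have hdisj : Disjoint (Dk a) (K.biUnion Dk) := (disjoint_biUnion_right _ _ _).2 fun k hk =>
      hd (by simp) (by simp [hk]) fun e => ha (e ▸ hk)
    let q : (Bool → (ι → ℝ) → ℝ) → (ι → ℝ) → ℝ := fun g ω => bar g ω * (1 - pmag g ω ^ 2)
    have hqm : ∀ {E : Finset ι} {g : Bool → (ι → ℝ) → ℝ}, IsPiece fl E g →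
        Measurable (q g) ∧ Measurable (fun ω => q g ω * pmag g ω) ∧
          DependsOn (q g) (E : Set ι) ∧ DependsOn (fun ω => q g ω * pmag g ω) (E : Set ι) ∧
          (∫ ω, q g ω ∂iidU ι = 1 - info g) ∧ (∫ ω, q g ω * pmag g ω ∂iidU ι = 0) ∧
          Integrable (q g) (iidU ι) ∧ ∃ C, ∀ ω, |q g ω| ≤ C := by
      intro E g hg
      have h1 : Measurable fun ω => 1 - pmag g ω ^ 2 := measurable_const.sub (hg.measurable_pmag.pow_const 2)
      have hb1 : ∀ ω, |1 - pmag g ω ^ 2| ≤ 1 := fun ω => by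
        have := (sq_le_one_iff_abs_le_one _).2 (hg.abs_pmag ω).le
        rw [abs_of_nonneg (by linarith)]
        linarith [sq_nonneg (pmag g ω)]
      have hdep : DependsOn (q g) (E : Set ι) := fun x y h => by
        simp only [q, bar, hg.dep_pmag h, hg.dep true h, hg.dep false h]
      refine ⟨hg.measurable_bar.mul h1, (hg.measurable_bar.mul h1).mul hg.measurable_pmag, hdep,
        fun x y h => by simp only [hdep h, hg.dep_pmag h], ?_, ?_, hg.integrable_bar_mul h1 hb1, ?_⟩
      · have e : ∀ ω, q g ω = bar g ω * 1 - bar g ω * pmag g ω ^ 2 := fun ω => by simp only [q]; ring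
        simp only [e]
        rw [integral_sub (hg.integrable_bar_mul measurable_const (C := 1) fun _ => by simp)
          (hg.integrable_bar_mul (hg.measurable_pmag.pow_const 2) (C := 1) fun ω => by
            rw [abs_pow]; exact pow_le_one₀ (abs_nonneg _) (hg.abs_pmag ω).le)]
        simp only [mul_one, hg.integral_bar hfl]
        rfl
      · set e := fun ω => (1 - pmag g ω ^ 2) * pmag g ω with he
        have hem : Measurable e := h1.mul hg.measurable_pmag
        have heb : ∀ ω, |e ω| ≤ 1 := fun ω => by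
          rw [he, abs_mul]; exact mul_le_one₀ (hb1 ω) (abs_nonneg _) (hg.abs_pmag ω).le
        have hf1 := integral_piece_flip hfl hg hem (-1)
          (fun ω => by simp only [he, hg.pmag_flip]; ring) false
        rw [Bool.not_false] at hf1
        have e2 : ∀ ω, q g ω * pmag g ω = (g true ω * e ω + g false ω * e ω) / 2 := fun ω => by
          simp only [q, bar, he]; ring
        simp only [e2]
        rw [integral_div, integral_add (integrable_piece_mul hg hem heb true)
          (integrable_piece_mul hg hem heb false), hf1]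
        ring
      · obtain ⟨C, hC⟩ := hg.bdd
        refine ⟨C, fun ω => ?_⟩
        rw [abs_mul, abs_of_pos (hg.bar_pos ω)]
        refine (mul_le_of_le_one_right (hg.bar_pos ω).le (hb1 ω)).trans ?_
        have := hC true ω
        have := hC false ω
        rw [bar]; linarith
    obtain ⟨a1, a2, a3, a4, a5, a6, -, CA, hCA⟩ := hqm hA
    obtain ⟨b1, b2, b3, b4, b5, b6, -, CB, hCB⟩ := hqm hB
    obtain ⟨-, -, -, -, w5, -, w7, -⟩ := hqm hP
    have hpt : ∀ ω, q F ω * q Q ω - (q F ω * pmag F ω) * (q Q ω * pmag Q ω) ≤ q W ω := fun ω => by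
      have f1 := hA.pos true ω
      have f2 := hA.pos false ω
      have g1 := hB.pos true ω
      have g2 := hB.pos false ω
      simp only [q, bar, pmag, magOf, hWe]
      generalize F true ω = x at *
      generalize F false ω = x' at *
      generalize Q true ω = y at *
      generalize Q false ω = y' at *
      have e1 : (x + x') / 2 * (1 - ((x - x') / (x + x')) ^ 2) = 2 * x * x' / (x + x') := by
        field_simp; ring
      have e2 : (y + y') / 2 * (1 - ((y - y') / (y + y')) ^ 2) = 2 * y * y' / (y + y') := by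
        field_simp; ring
      have e3 : (x * y + x' * y') / 2 * (1 - ((x * y - x' * y') / (x * y + x' * y')) ^ 2) =
          2 * (x * y) * (x' * y') / (x * y + x' * y') := by
        field_simp; ring
      rw [e1, e2, e3]
      have e4 : 2 * x * x' / (x + x') * (2 * y * y' / (y + y')) -
          2 * x * x' / (x + x') * ((x - x') / (x + x')) *
            (2 * y * y' / (y + y') * ((y - y') / (y + y'))) =
          8 * (x * x' * y * y') * (x * y' + x' * y) / ((x + x') * (y + y')) ^ 2 := by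
        field_simp; ring
      rw [e4, div_le_div_iff₀ (by positivity) (by positivity)]
      nlinarith [mul_le_mul_of_nonneg_left
        (show 4 * ((x * y' + x' * y) * (x * y + x' * y')) ≤ ((x + x') * (y + y')) ^ 2 by
          nlinarith [sq_nonneg (x * y' + x' * y - (x * y + x' * y'))])
        (show 0 ≤ 2 * (x * x' * y * y') by positivity)]
    have i1 : Integrable (fun ω => q F ω * q Q ω) (iidU ι) :=
      integrable_of_abs_le (a1.mul b1) (C := CA * CB) fun ω => by
        rw [abs_mul]; exact mul_le_mul (hCA ω) (hCB ω) (abs_nonneg _) ((abs_nonneg _).trans (hCA ω))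
    have i2 : Integrable (fun ω => (q F ω * pmag F ω) * (q Q ω * pmag Q ω)) (iidU ι) :=
      integrable_of_abs_le (a2.mul b2) (C := CA * CB) fun ω => by
        rw [abs_mul, abs_mul (q F ω) (pmag F ω), abs_mul (q Q ω) (pmag Q ω)]
        exact mul_le_mul ((mul_le_of_le_one_right (abs_nonneg _) (hA.abs_pmag ω).le).trans (hCA ω))
          ((mul_le_of_le_one_right (abs_nonneg _) (hB.abs_pmag ω).le).trans (hCB ω))
          (by positivity) ((abs_nonneg _).trans (hCA ω))
    have key := integral_mono (i1.sub i2) w7 hpt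
    simp only [Pi.sub_apply] at key
    rw [integral_sub i1 i2, integral_mul_of_disjoint a1 b1 a3 b3 hdisj,
      integral_mul_of_disjoint a2 b2 a4 b4 hdisj, a5, b5, a6, b6, w5] at key
    linarith

/-- The linear test: any statistic `e` gives a lower bound on the information. -/
lemma test_le_info (hf : IsPiece fl D f) {e : (ι → ℝ) → ℝ} (he : Measurable e) {C : ℝ}
    (hC : ∀ ω, |e ω| ≤ C) (l : ℝ) :
    l * ((∫ ω, f true ω * e ω ∂iidU ι) - ∫ ω, f false ω * e ω ∂iidU ι) -
      l ^ 2 * ∫ ω, bar f ω * e ω ^ 2 ∂iidU ι ≤ info f := by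
  have i1 := hf.integrable_bar_mul (hf.measurable_pmag.pow_const 2) (C := 1) fun ω => by
    rw [abs_pow]; exact pow_le_one₀ (abs_nonneg _) (hf.abs_pmag ω).le
  have i2 := hf.integrable_bar_mul (he.pow_const 2) (C := C ^ 2) fun ω => by
    rw [abs_pow]; exact pow_le_pow_left₀ (abs_nonneg _) (hC ω) 2
  have it := integrable_piece_mul hf he hC true
  have ifa := integrable_piece_mul hf he hC false
  have h := integral_mono ((( it.sub ifa).const_mul l).sub (i2.const_mul (l ^ 2))) i1 fun ω => by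
    simp only [Pi.sub_apply]
    have h := mul_nonneg (hf.bar_pos ω).le (sq_nonneg (pmag f ω - l * e ω))
    have e' : f true ω * e ω - f false ω * e ω = 2 * (bar f ω * pmag f ω) * e ω := by
      rw [hf.bar_mul_pmag]; ring
    rw [e']
    nlinarith
  simp only [Pi.sub_apply] at h
  rw [integral_sub (f := fun x => l * (f true x * e x - f false x * e x))
      ((it.sub ifa).const_mul l) (i2.const_mul _), integral_const_mul,
    integral_sub it ifa, integral_const_mul] at h
  exact h

/-- The information of another piece survives conditioning on one piece. -/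
lemma info_mul_le (hfl : MeasurePreserving fl (iidU ι) (iidU ι))
    (hf : ∀ k ∈ K, IsPiece fl (Dk k) (fk k)) (hd : (K : Set κ).PairwiseDisjoint Dk)
    {k₀ k₁ : κ} (h₀ : k₀ ∈ K) (h₁ : k₁ ∈ K) (hne : k₀ ≠ k₁) {φ : (ι → ℝ) → ℝ}
    (hm : Measurable φ) {C : ℝ} (hC : ∀ ω, |φ ω| ≤ C) (h0 : ∀ ω, 0 ≤ φ ω)
    (hdep : DependsOn φ (Dk k₀ : Set ι)) (hinv : ∀ ω, φ (fl ω) = φ ω) :
    info (fk k₁) * (∫ ω, bar (fk k₀) ω * φ ω ∂iidU ι) ≤
      ∫ ω, bar (pprod K fk) ω * (pmag (pprod K fk) ω ^ 2 * φ ω) ∂iidU ι := by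
  classical
  have hP := isPiece_pprod hfl hf hd
  set W := pprod K fk with hW
  have g1 := hf k₁ h₁
  have g0 := hf k₀ h₀
  set e := pmag (fk k₁) with he
  have hem : Measurable e := g1.measurable_pmag
  have heb : ∀ ω, |e ω| ≤ 1 := fun ω => (g1.abs_pmag ω).le
  set Φ := ∫ ω, bar (fk k₀) ω * φ ω ∂iidU ι with hΦ
  have hC0 : 0 ≤ C := le_trans (abs_nonneg _) (hC fun _ => 0)
  -- a statistic of the two pieces
  have two : ∀ (η : (ι → ℝ) → ℝ), Measurable η → DependsOn η (Dk k₁ : Set ι) → ∀ s : Bool,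
      ∫ ω, W s ω * (η ω * φ ω) ∂iidU ι = (∫ ω, fk k₁ s ω * η ω ∂iidU ι) * Φ := by
    intro η hη hηd s
    let ψ : κ → (ι → ℝ) → ℝ := fun k ω => if k = k₁ then η ω else if k = k₀ then φ ω else 1
    have hψm : ∀ k ∈ K, Measurable (ψ k) := fun k _ => by
      simp only [ψ]; split_ifs <;> [exact hη; exact hm; exact measurable_const]
    have hψd : ∀ k ∈ K, DependsOn (ψ k) (Dk k : Set ι) := fun k _ => by
      simp only [ψ]
      split_ifs with a b
      · subst a; exact hηd
      · subst b; exact hdep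
      · exact fun _ _ _ => rfl
    have hprod : ∀ ω, ∏ k ∈ K, ψ k ω = η ω * φ ω := fun ω => by
      rw [← prod_subset (show {k₁, k₀} ⊆ K by simp [insert_subset_iff, h₀, h₁]) fun k _ hk => ?_,
        prod_pair (Ne.symm hne)]
      · simp [ψ, hne]
      · simp only [mem_insert, mem_singleton, not_or] at hk
        simp [ψ, hk.1, hk.2]
    have := integral_pprod_prod hf hd ψ hψm hψd s
    simp only [hprod] at this
    rw [this, ← prod_subset (show {k₁, k₀} ⊆ K by simp [insert_subset_iff, h₀, h₁]) fun k hk hk' => ?_,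
      prod_pair (Ne.symm hne)]
    · simp only [ψ, if_true, if_neg hne]
      rw [g0.integral_even hfl hm hC hinv s]
    · simp only [mem_insert, mem_singleton, not_or] at hk'
      simpa [ψ, hk'.1, hk'.2] using (hf k hk).norm s
  have hue : ∫ ω, bar W ω * (pmag W ω * (e ω * φ ω)) ∂iidU ι = info (fk k₁) * Φ := by
    have e' : ∀ ω, bar W ω * (pmag W ω * (e ω * φ ω)) =
        (W true ω * (e ω * φ ω) - W false ω * (e ω * φ ω)) / 2 := fun ω => by
      rw [← mul_assoc, hP.bar_mul_pmag]; ring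
    have hb : ∀ ω, |e ω * φ ω| ≤ C := fun ω => by
      rw [abs_mul]; exact (mul_le_of_le_one_left (abs_nonneg _) (heb ω)).trans (hC ω)
    have ht := g1.integral_pmag hfl true
    have hfa := g1.integral_pmag hfl false
    simp only [e']
    rw [integral_div, integral_sub (integrable_piece_mul hP (e := fun ω => e ω * φ ω) (hem.mul hm) hb true)
      (integrable_piece_mul hP (e := fun ω => e ω * φ ω) (hem.mul hm) hb false), two e hem g1.dep_pmag true,
      two e hem g1.dep_pmag false, he, ht, hfa]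
    simp [sgn]
  have hee : ∫ ω, bar W ω * (e ω ^ 2 * φ ω) ∂iidU ι = info (fk k₁) * Φ := by
    have hb : ∀ ω, |e ω ^ 2 * φ ω| ≤ C := fun ω => by
      rw [abs_mul, abs_pow]
      exact (mul_le_of_le_one_left (abs_nonneg _) (pow_le_one₀ (abs_nonneg _) (heb ω))).trans (hC ω)
    rw [integral_bar_eq hfl hP (e := fun ω => e ω ^ 2 * φ ω) ((hem.pow_const 2).mul hm) hb
      (fun ω => by simp only [he, g1.pmag_flip, hinv, neg_sq]),
      two (fun ω => e ω ^ 2) (hem.pow_const 2) (fun x y h => by simp only [he, g1.dep_pmag h]) true,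
      g1.integral_even hfl (hem.pow_const 2) (C := 1)
        (fun ω => by rw [abs_pow]; exact pow_le_one₀ (abs_nonneg _) (heb ω))
        (fun ω => by simp only [he, g1.pmag_flip, neg_sq]) true]
    rfl
  have hu : ∀ ω, |pmag W ω| ≤ 1 := fun ω => (hP.abs_pmag ω).le
  have i1 := hP.integrable_bar_mul (e := fun ω => pmag W ω ^ 2 * φ ω) ((hP.measurable_pmag.pow_const 2).mul hm) (C := C) fun ω => by
    rw [abs_mul, abs_pow]
    exact (mul_le_of_le_one_left (abs_nonneg _) (pow_le_one₀ (abs_nonneg _) (hu ω))).trans (hC ω)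
  have i2 := hP.integrable_bar_mul (e := fun ω => pmag W ω * (e ω * φ ω)) (hP.measurable_pmag.mul (hem.mul hm)) (C := C) fun ω => by
    rw [abs_mul, abs_mul]
    exact (mul_le_of_le_one_left (by positivity) (hu ω)).trans
      ((mul_le_of_le_one_left (abs_nonneg _) (heb ω)).trans (hC ω))
  have i3 := hP.integrable_bar_mul (e := fun ω => e ω ^ 2 * φ ω) ((hem.pow_const 2).mul hm) (C := C) fun ω => by
    rw [abs_mul, abs_pow]
    exact (mul_le_of_le_one_left (abs_nonneg _) (pow_le_one₀ (abs_nonneg _) (heb ω))).trans (hC ω)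
  have h := integral_mono ((i2.const_mul 2).sub i3) i1 fun ω => by
    simp only [Pi.sub_apply, Pi.mul_apply]
    nlinarith [mul_nonneg (mul_nonneg (hP.bar_pos ω).le (h0 ω)) (sq_nonneg (pmag W ω - e ω))]
  simp only [Pi.sub_apply, Pi.mul_apply] at h
  rw [integral_sub (i2.const_mul 2) i3, integral_const_mul, hue, hee] at h
  linarith

lemma expMom_nonneg (hf : IsPiece fl D f) (μ : ℝ) : 0 ≤ expMom f μ := by
  exact integral_nonneg fun ω => mul_nonneg (hf.pos true ω).le (Real.exp_pos _).le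

lemma expMom_pprod (hfl : MeasurePreserving fl (iidU ι) (iidU ι))
    (hf : ∀ k ∈ K, IsPiece fl (Dk k) (fk k)) (hd : (K : Set κ).PairwiseDisjoint Dk) (μ : ℝ) :
    expMom (pprod K fk) μ = ∏ k ∈ K, expMom (fk k) μ := by
  have := hfl
  rw [expMom]
  have e : ∀ ω, Real.exp (μ * pfield (pprod K fk) ω) = ∏ k ∈ K, Real.exp (μ * pfield (fk k) ω) := by
    intro ω
    rw [← Real.exp_sum]
    congr 1
    simp only [pfield, pprod, ← prod_div_distrib]
    rw [Real.log_prod (fun k hk => (div_pos ((hf k hk).pos true ω) ((hf k hk).pos false ω)).ne'),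
      Finset.sum_div, Finset.mul_sum]
  simp only [e]
  rw [integral_pprod_prod hf hd (fun k ω => Real.exp (μ * pfield (fk k) ω))
    (fun k hk => ((hf k hk).measurable_pfield.const_mul μ).exp) (fun k hk x y h => by
      simp only [pfield, (hf k hk).dep true h, (hf k hk).dep false h]) true]
  rfl

lemma expMom_ppull_le (hθ0 : 0 ≤ θ) (hθ : θ < 1) (hfl : MeasurePreserving fl (iidU ι) (iidU ι))
    (hf : IsPiece fl D f) {μ : ℝ} (hμ : 0 ≤ μ) :
    expMom (ppull θ f) μ ≤ expMom f (μ * θ) := by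
  have habs : |θ| < 1 := by rwa [abs_of_nonneg hθ0]
  have hg := isPiece_ppull habs hfl hf
  rw [expMom_eq_bar hfl hg, expMom_eq_bar hfl hf]
  refine integral_mono (hg.exists_expMom_integrable μ) (hf.exists_expMom_integrable (μ * θ)) fun ω => ?_
  have hbar : bar (ppull θ f) ω = bar f ω := by
    simp only [bar, ppull, pull, sgn, if_true, Bool.false_eq_true, if_false]; ring
  have hu : pmag (ppull θ f) ω = θ * pmag f ω := by
    have h1 := hf.pos true ω
    have h2 := hf.pos false ω
    simp only [pmag, magOf, ppull, pull, sgn, if_true, Bool.false_eq_true, if_false]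
    rw [← mul_div_assoc]
    congr 1 <;> ring
  simp only [hbar, hg.pfield_eq, hf.pfield_eq, hu]
  refine mul_le_mul_of_nonneg_left ?_ (hf.bar_pos ω).le
  set u := pmag f ω
  obtain ⟨-, -, hpos, hcon⟩ := abs_athU (hf.abs_pmag ω)
  have hle := hcon θ hθ0 hθ.le
  have hab : |μ * athU (θ * u)| ≤ |μ * θ * athU u| := by
    rw [abs_mul, abs_mul, abs_mul, abs_of_nonneg hμ, abs_of_nonneg hθ0, mul_assoc]
    exact mul_le_mul_of_nonneg_left hle hμ
  have hsame : 0 ≤ u * Real.sinh (μ * θ * athU u) := by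
    rcases le_total 0 (athU u) with h | h
    · rcases h.eq_or_lt with h0 | h0
      · simp [← h0]
      · exact mul_nonneg (le_of_mul_le_mul_right (by simpa using hpos) h0)
          (Real.sinh_nonneg_iff.2 (by positivity))
    · rcases h.eq_or_lt with h0 | h0
      · simp [h0]
      · refine mul_nonneg_of_nonpos_of_nonpos ?_ (Real.sinh_nonpos_iff.2
          (mul_nonpos_of_nonneg_of_nonpos (mul_nonneg hμ hθ0) h))
        nlinarith
  refine add_le_add ?_ ?_
  · exact Real.cosh_le_cosh.2 hab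
  · calc θ * u * Real.sinh (μ * athU (θ * u)) ≤ |θ * u * Real.sinh (μ * athU (θ * u))| := le_abs_self _
      _ ≤ |u| * |Real.sinh (μ * θ * athU u)| := by
        rw [abs_mul, abs_mul, abs_of_nonneg hθ0, Real.abs_sinh, Real.abs_sinh]
        exact mul_le_mul (mul_le_of_le_one_left (abs_nonneg u) hθ.le) (Real.sinh_le_sinh.2 hab)
          (Real.sinh_nonneg_iff.2 (abs_nonneg _)) (abs_nonneg u)
      _ = u * Real.sinh (μ * θ * athU u) := by rw [← abs_mul, abs_of_nonneg hsame]

lemma expMom_small {ρ : ℝ} (hρ : ρ < 1) :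
    ∃ C : ℝ, 0 ≤ C ∧ ∀ (ι : Type*) (fl : (ι → ℝ) → ι → ℝ) (D : Finset ι)
      (f : Bool → (ι → ℝ) → ℝ), MeasurePreserving fl (iidU ι) (iidU ι) → IsPiece fl D f →
      (∀ ω, |pmag f ω| ≤ ρ) → ∀ μ, 0 ≤ μ → μ ≤ 2 → expMom f μ ≤ Real.exp (C * μ * info f) := by
  set r := max ρ 0 with hr
  have hr1 : r < 1 := max_lt hρ one_pos
  have hr0 : 0 ≤ r := le_max_right _ _
  have h1r : 0 < 1 - r := by linarith
  refine ⟨(2 / (1 - r) ^ 2 + 1 / (1 - r)) * Real.exp (2 * r / (1 - r)), by positivity, ?_⟩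
  intro ι fl D f hfl hf hu μ hμ hμ2
  refine (expMom_le_of_small hfl hf hr1 (fun ω => (hu ω).trans (le_max_left _ _)) hμ
    (L := 2 * r / (1 - r)) ?_).trans (Real.exp_le_exp.2 ?_)
  · exact div_le_div_of_nonneg_right (mul_le_mul_of_nonneg_right hμ2 hr0) h1r.le
  · refine mul_le_mul_of_nonneg_right ?_ (info_nonneg hf)
    rw [mul_assoc _ (Real.exp _) μ, mul_comm (Real.exp _) μ, ← mul_assoc]
    refine mul_le_mul_of_nonneg_right ?_ (Real.exp_pos _).le
    rw [add_mul, div_mul_eq_mul_div, div_mul_eq_mul_div, one_mul]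
    refine add_le_add (div_le_div_of_nonneg_right ?_ (by positivity)) le_rfl
    rw [sq]; exact mul_le_mul_of_nonneg_right hμ2 hμ

/-- A single weak observation. -/
lemma expMom_weak {ρ : ℝ} (hρ : ρ < 1) :
    ∃ C : ℝ, 0 ≤ C ∧ ∀ (ι : Type*) (fl : (ι → ℝ) → ι → ℝ) (D : Finset ι)
      (f : Bool → (ι → ℝ) → ℝ), MeasurePreserving fl (iidU ι) (iidU ι) → IsPiece fl D f →
      ∀ (e μ : ℝ), (∀ ω, |pmag f ω| ≤ e) → e ≤ ρ → 0 ≤ μ →
        expMom f μ ≤ Real.exp (C * (μ ^ 2 + μ) * e ^ 2 * Real.exp (C * μ * e)) := by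
  set r := max ρ 0 with hr
  have hr1 : r < 1 := max_lt hρ one_pos
  have hr0 : 0 ≤ r := le_max_right _ _
  have h1r : 0 < 1 - r := by linarith
  set C : ℝ := 1 / (1 - r) ^ 2 + 1 / (1 - r) with hC
  have hk1 : 1 / (1 - r) ^ 2 ≤ C := le_add_of_nonneg_right (by positivity)
  have hk2 : 1 / (1 - r) ≤ C := le_add_of_nonneg_left (by positivity)
  refine ⟨C, by positivity, ?_⟩
  intro ι fl D f hfl hf e μ hu heρ hμ
  have he0 : 0 ≤ e := (abs_nonneg _).trans (hu fun _ => 0)
  have her : e ≤ r := heρ.trans (le_max_left _ _)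
  have h1e : 1 - r ≤ 1 - e := by linarith
  refine (expMom_le_of_small hfl hf (lt_of_le_of_lt her hr1) hu hμ (L := C * μ * e) ?_).trans
    (Real.exp_le_exp.2 ?_)
  · calc μ * e / (1 - e) ≤ μ * e / (1 - r) :=
          div_le_div_of_nonneg_left (mul_nonneg hμ he0) h1r h1e
      _ = 1 / (1 - r) * (μ * e) := by ring
      _ ≤ C * (μ * e) := mul_le_mul_of_nonneg_right hk2 (mul_nonneg hμ he0)
      _ = _ := by ring
  · have hI : info f ≤ e ^ 2 := by
      refine (integral_mono (hf.integrable_bar_mul (hf.measurable_pmag.pow_const 2) (C := 1) fun ω => by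
        rw [abs_pow]; exact pow_le_one₀ (abs_nonneg _) (hf.abs_pmag ω).le)
        (hf.integrable_bar_mul (e := fun _ => e ^ 2) measurable_const (C := e ^ 2)
          fun _ => by rw [abs_of_nonneg (sq_nonneg e)]) fun ω => ?_).trans_eq ?_
      · refine mul_le_mul_of_nonneg_left ?_ (hf.bar_pos ω).le
        rw [← sq_abs]; exact pow_le_pow_left₀ (abs_nonneg _) (hu ω) 2
      · rw [integral_mul_const, hf.integral_bar hfl, one_mul]
    have t1 : μ ^ 2 / (1 - e) ^ 2 ≤ C * μ ^ 2 := by
      refine (div_le_div_of_nonneg_left (sq_nonneg μ) (pow_pos h1r 2)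
        (pow_le_pow_left₀ h1r.le h1e 2)).trans ?_
      rw [← one_div_mul_eq_div]
      exact mul_le_mul_of_nonneg_right hk1 (sq_nonneg μ)
    have t2 : μ / (1 - e) ≤ C * μ := by
      refine (div_le_div_of_nonneg_left hμ h1r h1e).trans ?_
      rw [← one_div_mul_eq_div]
      exact mul_le_mul_of_nonneg_right hk2 hμ
    calc (μ ^ 2 / (1 - e) ^ 2 + μ / (1 - e)) * Real.exp (C * μ * e) * info f
        ≤ (C * (μ ^ 2 + μ)) * Real.exp (C * μ * e) * e ^ 2 := by
          refine mul_le_mul (mul_le_mul_of_nonneg_right (by linarith) (Real.exp_pos _).le) hI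
            (info_nonneg hf) (by positivity)
      _ = _ := by ring

lemma moment_le_expMom (hfl : MeasurePreserving fl (iidU ι) (iidU ι)) (hf : IsPiece fl D f)
    {μ : ℝ} (hμ : 0 < μ) (q : ℕ) :
    ∫ ω, bar f ω * pmag f ω ^ (2 * q) ∂iidU ι ≤
      2 * ((2 * q).factorial : ℝ) / μ ^ (2 * q) * expMom f μ := by
  set A : ℝ := 2 * ((2 * q).factorial : ℝ) / μ ^ (2 * q) with hA
  have hA0 : 0 ≤ A := by positivity
  rw [expMom_eq_bar hfl hf, ← integral_const_mul]
  refine integral_mono (hf.integrable_bar_mul (hf.measurable_pmag.pow_const _) (C := 1) fun ω => by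
    rw [abs_pow]; exact pow_le_one₀ (abs_nonneg _) (hf.abs_pmag ω).le)
    ((hf.exists_expMom_integrable μ).const_mul A) fun ω => ?_
  show bar f ω * pmag f ω ^ (2 * q) ≤ _
  rw [mul_left_comm A]
  refine mul_le_mul_of_nonneg_left ?_ (hf.bar_pos ω).le
  set u := pmag f ω
  obtain ⟨hle, -, hpos, -⟩ := abs_athU (hf.abs_pmag ω)
  rw [hf.pfield_eq]
  set a := μ * athU u with ha
  have h1 : μ ^ (2 * q) * u ^ (2 * q) ≤ |a| ^ (2 * q) := by
    rw [← mul_pow, ← (even_two_mul q).pow_abs (μ * u)]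
    refine pow_le_pow_left₀ (abs_nonneg _) ?_ _
    rw [ha, abs_mul, abs_mul]
    exact mul_le_mul_of_nonneg_left hle (abs_nonneg μ)
  have h2 := Real.pow_div_factorial_le_exp |a| (abs_nonneg a) (2 * q)
  rw [div_le_iff₀ (by exact_mod_cast (2 * q).factorial_pos)] at h2
  have h3 := (cosh_le_exp_abs a).2
  have hsame : 0 ≤ u * Real.sinh a := by
    rcases lt_trichotomy u 0 with h | h | h
    · exact mul_nonneg_of_nonpos_of_nonpos h.le (Real.sinh_nonpos_iff.2
        (mul_nonpos_of_nonneg_of_nonpos hμ.le (by nlinarith)))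
    · simp [h]
    · exact mul_nonneg h.le (Real.sinh_nonneg_iff.2 (mul_nonneg hμ.le (by nlinarith)))
  have hfac : (0 : ℝ) ≤ ((2 * q).factorial : ℝ) := Nat.cast_nonneg _
  rw [hA, div_mul_eq_mul_div, le_div_iff₀ (pow_pos hμ _)]
  nlinarith [mul_le_mul_of_nonneg_left h3 hfac, mul_nonneg hfac hsame]

end Vale.Agent.P161.Crit
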