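import Vale.Agent.P161.Crit.StateMoments
import Mathlib.Algebra.Order.Chebyshev

/-!
# P161, critical point: pointwise comparison of two runs
-/

open MeasureTheory SimpleGraph Finset

namespace Vale.Agent.P161.Crit

variable {V : Type*} {G : SimpleGraph V} {d : ℕ}

/-- The squared distance of the magnetisations of two runs at `v`. -/
noncomputable def dsq (G : SimpleGraph V) (P Q : Run V) (t : ℝ) (v : V)
    (ω : V × (ℤ × Bool) → ℝ) : ℝ :=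
  (P.m G ω t v - Q.m G ω t v) ^ 2

/-- The density of the drift of the squared distance at `o` coming from the slots at `b`. -/
noncomputable def phi (G : SimpleGraph V) (P Q : Run V) (t : ℝ) (o b : V)
    (ω : V × (ℤ × Bool) → ℝ) : ℝ :=
  2 * (cov G P.θ P.B (P.st G ω t) b o - cov G Q.θ Q.B (Q.st G ω t) b o) ^ 2 +
    8 * cov G Q.θ Q.B (Q.st G ω t) b o ^ 2 * dsq G P Q t b ω

/-- The product of the damping factors along a geodesic in the state of a run. -/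
noncomputable def Run.pth (P : Run V) (G : SimpleGraph V) (t : ℝ) (w : ℕ → V) (l : ℕ)
    (ω : V × (ℤ × Bool) → ℝ) : ℝ :=
  pthW G P.θ P.B (P.st G ω t) w l

/-- The difference of the damping exponents of two runs on one directed edge. -/
noncomputable def dlr (G : SimpleGraph V) (P Q : Run V) (t : ℝ) (p c : V)
    (ω : V × (ℤ × Bool) → ℝ) : ℝ :=
  lr P.θ (P.U G t p c ω) - lr Q.θ (Q.U G t p c ω)

lemma Run.Ok.abs_m_le {P : Run V} (hP : P.Ok G) (ω : V × (ℤ × Bool) → ℝ) (t : ℝ) (v : V) :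
    |P.m G ω t v| ≤ 1 := hP.abs_U t v v ω

lemma dsq_le_four {P Q : Run V} (hP : P.Ok G) (hQ : Q.Ok G) (t : ℝ) (v : V)
    (ω : V × (ℤ × Bool) → ℝ) : dsq G P Q t v ω ≤ 4 := by
  rw [dsq, ← sq_abs]
  calc |P.m G ω t v - Q.m G ω t v| ^ 2 ≤ (1 + 1) ^ 2 :=
        pow_le_pow_left₀ (abs_nonneg _)
          ((abs_sub _ _).trans (add_le_add (hP.abs_m_le ω t v) (hQ.abs_m_le ω t v))) 2
    _ = 4 := by norm_num

/-- A uniform bound on the sides of the runs with levels below `J`. -/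
theorem abs_U_le (d J : ℕ) : ∃ r : ℝ, 0 ≤ r ∧ r < 1 ∧ ∀ {V : Type*} {G : SimpleGraph V},
    Reg G d → ∀ P : Run V, P.Ok G → P.θ ^ 2 * ((d : ℝ) - 1) ≤ 1 → (∀ s ∈ P.A, s.2 < (J : ℤ)) →
      ∀ (t : ℝ) (p c : V) (ω : V × (ℤ × Bool) → ℝ), |P.U G t p c ω| ≤ r := by
  obtain ⟨r, h0, h1, h⟩ := abs_cav_wts d J
  refine ⟨r, h0, h1, fun {V G} hR P hP hθ hA t p c ω => ?_⟩
  exact h hR P.θ hP.nonneg hθ P.B _ (fun s hs => hA s (live_subset _ _ _ hs)) _ p c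

/-- The two runs compared: both subcritical or critical, levels below `J`. -/
structure PairOk (G : SimpleGraph V) (d J : ℕ) (P Q : Run V) : Prop where
  reg : Reg G d
  fst : P.Ok G
  snd : Q.Ok G
  fst_le : P.θ ^ 2 * ((d : ℝ) - 1) ≤ 1
  snd_le : Q.θ ^ 2 * ((d : ℝ) - 1) ≤ 1
  fst_lev : ∀ s ∈ P.A, s.2 < (J : ℤ)
  snd_lev : ∀ s ∈ Q.A, s.2 < (J : ℤ)

variable {J : ℕ} {P Q : Run V}

/-- The sides of two runs differ by at most the magnetisations at the two ends. -/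
lemma abs_U_sub (h : PairOk G d J P Q) {p c : V} (hpc : G.Adj p c) (hp : p ∈ P.B) (hc : c ∈ P.B)
    (hp' : p ∈ Q.B) (hc' : c ∈ Q.B) (t : ℝ) (ω : V × (ℤ × Bool) → ℝ) :
    |P.U G t p c ω - Q.U G t p c ω| ≤
      64 * (|P.m G ω t c - Q.m G ω t c| + |P.m G ω t p - Q.m G ω t p| + 16 * |P.θ - Q.θ|) := by
  have e1 := theta_le h.reg h.fst_le
  have e2 := theta_le h.reg h.snd_le
  have a1 := mag_affine (a := P.st G ω t) h.fst.tree h.fst.abs_lt (P.st_pos ω t) hc hp hpc.symm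
  have a2 := mag_affine (a := Q.st G ω t) h.snd.tree h.snd.abs_lt (Q.st_pos ω t) hc' hp' hpc.symm
  have := abs_side_sub₂ h.fst.nonneg h.fst.lt_one h.snd.nonneg h.snd.lt_one
    (h.fst.abs_U t p c ω) (h.snd.abs_U t p c ω) (h.fst.abs_m_le ω t p) (h.snd.abs_m_le ω t p)
  simp only [Run.U, Run.m] at this a1 a2 ⊢
  rw [← a1, ← a2] at this
  have h3 : (1 / 4 : ℝ) ^ 3 ≤ (1 - P.θ) ^ 3 := pow_le_pow_left₀ (by norm_num) (by linarith) 3
  have h4 : 4 * |P.θ - Q.θ| / (1 - Q.θ) ≤ 16 * |P.θ - Q.θ| := by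
    rw [div_le_iff₀ (by linarith)]
    nlinarith [abs_nonneg (P.θ - Q.θ)]
  have h5 := mul_le_mul_of_nonneg_right h3
    (abs_nonneg (cav G P.θ P.B (P.st G ω t) p c - cav G Q.θ Q.B (Q.st G ω t) p c))
  linarith

/-- The exponents of two runs differ at second order in the magnetisations. -/
lemma abs_dlr_le {r : ℝ} (hr1 : r < 1) (h : PairOk G d J P Q) {p c : V} (hpc : G.Adj p c)
    (hp : p ∈ P.B) (hc : c ∈ P.B) (hp' : p ∈ Q.B) (hc' : c ∈ Q.B) (t : ℝ)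
    (ω : V × (ℤ × Bool) → ℝ) (hu : |P.U G t p c ω| ≤ r) (hu' : |Q.U G t p c ω| ≤ r) :
    |dlr G P Q t p c ω| ≤ 2 / (1 - r ^ 2) * 2049 *
      ((|P.U G t p c ω| + |Q.U G t p c ω|) *
          (|P.m G ω t c - Q.m G ω t c| + |P.m G ω t p - Q.m G ω t p|) + |P.θ - Q.θ|) := by
  have hr0 : 0 ≤ r := (abs_nonneg _).trans hu
  have hc0 : 0 < 1 - r ^ 2 := by nlinarith
  have h1 := abs_U_sub h hpc hp hc hp' hc' t ω
  have := abs_lr_sub hr1 h.fst.nonneg h.fst.lt_one.le h.snd.nonneg h.snd.lt_one.le hu hu'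
  refine this.trans ?_
  rw [mul_assoc (2 / (1 - r ^ 2))]
  refine mul_le_mul_of_nonneg_left ?_ (by positivity)
  set A := |P.U G t p c ω| + |Q.U G t p c ω| with hA
  have hA0 : 0 ≤ A := by positivity
  have hA2 : A ≤ 2 := by linarith
  have h2 := mul_le_mul_of_nonneg_left h1 hA0
  have h6 := mul_le_mul_of_nonneg_right hA2 (abs_nonneg (P.θ - Q.θ))
  nlinarith [mul_nonneg hA0 (add_nonneg (abs_nonneg (P.m G ω t c - Q.m G ω t c))
    (abs_nonneg (P.m G ω t p - Q.m G ω t p)))]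

lemma pth_mem_unit (hP : P.Ok G) (t : ℝ) (w : ℕ → V) (l : ℕ) (ω : V × (ℤ × Bool) → ℝ) :
    0 ≤ P.pth G t w l ω ∧ P.pth G t w l ω ≤ 1 :=
  pthW_mem_unit hP.abs_lt (P.st_pos ω t) w l

lemma pth_eq_exp (hP : P.Ok G) (t : ℝ) (w : ℕ → V) (l : ℕ) (ω : V × (ℤ × Bool) → ℝ) :
    P.pth G t w l ω = Real.exp (-∑ i ∈ range l, lr P.θ (P.U G t (w i) (w (i + 1)) ω)) :=
  pthW_eq_exp hP.abs_lt (P.st_pos ω t) w l

lemma abs_pth_sub (hP : P.Ok G) (hQ : Q.Ok G) (t : ℝ) (w : ℕ → V) (l : ℕ)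
    (ω : V × (ℤ × Bool) → ℝ) :
    |P.pth G t w l ω - Q.pth G t w l ω| ≤ |∑ i ∈ range l, dlr G P Q t (w i) (w (i + 1)) ω| := by
  rw [pth_eq_exp hP, pth_eq_exp hQ]
  refine (abs_exp_neg_sub_of_nonneg ?_ ?_).trans (le_of_eq ?_)
  · exact sum_nonneg fun i _ => lr_nonneg hP.abs_lt (abs_cav hP.abs_lt.le (P.st_pos ω t) _ _)
  · exact sum_nonneg fun i _ => lr_nonneg hQ.abs_lt (abs_cav hQ.abs_lt.le (Q.st_pos ω t) _ _)
  · rw [← sum_sub_distrib]; rfl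

lemma sq_pth_sub (hP : P.Ok G) (hQ : Q.Ok G) (t : ℝ) (w : ℕ → V) (l : ℕ)
    (ω : V × (ℤ × Bool) → ℝ) :
    (P.pth G t w l ω - Q.pth G t w l ω) ^ 2 ≤
      2 * l * ((P.pth G t w l ω + Q.pth G t w l ω) *
        ∑ i ∈ range l, dlr G P Q t (w i) (w (i + 1)) ω ^ 2) := by
  have h0 := pth_mem_unit hP t w l ω
  have h1 := pth_mem_unit hQ t w l ω
  have key : |P.pth G t w l ω - Q.pth G t w l ω| ≤
      (P.pth G t w l ω + Q.pth G t w l ω) * |∑ i ∈ range l, dlr G P Q t (w i) (w (i + 1)) ω| := by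
    rw [pth_eq_exp hP, pth_eq_exp hQ]
    refine abs_exp_neg_sub.trans (le_of_eq ?_)
    rw [← sum_sub_distrib]; rfl
  have hs : (∑ i ∈ range l, dlr G P Q t (w i) (w (i + 1)) ω) ^ 2 ≤
      l * ∑ i ∈ range l, dlr G P Q t (w i) (w (i + 1)) ω ^ 2 := by
    have := sq_sum_le_card_mul_sum_sq (s := range l)
      (f := fun i => dlr G P Q t (w i) (w (i + 1)) ω)
    simpa using this
  set S := ∑ i ∈ range l, dlr G P Q t (w i) (w (i + 1)) ω
  set A := P.pth G t w l ω + Q.pth G t w l ω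
  have hA : 0 ≤ A := by linarith [h0.1, h1.1]
  calc (P.pth G t w l ω - Q.pth G t w l ω) ^ 2 ≤ (A * |S|) ^ 2 := by
        rw [← sq_abs (P.pth G t w l ω - Q.pth G t w l ω)]
        exact pow_le_pow_left₀ (abs_nonneg _) key 2
    _ = A * A * S ^ 2 := by rw [mul_pow, sq_abs]; ring
    _ ≤ 2 * A * (l * ∑ i ∈ range l, dlr G P Q t (w i) (w (i + 1)) ω ^ 2) := by
        refine mul_le_mul (mul_le_mul_of_nonneg_right ?_ hA) hs (sq_nonneg _) (by positivity)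
        linarith [h0.2, h1.2]
    _ = _ := by ring

lemma cov_at (hP : P.Ok G) (hθ : 0 < P.θ) {o b : V} (ho : o ∈ P.B) (hb : b ∈ P.B) (t : ℝ)
    (ω : V × (ℤ × Bool) → ℝ) :
    cov G P.θ P.B (P.st G ω t) b o = (1 - P.m G ω t o ^ 2) *
      (P.θ ^ G.dist o b * P.pth G t (geo G o b) (G.dist o b) ω) := by
  rw [cov_symm hP.tree hP.abs_lt hθ.ne' (P.st_pos ω t) hP.conn ho hb]
  rfl

lemma pow_sq_le (hR : Reg G d) {θ : ℝ} (h : θ ^ 2 * ((d : ℝ) - 1) ≤ 1) (l : ℕ) :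
    (θ ^ l) ^ 2 ≤ (1 / ((d : ℝ) - 1)) ^ l := by
  rw [← pow_mul, mul_comm l 2, pow_mul]
  refine pow_le_pow_left₀ (sq_nonneg _) ?_ l
  rw [le_div_iff₀ (by linarith [hR.two_le])]
  exact h

lemma pow_sub_sq_le (hR : Reg G d) {θ θ' : ℝ} (h0 : 0 ≤ θ) (h0' : 0 ≤ θ')
    (h : θ ^ 2 * ((d : ℝ) - 1) ≤ 1) (h' : θ' ^ 2 * ((d : ℝ) - 1) ≤ 1) (l : ℕ) :
    (θ ^ l - θ' ^ l) ^ 2 ≤
      (l : ℝ) ^ 2 * ((d : ℝ) - 1) * (1 / ((d : ℝ) - 1)) ^ l * (θ - θ') ^ 2 := by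
  have hb := hR.two_le
  rcases Nat.eq_zero_or_pos l with rfl | hl
  · simp
  set M := max θ θ' with hM
  have hM0 : 0 ≤ M := h0.trans (le_max_left _ _)
  have hM2 : M ^ 2 * ((d : ℝ) - 1) ≤ 1 := by
    rcases max_choice θ θ' with e | e <;> rw [hM, e] <;> assumption
  have e : |θ ^ l - θ' ^ l| ≤ l * M ^ (l - 1) * |θ - θ'| := by
    have := abs_pow_sub_pow_le (a := θ) (b := θ') (n := l)
    rw [abs_of_nonneg h0, abs_of_nonneg h0', ← hM] at this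
    refine this.trans (le_of_eq ?_)
    ring
  rw [← sq_abs]
  refine (pow_le_pow_left₀ (abs_nonneg _) e 2).trans ?_
  rw [mul_pow, mul_pow, sq_abs]
  refine le_trans (mul_le_mul_of_nonneg_right (mul_le_mul_of_nonneg_left
    (pow_sq_le hR hM2 (l - 1)) (sq_nonneg (l : ℝ))) (sq_nonneg (θ - θ'))) (le_of_eq ?_)
  obtain ⟨k, rfl⟩ : ∃ k, l = k + 1 := ⟨l - 1, by omega⟩
  rw [Nat.add_sub_cancel, pow_succ (1 / ((d : ℝ) - 1))]
  have hd : ((d : ℝ) - 1) ≠ 0 := by linarith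
  field_simp

/-- The algebra behind the pointwise bound. -/
lemma phi_alg {m1 m2 x y A B W δ β L : ℝ} (hβ : 0 ≤ β) (hA : 0 ≤ A ∧ A ≤ 1) (hB : 0 ≤ B ∧ B ≤ 1)
    (hW : (m2 ^ 2 - m1 ^ 2) ^ 2 ≤ W) (hm : m2 ^ 2 ≤ 1) (hδ : 0 ≤ δ) (hx : x ^ 2 ≤ β)
    (hy : y ^ 2 ≤ β) (hL : (x - y) ^ 2 ≤ β * L) :
    2 * ((1 - m1 ^ 2) * (x * A) - (1 - m2 ^ 2) * (y * B)) ^ 2 +
        8 * ((1 - m2 ^ 2) * (y * B)) ^ 2 * δ ≤
      8 * β * (W * A + L + (A - B) ^ 2 + B * δ) := by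
  have hD : (1 - m2 ^ 2) ^ 2 ≤ 1 := by nlinarith only [sq_nonneg m2, hm]
  have hA2 : A ^ 2 ≤ A := by nlinarith only [hA.1, hA.2]
  have hB2 : B ^ 2 ≤ B := by nlinarith only [hB.1, hB.2]
  have hA3 : A ^ 2 ≤ 1 := hA2.trans hA.2
  have t1 : ((m2 ^ 2 - m1 ^ 2) * (x * A)) ^ 2 ≤ W * (β * A) := by
    rw [mul_pow, mul_pow]
    exact mul_le_mul hW (mul_le_mul hx hA2 (sq_nonneg _) hβ) (by positivity)
      ((sq_nonneg _).trans hW)
  have t2 : ((1 - m2 ^ 2) * ((x - y) * A)) ^ 2 ≤ β * L := by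
    rw [mul_pow, mul_pow]
    have h2 : (x - y) ^ 2 * A ^ 2 ≤ β * L * 1 :=
      mul_le_mul hL hA3 (sq_nonneg _) ((sq_nonneg _).trans hL)
    have h3 := mul_le_mul hD h2 (by positivity) zero_le_one
    linarith only [h3]
  have t3 : ((1 - m2 ^ 2) * (y * (A - B))) ^ 2 ≤ β * (A - B) ^ 2 := by
    rw [mul_pow, mul_pow]
    have h3 := mul_le_mul hD (mul_le_mul_of_nonneg_right hy (sq_nonneg (A - B))) (by positivity)
      zero_le_one
    linarith only [h3]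
  have t4 : ((1 - m2 ^ 2) * (y * B)) ^ 2 * δ ≤ β * B * δ := by
    refine mul_le_mul_of_nonneg_right ?_ hδ
    rw [mul_pow, mul_pow]
    have h3 := mul_le_mul hD (mul_le_mul hy hB2 (sq_nonneg _) hβ) (by positivity) zero_le_one
    linarith only [h3]
  have key : ∀ a b c : ℝ, (a + b + c) ^ 2 ≤ 3 * (a ^ 2 + b ^ 2 + c ^ 2) := fun a b c => by
    nlinarith only [sq_nonneg (a - b), sq_nonneg (a - c), sq_nonneg (b - c)]
  have k := key ((m2 ^ 2 - m1 ^ 2) * (x * A)) ((1 - m2 ^ 2) * ((x - y) * A))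
    ((1 - m2 ^ 2) * (y * (A - B)))
  rw [show (m2 ^ 2 - m1 ^ 2) * (x * A) + (1 - m2 ^ 2) * ((x - y) * A) +
    (1 - m2 ^ 2) * (y * (A - B)) = (1 - m1 ^ 2) * (x * A) - (1 - m2 ^ 2) * (y * B) by ring] at k
  have n1 : 0 ≤ W * (β * A) := (sq_nonneg _).trans t1
  have n2 : 0 ≤ β * L := (sq_nonneg _).trans t2
  have n3 : 0 ≤ β * (A - B) ^ 2 := (sq_nonneg _).trans t3
  linarith only [k, t1, t2, t3, t4, n1, n2, n3]

/-- The pointwise bound on the drift density. -/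
lemma phi_le (h : PairOk G d J P Q) (hθ : 0 < P.θ) (hθ' : 0 < Q.θ) {o b : V} (ho : o ∈ P.B)
    (hb : b ∈ P.B) (ho' : o ∈ Q.B) (hb' : b ∈ Q.B) (t : ℝ) (ω : V × (ℤ × Bool) → ℝ) :
    phi G P Q t o b ω ≤ 8 * (1 / ((d : ℝ) - 1)) ^ G.dist o b *
      ((|P.m G ω t o| + |Q.m G ω t o|) ^ 2 * dsq G P Q t o ω *
          P.pth G t (geo G o b) (G.dist o b) ω +
        (G.dist o b : ℝ) ^ 2 * ((d : ℝ) - 1) * (P.θ - Q.θ) ^ 2 +
        (P.pth G t (geo G o b) (G.dist o b) ω - Q.pth G t (geo G o b) (G.dist o b) ω) ^ 2 +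
        Q.pth G t (geo G o b) (G.dist o b) ω * dsq G P Q t b ω) := by
  have hb0 := h.reg.two_le
  have dd : (Q.m G ω t o ^ 2 - P.m G ω t o ^ 2) ^ 2 ≤
      (|P.m G ω t o| + |Q.m G ω t o|) ^ 2 * dsq G P Q t o ω := by
    rw [dsq, show (Q.m G ω t o ^ 2 - P.m G ω t o ^ 2) ^ 2 =
      (P.m G ω t o + Q.m G ω t o) ^ 2 * (P.m G ω t o - Q.m G ω t o) ^ 2 by ring]
    refine mul_le_mul_of_nonneg_right ?_ (sq_nonneg _)
    rw [← sq_abs (P.m G ω t o + _)]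
    exact pow_le_pow_left₀ (abs_nonneg _) (abs_add_le _ _) 2
  rw [phi, cov_at h.fst hθ ho hb, cov_at h.snd hθ' ho' hb']
  refine phi_alg (pow_nonneg (by positivity) _) (pth_mem_unit h.fst t _ _ ω)
    (pth_mem_unit h.snd t _ _ ω) dd
    ((sq_le_one_iff_abs_le_one _).2 (h.snd.abs_m_le ω t o)) (sq_nonneg _)
    (pow_sq_le h.reg h.fst_le _) (pow_sq_le h.reg h.snd_le _)
    ((pow_sub_sq_le h.reg h.fst.nonneg h.snd.nonneg h.fst_le h.snd_le _).trans (le_of_eq ?_))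
  ring

/-- The crude bound on the drift density, for remote slots. -/
lemma phi_le_far (h : PairOk G d J P Q) (hθ : 0 < P.θ) (hθ' : 0 < Q.θ) {o b : V} (ho : o ∈ P.B)
    (hb : b ∈ P.B) (ho' : o ∈ Q.B) (hb' : b ∈ Q.B) (t : ℝ) (ω : V × (ℤ × Bool) → ℝ) :
    phi G P Q t o b ω ≤ 40 * (1 / ((d : ℝ) - 1)) ^ G.dist o b *
      (P.pth G t (geo G o b) (G.dist o b) ω + Q.pth G t (geo G o b) (G.dist o b) ω) := by
  set l := G.dist o b with hl
  obtain ⟨p0, p1⟩ := pth_mem_unit h.fst t (geo G o b) l ω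
  obtain ⟨q0, q1⟩ := pth_mem_unit h.snd t (geo G o b) l ω
  have hβ0 : 0 ≤ (1 / ((d : ℝ) - 1)) ^ l := by have := h.reg.two_le; positivity
  have key : ∀ (R : Run V), R.Ok G → 0 < R.θ → R.θ ^ 2 * ((d : ℝ) - 1) ≤ 1 → o ∈ R.B → b ∈ R.B →
      cov G R.θ R.B (R.st G ω t) b o ^ 2 ≤
        (1 / ((d : ℝ) - 1)) ^ l * R.pth G t (geo G o b) l ω := by
    intro R hR hθR hle ho hb
    rw [cov_at hR hθR ho hb, mul_pow, mul_pow, ← hl]
    obtain ⟨r0, r1⟩ := pth_mem_unit hR t (geo G o b) l ω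
    have hm : R.m G ω t o ^ 2 ≤ 1 := (sq_le_one_iff_abs_le_one _).2 (hR.abs_m_le ω t o)
    calc (1 - R.m G ω t o ^ 2) ^ 2 * ((R.θ ^ l) ^ 2 * R.pth G t (geo G o b) l ω ^ 2)
        ≤ 1 * ((1 / ((d : ℝ) - 1)) ^ l * R.pth G t (geo G o b) l ω) := by
          gcongr
          · nlinarith [sq_nonneg (R.m G ω t o)]
          · exact pow_sq_le h.reg hle l
          · nlinarith
      _ = _ := one_mul _
  have k1 := key P h.fst hθ h.fst_le ho hb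
  have k2 := key Q h.snd hθ' h.snd_le ho' hb'
  have h4 := dsq_le_four h.fst h.snd t b ω
  rw [phi]
  nlinarith [sq_nonneg (cov G P.θ P.B (P.st G ω t) b o + cov G Q.θ Q.B (Q.st G ω t) b o),
    mul_le_mul_of_nonneg_left h4 (sq_nonneg (cov G Q.θ Q.B (Q.st G ω t) b o))]

lemma measurable_pth (hP : P.Ok G) (t : ℝ) (w : ℕ → V) (l : ℕ) :
    Measurable (P.pth G t w l) :=
  measurable_pthW (measurable_st_at hP t) P.θ P.B w l

lemma measurable_m_at (hP : P.Ok G) (t : ℝ) (v : V) : Measurable fun ω => P.m G ω t v :=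
  hP.measurable_U t v v

lemma measurable_dsq (hP : P.Ok G) (hQ : Q.Ok G) (t : ℝ) (v : V) : Measurable (dsq G P Q t v) :=
  ((measurable_m_at hP t v).sub (measurable_m_at hQ t v)).pow_const 2

lemma measurable_cov (hP : P.Ok G) (t : ℝ) (b o : V) :
    Measurable fun ω => cov G P.θ P.B (P.st G ω t) b o := by
  unfold cov
  exact (measurable_const.sub ((measurable_magW (measurable_st_at hP t) P.θ P.B b).pow_const 2)).mul
    (measurable_const.mul (measurable_pthW (measurable_st_at hP t) P.θ P.B _ _))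

lemma measurable_phi (hP : P.Ok G) (hQ : Q.Ok G) (t : ℝ) (o b : V) :
    Measurable (phi G P Q t o b) :=
  ((((measurable_cov hP t b o).sub (measurable_cov hQ t b o)).pow_const 2).const_mul 2).add
    ((((measurable_cov hQ t b o).pow_const 2).const_mul 8).mul (measurable_dsq hP hQ t b))

lemma measurable_dlr (hP : P.Ok G) (hQ : Q.Ok G) (t : ℝ) (p c : V) :
    Measurable (dlr G P Q t p c) :=
  (measurable_lr (hP.measurable_U t p c) P.θ).sub (measurable_lr (hQ.measurable_U t p c) Q.θ)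

lemma phi_nonneg (t : ℝ) (o b : V) (ω : V × (ℤ × Bool) → ℝ) : 0 ≤ phi G P Q t o b ω :=
  add_nonneg (mul_nonneg (by norm_num) (sq_nonneg _))
    (mul_nonneg (mul_nonneg (by norm_num) (sq_nonneg _)) (sq_nonneg _))

lemma phi_le_bound (hP : P.Ok G) (hQ : Q.Ok G) (t : ℝ) (o b : V) (ω : V × (ℤ × Bool) → ℝ) :
    phi G P Q t o b ω ≤ 34 := by
  obtain ⟨a0, a1⟩ := cov_mem_unit (G := G) (B := P.B) hP.nonneg hP.lt_one (P.st_pos ω t) b o
  obtain ⟨b0, b1⟩ := cov_mem_unit (G := G) (B := Q.B) hQ.nonneg hQ.lt_one (Q.st_pos ω t) b o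
  have a2 := a1.trans (pow_le_one₀ hP.nonneg hP.lt_one.le)
  have b2 := b1.trans (pow_le_one₀ hQ.nonneg hQ.lt_one.le)
  have h4 := dsq_le_four hP hQ t b ω
  have h0 : 0 ≤ dsq G P Q t b ω := sq_nonneg _
  rw [phi]
  nlinarith [mul_le_mul (pow_le_one₀ (n := 2) b0 b2) h4 h0 zero_le_one]

end Vale.Agent.P161.Crit
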