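import Vale.Agent.P161.Crit.StaticInfo

/-!
# P161, critical point: moments at a fixed time
-/

open MeasureTheory SimpleGraph Finset

namespace Vale.Agent.P161.Crit

variable {V : Type*} {G : SimpleGraph V} {θ : ℝ}

lemma damp_neg (θ x : ℝ) : damp θ (-x) = damp θ x := by simp [damp]

lemma Rw_not_obs (d : ℕ) (B : Finset V) (W : V → Bool → ℝ) : ∀ h p c,
    Rw G d θ B (fun v σ => W v (!σ)) h p c = Rw G d θ B W h p c := by
  intro h
  induction h with
  | zero => intro p c; simp only [Rw, cav_not, damp_neg]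
  | succ h ih => intro p c; simp only [Rw, cav_not, damp_neg, ih]

lemma Rw_congr_far (hT : G.IsTree) (d : ℕ) {B : Finset V} {W W' : V → Bool → ℝ} : ∀ h p c, c ∈ B →
    G.Adj p c → (∀ x ∈ far G B p c, W x = W' x) → Rw G d θ B W h p c = Rw G d θ B W' h p c := by
  intro h
  induction h with
  | zero => intro p c hc hpc hW; simp only [Rw, cav_congr hT hc hpc hW]
  | succ h ih =>
    intro p c hc hpc hW
    simp only [Rw, cav_congr hT hc hpc hW]
    congr 2
    refine sum_congr rfl fun g hg => ih c g (mem_kid.1 hg).1 (mem_kid.1 hg).2.1 fun x hx => hW x ?_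
    exact ((far_subset hT hg (Or.inr hpc) hc).2 hpc.ne).subset hx

lemma measurable_Rw_obs {α : Type*} [MeasurableSpace α] {W : α → V → Bool → ℝ}
    (hW : ∀ v σ, Measurable fun w => W w v σ) (d : ℕ) (θ : ℝ) (B : Finset V) :
    ∀ h p c, Measurable fun w => Rw G d θ B (W w) h p c := by
  have hd : ∀ p c, Measurable fun w => damp θ (cav G θ B (W w) p c) := fun p c =>
    (measurable_const.sub ((measurable_cav hW θ B p c).pow_const 2)).div
      (measurable_const.sub (((measurable_cav hW θ B p c).pow_const 2).const_mul _))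
  intro h
  induction h with
  | zero => exact hd
  | succ h ih =>
    intro p c
    exact (hd p c).mul ((Finset.measurable_fun_sum _ fun g _ => ih c g).const_mul _)

/-- The damping statistic of a side, as a statistic of the labels. -/
noncomputable def rst (P : Run V) (G : SimpleGraph V) (d : ℕ) (t : ℝ) (h : ℕ) (p c : V)
    (ω : V × (ℤ × Bool) → ℝ) : ℝ :=
  Rw G d P.θ P.B (P.obs ω t) h p c

lemma rst_props {d : ℕ} (hR : Reg G d) {P : Run V} (hP : P.Ok G) (t : ℝ) (h : ℕ) {p c : V}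
    (hc : c ∈ P.B) (hpc : G.Adj p c) :
    Measurable (rst P G d t h p c) ∧ (∀ ω, 0 ≤ rst P G d t h p c ω ∧ rst P G d t h p c ω ≤ 1) ∧
      DependsOn (rst P G d t h p c) (P.supp G p c : Set (V × (ℤ × Bool))) ∧
      ∀ ω, rst P G d t h p c (flipZ ω) = rst P G d t h p c ω := by
  classical
  refine ⟨measurable_Rw_obs (measurable_obs_coord P t) d P.θ P.B h p c, fun ω =>
    ⟨Rw_nonneg hR hP.abs_lt (P.obs_pos ω t) h p c, Rw_le_one hR hP.abs_lt (P.obs_pos ω t) hpc h⟩,
    fun x y hxy => ?_, fun ω => ?_⟩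
  · refine Rw_congr_far hP.tree d h p c hc hpc fun v hv => funext fun σ => ?_
    rw [obs_eq_prod, obs_eq_prod]
    refine prod_congr rfl fun s hs => dependsOn_slotPiece t s σ fun i hi => hxy i ?_
    obtain ⟨hA, rfl⟩ := mem_filter.1 hs
    simp only [slotD, coe_insert, coe_singleton, Set.mem_insert_iff, Set.mem_singleton_iff] at hi
    rw [← side_of_adj hpc] at hv
    rcases hi with rfl | rfl <;> exact Finset.mem_coe.2 (mem_supp.2 ⟨hA, hv⟩)
  · simp only [rst]
    rw [obs_flip, Rw_not_obs]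

lemma kid_full {d : ℕ} (hR : Reg G d) {P : Run V} {p c : V} (hpc : G.Adj p c)
    (h : ∀ x, G.dist c x ≤ 1 → x ∈ P.B) : ((kid G P.B p c).card : ℝ) = (d : ℝ) - 1 := by
  classical
  have e : kid G P.B p c = (hR.finite c).toFinset.erase p := by
    ext g
    simp only [mem_kid, mem_erase, Set.Finite.mem_toFinset, SimpleGraph.mem_neighborSet]
    refine ⟨fun hg => ⟨hg.2.2, hg.2.1⟩, fun hg => ⟨h g ?_, hg.2, hg.1⟩⟩
    rw [dist_eq_one_iff_adj.2 hg.2]
  rw [e, card_erase_of_mem ((hR.finite c).mem_toFinset.2 hpc.symm),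
    ← Set.ncard_eq_toFinset_card _ (hR.finite c), hR.deg,
    Nat.cast_sub (by have := hR.three; omega), Nat.cast_one]

lemma Covers.kid {P : Run V} (hT : G.IsTree) {j : ℕ} {c g : V} {r : ℕ} (hcg : G.Adj c g)
    (h : Covers P G j c (r + 1)) : Covers P G j g r := fun x hx => h x (by
  have := hT.connected.dist_triangle (u := c) (v := g) (w := x)
  rw [dist_eq_one_iff_adj.2 hcg] at this
  omega)

lemma Covers.mono {P : Run V} {j : ℕ} {c : V} {r r' : ℕ} (hr : r' ≤ r) (h : Covers P G j c r) :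
    Covers P G j c r' := fun x hx => h x (hx.trans hr)

/-- The mean of the damping statistic decays. -/
lemma rst_mean {d : ℕ} (hR : Reg G d) {P : Run V} (hP : P.Ok G) {j : ℕ} {t g₀ : ℝ}
    (hg1 : g₀ ≤ 1) (hθ2 : P.θ ^ 2 ≤ 1 / 2)
    (hinfo : ∀ p c, G.Adj p c → Covers P G j c (depth j) → 2 * g₀ ≤ P.θ ^ 2 * info (P.pm G t p c)) :
    ∀ h, ∀ p c, G.Adj p c → Covers P G j c (h + depth j + 1) →
      ∫ ω, bar (P.pm G t p c) ω * rst P G d t h p c ω ∂iidU (V × (ℤ × Bool)) ≤ (1 - g₀) ^ h := by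
  intro h
  induction h with
  | zero =>
    intro p c hpc hcv
    have hc := (hcv c (by simp)).1
    have hp := hP.isPiece_pm t hc (Or.inr hpc)
    obtain ⟨hm, hb, -, -⟩ := rst_props hR hP t 0 hc hpc
    refine (integral_mono (hp.integrable_bar_mul hm (C := 1) fun ω => by
      rw [abs_of_nonneg (hb ω).1]; exact (hb ω).2)
      (hp.integrable_bar_mul (e := fun _ => 1) measurable_const (C := 1) fun _ => by simp)
      fun ω => mul_le_mul_of_nonneg_left (hb ω).2 (hp.bar_pos ω).le).trans_eq ?_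
    simp [hp.integral_bar measurePreserving_flipZ]
  | succ h ih =>
    intro p c hpc hcv
    classical
    have hb0 := hR.two_le
    obtain ⟨hc, -⟩ := hcv c (by simp)
    have hp := hP.isPiece_pm t hc (Or.inr hpc)
    have hcard := kid_full hR (P := P) hpc fun x hx => (hcv x (by omega)).1
    have hkid : ∀ g ∈ kid G P.B p c, G.Adj c g ∧ g ∈ P.B ∧ Covers P G j g (h + depth j + 1) :=
      fun g hg => ⟨(mem_kid.1 hg).2.1, (mem_kid.1 hg).1,
        (hcv.mono (by omega)).kid hP.tree (mem_kid.1 hg).2.1⟩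
    have term : ∀ g ∈ kid G P.B p c,
        ∫ ω, bar (P.pm G t p c) ω * (damp P.θ (pmag (P.pm G t p c) ω) * rst P G d t h c g ω)
          ∂iidU (V × (ℤ × Bool)) ≤ (1 - g₀) ^ (h + 1) := by
      intro g hg
      obtain ⟨hcg, hgB, hgc⟩ := hkid g hg
      obtain ⟨g', hg', hne⟩ : ∃ g' ∈ kid G P.B p c, g' ≠ g := by
        refine exists_mem_ne ?_ g
        have : (1 : ℝ) < (kid G P.B p c).card := by rw [hcard]; linarith
        exact_mod_cast this
      obtain ⟨hcg', hgB', hgc'⟩ := hkid g' hg'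
      obtain ⟨hm, hrb, hrd, hrf⟩ := rst_props hR hP t h hgB hcg
      have hk : ∀ {x}, x ∈ kid G P.B p c → Sum.inr x ∈ P.parts G p c := fun hx =>
        mem_disjSum.2 (Or.inr ⟨_, hx, rfl⟩)
      have hI := info_mul_le measurePreserving_flipZ (hP.isPiece_part t (p := p) (c := c))
        hP.partD_disjoint (hk hg) (hk hg') (by simpa using Ne.symm hne) hm (C := 1)
        (fun ω => by rw [abs_of_nonneg (hrb ω).1]; exact (hrb ω).2) (fun ω => (hrb ω).1) hrd hrf
      rw [← hP.pm_eq t hc (Or.inr hpc)] at hI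
      simp only [Run.part, Sum.elim_inr, bar_ppull] at hI
      rw [info_ppull hP.abs_lt (hP.isPiece_pm t hgB' (Or.inr hcg'))] at hI
      have hmean : ∫ ω, bar (P.pm G t p c) ω * rst P G d t h c g ω ∂iidU (V × (ℤ × Bool)) =
          ∫ ω, bar (P.pm G t c g) ω * rst P G d t h c g ω ∂iidU (V × (ℤ × Bool)) := by
        have key := integral_bar_pprod_mul measurePreserving_flipZ
          (hP.isPiece_part t (p := p) (c := c)) hP.partD_disjoint
          (fun k ω => if k = Sum.inr g then rst P G d t h c g ω else 1)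
          (fun k _ => by by_cases e : k = Sum.inr g <;> simp [e, hm])
          (fun k _ => ⟨1, fun ω => by
            by_cases e : k = Sum.inr g <;> simp [e, abs_of_nonneg (hrb ω).1, (hrb ω).2]⟩)
          (fun k _ x y hxy => by
            by_cases e : k = Sum.inr g
            · subst e; simp [hrd hxy]
            · simp [e])
          (fun k _ ω => by by_cases e : k = Sum.inr g <;> simp [e, hrf ω])
        rw [← hP.pm_eq t hc (Or.inr hpc)] at key
        simp only [prod_ite_eq', hk hg, if_true] at key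
        rw [key, prod_eq_single (Sum.inr g)]
        · simp [Run.part, bar_ppull]
        · intro k hk hne
          simp only [if_neg hne, mul_one]
          exact (hP.isPiece_part t k hk).integral_bar measurePreserving_flipZ
        · exact fun hn => absurd (hk hg) hn
      set u := pmag (P.pm G t p c) with hu
      have hum : Measurable u := hp.measurable_pmag
      have hub : ∀ ω, |u ω| ≤ 1 := fun ω => (hp.abs_pmag ω).le
      have i1 := hp.integrable_bar_mul hm (C := 1) fun ω => by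
        rw [abs_of_nonneg (hrb ω).1]; exact (hrb ω).2
      have i2 := hp.integrable_bar_mul (e := fun ω => u ω ^ 2 * rst P G d t h c g ω)
        ((hum.pow_const 2).mul hm) (C := 1) fun ω => by
          rw [abs_mul, abs_pow, abs_of_nonneg (hrb ω).1]
          exact mul_le_one₀ (pow_le_one₀ (abs_nonneg _) (hub ω)) (hrb ω).1 (hrb ω).2
      have hdm : Measurable fun ω => damp P.θ (u ω) * rst P G d t h c g ω :=
        ((measurable_const.sub (hum.pow_const 2)).div
          (measurable_const.sub ((hum.pow_const 2).const_mul _))).mul hm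
      have h3 := integral_mono (hp.integrable_bar_mul hdm (C := 1) fun ω => by
          rw [abs_of_nonneg (mul_nonneg (damp_nonneg hP.abs_lt (hub ω)) (hrb ω).1)]
          exact mul_le_one₀ (damp_le_one hP.abs_lt (hub ω)) (hrb ω).1 (hrb ω).2)
        (i1.sub (i2.const_mul (1 / 2))) fun ω => by
          have h4 := mul_le_mul_of_nonneg_left (mul_le_mul_of_nonneg_right
            (damp_le_damped hP.abs_lt hθ2 (hub ω)) (hrb ω).1) (hp.bar_pos ω).le
          simp only [Pi.sub_apply]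
          linarith
      simp only [Pi.sub_apply] at h3
      rw [integral_sub i1 (i2.const_mul (1 / 2)), integral_const_mul, hmean] at h3
      have h5 := hinfo c g' hcg' (hgc'.mono (by omega))
      have h6 := ih c g hcg hgc
      have hM0 : 0 ≤ ∫ ω, bar (P.pm G t c g) ω * rst P G d t h c g ω ∂iidU (V × (ℤ × Bool)) :=
        integral_nonneg fun ω =>
          mul_nonneg ((hP.isPiece_pm t hgB (Or.inr hcg)).bar_pos ω).le (hrb ω).1
      have h7 := mul_le_mul_of_nonneg_right h5 hM0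
      rw [pow_succ]
      nlinarith [mul_le_mul_of_nonneg_left h6 (sub_nonneg.2 hg1)]
    have e : ∀ ω, bar (P.pm G t p c) ω * rst P G d t (h + 1) p c ω = ∑ g ∈ kid G P.B p c,
        1 / ((d : ℝ) - 1) * (bar (P.pm G t p c) ω *
          (damp P.θ (pmag (P.pm G t p c) ω) * rst P G d t h c g ω)) := by
      intro ω
      simp only [rst, Rw, pmag_pm, mul_sum]
      exact sum_congr rfl fun g _ => by ring
    simp only [e]
    rw [integral_finsetSum]
    · simp only [integral_const_mul]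
      refine (sum_le_sum fun g hg => mul_le_mul_of_nonneg_left (term g hg)
        (by positivity)).trans_eq ?_
      rw [sum_const, nsmul_eq_mul, hcard]
      field_simp
    · intro g hg
      obtain ⟨hcg, hgB, -⟩ := hkid g hg
      obtain ⟨hm, hrb, -, -⟩ := rst_props hR hP t h hgB hcg
      refine (hp.integrable_bar_mul (((measurable_const.sub (hp.measurable_pmag.pow_const 2)).div
        (measurable_const.sub ((hp.measurable_pmag.pow_const 2).const_mul _))).mul hm)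
        (C := 1) fun ω => ?_).const_mul _
      show |damp P.θ (pmag (P.pm G t p c) ω) * rst P G d t h c g ω| ≤ 1
      rw [abs_of_nonneg (mul_nonneg (damp_nonneg hP.abs_lt (hp.abs_pmag ω).le) (hrb ω).1)]
      exact mul_le_one₀ (damp_le_one hP.abs_lt (hp.abs_pmag ω).le) (hrb ω).1 (hrb ω).2

/-- The exponential moment of the damping statistic. -/
lemma rst_exp {d : ℕ} (hR : Reg G d) {P : Run V} (hP : P.Ok G) {j : ℕ} {t g₀ : ℝ} (hg1 : g₀ ≤ 1)
    (hmean : ∀ h p c, G.Adj p c → Covers P G j c (h + depth j + 1) →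
      ∫ ω, bar (P.pm G t p c) ω * rst P G d t h p c ω ∂iidU (V × (ℤ × Bool)) ≤ (1 - g₀) ^ h) :
    ∀ l m p c, G.Adj p c → Covers P G j c (m + l + depth j + 1) →
      ∫ ω, bar (P.pm G t p c) ω * Real.exp (((d : ℝ) - 1) ^ l * rst P G d t (m + l) p c ω)
        ∂iidU (V × (ℤ × Bool)) ≤ Real.exp (2 * ((d : ℝ) - 1) ^ l * (1 - g₀) ^ m) := by
  have hb := hR.two_le
  intro l
  induction l with
  | zero =>
    intro m p c hpc hcv
    have hc := (hcv c (by simp)).1
    have hp := hP.isPiece_pm t hc (Or.inr hpc)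
    obtain ⟨hm, hrb, -, -⟩ := rst_props hR hP t m hc hpc
    have hr1 : ∀ ω, |rst P G d t m p c ω| ≤ 1 := fun ω => by
      rw [abs_of_nonneg (hrb ω).1]; exact (hrb ω).2
    simp only [pow_zero, one_mul, mul_one, Nat.add_zero]
    refine le_trans ?_ (Real.add_one_le_exp _)
    have i0 : Integrable (fun ω => bar (P.pm G t p c) ω) (iidU (V × (ℤ × Bool))) := by
      simpa using hp.integrable_bar_mul (e := fun _ => 1) measurable_const (C := 1) fun _ => by simp
    refine (integral_mono (hp.integrable_bar_mul hm.exp (C := Real.exp 1) fun ω => ?_)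
      (i0.add ((hp.integrable_bar_mul hm hr1).const_mul 2)) fun ω => ?_).trans ?_
    · rw [Real.abs_exp]; exact Real.exp_le_exp.2 (hrb ω).2
    · simp only [Pi.add_apply]
      have h1 := Real.abs_exp_sub_one_le (hr1 ω)
      rw [abs_of_nonneg (sub_nonneg.2 (Real.one_le_exp (hrb ω).1)), abs_of_nonneg (hrb ω).1] at h1
      have := mul_le_mul_of_nonneg_left (show Real.exp (rst P G d t m p c ω) ≤
        1 + 2 * rst P G d t m p c ω by linarith) (hp.bar_pos ω).le
      linarith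
    · simp only [Pi.add_apply]
      rw [integral_add i0 ((hp.integrable_bar_mul hm hr1).const_mul 2), integral_const_mul,
        hp.integral_bar measurePreserving_flipZ]
      have := hmean m p c hpc hcv
      linarith
  | succ l ih =>
    intro m p c hpc hcv
    classical
    have hc := (hcv c (by simp)).1
    have hp := hP.isPiece_pm t hc (Or.inr hpc)
    obtain ⟨hm, hrb, -, -⟩ := rst_props hR hP t (m + (l + 1)) hc hpc
    have hbl : (0 : ℝ) ≤ ((d : ℝ) - 1) ^ l := pow_nonneg (by linarith) l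
    let φ : (V × ℤ) ⊕ V → (V × (ℤ × Bool) → ℝ) → ℝ := fun k ω => Sum.elim (fun _ => 1)
      (fun g => Real.exp (((d : ℝ) - 1) ^ l * rst P G d t (m + l) c g ω)) k
    have hφ : ∀ k ∈ P.parts G p c, Measurable (φ k) ∧
        (∀ ω, |φ k ω| ≤ Real.exp (((d : ℝ) - 1) ^ l)) ∧
        DependsOn (φ k) (P.partD G c k : Set (V × (ℤ × Bool))) ∧ ∀ ω, φ k (flipZ ω) = φ k ω := by
      intro k hk
      obtain ⟨s, hs, rfl⟩ | ⟨g, hg, rfl⟩ := mem_disjSum.1 hk
      · refine ⟨measurable_const, fun ω => ?_, fun _ _ _ => rfl, fun ω => rfl⟩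
        simp only [φ, Sum.elim_inl, abs_one]
        exact Real.one_le_exp hbl
      · obtain ⟨hgm, hgb, hgd, hgf⟩ := rst_props hR hP t (m + l) (mem_kid.1 hg).1 (mem_kid.1 hg).2.1
        refine ⟨(hgm.const_mul _).exp, fun ω => ?_, fun x y hxy => ?_, fun ω => ?_⟩
        · simp only [φ, Sum.elim_inr, Real.abs_exp]
          exact Real.exp_le_exp.2 (mul_le_of_le_one_right hbl (hgb ω).2)
        · simp only [φ, Sum.elim_inr]; rw [hgd hxy]
        · simp only [φ, Sum.elim_inr, hgf ω]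
    have key := integral_bar_pprod_mul measurePreserving_flipZ (hP.isPiece_part t (p := p) (c := c))
      hP.partD_disjoint φ (fun k hk => (hφ k hk).1) (fun k hk => ⟨_, (hφ k hk).2.1⟩)
      (fun k hk => (hφ k hk).2.2.1) (fun k hk => (hφ k hk).2.2.2)
    rw [← hP.pm_eq t hc (Or.inr hpc)] at key
    have hprod : ∀ ω, Real.exp (((d : ℝ) - 1) ^ (l + 1) * rst P G d t (m + (l + 1)) p c ω) ≤
        ∏ k ∈ P.parts G p c, φ k ω := by
      intro ω
      simp only [φ, Run.parts, prod_disjSum, Sum.elim_inl, Sum.elim_inr, prod_const_one, one_mul,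
        ← Real.exp_sum, ← mul_sum]
      refine Real.exp_le_exp.2 ?_
      show _ * (damp P.θ (cav G P.θ P.B (P.obs ω t) p c) *
        (1 / ((d : ℝ) - 1) * ∑ g ∈ kid G P.B p c, rst P G d t (m + l) c g ω)) ≤ _
      have hd1 := damp_le_one hP.abs_lt (abs_cav (B := P.B) (G := G) hP.abs_lt.le (P.obs_pos ω t) p c).le
      have hS : 0 ≤ ∑ g ∈ kid G P.B p c, rst P G d t (m + l) c g ω := sum_nonneg fun g hg =>
        ((rst_props hR hP t (m + l) (mem_kid.1 hg).1 (mem_kid.1 hg).2.1).2.1 ω).1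
      refine (mul_le_mul_of_nonneg_left (mul_le_of_le_one_left (by positivity) hd1)
        (by positivity)).trans_eq ?_
      rw [pow_succ]; field_simp
    have hpm : Measurable fun ω => ∏ k ∈ P.parts G p c, φ k ω :=
      Finset.measurable_fun_prod _ fun k hk => (hφ k hk).1
    refine (integral_mono (hp.integrable_bar_mul (hm.const_mul _).exp
      (C := Real.exp (((d : ℝ) - 1) ^ (l + 1))) fun ω => ?_)
      (hp.integrable_bar_mul hpm (C := ∏ _k ∈ P.parts G p c, Real.exp (((d : ℝ) - 1) ^ l)) fun ω => ?_)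
      fun ω => mul_le_mul_of_nonneg_left (hprod ω) (hp.bar_pos ω).le).trans ?_
    · rw [Real.abs_exp]
      exact Real.exp_le_exp.2 (mul_le_of_le_one_right (pow_nonneg (by linarith) _) (hrb ω).2)
    · rw [abs_prod]; exact prod_le_prod (fun k _ => abs_nonneg _) fun k hk => (hφ k hk).2.1 ω
    rw [key]
    simp only [Run.parts, prod_disjSum, Run.part, φ, Sum.elim_inl, Sum.elim_inr, bar_ppull, mul_one]
    rw [prod_congr rfl fun s _ =>
      (isPiece_slotPiece (V := V) t s).integral_bar measurePreserving_flipZ, prod_const_one, one_mul]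
    refine (prod_le_prod (fun g hg => integral_nonneg fun ω =>
        mul_nonneg ((hP.isPiece_pm t (mem_kid.1 hg).1 (Or.inr (mem_kid.1 hg).2.1)).bar_pos ω).le
          (Real.exp_pos _).le)
      fun g hg => ih m c g (mem_kid.1 hg).2.1
        ((hcv.mono (by omega)).kid hP.tree (mem_kid.1 hg).2.1)).trans ?_
    rw [prod_const, ← Real.exp_nat_mul, Real.exp_le_exp]
    have hN : ((kid G P.B p c).card : ℝ) ≤ (d : ℝ) - 1 := by
      have : ((kid G P.B p c).card : ℝ) + 1 ≤ d := by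
        exact_mod_cast kid_card_le_of_adj (B := P.B) (by have := hR.three; omega) hR.deg hpc
      linarith
    refine (mul_le_mul_of_nonneg_right hN
      (mul_nonneg (mul_nonneg two_pos.le hbl) (pow_nonneg (sub_nonneg.2 hg1) m))).trans_eq ?_
    rw [pow_succ]; ring

open scoped Classical in
lemma expMom_parts_le {P : Run V} (hP : P.Ok G) {t μ : ℝ} {p c : V} (hc : c ∈ P.B)
    (hcp : p = c ∨ G.Adj p c) (hμ : 0 ≤ μ) {A S : ℝ} {N : ℕ} (hA0 : 0 ≤ A)
    (hslot : ∏ s ∈ P.A.filter (fun s => s.1 = c), expMom (slotPiece (V := V) t s) μ ≤ Real.exp S)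
    (hkid : ∀ g ∈ kid G P.B p c, expMom (P.pm G t c g) (μ * P.θ) ≤ Real.exp A)
    (hN : (kid G P.B p c).card ≤ N) : expMom (P.pm G t p c) μ ≤ Real.exp (S + N * A) := by
  classical
  rw [hP.pm_eq t hc hcp, expMom_pprod measurePreserving_flipZ (hP.isPiece_part t) hP.partD_disjoint]
  simp only [Run.parts, prod_disjSum, Run.part, Sum.elim_inl, Sum.elim_inr]
  rw [Real.exp_add]
  have hpk : ∀ g ∈ kid G P.B p c, IsPiece flipZ (P.supp G c g) (P.pm G t c g) := fun g hg =>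
    hP.isPiece_pm t (mem_kid.1 hg).1 (Or.inr (mem_kid.1 hg).2.1)
  refine mul_le_mul hslot ?_
    (prod_nonneg fun g hg => expMom_nonneg (isPiece_ppull hP.abs_lt measurePreserving_flipZ (hpk g hg)) μ)
    (Real.exp_pos _).le
  refine (prod_le_prod
    (fun g hg => expMom_nonneg (isPiece_ppull hP.abs_lt measurePreserving_flipZ (hpk g hg)) μ)
    fun g hg => (expMom_ppull_le hP.nonneg hP.lt_one measurePreserving_flipZ (hpk g hg) hμ).trans
      (hkid g hg)).trans ?_
  rw [prod_const, ← Real.exp_nat_mul, Real.exp_le_exp]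
  exact mul_le_mul_of_nonneg_right (by exact_mod_cast hN) hA0

lemma abs_pmag_slotPiece_le (t : ℝ) (s : V × ℤ) (ω : V × (ℤ × Bool) → ℝ) :
    |pmag (slotPiece t s) ω| ≤ if lo s.2 < t then eps s.2 else 0 := by
  classical
  have he := (eps_mem s.2).1
  have h := (pmag_slotPiece t s ω).2
  by_cases hw : present ω s ∧ time ω s < t
  · have hlo : lo s.2 < t := by
      refine lt_of_le_of_lt ?_ hw.2
      have := mul_nonneg (wid_pos s.2).le (clZ_mem (ω (s.1, (s.2, true)))).1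
      simp only [time]
      linarith
    rw [if_pos hlo]
    rw [Set.indicator_of_mem (show ω ∈ {ω | present ω s ∧ time ω s < t} from hw)] at h
    rw [← Real.sqrt_sq_eq_abs, h, ← mul_pow, Real.sqrt_sq_eq_abs, abs_mul, abs_of_pos he]
    exact mul_le_of_le_one_right he.le (abs_xi _)
  · rw [Set.indicator_of_notMem (show ω ∉ {ω | present ω s ∧ time ω s < t} from hw)] at h
    rw [sq_eq_zero_iff.1 h, abs_zero]
    split_ifs <;> [exact he.le; exact le_rfl]

lemma slots_expMom_le {C : ℝ} (hC0 : 0 ≤ C)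
    (hC : ∀ (fl : (V × (ℤ × Bool) → ℝ) → V × (ℤ × Bool) → ℝ) (D : Finset (V × (ℤ × Bool)))
      (f : Bool → (V × (ℤ × Bool) → ℝ) → ℝ),
      MeasurePreserving fl (iidU (V × (ℤ × Bool))) (iidU (V × (ℤ × Bool))) → IsPiece fl D f →
      ∀ (e μ : ℝ), (∀ ω, |pmag f ω| ≤ e) → e ≤ 1 / 2 → 0 ≤ μ →
        expMom f μ ≤ Real.exp (C * (μ ^ 2 + μ) * e ^ 2 * Real.exp (C * μ * e)))
    {t m M μ : ℝ} (ht : 0 < t) (hM : min 1 (Real.sqrt t) = m) (hμ1 : 1 ≤ μ) (hμM : μ ≤ M)
    (hMm : M * m ≤ 3) {J : ℕ} (c : V) (T : Finset (V × ℤ)) (hT : ∀ s ∈ T, s.1 = c ∧ s.2 < (J : ℤ)) :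
    ∏ s ∈ T, expMom (slotPiece (V := V) t s) μ ≤
      Real.exp (2 * C * ((J : ℝ) + 2) * Real.exp (3 * C) * m ^ 2 * μ ^ 2) := by
  classical
  let e : V × ℤ → ℝ := fun s => if lo s.2 < t then eps s.2 else 0
  have hm0 : 0 ≤ m := hM ▸ le_min zero_le_one (Real.sqrt_nonneg t)
  have he : ∀ s, 0 ≤ e s ∧ e s ≤ 1 / 2 ∧ e s ≤ m := by
    intro s
    obtain ⟨h1, h2, -⟩ := eps_mem s.2
    simp only [e]
    split_ifs with h
    · refine ⟨h1.le, h2, ?_⟩
      rw [← hM]
      refine le_min (h2.trans (by norm_num)) ?_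
      rw [eps]
      have := Real.sqrt_le_sqrt ((wid_le_lo s.2).trans h.le)
      have := Real.sqrt_nonneg (wid s.2)
      linarith
    · exact ⟨le_rfl, by norm_num, hm0⟩
  have hterm : ∀ s ∈ T, expMom (slotPiece (V := V) t s) μ ≤
      Real.exp (2 * C * Real.exp (3 * C) * μ ^ 2 * e s ^ 2) := by
    intro s _
    refine (hC _ _ _ measurePreserving_flipZ (isPiece_slotPiece t s) (e s) μ
      (abs_pmag_slotPiece_le t s) (he s).2.1 (by linarith)).trans (Real.exp_le_exp.2 ?_)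
    have h1 : μ ^ 2 + μ ≤ 2 * μ ^ 2 := by nlinarith
    have h2 : μ * e s ≤ 3 :=
      (mul_le_mul hμM (he s).2.2 (he s).1 (by linarith)).trans hMm
    have h3 : Real.exp (C * μ * e s) ≤ Real.exp (3 * C) := Real.exp_le_exp.2 (by nlinarith)
    calc C * (μ ^ 2 + μ) * e s ^ 2 * Real.exp (C * μ * e s)
        ≤ C * (2 * μ ^ 2) * e s ^ 2 * Real.exp (3 * C) :=
          mul_le_mul (mul_le_mul_of_nonneg_right (mul_le_mul_of_nonneg_left h1 hC0) (sq_nonneg _))
            h3 (Real.exp_pos _).le (by positivity)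
      _ = _ := by ring
  refine (prod_le_prod (fun s _ => expMom_nonneg (isPiece_slotPiece t s) μ) hterm).trans ?_
  rw [← Real.exp_sum, ← mul_sum, Real.exp_le_exp]
  have hsum : ∑ s ∈ T, e s ^ 2 ≤ ((J : ℝ) + 2) * m ^ 2 := by
    have e2 : ∀ s, e s ^ 2 = if lo s.2 < t then wid s.2 / 4 else 0 := fun s => by
      simp only [e]
      split_ifs
      · exact (eps_mem s.2).2.2
      · ring
    simp only [e2]
    rw [← sum_filter]
    have hinj : Set.InjOn (Prod.snd : V × ℤ → ℤ) (T.filter fun s => lo s.2 < t : Finset _) := by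
      intro x hx y hy h
      simp only [coe_filter, Set.mem_ofPred_eq] at hx hy
      exact Prod.ext ((hT x hx.1).1.trans (hT y hy.1).1.symm) h
    rw [← sum_image (g := Prod.snd) (f := fun i => wid i / 4) hinj, ← sum_div]
    set S := (T.filter fun s => lo s.2 < t).image Prod.snd
    have hS : ∀ i ∈ S, lo i < t ∧ i < (J : ℤ) := fun i hi => by
      obtain ⟨s, hs, rfl⟩ := mem_image.1 hi
      exact ⟨(mem_filter.1 hs).2, (hT s (mem_filter.1 hs).1).2⟩
    have h1 := sum_wid_le ht.le S fun i hi => (hS i hi).1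
    have h2 := sum_levels_le (fun i => (wid_pos i).le) (fun i => by linarith [lo_succ i])
      (fun i => (lo_pos_level i).le) S J fun i hi => (hS i hi).2
    rw [show lo (J : ℤ) = 1 + (J : ℝ) by simp [lo]] at h2
    have hJ : (0 : ℝ) ≤ J := Nat.cast_nonneg J
    rcases le_total t 1 with h | h
    · have : m ^ 2 = t := by
        rw [← hM, min_eq_right (Real.sqrt_le_one.2 h), Real.sq_sqrt ht.le]
      rw [this]
      nlinarith
    · have : m = 1 := by rw [← hM, min_eq_left (Real.one_le_sqrt.2 h)]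
      rw [this]
      linarith
  have h0 : 0 ≤ 2 * C * Real.exp (3 * C) * μ ^ 2 := by positivity
  refine (mul_le_mul_of_nonneg_left hsum h0).trans_eq ?_
  ring

theorem Rw_moment (d : ℕ) : ∃ K γ : ℝ, 0 ≤ K ∧ 0 < γ ∧ γ ≤ 1 / 20 ∧
    ∀ {V : Type*} {G : SimpleGraph V}, Reg G d → ∀ P : Run V, P.Ok G → ∀ j : ℕ, NearCrit d P.θ j →
      ∀ t : ℝ, (1 / 2) ^ j ≤ t → ∀ p c : V, G.Adj p c → p ∈ P.B → ∀ h : ℕ,
        Covers P G j c (h + depth j + 1) → ∀ q : ℕ, 1 ≤ q →
          ∫ ω, bar (P.pm G t p c) ω * Rw G d P.θ P.B (P.obs ω t) h p c ^ q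
              ∂iidU (V × (ℤ × Bool)) ≤
            (K * Real.sqrt q * (1 - γ * rt j) ^ h) ^ q := by
  obtain ⟨K1, hK1, hinfo⟩ := info_pm_ge d
  set γ : ℝ := min (1 / 20) (K1 / (16 * ((d : ℝ) + 1))) with hγ
  have hγ0 : 0 < γ := lt_min (by norm_num) (by positivity)
  refine ⟨Real.exp (2 * ((d : ℝ) + 1)), γ, (Real.exp_pos _).le, hγ0, min_le_left _ _, ?_⟩
  intro V G hR P hP j hN t ht p c hpc _ h hcv q hq
  classical
  have hb := hR.two_le
  set b : ℝ := (d : ℝ) - 1 with hbdef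
  set g₀ : ℝ := 2 * γ * rt j with hg0
  have hγ20 : γ ≤ 1 / 20 := min_le_left _ _
  have hrt := rt_pos j
  have hrt1 := rt_le_one j
  have hγr : γ * rt j ≤ 1 / 20 := (mul_le_of_le_one_right hγ0.le hrt1).trans hγ20
  have hg1 : g₀ ≤ 1 := by rw [hg0]; linarith
  have hθ2 : P.θ ^ 2 ≤ 1 / 2 := by nlinarith [hN.high, sq_nonneg P.θ]
  have hθlow : 1 / (4 * ((d : ℝ) + 1)) ≤ P.θ ^ 2 := by
    refine le_trans ?_ (pow_le_pow_left₀ (by positivity) hN.low 2)
    rw [div_pow, one_pow, mul_pow, Real.sq_sqrt (by linarith)]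
    exact one_div_le_one_div_of_le (by linarith) (by norm_num; linarith)
  have hi : ∀ p c, G.Adj p c → Covers P G j c (depth j) → 2 * g₀ ≤ P.θ ^ 2 * info (P.pm G t p c) := by
    intro p c hpc hcv
    have h1 := hinfo hR P hP j hN t ht p c hpc hcv
    refine le_trans ?_ (mul_le_mul hθlow h1 (by positivity) (sq_nonneg _))
    have h2 : γ ≤ K1 / (16 * ((d : ℝ) + 1)) := min_le_right _ _
    calc 2 * g₀ = 4 * (γ * rt j) := by rw [hg0]; ring
      _ ≤ 4 * (K1 / (16 * ((d : ℝ) + 1)) * rt j) := by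
          have := mul_le_mul_of_nonneg_right h2 hrt.le
          linarith
      _ = _ := by field_simp; ring
  have hexp := rst_exp hR hP hg1 (rst_mean hR hP hg1 hθ2 hi)
  have hc := (hcv c (by simp)).1
  have hp := hP.isPiece_pm t hc (Or.inr hpc)
  obtain ⟨hm, hrb, -, -⟩ := rst_props hR hP t h hc hpc
  show ∫ ω, bar (P.pm G t p c) ω * rst P G d t h p c ω ^ q ∂_ ≤ _
  set ν : ℝ := 1 - γ * rt j with hν
  have hν95 : 19 / 20 ≤ ν := by rw [hν]; linarith
  have hν0 : 0 < ν := by linarith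
  have hν1 : ν ≤ 1 := by rw [hν]; linarith [mul_pos hγ0 hrt]
  set Q : ℝ := Real.sqrt q with hQ
  have hq1 : (1 : ℝ) ≤ q := by exact_mod_cast hq
  have hQ1 : 1 ≤ Q := Real.one_le_sqrt.2 hq1
  have hQ2 : Q * Q = q := Real.mul_self_sqrt (by positivity)
  have hνh : 0 < ν ^ h := pow_pos hν0 h
  obtain ⟨l, hl, hlmin⟩ : ∃ l : ℕ, Q ≤ b ^ l * ν ^ h ∧ ∀ k, k < l → b ^ k * ν ^ h < Q := by
    have hex : ∃ l : ℕ, Q ≤ b ^ l * ν ^ h := by
      obtain ⟨n, hn⟩ := pow_unbounded_of_one_lt (Q / ν ^ h) (show (1 : ℝ) < b by linarith)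
      exact ⟨n, by rw [div_lt_iff₀ hνh] at hn; exact hn.le⟩
    exact ⟨Nat.find hex, Nat.find_spec hex, fun k hk => not_le.1 (Nat.find_min hex hk)⟩
  set K : ℝ := Real.exp (2 * ((d : ℝ) + 1)) with hK
  have hKb : b ≤ K := by
    have := Real.add_one_le_exp (2 * ((d : ℝ) + 1))
    rw [hbdef, hK]
    linarith
  rcases le_or_gt (2 * l) h with hcase | hcase
  · obtain ⟨m, rfl⟩ : ∃ m, h = m + l := ⟨h - l, by omega⟩
    have hE := hexp l m p c hpc hcv
    have hupper : b ^ l * ν ^ (m + l) ≤ b * Q := by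
      rcases Nat.eq_zero_or_pos l with rfl | hl0
      · rw [pow_zero, one_mul]
        exact (pow_le_one₀ hν0.le hν1).trans (one_le_mul_of_one_le_of_one_le (by linarith) hQ1)
      · have := mul_le_mul_of_nonneg_left (hlmin (l - 1) (by omega)).le (show (0 : ℝ) ≤ b by linarith)
        rwa [← mul_assoc, ← pow_succ', show l - 1 + 1 = l by omega] at this
    have hg_le : (1 - g₀) ^ m ≤ ν ^ (m + l) := by
      have h1 : 1 - g₀ ≤ ν ^ 2 := by rw [hg0, hν]; nlinarith
      refine (pow_le_pow_left₀ (sub_nonneg.2 hg1) h1 m).trans ?_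
      rw [← pow_mul]
      exact pow_le_pow_of_le_one hν0.le hν1 (by omega)
    have hμ : 0 < b ^ l := pow_pos (by linarith) l
    have hpt : ∀ ω, rst P G d t (m + l) p c ω ^ q ≤
        ((q : ℝ) / b ^ l) ^ q * Real.exp (b ^ l * rst P G d t (m + l) p c ω) := by
      intro ω
      have hq0 : (0 : ℝ) < q := by linarith
      set x := rst P G d t (m + l) p c ω
      have e : Real.exp (b ^ l * x) = Real.exp (b ^ l * x / q) ^ q := by
        rw [← Real.exp_nat_mul]; congr 1; field_simp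
      rw [e, ← mul_pow]
      refine pow_le_pow_left₀ (hrb ω).1 ?_ q
      have h1 : b ^ l * x / q ≤ Real.exp (b ^ l * x / q) := by
        linarith [Real.add_one_le_exp (b ^ l * x / q)]
      refine le_trans (le_of_eq ?_) (mul_le_mul_of_nonneg_left h1 (by positivity))
      show x = _
      field_simp
    refine (integral_mono (hp.integrable_bar_mul (hm.pow_const q) (C := 1) fun ω => ?_)
      ((hp.integrable_bar_mul (hm.const_mul (b ^ l)).exp (C := Real.exp (b ^ l)) fun ω => ?_).const_mul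
        (((q : ℝ) / b ^ l) ^ q)) fun ω => ?_).trans ?_
    · rw [abs_pow, abs_of_nonneg (hrb ω).1]; exact pow_le_one₀ (hrb ω).1 (hrb ω).2
    · rw [Real.abs_exp]; exact Real.exp_le_exp.2 (mul_le_of_le_one_right hμ.le (hrb ω).2)
    · exact (mul_le_mul_of_nonneg_left (hpt ω) (hp.bar_pos ω).le).trans_eq (by ring)
    rw [integral_const_mul]
    refine (mul_le_mul_of_nonneg_left hE (by positivity)).trans ?_
    have h2 : 2 * b ^ l * (1 - g₀) ^ m ≤ (q : ℝ) * (2 * ((d : ℝ) + 1)) := by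
      have h3 : b ^ l * (1 - g₀) ^ m ≤ b * Q :=
        (mul_le_mul_of_nonneg_left hg_le hμ.le).trans hupper
      have h4 : b * Q ≤ ((d : ℝ) + 1) * q := by
        rw [← hQ2, ← mul_assoc]
        refine le_trans ?_ (le_mul_of_one_le_right (by positivity) hQ1)
        exact mul_le_mul_of_nonneg_right (by rw [hbdef]; linarith) (by linarith)
      linarith
    refine (mul_le_mul_of_nonneg_left (Real.exp_le_exp.2 h2) (by positivity)).trans ?_
    rw [Real.exp_nat_mul, ← hK, ← mul_pow]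
    refine pow_le_pow_left₀ (by positivity) ?_ q
    rw [mul_comm, mul_assoc]
    refine mul_le_mul_of_nonneg_left ?_ (Real.exp_pos _).le
    rw [div_le_iff₀ hμ, ← hQ2, mul_assoc]
    exact mul_le_mul_of_nonneg_left (hl.trans_eq (mul_comm _ _)) (by linarith)
  · have hl0 : 0 < l := by omega
    have h1 := hlmin (l - 1) (by omega)
    have h2 : b ^ (h - 1) ≤ (b ^ (l - 1)) ^ 2 := by
      rw [← pow_mul]; exact pow_le_pow_right₀ (by linarith) (by omega)
    have h3 : (b ^ (l - 1) * ν ^ h) ^ 2 ≤ Q ^ 2 :=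
      pow_le_pow_left₀ (mul_nonneg (pow_nonneg (by linarith) _) hνh.le) h1.le 2
    have h4 : 1 ≤ b * ν ^ 4 := by
      have := pow_le_pow_left₀ (by norm_num : (0 : ℝ) ≤ 19 / 20) hν95 4
      nlinarith
    have h5 : 1 ≤ b * (b ^ (h - 1) * (ν ^ h) ^ 4) := by
      rcases Nat.eq_zero_or_pos h with rfl | hh
      · simp; linarith
      · rw [← mul_assoc, ← pow_succ', show h - 1 + 1 = h by omega, ← pow_mul, mul_comm h 4, pow_mul,
          ← mul_pow]
        exact one_le_pow₀ h4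
    have h6 : 1 ≤ b * (Q * ν ^ h) ^ 2 := by
      refine h5.trans (mul_le_mul_of_nonneg_left ?_ (by linarith))
      rw [mul_pow]
      calc b ^ (h - 1) * (ν ^ h) ^ 4 ≤ (b ^ (l - 1)) ^ 2 * (ν ^ h) ^ 4 :=
            mul_le_mul_of_nonneg_right h2 (by positivity)
        _ = (b ^ (l - 1) * ν ^ h) ^ 2 * (ν ^ h) ^ 2 := by ring
        _ ≤ _ := mul_le_mul_of_nonneg_right h3 (sq_nonneg _)
    have h7 : 1 ≤ K * Q * ν ^ h := by
      by_contra hlt
      rw [not_le] at hlt
      have h0 : 0 ≤ Q * ν ^ h := mul_nonneg (by linarith) hνh.le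
      nlinarith [mul_le_mul_of_nonneg_right hKb h0]
    refine (integral_mono (hp.integrable_bar_mul (hm.pow_const q) (C := 1) fun ω => ?_)
      (hp.integrable_bar_mul (e := fun _ => 1) measurable_const (C := 1) fun _ => by simp)
      fun ω => ?_).trans ?_
    · rw [abs_pow, abs_of_nonneg (hrb ω).1]; exact pow_le_one₀ (hrb ω).1 (hrb ω).2
    · exact mul_le_mul_of_nonneg_left (pow_le_one₀ (hrb ω).1 (hrb ω).2) (hp.bar_pos ω).le
    · simp only [mul_one, hp.integral_bar measurePreserving_flipZ]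
      exact one_le_pow₀ h7

/-- Bound on the log of the exponential moment after `n` generations. -/
noncomputable def cavA (V1 L1 m b θ : ℝ) (n : ℕ) (μ : ℝ) : ℝ :=
  (n : ℝ) * (V1 * m ^ 2) * μ ^ 2 + L1 * m * (b * θ) ^ n * μ

lemma cavA_nonneg {V1 L1 m b θ μ : ℝ} (hV : 0 ≤ V1) (hL : 0 ≤ L1) (hm : 0 ≤ m) (hb : 0 ≤ b * θ)
    (hμ : 0 ≤ μ) (n : ℕ) : 0 ≤ cavA V1 L1 m b θ n μ := by
  have := pow_nonneg hb n
  unfold cavA
  positivity

lemma cavA_step {V1 L1 m b θ μ : ℝ} (hV : 0 ≤ V1) (h2 : θ ^ 2 * b ≤ 1) (n : ℕ) :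
    V1 * m ^ 2 * μ ^ 2 + b * cavA V1 L1 m b θ n (μ * θ) ≤ cavA V1 L1 m b θ (n + 1) μ := by
  have h3 := mul_le_mul_of_nonneg_right h2
    (show 0 ≤ (n : ℝ) * (V1 * m ^ 2) * μ ^ 2 by positivity)
  have e : b * cavA V1 L1 m b θ n (μ * θ) = θ ^ 2 * b * ((n : ℝ) * (V1 * m ^ 2) * μ ^ 2) +
      L1 * m * (b * θ) ^ (n + 1) * μ := by
    rw [cavA, pow_succ]; ring
  rw [e, cavA]
  push_cast
  linarith

lemma cavA_bound {V1 L1 m b θ μ D : ℝ} (hV : 0 ≤ V1) (hL : 0 ≤ L1) (hm : 0 ≤ m) (hb : 0 ≤ b)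
    (hθ : 0 < θ) (hθ34 : θ ≤ 3 / 4) (hθb : θ ^ 2 * b ≤ 1) (hinv : 1 / (2 * θ) ≤ D) (hD : 0 ≤ D)
    (hμ : 2 < μ) (h3m : μ ^ 3 * m ^ 2 ≤ 27) (h2m : μ ^ 2 * m ≤ 9) {n : ℕ}
    (hk : 2 < μ * θ ^ n) :
    cavA V1 L1 m b θ (n + 1) μ ≤ 54 * V1 + 9 * D * L1 := by
  have hμ0 : 0 < μ := by linarith
  have hbθ : 0 ≤ b * θ := mul_nonneg hb hθ.le
  have h2 : ((4 : ℝ) / 3) ^ n * θ ^ n ≤ 1 := by
    rw [← mul_pow]; exact pow_le_one₀ (by positivity) (by linarith)
  have h3 : 2 * ((4 : ℝ) / 3) ^ n ≤ μ := by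
    have hp43 : (0 : ℝ) ≤ (4 / 3) ^ n := by positivity
    calc 2 * ((4 : ℝ) / 3) ^ n ≤ μ * θ ^ n * (4 / 3) ^ n :=
          mul_le_mul_of_nonneg_right hk.le hp43
      _ = μ * ((4 / 3) ^ n * θ ^ n) := by ring
      _ ≤ μ * 1 := mul_le_mul_of_nonneg_left h2 hμ0.le
      _ = μ := mul_one μ
  have h4 : 1 + (n : ℝ) / 3 ≤ ((4 : ℝ) / 3) ^ n := by
    have := one_add_mul_le_pow (show (-2 : ℝ) ≤ 1 / 3 by norm_num) n
    norm_num at this ⊢
    linarith
  have hnμ : ((n + 1 : ℕ) : ℝ) ≤ 2 * μ := by push_cast; linarith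
  have t1 : ((n + 1 : ℕ) : ℝ) * (V1 * m ^ 2) * μ ^ 2 ≤ 54 * V1 := by
    calc ((n + 1 : ℕ) : ℝ) * (V1 * m ^ 2) * μ ^ 2 ≤ 2 * μ * (V1 * m ^ 2) * μ ^ 2 := by gcongr
      _ = 2 * V1 * (μ ^ 3 * m ^ 2) := by ring
      _ ≤ 2 * V1 * 27 := mul_le_mul_of_nonneg_left h3m (by positivity)
      _ = 54 * V1 := by ring
  have t2 : (b * θ) ^ (n + 1) * μ ≤ μ ^ 2 * D := by
    have h5 : θ ≤ μ * θ ^ (n + 1) / 2 := by
      rw [pow_succ, ← mul_assoc, le_div_iff₀ two_pos]
      nlinarith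
    have h6 : (b * θ) ^ (n + 1) * μ * θ ≤ μ ^ 2 / 2 := by
      refine (mul_le_mul_of_nonneg_left h5 (mul_nonneg (pow_nonneg hbθ _) hμ0.le)).trans ?_
      have e : (b * θ) ^ (n + 1) * μ * (μ * θ ^ (n + 1) / 2) =
          μ ^ 2 / 2 * (θ ^ 2 * b) ^ (n + 1) := by
        rw [mul_pow b, mul_pow (θ ^ 2), ← pow_mul, mul_comm 2, pow_mul]; ring
      rw [e]
      exact mul_le_of_le_one_right (by positivity)
        (pow_le_one₀ (mul_nonneg (sq_nonneg _) hb) hθb)
    rw [← le_div_iff₀ hθ] at h6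
    refine h6.trans ?_
    rw [div_div, div_eq_mul_one_div]
    exact mul_le_mul_of_nonneg_left hinv (sq_nonneg μ)
  calc cavA V1 L1 m b θ (n + 1) μ ≤ 54 * V1 + L1 * m * (μ ^ 2 * D) := by
        rw [cavA, mul_assoc (L1 * m)]
        exact add_le_add t1 (mul_le_mul_of_nonneg_left t2 (by positivity))
    _ = 54 * V1 + L1 * D * (μ ^ 2 * m) := by ring
    _ ≤ 54 * V1 + L1 * D * 9 := by gcongr
    _ = _ := by ring

lemma mu_props {t : ℝ} (ht : 0 < t) : ∃ μ : ℝ, 2 < μ ∧ μ * min 1 (Real.sqrt t) ≤ 3 ∧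
    μ ^ 3 * min 1 (Real.sqrt t) ^ 2 ≤ 27 ∧ μ ^ 2 * min 1 (Real.sqrt t) ≤ 9 ∧
    1 / μ ^ 2 ≤ Real.sqrt t := by
  obtain ⟨a, ha0, ha2⟩ : ∃ a : ℝ, 0 < a ∧ a ^ 2 = Real.sqrt t :=
    ⟨_, Real.sqrt_pos.2 (Real.sqrt_pos.2 ht), Real.sq_sqrt (Real.sqrt_nonneg t)⟩
  rw [← ha2]
  have ha1 : 0 < 1 / a := div_pos one_pos ha0
  refine ⟨2 + 1 / a, by linarith, ?_⟩
  have hμt : 1 / (2 + 1 / a) ^ 2 ≤ a ^ 2 := by
    rw [div_le_iff₀ (by positivity), ← mul_pow, mul_add, mul_one_div_cancel ha0.ne']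
    exact one_le_pow₀ (by linarith)
  rcases le_total a 1 with h | h
  · rw [min_eq_right (pow_le_one₀ ha0.le h)]
    have hμa : (2 + 1 / a) * a ≤ 3 := by rw [add_mul, one_div_mul_cancel ha0.ne']; linarith
    set μ := 2 + 1 / a
    have h0 : 0 ≤ μ * a := mul_nonneg (by linarith) ha0.le
    refine ⟨?_, ?_, ?_, hμt⟩
    · calc μ * a ^ 2 = μ * a * a := by ring
        _ ≤ 3 * 1 := mul_le_mul hμa h ha0.le (by norm_num)
        _ = 3 := mul_one 3
    · calc μ ^ 3 * (a ^ 2) ^ 2 = (μ * a) ^ 3 * a := by ring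
        _ ≤ 3 ^ 3 * 1 := mul_le_mul (pow_le_pow_left₀ h0 hμa 3) h ha0.le (by norm_num)
        _ = 27 := by norm_num
    · calc μ ^ 2 * a ^ 2 = (μ * a) ^ 2 := by ring
        _ ≤ 3 ^ 2 := pow_le_pow_left₀ h0 hμa 2
        _ = 9 := by norm_num
  · rw [min_eq_left (one_le_pow₀ h)]
    have hμ3 : 2 + 1 / a ≤ 3 := by linarith [(div_le_one ha0).2 h]
    refine ⟨by linarith, ?_, ?_, hμt⟩
    · simpa using (pow_le_pow_left₀ (by linarith) hμ3 3).trans (by norm_num : (3 : ℝ) ^ 3 ≤ 27)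
    · simpa using (pow_le_pow_left₀ (by linarith) hμ3 2).trans (by norm_num : (3 : ℝ) ^ 2 ≤ 9)

open scoped Classical in
lemma cav_expMom {d : ℕ} (hR : Reg G d) {P : Run V} (hP : P.Ok G) {t μ m V1 L1 D : ℝ}
    (hV : 0 ≤ V1) (hL : 0 ≤ L1) (hm : 0 ≤ m) (hθ : P.θ ^ 2 * ((d : ℝ) - 1) ≤ 1)
    (hθ0 : 0 < P.θ) (hinv : 1 / (2 * P.θ) ≤ D) (hD : 0 ≤ D) (hμ : 2 < μ)
    (h3m : μ ^ 3 * m ^ 2 ≤ 27) (h2m : μ ^ 2 * m ≤ 9)
    (hbase : ∀ p c μ', c ∈ P.B → G.Adj p c → 0 ≤ μ' → μ' ≤ 2 →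
      expMom (P.pm G t p c) μ' ≤ Real.exp (L1 * m * μ'))
    (hslot : ∀ c μ', 1 ≤ μ' → μ' ≤ μ →
      ∏ s ∈ P.A.filter (fun s => s.1 = c), expMom (slotPiece (V := V) t s) μ' ≤
        Real.exp (V1 * m ^ 2 * μ' ^ 2))
    {p c : V} (hc : c ∈ P.B) (hcp : p = c ∨ G.Adj p c) :
    expMom (P.pm G t p c) μ ≤ Real.exp (2 * (54 * V1 + 9 * D * L1)) := by
  have hb := hR.two_le
  have hd3 := hR.three
  have hbθ : 0 ≤ ((d : ℝ) - 1) * P.θ := mul_nonneg (by linarith) hP.nonneg
  have hA0 := fun n μ' (h : (0 : ℝ) ≤ μ') =>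
    cavA_nonneg (V1 := V1) (L1 := L1) (m := m) hV hL hm hbθ h n
  have hrec : ∀ n : ℕ, ∀ p c μ', c ∈ P.B → G.Adj p c → μ' ≤ μ → μ' * P.θ ^ n ≤ 2 → 0 ≤ μ' →
      (∀ k, k < n → 2 < μ' * P.θ ^ k) →
      expMom (P.pm G t p c) μ' ≤ Real.exp (cavA V1 L1 m ((d : ℝ) - 1) P.θ n μ') := by
    intro n
    induction n with
    | zero =>
      intro p c μ' hc hpc hle hn h0 _
      rw [pow_zero, mul_one] at hn
      refine (hbase p c μ' hc hpc h0 hn).trans_eq ?_
      simp [cavA]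
    | succ n ih =>
      intro p c μ' hc hpc hle hn h0 hlow
      have h1 : 1 ≤ μ' := by
        have := hlow 0 (Nat.succ_pos n)
        rw [pow_zero, mul_one] at this
        linarith
      have hN := kid_card_le_of_adj (B := P.B) (by omega) hR.deg hpc
      refine (expMom_parts_le hP hc (Or.inr hpc) h0 (N := d - 1)
        (hA0 n _ (mul_nonneg h0 hP.nonneg)) (hslot c μ' h1 hle) (fun g hg => ?_) (by omega)).trans
          (Real.exp_le_exp.2 ?_)
      · refine ih c g (μ' * P.θ) (mem_kid.1 hg).1 (mem_kid.1 hg).2.1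
          ((mul_le_of_le_one_right h0 hP.lt_one.le).trans hle) ?_ (mul_nonneg h0 hP.nonneg)
          fun k hk => ?_
        · rwa [mul_assoc, ← pow_succ']
        · rw [mul_assoc, ← pow_succ']; exact hlow (k + 1) (by omega)
      · rw [Nat.cast_sub (by omega), Nat.cast_one]
        exact cavA_step hV hθ n
  obtain ⟨n, hn, hlow⟩ : ∃ n : ℕ, μ * P.θ ^ n ≤ 2 ∧ ∀ k, k < n → 2 < μ * P.θ ^ k := by
    have hex : ∃ n : ℕ, μ * P.θ ^ n ≤ 2 := by
      obtain ⟨n, hn⟩ := exists_pow_lt_of_lt_one (show 0 < 2 / μ by positivity) hP.lt_one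
      exact ⟨n, by rw [lt_div_iff₀ (by linarith)] at hn; linarith⟩
    exact ⟨Nat.find hex, Nat.find_spec hex, fun k hk => not_le.1 (Nat.find_min hex hk)⟩
  obtain ⟨n, rfl⟩ : ∃ k, n = k + 1 := by
    refine ⟨n - 1, ?_⟩
    rcases Nat.eq_zero_or_pos n with rfl | h
    · simp at hn; linarith
    · omega
  have hAb := cavA_bound (b := (d : ℝ) - 1) hV hL hm (by linarith) hθ0
    (le_trans (theta_le hR hθ) le_rfl) hθ hinv hD hμ h3m h2m (hlow n (by omega))
  have hμ0 : 0 ≤ μ := by linarith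
  rcases hcp with rfl | hpc
  · refine (expMom_parts_le hP hc (Or.inl rfl) hμ0 (N := d)
      (hA0 n _ (mul_nonneg hμ0 hP.nonneg)) (hslot p μ (by linarith) le_rfl) (fun g hg => ?_)
      (kid_card_le (by omega) hR.deg p p)).trans (Real.exp_le_exp.2 ?_)
    · refine hrec n p g (μ * P.θ) (mem_kid.1 hg).1 (mem_kid.1 hg).2.1
        (mul_le_of_le_one_right hμ0 hP.lt_one.le) ?_ (mul_nonneg hμ0 hP.nonneg) fun k hk => ?_
      · rwa [mul_assoc, ← pow_succ']
      · rw [mul_assoc, ← pow_succ']; exact hlow (k + 1) (by omega)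
    · have hst := cavA_step (L1 := L1) (m := m) (μ := μ) hV hθ n
      have hd2 : (d : ℝ) ≤ 2 * ((d : ℝ) - 1) := by linarith
      have h7 := mul_le_mul_of_nonneg_right hd2 (hA0 n (μ * P.θ) (mul_nonneg hμ0 hP.nonneg))
      have h9 : 0 ≤ V1 * m ^ 2 * μ ^ 2 := by positivity
      linarith
  · refine (hrec (n + 1) p c μ hc hpc le_rfl hn hμ0 hlow).trans (Real.exp_le_exp.2 ?_)
    linarith [hA0 (n + 1) μ hμ0]

theorem cav_moment (d : ℕ) (J : ℕ) : ∃ K : ℝ, 0 ≤ K ∧
    ∀ {V : Type*} {G : SimpleGraph V}, Reg G d → ∀ P : Run V, P.Ok G →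
      P.θ ^ 2 * ((d : ℝ) - 1) ≤ 1 → 1 / (2 * Real.sqrt ((d : ℝ) - 1)) ≤ P.θ →
      (∀ s ∈ P.A, s.2 < (J : ℤ)) → ∀ t : ℝ, 0 < t → ∀ p c : V, c ∈ P.B → (p = c ∨ G.Adj p c) →
        ∀ q : ℕ, 1 ≤ q →
          ∫ ω, bar (P.pm G t p c) ω * pmag (P.pm G t p c) ω ^ (2 * q)
              ∂iidU (V × (ℤ × Bool)) ≤
            (K * (q : ℝ) ^ 2 * Real.sqrt t) ^ q := by
  obtain ⟨r, hr0, hr1, hcav⟩ := abs_cav_wts d J
  obtain ⟨C2, hC20, hsmall⟩ := expMom_small hr1
  obtain ⟨C1, hC10, hweak⟩ := expMom_weak (show (1 / 2 : ℝ) < 1 by norm_num)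
  obtain ⟨Ki, hKi0, hinfo⟩ := info_pm_le d
  set V1 : ℝ := 2 * C1 * ((J : ℝ) + 2) * Real.exp (3 * C1) with hV1
  set L1 : ℝ := C2 * (Ki + 1) with hL1
  set X : ℝ := 2 * (54 * V1 + 9 * ((d : ℝ) + 1) * L1) with hX
  have hV10 : 0 ≤ V1 := by positivity
  have hL10 : 0 ≤ L1 := by positivity
  have hX0 : 0 ≤ X := by positivity
  refine ⟨8 * Real.exp X, by positivity, ?_⟩
  intro V G hR P hP hθ hθlow hlev t ht p c hc hcp q hq
  classical
  have hb := hR.two_le
  set m : ℝ := min 1 (Real.sqrt t) with hm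
  have hm0 : 0 ≤ m := le_min zero_le_one (Real.sqrt_nonneg t)
  obtain ⟨μ, hμ2, hμm, h3m, h2m, hμt⟩ := mu_props ht
  have hμ0 : 0 < μ := by linarith
  have hθpos : 0 < P.θ := lt_of_lt_of_le (div_pos one_pos (mul_pos two_pos
    (Real.sqrt_pos.2 (by linarith)))) hθlow
  have hinv : 1 / (2 * P.θ) ≤ (d : ℝ) + 1 := by
    have h1 : Real.sqrt ((d : ℝ) - 1) ≤ (d : ℝ) + 1 := by
      refine Real.sqrt_le_iff.2 ⟨by linarith, ?_⟩
      nlinarith
    refine le_trans ?_ h1
    rw [div_le_iff₀ (by linarith)]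
    rw [div_le_iff₀ (by positivity)] at hθlow
    linarith
  have hbound : expMom (P.pm G t p c) μ ≤ Real.exp X := by
    refine cav_expMom hR hP hV10 hL10 hm0 hθ hθpos hinv (by positivity) hμ2 h3m h2m
      (fun p c μ' hc hpc h0 hn => ?_) (fun c μ' h1 hle => ?_) hc hcp
    · have hp := hP.isPiece_pm t hc (Or.inr hpc)
      refine (hsmall _ _ _ _ measurePreserving_flipZ hp (fun ω => ?_) μ' h0 hn).trans
        (Real.exp_le_exp.2 ?_)
      · rw [pmag_pm]
        exact hcav hR P.θ hP.nonneg hθ P.B _ (fun s hs => hlev s (mem_filter.1 hs).1) _ p c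
      · have h1 : info (P.pm G t p c) ≤ (Ki + 1) * m := by
          have h2 := hinfo hR P hP hθ t ht.le p c hc (Or.inr hpc)
          have h3 := info_le_one hp
          rcases le_total 1 (Real.sqrt t) with h | h
          · rw [hm, min_eq_left h]; linarith
          · rw [hm, min_eq_right h]
            have := Real.sqrt_nonneg t
            linarith
        refine (mul_le_mul_of_nonneg_left h1 (mul_nonneg hC20 h0)).trans_eq ?_
        rw [hL1]; ring
    · refine (slots_expMom_le hC10 (hweak _) ht hm.symm h1 hle hμm (J := J) c _ fun s hs => ?_).trans_eq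
        (by rw [hV1])
      exact ⟨(mem_filter.1 hs).2, hlev s (mem_filter.1 hs).1⟩
  have hp := hP.isPiece_pm t hc hcp
  refine (moment_le_expMom measurePreserving_flipZ hp hμ0 q).trans ?_
  have hfac : ((2 * q).factorial : ℝ) ≤ (4 * (q : ℝ) ^ 2) ^ q := by
    calc ((2 * q).factorial : ℝ) ≤ ((2 * q : ℕ) : ℝ) ^ (2 * q) := by
          exact_mod_cast Nat.factorial_le_pow _
      _ = _ := by rw [pow_mul]; push_cast; ring
  calc 2 * ((2 * q).factorial : ℝ) / μ ^ (2 * q) * expMom (P.pm G t p c) μ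
      = 2 * expMom (P.pm G t p c) μ * (((2 * q).factorial : ℝ) * (1 / μ ^ 2) ^ q) := by
        rw [div_pow, one_pow, ← pow_mul]; ring
    _ ≤ 2 * Real.exp X * ((4 * (q : ℝ) ^ 2) ^ q * Real.sqrt t ^ q) := by
        refine mul_le_mul (mul_le_mul_of_nonneg_left hbound two_pos.le)
          (mul_le_mul hfac (pow_le_pow_left₀ (by positivity) hμt q) (by positivity) (by positivity))
          (by positivity) (by positivity)
    _ ≤ (2 * Real.exp X) ^ q * ((4 * (q : ℝ) ^ 2) ^ q * Real.sqrt t ^ q) := by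
        refine mul_le_mul_of_nonneg_right (le_self_pow₀ ?_ (by omega)) (by positivity)
        have := Real.one_le_exp hX0
        linarith
    _ = _ := by rw [← mul_pow, ← mul_pow]; congr 1; ring

end Vale.Agent.P161.Crit
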