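import Vale.Agent.P161.Crit.Equiv
import Vale.Agent.P161.Crit.StaticMoments
import Vale.Agent.P161.Crit.Analysis

/-!
# P161, critical point: moment bounds in the state of a run
-/

open MeasureTheory SimpleGraph Finset

namespace Vale.Agent.P161.Crit

variable {Ω : Type*} [MeasurableSpace Ω] {μ : Measure Ω} [IsProbabilityMeasure μ] {p : ℕ}

/-- A bounded nonnegative variable whose `p`-th moment is at most `g ^ p`. -/
structure Mom (μ : Measure Ω) (p : ℕ) (X : Ω → ℝ) (g : ℝ) : Prop where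
  meas : Measurable X
  nonneg : ∀ w, 0 ≤ X w
  bdd : ∃ C, ∀ w, X w ≤ C
  g_nonneg : 0 ≤ g
  le : ∫ w, X w ^ p ∂μ ≤ g ^ p

omit [IsProbabilityMeasure μ] in
lemma Mom.congr_le {X : Ω → ℝ} {g g' : ℝ} (h : Mom μ p X g) (hg : g ≤ g') : Mom μ p X g' :=
  ⟨h.meas, h.nonneg, h.bdd, h.g_nonneg.trans hg, h.le.trans (pow_le_pow_left₀ h.g_nonneg hg p)⟩

lemma Mom.anti {X Y : Ω → ℝ} {g : ℝ} (h : Mom μ p X g) (hY : Measurable Y) (h0 : ∀ w, 0 ≤ Y w)
    (hYX : ∀ w, Y w ≤ X w) : Mom μ p Y g := by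
  obtain ⟨C, hC⟩ := h.bdd
  refine ⟨hY, h0, ⟨C, fun w => (hYX w).trans (hC w)⟩, h.g_nonneg, le_trans ?_ h.le⟩
  refine integral_mono_of_nonneg (ae_of_all _ fun w => pow_nonneg (h0 w) p)
    (integrable_of_abs_le (h.meas.pow_const p) (C := C ^ p) fun w => ?_)
    (ae_of_all _ fun w => pow_le_pow_left₀ (h0 w) (hYX w) p)
  rw [abs_pow, abs_of_nonneg (h.nonneg w)]
  exact pow_le_pow_left₀ (h.nonneg w) (hC w) p

lemma mom_const {c : ℝ} (hc : 0 ≤ c) : Mom μ p (fun _ => c) c :=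
  ⟨measurable_const, fun _ => hc, ⟨c, fun _ => le_rfl⟩, hc, by simp⟩

omit [IsProbabilityMeasure μ] in
lemma Mom.const_mul {X : Ω → ℝ} {g c : ℝ} (h : Mom μ p X g) (hc : 0 ≤ c) :
    Mom μ p (fun w => c * X w) (c * g) := by
  obtain ⟨C, hC⟩ := h.bdd
  refine ⟨h.meas.const_mul c, fun w => mul_nonneg hc (h.nonneg w),
    ⟨c * C, fun w => mul_le_mul_of_nonneg_left (hC w) hc⟩, mul_nonneg hc h.g_nonneg, ?_⟩
  simp only [mul_pow, integral_const_mul]
  exact mul_le_mul_of_nonneg_left h.le (pow_nonneg hc p)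

lemma mom_sum (hp : 1 ≤ p) {κ : Type*} (K : Finset κ) {X : κ → Ω → ℝ} {g : κ → ℝ}
    (h : ∀ i ∈ K, Mom μ p (X i) (g i)) :
    Mom μ p (fun w => ∑ i ∈ K, X i w) (∑ i ∈ K, g i) := by
  classical
  choose! C hC using fun i (hi : i ∈ K) => (h i hi).bdd
  have hC' : ∀ i ∈ K, ∀ w, X i w ≤ ∑ j ∈ K, |C j| := fun i hi w =>
    (hC i hi w).trans ((le_abs_self _).trans (single_le_sum (fun j _ => abs_nonneg (C j)) hi))
  exact ⟨Finset.measurable_fun_sum _ fun i hi => (h i hi).meas,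
    fun w => sum_nonneg fun i hi => (h i hi).nonneg w,
    ⟨∑ i ∈ K, C i, fun w => sum_le_sum fun i hi => hC i hi w⟩,
    sum_nonneg fun i hi => (h i hi).g_nonneg,
    moment_sum_le K (fun i hi => (h i hi).meas) hC' (fun i hi => (h i hi).nonneg)
      (fun i hi => (h i hi).g_nonneg) hp fun i hi => (h i hi).le⟩

lemma Mom.add (hp : 1 ≤ p) {X Y : Ω → ℝ} {g g' : ℝ} (hX : Mom μ p X g) (hY : Mom μ p Y g') :
    Mom μ p (fun w => X w + Y w) (g + g') := by
  have := mom_sum (μ := μ) hp (univ : Finset Bool) (X := fun b => if b then X else Y)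
    (g := fun b => if b then g else g') fun b _ => by cases b <;> simp <;> assumption
  simpa [Fintype.sum_bool] using this

variable {V : Type*} {G : SimpleGraph V} {d : ℕ}

/-- The magnetisation of a side of an edge in the state. -/
noncomputable def Run.U (P : Run V) (G : SimpleGraph V) (t : ℝ) (p c : V)
    (ω : V × (ℤ × Bool) → ℝ) : ℝ :=
  cav G P.θ P.B (P.st G ω t) p c

lemma Run.m_eq_U (P : Run V) (t : ℝ) (v : V) (ω : V × (ℤ × Bool) → ℝ) :
    P.m G ω t v = P.U G t v v ω := rfl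

lemma Run.Ok.measurable_U {P : Run V} (hP : P.Ok G) (t : ℝ) (p c : V) :
    Measurable (P.U G t p c) :=
  measurable_cav (measurable_st_at hP t) P.θ P.B p c

lemma Run.Ok.abs_U {P : Run V} (hP : P.Ok G) (t : ℝ) (p c : V) (ω : V × (ℤ × Bool) → ℝ) :
    |P.U G t p c ω| ≤ 1 :=
  (abs_cav hP.abs_lt.le (P.st_pos ω t) p c).le

lemma Run.Ok.U_sq_mem {P : Run V} (hP : P.Ok G) (t : ℝ) (p c : V) (ω : V × (ℤ × Bool) → ℝ) :
    0 ≤ P.U G t p c ω ^ 2 ∧ P.U G t p c ω ^ 2 ≤ 1 :=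
  ⟨sq_nonneg _, (sq_le_one_iff_abs_le_one _).2 (hP.abs_U t p c ω)⟩

lemma mem_side_self {P : Run V} (hT : G.IsTree) {p c : V} (hc : c ∈ P.B) (hcp : p = c ∨ G.Adj p c) :
    c ∈ side G P.B p c := by
  refine mem_side.2 ⟨hc, hcp.imp_right fun h => ?_⟩
  rw [SimpleGraph.dist_self]
  exact hT.connected.pos_dist_of_ne h.ne'

lemma cav_congr_side {P : Run V} (hP : P.Ok G) {p c : V} (hc : c ∈ P.B) (hcp : p = c ∨ G.Adj p c)
    {W W' : V → Bool → ℝ} (h : ∀ x ∈ side G P.B p c, W x = W' x) :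
    cav G P.θ P.B W p c = cav G P.θ P.B W' p c := by
  rcases hcp with rfl | hadj
  · have e : ∀ σ, msg G P.θ P.B W p p σ = msg G P.θ P.B W' p p σ := fun σ => by
      rw [msg_eq hP.tree hc (Or.inl rfl), msg_eq hP.tree hc (Or.inl rfl),
        h p (mem_side_self hP.tree hc (Or.inl rfl))]
      congr 1
      refine prod_congr rfl fun g hg => ?_
      have hmem : ∀ x ∈ far G P.B p g, W x = W' x := fun x hx =>
        h x (mem_side.2 ⟨(mem_far.1 hx).1, Or.inl rfl⟩)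
      rw [msg_congr hP.tree _ p g (mem_kid.1 hg).1 (mem_kid.1 hg).2.1 le_rfl hmem]
    rw [cav, cav, magOf, magOf, e, e]
  · exact cav_congr hP.tree hc hadj fun x hx => h x (by rw [side_of_adj hadj]; exact hx)

/-- Expectations of the squared magnetisation in the state are static informations. -/
lemma integral_U_pow {P : Run V} (hP : P.Ok G) {t : ℝ} {p c : V} (hp : p ∈ P.B) (hc : c ∈ P.B)
    (hcp : p = c ∨ G.Adj p c) (q : ℕ) :
    ∫ ω, (P.U G t p c ω ^ 2) ^ q ∂iidU (V × (ℤ × Bool)) =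
      ∫ ω, bar (P.pm G t p c) ω * pmag (P.pm G t p c) ω ^ (2 * q) ∂iidU (V × (ℤ × Bool)) := by
  let F : (V → Bool → ℝ) → ℝ := fun W => max 0 (min 1 ((cav G P.θ P.B W p c ^ 2) ^ q))
  have hF : Measurable F :=
    measurable_const.max (measurable_const.min (((measurable_cav (W := fun W => W)
      (fun v σ => (measurable_pi_apply σ).comp (measurable_pi_apply v)) P.θ P.B p c).pow_const 2).pow_const q))
  have e : ∀ W : V → Bool → ℝ, (∀ v σ, 0 < W v σ) → F W = (cav G P.θ P.B W p c ^ 2) ^ q :=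
    fun W hW => by
      have h1 : cav G P.θ P.B W p c ^ 2 ≤ 1 :=
        (sq_le_one_iff_abs_le_one _).2 (abs_cav hP.abs_lt.le hW p c).le
      have h2 : (cav G P.θ P.B W p c ^ 2) ^ q ≤ 1 := pow_le_one₀ (sq_nonneg _) h1
      simp only [F]
      rw [min_eq_right h2, max_eq_right (pow_nonneg (sq_nonneg _) q)]
  have := hP.state_integral (t := t) hc hp hcp hF (C := 1)
    (fun W => abs_le.2 ⟨(neg_one_lt_zero.le).trans (le_max_left _ _),
      max_le zero_le_one (min_le_left _ _)⟩)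
    (fun W W' h => by simp only [F, cav_congr_side hP hc hcp h])
    (fun W => by simp only [F, cav_sq_not])
  simp only [Run.U]
  calc ∫ ω, (cav G P.θ P.B (P.st G ω t) p c ^ 2) ^ q ∂iidU (V × (ℤ × Bool))
      = ∫ ω, F (P.st G ω t) ∂iidU (V × (ℤ × Bool)) :=
        integral_congr_ae (ae_of_all _ fun ω => (e _ (P.st_pos ω t)).symm)
    _ = _ := this
    _ = _ := integral_congr_ae (ae_of_all _ fun ω => by
        beta_reduce
        rw [e _ (P.obs_pos ω t), pow_mul, pmag_pm])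

/-- The moments of the averaged damping in the state. -/
lemma integral_Rw_pow {P : Run V} (hP : P.Ok G) (hR : Reg G d) {t : ℝ} {p c : V} (hp : p ∈ P.B)
    (hc : c ∈ P.B) (hpc : G.Adj p c) (h q : ℕ) :
    ∫ ω, Rw G d P.θ P.B (P.st G ω t) h p c ^ q ∂iidU (V × (ℤ × Bool)) =
      ∫ ω, bar (P.pm G t p c) ω * Rw G d P.θ P.B (P.obs ω t) h p c ^ q
        ∂iidU (V × (ℤ × Bool)) := by
  let F : (V → Bool → ℝ) → ℝ := fun W => max 0 (min 1 (Rw G d P.θ P.B W h p c ^ q))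
  have hF : Measurable F :=
    measurable_const.max (measurable_const.min ((measurable_Rw (W := fun W => W)
      (fun v σ => (measurable_pi_apply σ).comp (measurable_pi_apply v)) P.θ P.B h p c).pow_const q))
  have e : ∀ W : V → Bool → ℝ, (∀ v σ, 0 < W v σ) → F W = Rw G d P.θ P.B W h p c ^ q :=
    fun W hW => by
      have h1 := Rw_le_one (B := P.B) hR hP.abs_lt hW hpc h
      have h0 := Rw_nonneg (B := P.B) hR hP.abs_lt hW h p c
      simp only [F]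
      rw [min_eq_right (pow_le_one₀ h0 h1), max_eq_right (pow_nonneg h0 q)]
  have := hP.state_integral (t := t) hc hp (Or.inr hpc) hF (C := 1)
    (fun W => abs_le.2 ⟨(neg_one_lt_zero.le).trans (le_max_left _ _),
      max_le zero_le_one (min_le_left _ _)⟩)
    (fun W W' hW => by
      simp only [F]
      rw [Rw_congr hP.tree P.θ P.B h p c hc hpc fun x hx => hW x (by rw [side_of_adj hpc]; exact hx)])
    (fun W => by simp only [F, Rw_not])
  calc ∫ ω, Rw G d P.θ P.B (P.st G ω t) h p c ^ q ∂iidU (V × (ℤ × Bool))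
      = ∫ ω, F (P.st G ω t) ∂iidU (V × (ℤ × Bool)) :=
        integral_congr_ae (ae_of_all _ fun ω => (e _ (P.st_pos ω t)).symm)
    _ = _ := this
    _ = _ := integral_congr_ae (ae_of_all _ fun ω => by beta_reduce; rw [e _ (P.obs_pos ω t)])

lemma integral_U_sq {P : Run V} (hP : P.Ok G) {t : ℝ} {p c : V} (hp : p ∈ P.B) (hc : c ∈ P.B)
    (hcp : p = c ∨ G.Adj p c) :
    ∫ ω, P.U G t p c ω ^ 2 ∂iidU (V × (ℤ × Bool)) = info (P.pm G t p c) := by
  simpa [info] using integral_U_pow (t := t) hP hp hc hcp 1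

lemma sqrt_sqrt_sqrt_pow {x : ℝ} (hx : 0 ≤ x) : Real.sqrt (Real.sqrt x) ^ 4 = x := by
  rw [show 4 = 2 * 2 from rfl, pow_mul, Real.sq_sqrt (Real.sqrt_nonneg _), Real.sq_sqrt hx]

/-- The moments of the square root of a side magnetisation. -/
theorem mom_abs_U (d J : ℕ) : ∃ K : ℝ, 0 ≤ K ∧
    ∀ {V : Type*} {G : SimpleGraph V}, Reg G d → ∀ P : Run V, P.Ok G →
      P.θ ^ 2 * ((d : ℝ) - 1) ≤ 1 → 1 / (2 * Real.sqrt ((d : ℝ) - 1)) ≤ P.θ →
      (∀ s ∈ P.A, s.2 < (J : ℤ)) → ∀ (j : ℕ) (t : ℝ), 0 < t → t ≤ ((J : ℝ) + 2) * (1 / 2) ^ j →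
        ∀ p c : V, p ∈ P.B → c ∈ P.B → (p = c ∨ G.Adj p c) → ∀ q : ℕ, 1 ≤ q →
          Mom (iidU (V × (ℤ × Bool))) (4 * q)
            (fun ω => Real.sqrt (Real.sqrt (P.U G t p c ω ^ 2)))
            (K * Real.sqrt q * Real.sqrt (Real.sqrt (rt j))) := by
  obtain ⟨K, hK0, hK⟩ := cav_moment d J
  refine ⟨Real.sqrt (Real.sqrt (K * Real.sqrt ((J : ℝ) + 2))), Real.sqrt_nonneg _, ?_⟩
  intro V G hR P hP hθ hlow hlev j t ht htj p c hp hc hcp q hq
  set g : ℝ := K * Real.sqrt ((J : ℝ) + 2) * (q : ℝ) ^ 2 * rt j with hg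
  have hrt : 0 ≤ rt j := (rt_pos j).le
  have hg0 : 0 ≤ g := by positivity
  have hsqrt : Real.sqrt t ≤ Real.sqrt ((J : ℝ) + 2) * rt j := by
    rw [rt, ← Real.sqrt_mul (by positivity)]
    exact Real.sqrt_le_sqrt htj
  have hm : ∫ ω, (P.U G t p c ω ^ 2) ^ q ∂iidU (V × (ℤ × Bool)) ≤ g ^ q := by
    rw [integral_U_pow hP hp hc hcp]
    refine (hK hR P hP hθ hlow hlev t ht p c hc hcp q hq).trans
      (pow_le_pow_left₀ (by positivity) ?_ q)
    rw [hg]
    calc K * (q : ℝ) ^ 2 * Real.sqrt t ≤ K * (q : ℝ) ^ 2 * (Real.sqrt ((J : ℝ) + 2) * rt j) := by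
          gcongr
      _ = _ := by ring
  have hmeas : Measurable fun ω => P.U G t p c ω ^ 2 := (hP.measurable_U t p c).pow_const 2
  refine ⟨(Real.continuous_sqrt.comp Real.continuous_sqrt).measurable.comp hmeas,
    fun ω => Real.sqrt_nonneg _, ⟨1, fun ω => ?_⟩, by positivity,
    (moment_sqrt_sqrt hmeas (fun ω => (hP.U_sq_mem t p c ω).1) hg0 hm).trans (le_of_eq ?_)⟩
  · rw [Real.sqrt_le_one, Real.sqrt_le_one]; exact (hP.U_sq_mem t p c ω).2
  · congr 1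
    rw [← pow_left_inj₀ (n := 4) (Real.sqrt_nonneg _) (by positivity) (by norm_num), mul_pow, mul_pow,
      sqrt_sqrt_sqrt_pow hg0, sqrt_sqrt_sqrt_pow (by positivity), sqrt_sqrt_sqrt_pow hrt,
      show Real.sqrt q ^ 4 = (q : ℝ) ^ 2 by
        rw [show 4 = 2 * 2 from rfl, pow_mul, Real.sq_sqrt (Nat.cast_nonneg q)], hg]
    skip

/-- The moments of the averaged damping. -/
theorem mom_Rw (d : ℕ) : ∃ K γ : ℝ, 0 ≤ K ∧ 0 < γ ∧ γ ≤ 1 / 20 ∧
    ∀ {V : Type*} {G : SimpleGraph V}, Reg G d → ∀ P : Run V, P.Ok G → ∀ j : ℕ, NearCrit d P.θ j →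
      ∀ t : ℝ, (1 / 2) ^ j ≤ t → ∀ p c : V, G.Adj p c → p ∈ P.B → ∀ h : ℕ,
        Covers P G j c (h + depth j + 1) → ∀ q : ℕ, 1 ≤ q →
          Mom (iidU (V × (ℤ × Bool))) q (fun ω => Rw G d P.θ P.B (P.st G ω t) h p c)
            (K * Real.sqrt q * (1 - γ * rt j) ^ h) := by
  obtain ⟨K, γ, hK0, hγ, hγ1, hK⟩ := Rw_moment d
  refine ⟨K, γ, hK0, hγ, hγ1, ?_⟩
  intro V G hR P hP j hj t ht p c hpc hp h hcov q hq
  have hc : c ∈ P.B := (hcov c (by simp)).1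
  have h1 : 0 ≤ 1 - γ * rt j := by
    nlinarith [rt_le_one j, rt_pos j]
  refine ⟨measurable_Rw (measurable_st_at hP t) P.θ P.B h p c,
    fun ω => Rw_nonneg hR hP.abs_lt (P.st_pos ω t) h p c,
    ⟨1, fun ω => Rw_le_one hR hP.abs_lt (P.st_pos ω t) hpc h⟩, by positivity, ?_⟩
  rw [integral_Rw_pow hP hR hp hc hpc]
  exact hK hR P hP j hj t ht p c hpc hp h hcov q hq

end Vale.Agent.P161.Crit
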