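import Vale.Agent.P161.Crit.MsgProp
import Vale.Agent.P161.Crit.Piece
import Vale.Agent.P161.Crit.Dynamics

/-!
# P161, critical point: the observation model at a fixed time
-/

open MeasureTheory SimpleGraph Finset

namespace Vale.Agent.P161.Crit

variable {V : Type*} {G : SimpleGraph V} {P : Run V}

open scoped Classical in
/-- The two labels of a slot. -/
noncomputable def slotD (s : V × ℤ) : Finset (V × (ℤ × Bool)) :=
  {(s.1, (s.2, true)), (s.1, (s.2, false))}

open scoped Classical in
/-- The likelihood of one slot at time `t`. -/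
noncomputable def slotPiece (t : ℝ) (s : V × ℤ) (σ : Bool) (ω : V × (ℤ × Bool) → ℝ) : ℝ :=
  if present ω s ∧ time ω s < t then qW s.2 (xi (zc ω s)) σ else 1

open scoped Classical in
/-- The vertices on the side of `c` of the edge from `p`; all of `B` for `p = c`. -/
noncomputable def side (G : SimpleGraph V) (B : Finset V) (p c : V) : Finset V :=
  if p = c then B else far G B p c

/-- The likelihood of the side of `c` at time `t`. -/
noncomputable def Run.pm (P : Run V) (G : SimpleGraph V) (t : ℝ) (p c : V) (σ : Bool)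
    (ω : V × (ℤ × Bool) → ℝ) : ℝ :=
  msg G P.θ P.B (P.obs ω t) p c σ

open scoped Classical in
/-- The labels relevant for the side of `c`. -/
noncomputable def Run.supp (P : Run V) (G : SimpleGraph V) (p c : V) : Finset (V × (ℤ × Bool)) :=
  (P.A.filter fun s => s.1 ∈ side G P.B p c).biUnion slotD

lemma abs_eps_sgn (i : ℤ) (y : ℝ) (σ : Bool) : |eps i * sgn σ * clY y| ≤ 1 / 2 := by
  obtain ⟨h1, h2, -⟩ := eps_mem i
  rw [abs_mul, abs_mul, abs_sgn, mul_one, abs_of_pos h1]
  calc eps i * |clY y| ≤ 1 / 2 * 1 := mul_le_mul h2 (abs_clY y) (abs_nonneg _) (by norm_num)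
    _ = 1 / 2 := mul_one _

lemma qW_bounds (i : ℤ) (y : ℝ) (σ : Bool) : 1 / 2 ≤ qW i y σ ∧ qW i y σ ≤ 2 := by
  obtain ⟨h1, h2⟩ := abs_le.1 (abs_eps_sgn i y σ)
  constructor <;> simp only [qW] <;> linarith

lemma obs_eq_prod [DecidableEq V] (P : Run V) (ω : V × (ℤ × Bool) → ℝ) (t : ℝ) (v : V) (σ : Bool) :
    P.obs ω t v σ = ∏ s ∈ P.A.filter (fun s => s.1 = v), slotPiece t s σ ω := by
  classical
  simp only [Run.obs, wts, live, slotPiece, prod_filter]
  refine prod_congr rfl fun s _ => ?_
  by_cases h : s.1 = v <;> by_cases h' : present ω s ∧ time ω s < t <;> simp [h, h']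

lemma wts_ratio (S : Finset (V × ℤ)) (y : V × ℤ → ℝ) (v : V) (σ : Bool) :
    wts S y v σ ≤ Real.exp (4 * ∑ s ∈ S, eps s.2) * wts S y v (!σ) := by
  classical
  simp only [wts]
  have h : ∀ s : V × ℤ, qW s.2 (y s) σ ≤ Real.exp (4 * eps s.2) * qW s.2 (y s) (!σ) := by
    intro s
    obtain ⟨e1, e2, -⟩ := eps_mem s.2
    refine le_trans ?_ (mul_le_mul_of_nonneg_right (Real.add_one_le_exp _)
      (le_trans (by norm_num) (qW_bounds _ _ _).1))
    have h1 := (qW_bounds s.2 (y s) (!σ)).1
    obtain ⟨a, b⟩ := abs_le.1 (abs_clY (y s))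
    cases σ <;> simp only [qW, sgn, if_true, Bool.false_eq_true, if_false, Bool.not_true,
      Bool.not_false] at h1 ⊢ <;>
      nlinarith [mul_le_mul_of_nonneg_left a e1.le, mul_le_mul_of_nonneg_left b e1.le,
        mul_le_mul_of_nonneg_left h1 e1.le]
  calc ∏ s ∈ S.filter (fun s => s.1 = v), qW s.2 (y s) σ
      ≤ ∏ s ∈ S.filter (fun s => s.1 = v), Real.exp (4 * eps s.2) * qW s.2 (y s) (!σ) :=
        prod_le_prod (fun s _ => le_trans (by norm_num) (qW_bounds _ _ _).1) fun s _ => h s
    _ ≤ _ := by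
        rw [prod_mul_distrib, ← Real.exp_sum, ← mul_sum]
        refine mul_le_mul_of_nonneg_right (Real.exp_le_exp.2 ?_)
          (prod_nonneg fun s _ => le_trans (by norm_num) (qW_bounds _ _ _).1)
        refine mul_le_mul_of_nonneg_left ?_ (by norm_num)
        exact sum_le_sum_of_subset_of_nonneg (filter_subset _ _) fun s _ _ => (eps_mem s.2).1.le

lemma map_reflect : unifR.map (fun x => 1 - x) = unifR := by
  have h : MeasurePreserving (fun x : ℝ => 1 - x) volume volume :=
    Measure.measurePreserving_sub_left volume (1 : ℝ)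
  have h2 := h.restrict_preimage (measurableSet_Icc (a := (0 : ℝ)) (b := 1))
  have e : (fun x : ℝ => 1 - x) ⁻¹' Set.Icc 0 1 = Set.Icc 0 1 := by
    ext x
    simp only [Set.mem_preimage, Set.mem_Icc]
    constructor <;> rintro ⟨a, b⟩ <;> constructor <;> linarith
  rw [e] at h2
  exact h2.map_eq

lemma measurePreserving_flipZ :
    MeasurePreserving (flipZ (V := V)) (iidU (V × (ℤ × Bool))) (iidU (V × (ℤ × Bool))) := by
  have hm : ∀ t : V × (ℤ × Bool), Measurable fun x : ℝ => if t.2.2 then x else 1 - x := fun t => by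
    cases t.2.2 <;> simp only [if_true, Bool.false_eq_true, if_false]
    · exact measurable_const.sub measurable_id
    · exact measurable_id
  refine ⟨measurable_pi_lambda _ fun t => (hm t).comp (measurable_pi_apply t), ?_⟩
  have := Measure.infinitePi_map_pi (fun _ : V × (ℤ × Bool) => unifR) hm
  rw [iidU]
  unfold flipZ
  rw [this]
  congr 1
  funext t
  cases t.2.2 <;> simp only [if_true, Bool.false_eq_true, if_false]
  · exact map_reflect
  · exact Measure.map_id

lemma xi_reflect (z : ℝ) : xi (1 - z) = -xi z := by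
  have : clZ (1 - z) = 1 - clZ z := by
    simp only [clZ]
    rcases le_total z 0 with h | h
    · simp [h, show 1 ≤ 1 - z by linarith, le_trans h zero_le_one]
    · rcases le_total z 1 with h' | h'
      · simp [h, h', show 1 - z ≤ 1 by linarith, show 0 ≤ 1 - z by linarith]
      · simp [h', show 1 - z ≤ 0 by linarith, show 1 - z ≤ 1 by linarith]
  rw [xi, xi, this]; ring

lemma slotPiece_flip (t : ℝ) (s : V × ℤ) (σ : Bool) (ω : V × (ℤ × Bool) → ℝ) :
    slotPiece t s σ (flipZ ω) = slotPiece t s (!σ) ω := by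
  have h1 : present (flipZ ω) s ↔ present ω s := by simp [present, flipZ]
  have h2 : time (flipZ ω) s = time ω s := by simp [time, flipZ]
  have h3 : zc (flipZ ω) s = 1 - zc ω s := by simp [zc, flipZ]
  simp only [slotPiece]
  by_cases h : present ω s ∧ time ω s < t
  · rw [if_pos (by rwa [h1, h2]), if_pos h, h3, qW, qW, xi_reflect]
    rw [clY_of_abs_le (by rw [abs_neg]; exact abs_xi _), clY_of_abs_le (abs_xi _)]
    cases σ <;> simp [sgn]
  · rw [if_neg (by rwa [h1, h2]), if_neg h]

lemma obs_flip (P : Run V) (ω : V × (ℤ × Bool) → ℝ) (t : ℝ) :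
    P.obs (flipZ ω) t = fun v σ => P.obs ω t v (!σ) := by
  classical
  funext v σ
  rw [obs_eq_prod, obs_eq_prod]
  exact prod_congr rfl fun s _ => slotPiece_flip t s σ ω

lemma measurable_slot_parts (s : V × ℤ) :
    Measurable (fun ω : V × (ℤ × Bool) → ℝ => time ω s) ∧
      Measurable (fun ω : V × (ℤ × Bool) → ℝ => clZ (ω (s.1, (s.2, true)))) := by
  have h : Measurable fun ω : V × (ℤ × Bool) → ℝ => clZ (ω (s.1, (s.2, true))) :=
    continuous_clZ.measurable.comp (measurable_pi_apply _)
  exact ⟨measurable_const.add (measurable_const.mul h), h⟩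

lemma measurableSet_liveSlot (t : ℝ) (s : V × ℤ) :
    MeasurableSet {ω : V × (ℤ × Bool) → ℝ | present ω s ∧ time ω s < t} := by
  obtain ⟨h1, h2⟩ := measurable_slot_parts s
  exact (h2 measurableSet_Iio).inter (h1 measurableSet_Iio)

lemma measurable_qW_xi (s : V × ℤ) (σ : Bool) :
    Measurable fun ω : V × (ℤ × Bool) → ℝ => qW s.2 (xi (zc ω s)) σ :=
  measurable_const.add (measurable_const.mul
    (continuous_clY.measurable.comp (continuous_xi.measurable.comp (measurable_pi_apply _))))

lemma measurable_slotPiece (t : ℝ) (s : V × ℤ) (σ : Bool) : Measurable (slotPiece t s σ) :=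
  Measurable.ite (measurableSet_liveSlot t s) (measurable_qW_xi s σ) measurable_const

lemma measurable_obs_coord (P : Run V) (t : ℝ) (v : V) (σ : Bool) :
    Measurable fun ω : V × (ℤ × Bool) → ℝ => P.obs ω t v σ := by
  classical
  simp only [obs_eq_prod]
  exact Finset.measurable_fun_prod _ fun s _ => measurable_slotPiece t s σ

lemma measurable_msgN {α : Type*} [MeasurableSpace α] {W : α → V → Bool → ℝ}
    (hW : ∀ v σ, Measurable fun w => W w v σ) (θ : ℝ) (B : Finset V) :
    ∀ n p c σ, Measurable fun w => msgN G θ B (W w) n p c σ := by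
  intro n
  induction n with
  | zero => exact fun p c σ => hW c σ
  | succ n ih =>
    intro p c σ
    refine (hW c σ).mul (Finset.measurable_fun_prod _ fun g _ => ?_)
    simp only [pull]
    exact ((ih c g true).const_mul _).add ((ih c g false).const_mul _)

lemma measurable_cav {α : Type*} [MeasurableSpace α] {W : α → V → Bool → ℝ}
    (hW : ∀ v σ, Measurable fun w => W w v σ) (θ : ℝ) (B : Finset V) (p c : V) :
    Measurable fun w => cav G θ B (W w) p c := by
  simp only [cav, magOf, msg]
  exact ((measurable_msgN hW θ B _ p c true).sub (measurable_msgN hW θ B _ p c false)).div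
    ((measurable_msgN hW θ B _ p c true).add (measurable_msgN hW θ B _ p c false))

lemma Run.measurable_pm (P : Run V) (t : ℝ) (p c : V) (σ : Bool) : Measurable (P.pm G t p c σ) :=
  measurable_msgN (measurable_obs_coord P t) P.θ P.B _ p c σ

lemma dependsOn_slotPiece (t : ℝ) (s : V × ℤ) (σ : Bool) :
    DependsOn (slotPiece t s σ) (slotD s : Set (V × (ℤ × Bool))) := by
  intro ω ω' h
  have h1 := h (s.1, (s.2, true)) (by simp [slotD])
  have h2 := h (s.1, (s.2, false)) (by simp [slotD])
  simp only [slotPiece, present, time, zc, h1, h2]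
  congr

lemma integral_slot_time (s : V × ℤ) {f : ℝ → ℝ} (hf : Measurable f) :
    ∫ ω, f (ω (s.1, (s.2, true))) ∂iidU (V × (ℤ × Bool)) = ∫ x, f x ∂unifR := by
  have h := measurePreserving_eval_infinitePi (fun _ : V × (ℤ × Bool) => unifR) (s.1, (s.2, true))
  conv_rhs => rw [← h.map_eq]
  rw [integral_map h.measurable.aemeasurable hf.aestronglyMeasurable]
  rfl

lemma isPiece_slotPiece (t : ℝ) (s : V × ℤ) :
    IsPiece flipZ (slotD s) (slotPiece (V := V) t s) := by
  classical
  have hb : ∀ σ ω, 1 / 2 ≤ slotPiece t s σ ω ∧ slotPiece t s σ ω ≤ 2 := fun σ ω => by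
    simp only [slotPiece]
    split_ifs
    · exact qW_bounds _ _ _
    · norm_num
  refine ⟨fun σ ω => lt_of_lt_of_le (by norm_num) (hb σ ω).1, measurable_slotPiece t s,
    ⟨2, fun σ ω => (hb σ ω).2⟩, ⟨1 / 2, by norm_num, fun σ ω => (hb σ ω).1⟩,
    dependsOn_slotPiece t s, fun σ => ?_, slotPiece_flip t s⟩
  rw [integral_update (s.1, (s.2, false)) (measurable_slotPiece t s σ)
    (C := 2) fun ω => abs_le.2 ⟨by linarith [(hb σ ω).1], (hb σ ω).2⟩]
  have e : ∀ ω, ∫ x, slotPiece t s σ (Function.update ω (s.1, (s.2, false)) x) ∂unifR = 1 := by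
    intro ω
    have hp : ∀ x, present (Function.update ω (s.1, (s.2, false)) x) s ↔ present ω s := fun x => by
      simp [present]
    have ht : ∀ x, time (Function.update ω (s.1, (s.2, false)) x) s = time ω s := fun x => by
      simp [time]
    have hz : ∀ x, zc (Function.update ω (s.1, (s.2, false)) x) s = x := fun x => by simp [zc]
    simp only [slotPiece, hp, ht, hz, qW, clY_of_abs_le (abs_xi _)]
    split_ifs
    · rw [integral_add (integrable_const _) ((integrable_of_abs_le continuous_xi.measurable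
        abs_xi).const_mul _), integral_const_mul, integral_xi.1]
      simp
    · simp
  simp [e]

lemma pmag_slotPiece (t : ℝ) (s : V × ℤ) (ω : V × (ℤ × Bool) → ℝ) :
    bar (slotPiece t s) ω = 1 ∧ pmag (slotPiece t s) ω ^ 2 =
      {ω | present ω s ∧ time ω s < t}.indicator (fun ω => eps s.2 ^ 2 * xi (zc ω s) ^ 2) ω := by
  classical
  simp only [bar, pmag, magOf, slotPiece, qW, sgn, if_true, Bool.false_eq_true, if_false,
    Set.indicator_apply, Set.mem_ofPred_eq, clY_of_abs_le (abs_xi _)]
  split_ifs with h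
  · constructor
    · ring
    · rw [show eps s.2 * 1 * xi (zc ω s) = eps s.2 * xi (zc ω s) by ring,
        show eps s.2 * -1 * xi (zc ω s) = -(eps s.2 * xi (zc ω s)) by ring]
      ring
  · norm_num

lemma info_slotPiece_eq (t : ℝ) (s : V × ℤ) :
    info (slotPiece (V := V) t s) =
      eps s.2 ^ 2 / 3 * (iidU (V × (ℤ × Bool))).real {ω | present ω s ∧ time ω s < t} := by
  classical
  have hm : Measurable fun ω : V × (ℤ × Bool) → ℝ => eps s.2 ^ 2 * xi (zc ω s) ^ 2 :=
    measurable_const.mul ((continuous_xi.measurable.comp (measurable_pi_apply _)).pow_const 2)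
  simp only [info, (pmag_slotPiece t s _).1, one_mul, (pmag_slotPiece t s _).2]
  have hb : ∀ ω : V × (ℤ × Bool) → ℝ, |{ω | present ω s ∧ time ω s < t}.indicator
      (fun ω => eps s.2 ^ 2 * xi (zc ω s) ^ 2) ω| ≤ eps s.2 ^ 2 := fun ω => by
    simp only [Set.indicator_apply]
    split_ifs
    · rw [abs_of_nonneg (by positivity)]
      exact mul_le_of_le_one_right (sq_nonneg _) ((sq_le_one_iff_abs_le_one _).2 (abs_xi _))
    · simp [sq_nonneg]
  rw [integral_update (s.1, (s.2, false)) (hm.indicator (measurableSet_liveSlot t s)) hb]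
  have e : ∀ ω, ∫ x, {ω | present ω s ∧ time ω s < t}.indicator
      (fun ω => eps s.2 ^ 2 * xi (zc ω s) ^ 2) (Function.update ω (s.1, (s.2, false)) x) ∂unifR =
      {ω | present ω s ∧ time ω s < t}.indicator (fun _ => eps s.2 ^ 2 / 3) ω := by
    intro ω
    have hz : ∀ x, zc (Function.update ω (s.1, (s.2, false)) x) s = x := fun x => by simp [zc]
    have hmem : ∀ x, (Function.update ω (s.1, (s.2, false)) x ∈ {ω | present ω s ∧ time ω s < t}) ↔
        ω ∈ {ω | present ω s ∧ time ω s < t} := fun x => by simp [present, time]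
    simp only [Set.indicator_apply, hmem, hz]
    split_ifs
    · rw [integral_const_mul]
      simp only [sq (xi _), integral_xi.2]
      ring
    · simp
  simp only [e]
  rw [integral_indicator (measurableSet_liveSlot t s), setIntegral_const, smul_eq_mul, mul_comm]

lemma prob_present (s : V × ℤ) :
    (iidU (V × (ℤ × Bool))).real {ω | present ω s} = 1 / 2 := by
  have h := measurePreserving_eval_infinitePi (fun _ : V × (ℤ × Bool) => unifR) (s.1, (s.2, true))
  have hS : MeasurableSet {x : ℝ | clZ x < 1 / 2} := continuous_clZ.measurable measurableSet_Iio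
  have e : {ω : V × (ℤ × Bool) → ℝ | present ω s} =
      (fun ω => ω (s.1, (s.2, true))) ⁻¹' {x : ℝ | clZ x < 1 / 2} := rfl
  rw [measureReal_def, e, iidU, h.measure_preimage hS.nullMeasurableSet, unifR,
    Measure.restrict_apply hS]
  have : {x : ℝ | clZ x < 1 / 2} ∩ Set.Icc 0 1 = Set.Ico (0 : ℝ) (1 / 2) := by
    ext x
    simp only [Set.mem_inter_iff, Set.mem_ofPred_eq, Set.mem_Icc, Set.mem_Ico]
    constructor
    · rintro ⟨h1, h2, h3⟩
      rw [clZ_of_mem h2 h3] at h1
      exact ⟨h2, h1⟩
    · rintro ⟨h1, h2⟩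
      exact ⟨by rw [clZ_of_mem h1 (by linarith)]; exact h2, h1, by linarith⟩
  rw [this, Real.volume_Ico, ENNReal.toReal_ofReal (by norm_num)]
  norm_num

/-- The information of a slot is at most `wid / 24`, and `0` before its window. -/
lemma info_slotPiece_le (t : ℝ) (s : V × ℤ) :
    info (slotPiece (V := V) t s) ≤ if lo s.2 < t then wid s.2 / 24 else 0 := by
  rw [info_slotPiece_eq, (eps_mem s.2).2.2]
  split_ifs with h
  · refine (mul_le_mul_of_nonneg_left ((measureReal_mono (fun ω hω => hω.1)).trans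
      (prob_present s).le) (by have := wid_pos s.2; positivity)).trans (le_of_eq ?_)
    ring
  · have : {ω : V × (ℤ × Bool) → ℝ | present ω s ∧ time ω s < t} = ∅ := by
      refine Set.eq_empty_of_forall_notMem fun ω hω => h (lt_of_le_of_lt ?_ hω.2)
      have := wid_pos s.2
      have := (clZ_mem (ω (s.1, (s.2, true)))).1
      simp only [time]
      nlinarith
    simp [this]

lemma info_slotPiece_full {t : ℝ} {s : V × ℤ} (h : lo s.2 + wid s.2 ≤ t) :
    info (slotPiece (V := V) t s) = wid s.2 / 24 := by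
  have e : {ω : V × (ℤ × Bool) → ℝ | present ω s ∧ time ω s < t} = {ω | present ω s} := by
    ext ω
    refine ⟨fun hω => hω.1, fun hω => ⟨hω, lt_of_lt_of_le ?_ h⟩⟩
    have := wid_pos s.2
    have hω' : clZ (ω (s.1, (s.2, true))) < 1 / 2 := hω
    simp only [time]
    nlinarith
  rw [info_slotPiece_eq, e, prob_present, (eps_mem s.2).2.2]
  ring

variable (hP : P.Ok G)
include hP

lemma Run.Ok.abs_lt : |P.θ| < 1 := _root_.abs_lt.2 ⟨by linarith [hP.nonneg], hP.lt_one⟩

omit hP in
open scoped Classical in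
/-- The pieces of which the likelihood at `c` is the product. -/
noncomputable def Run.parts (P : Run V) (G : SimpleGraph V) (p c : V) : Finset ((V × ℤ) ⊕ V) :=
  (P.A.filter fun s => s.1 = c).disjSum (kid G P.B p c)

omit hP in
/-- The piece attached to an element of `parts`. -/
noncomputable def Run.part (P : Run V) (G : SimpleGraph V) (t : ℝ) (c : V) :
    (V × ℤ) ⊕ V → Bool → (V × (ℤ × Bool) → ℝ) → ℝ :=
  Sum.elim (slotPiece t) fun g => ppull P.θ (P.pm G t c g)

omit hP in
/-- The support of an element of `parts`. -/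
noncomputable def Run.partD (P : Run V) (G : SimpleGraph V) (c : V) :
    (V × ℤ) ⊕ V → Finset (V × (ℤ × Bool)) :=
  Sum.elim slotD fun g => P.supp G c g

lemma Run.Ok.pm_eq (t : ℝ) {p c : V} (hc : c ∈ P.B) (hcp : p = c ∨ G.Adj p c) :
    P.pm G t p c = pprod (P.parts G p c) (P.part G t c) := by
  classical
  funext σ ω
  simp only [Run.pm, pprod, Run.parts, Run.part, prod_disjSum, Sum.elim_inl, Sum.elim_inr]
  rw [msg_eq hP.tree hc hcp, obs_eq_prod]
  congr 1

omit hP in
lemma mem_side {p c x : V} : x ∈ side G P.B p c ↔ x ∈ P.B ∧ (p = c ∨ G.dist x c < G.dist x p) := by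
  classical
  simp only [side]
  split_ifs with h <;> simp [mem_far, h]

omit hP in
lemma side_of_adj {p c : V} (h : G.Adj p c) : side G P.B p c = far G P.B p c := by
  classical
  simp [side, h.ne]

omit hP in
lemma mem_supp {p c : V} {x : V × (ℤ × Bool)} :
    x ∈ P.supp G p c ↔ (x.1, x.2.1) ∈ P.A ∧ x.1 ∈ side G P.B p c := by
  classical
  obtain ⟨v, i, b⟩ := x
  simp only [Run.supp, mem_biUnion, mem_filter, slotD, mem_insert, mem_singleton, Prod.mk.injEq]
  constructor
  · rintro ⟨⟨a, j⟩, ⟨hA, hs⟩, h⟩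
    rcases h with ⟨rfl, rfl, -⟩ | ⟨rfl, rfl, -⟩ <;> exact ⟨hA, hs⟩
  · rintro ⟨hA, hs⟩
    exact ⟨(v, i), ⟨hA, hs⟩, by cases b <;> simp⟩

lemma Run.Ok.partD_subset {p c : V} (hc : c ∈ P.B) (hcp : p = c ∨ G.Adj p c) :
    ∀ k ∈ P.parts G p c, P.partD G c k ⊆ P.supp G p c := by
  classical
  have hcside : c ∈ side G P.B p c := by
    refine mem_side.2 ⟨hc, hcp.imp_right fun h => ?_⟩
    rw [SimpleGraph.dist_self]
    exact hP.tree.connected.pos_dist_of_ne h.ne'
  intro k hk x hx
  obtain ⟨s, hs, rfl⟩ | ⟨g, hg, rfl⟩ := mem_disjSum.1 hk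
  · obtain ⟨hA, rfl⟩ := mem_filter.1 hs
    simp only [Run.partD, Sum.elim_inl, slotD, mem_insert, mem_singleton] at hx
    rcases hx with rfl | rfl <;> exact mem_supp.2 ⟨hA, hcside⟩
  · simp only [Run.partD, Sum.elim_inr] at hx
    obtain ⟨hA, hs⟩ := mem_supp.1 hx
    rw [side_of_adj (mem_kid.1 hg).2.1] at hs
    refine mem_supp.2 ⟨hA, ?_⟩
    have h2 := far_subset hP.tree hg hcp hc
    by_cases e : p = c
    · exact mem_side.2 ⟨h2.1.subset hs, Or.inl e⟩
    · rw [side_of_adj (hcp.resolve_left e)]
      exact (h2.2 e).subset hs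

lemma Run.Ok.partD_disjoint {p c : V} :
    (P.parts G p c : Set ((V × ℤ) ⊕ V)).PairwiseDisjoint (P.partD G c) := by
  classical
  intro k hk k' hk' hne
  rw [Function.onFun, Finset.disjoint_left]
  intro x hx hx'
  obtain ⟨s, hs, rfl⟩ | ⟨g, hg, rfl⟩ := mem_disjSum.1 (Finset.mem_coe.1 hk) <;>
    obtain ⟨s', hs', rfl⟩ | ⟨g', hg', rfl⟩ := mem_disjSum.1 (Finset.mem_coe.1 hk') <;>
    simp only [Run.partD, Sum.elim_inl, Sum.elim_inr, slotD, mem_insert, mem_singleton] at hx hx'
  · refine hne (congrArg Sum.inl ?_)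
    rcases hx with rfl | rfl <;> rcases hx' with h | h <;> simp only [Prod.mk.injEq] at h <;>
      exact Prod.ext h.1 h.2.1
  · have h := (mem_supp.1 hx').2
    rw [side_of_adj (mem_kid.1 hg').2.1] at h
    have h2 := (mem_far.1 h).2
    have e : x.1 = c := by rcases hx with rfl | rfl <;> exact (mem_filter.1 hs).2
    rw [e, SimpleGraph.dist_self] at h2
    omega
  · have h := (mem_supp.1 hx).2
    rw [side_of_adj (mem_kid.1 hg).2.1] at h
    have h2 := (mem_far.1 h).2
    have e : x.1 = c := by rcases hx' with rfl | rfl <;> exact (mem_filter.1 hs').2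
    rw [e, SimpleGraph.dist_self] at h2
    omega
  · have ha := (mem_supp.1 hx).2
    have hb := (mem_supp.1 hx').2
    rw [side_of_adj (mem_kid.1 hg).2.1] at ha
    rw [side_of_adj (mem_kid.1 hg').2.1] at hb
    refine hne (congrArg Sum.inr ?_)
    refine closer_unique hP.tree (u := x.1) (mem_kid.1 hg).2.1 (mem_kid.1 hg').2.1 ?_ ?_
    · rcases hP.tree.dist_eq_dist_add_one_of_adj x.1 (mem_kid.1 hg).2.1 with e | e
      · exact e
      · have := (mem_far.1 ha).2; omega
    · rcases hP.tree.dist_eq_dist_add_one_of_adj x.1 (mem_kid.1 hg').2.1 with e | e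
      · exact e
      · have := (mem_far.1 hb).2; omega

lemma Run.Ok.isPiece_pm (t : ℝ) :
    ∀ {p c : V}, c ∈ P.B → (p = c ∨ G.Adj p c) → IsPiece flipZ (P.supp G p c) (P.pm G t p c) := by
  classical
  suffices key : ∀ n, ∀ p c : V, c ∈ P.B → G.Adj p c → (far G P.B p c).card ≤ n →
      IsPiece flipZ (P.supp G p c) (P.pm G t p c) by
    intro p c hc hcp
    have hparts : ∀ k ∈ P.parts G p c, IsPiece flipZ (P.partD G c k) (P.part G t c k) := by
      intro k hk
      obtain ⟨s, hs, rfl⟩ | ⟨g, hg, rfl⟩ := mem_disjSum.1 hk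
      · exact isPiece_slotPiece t s
      · exact isPiece_ppull hP.abs_lt measurePreserving_flipZ
          (key _ c g (mem_kid.1 hg).1 (mem_kid.1 hg).2.1 le_rfl)
    have h := isPiece_pprod measurePreserving_flipZ hparts hP.partD_disjoint
    rw [hP.pm_eq t hc hcp]
    refine { h with dep := fun σ => (h.dep σ).mono (fun x hx => ?_) }
    simp only [Finset.coe_biUnion, Set.mem_iUnion, Finset.mem_coe, exists_prop] at hx
    obtain ⟨k, hk, hx⟩ := hx
    exact Finset.mem_coe.2 (hP.partD_subset hc hcp k hk hx)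
  intro n
  induction n with
  | zero =>
    intro p c hc hpc hcard
    have : c ∈ far G P.B p c := mem_far.2 ⟨hc, by
      rw [SimpleGraph.dist_self]; exact hP.tree.connected.pos_dist_of_ne hpc.ne'⟩
    have := card_pos.2 ⟨c, this⟩
    omega
  | succ n ih =>
    intro p c hc hpc hcard
    have hparts : ∀ k ∈ P.parts G p c, IsPiece flipZ (P.partD G c k) (P.part G t c k) := by
      intro k hk
      obtain ⟨s, hs, rfl⟩ | ⟨g, hg, rfl⟩ := mem_disjSum.1 hk
      · exact isPiece_slotPiece t s
      · refine isPiece_ppull hP.abs_lt measurePreserving_flipZ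
          (ih c g (mem_kid.1 hg).1 (mem_kid.1 hg).2.1 ?_)
        have := card_lt_card ((far_subset hP.tree hg (Or.inr hpc) hc).2 hpc.ne)
        omega
    have h := isPiece_pprod measurePreserving_flipZ hparts hP.partD_disjoint
    rw [hP.pm_eq t hc (Or.inr hpc)]
    refine { h with dep := fun σ => (h.dep σ).mono (fun x hx => ?_) }
    simp only [Finset.coe_biUnion, Set.mem_iUnion, Finset.mem_coe, exists_prop] at hx
    obtain ⟨k, hk, hx⟩ := hx
    exact Finset.mem_coe.2 (hP.partD_subset hc (Or.inr hpc) k hk hx)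

lemma Run.Ok.isPiece_part (t : ℝ) {p c : V} :
    ∀ k ∈ P.parts G p c, IsPiece flipZ (P.partD G c k) (P.part G t c k) := by
  classical
  intro k hk
  obtain ⟨s, hs, rfl⟩ | ⟨g, hg, rfl⟩ := mem_disjSum.1 hk
  · exact isPiece_slotPiece t s
  · exact isPiece_ppull hP.abs_lt measurePreserving_flipZ
      (hP.isPiece_pm t (mem_kid.1 hg).1 (Or.inr (mem_kid.1 hg).2.1))

omit hP in
lemma pmag_pm (t : ℝ) (p c : V) (ω : V × (ℤ × Bool) → ℝ) :
    pmag (P.pm G t p c) ω = cav G P.θ P.B (P.obs ω t) p c := rfl

omit hP in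
lemma bar_ppull (θ : ℝ) {ι : Type*} (f : Bool → (ι → ℝ) → ℝ) (ω : ι → ℝ) :
    bar (ppull θ f) ω = bar f ω := by
  simp only [bar, ppull, pull, sgn, if_true, Bool.false_eq_true, if_false]
  ring

/-- A reflection-invariant statistic of one side, in the state and in the observation model. -/
theorem Run.Ok.state_integral {t : ℝ} {p c : V} (hc : c ∈ P.B) (hp : p ∈ P.B)
    (hcp : p = c ∨ G.Adj p c) {F : (V → Bool → ℝ) → ℝ} (hF : Measurable F) {C : ℝ}
    (hC : ∀ W, |F W| ≤ C) (hdep : ∀ W W', (∀ x ∈ side G P.B p c, W x = W' x) → F W = F W')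
    (hflip : ∀ W, F (fun v σ => W v (!σ)) = F W) :
    ∫ ω, F (P.st G ω t) ∂iidU (V × (ℤ × Bool)) =
      ∫ ω, bar (P.pm G t p c) ω * F (P.obs ω t) ∂iidU (V × (ℤ × Bool)) := by
  classical
  have hobs : Measurable fun ω : V × (ℤ × Bool) → ℝ => P.obs ω t :=
    measurable_pi_lambda _ fun v => measurable_pi_lambda _ fun σ => measurable_obs_coord P t v σ
  rw [exactness hP hp (L := fun _ => t) measurable_const (fun _ _ _ => rfl)
    (F := fun _ W => F W) (hF.comp measurable_snd) (fun _ W => hC W) fun _ _ _ _ => rfl]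
  rcases hcp with rfl | hadj
  · rfl
  · let f : Bool → Bool → (V × (ℤ × Bool) → ℝ) → ℝ := fun k =>
      if k then P.pm G t c p else ppull P.θ (P.pm G t p c)
    let D : Bool → Finset (V × (ℤ × Bool)) := fun k => if k then P.supp G c p else P.supp G p c
    let φ : Bool → (V × (ℤ × Bool) → ℝ) → ℝ := fun k ω => if k then 1 else F (P.obs ω t)
    have hf : ∀ k ∈ (univ : Finset Bool), IsPiece flipZ (D k) (f k) := by
      intro k _
      cases k
      · exact isPiece_ppull hP.abs_lt measurePreserving_flipZ (hP.isPiece_pm t hc (Or.inr hadj))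
      · exact hP.isPiece_pm t hp (Or.inr hadj.symm)
    have hdisj : ∀ x, x ∈ P.supp G c p → x ∉ P.supp G p c := fun x hx hx' => by
      have h1 := (mem_supp.1 hx).2
      have h2 := (mem_supp.1 hx').2
      rw [side_of_adj hadj.symm] at h1
      rw [side_of_adj hadj] at h2
      have := (mem_far.1 h1).2
      have := (mem_far.1 h2).2
      omega
    have hd : ((univ : Finset Bool) : Set Bool).PairwiseDisjoint D := by
      intro k _ k' _ hne
      cases k <;> cases k' <;> first
        | exact absurd rfl hne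
        | (simp only [Function.onFun, D, if_true, Bool.false_eq_true, if_false,
            Finset.disjoint_left]
           intro x hx hx'
           first
            | exact hdisj x hx hx'
            | exact hdisj x hx' hx)
    have hD : DependsOn (fun ω => F (P.obs ω t)) (P.supp G p c : Set (V × (ℤ × Bool))) := by
      intro ω ω' h
      refine hdep _ _ fun x hx => funext fun σ => ?_
      rw [obs_eq_prod, obs_eq_prod]
      refine prod_congr rfl fun s hs => dependsOn_slotPiece t s σ fun y hy => h y ?_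
      obtain ⟨hA, rfl⟩ := mem_filter.1 hs
      simp only [slotD, coe_insert, coe_singleton, Set.mem_insert_iff, Set.mem_singleton_iff] at hy
      rcases hy with rfl | rfl <;> exact Finset.mem_coe.2 (mem_supp.2 ⟨hA, hx⟩)
    have key := integral_bar_pprod_mul measurePreserving_flipZ hf hd φ
      (fun k _ => by cases k <;> simp only [φ, if_true, Bool.false_eq_true, if_false]
                     · exact hF.comp hobs
                     · exact measurable_const)
      (fun k _ => ⟨max C 1, fun ω => by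
        cases k <;> simp only [φ, if_true, Bool.false_eq_true, if_false]
        · exact (hC _).trans (le_max_left _ _)
        · simp⟩)
      (fun k _ => by
        cases k <;> simp only [φ, D, if_true, Bool.false_eq_true, if_false]
        · exact hD
        · exact fun _ _ _ => rfl)
      (fun k _ ω => by
        cases k <;> simp only [φ, if_true, Bool.false_eq_true, if_false]
        rw [obs_flip, hflip])
    simp only [Fintype.prod_bool, φ, if_true, Bool.false_eq_true, if_false, one_mul, mul_one,
      f, bar_ppull] at key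
    have hone : ∫ ω, bar (P.pm G t c p) ω ∂iidU (V × (ℤ × Bool)) = 1 := by
      have hpc := hP.isPiece_pm t hp (Or.inr hadj.symm)
      obtain ⟨K, hK⟩ := hpc.bdd
      have hi : ∀ σ, Integrable (P.pm G t c p σ) (iidU (V × (ℤ × Bool))) := fun σ =>
        integrable_of_abs_le (hpc.meas σ) fun ω => by
          rw [abs_of_pos (hpc.pos σ ω)]; exact hK σ ω
      simp only [bar, add_div]
      rw [integral_add ((hi true).div_const 2) ((hi false).div_const 2), integral_div, integral_div,
        hpc.norm, hpc.norm]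
      norm_num
    rw [hone, one_mul] at key
    rw [← key]
    refine integral_congr_ae (ae_of_all _ fun ω => ?_)
    simp only [evid, bar, pprod, Fintype.prod_bool, if_true, Bool.false_eq_true, if_false,
      ppull, Run.pm]
    have e : ∀ σ, msg G P.θ P.B (P.obs ω t) p p σ =
        msg G P.θ P.B (P.obs ω t) c p σ * pull P.θ (msg G P.θ P.B (P.obs ω t) p c) σ := fun σ => by
      rw [msg_eq hP.tree hp (Or.inl rfl), msg_eq hP.tree hp (Or.inr hadj.symm),
        kid_insert hadj hc, prod_insert (fun h => (mem_kid.1 h).2.2 rfl)]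
      ring
    rw [e, e]

end Vale.Agent.P161.Crit
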